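import Mathlib

/-!
A convex one-step operator for signed sums and the one-dimensional Gaussian inequality behind it.
-/

namespace Vale.Agent.P262

open MeasureTheory ProbabilityTheory Set

lemma cvx_cross {f : ℝ → ℝ} (hf : ConvexOn ℝ univ f) {p q r s : ℝ}
    (hpq : p ≤ q) (hqr : q ≤ r) (hrs : r ≤ s) :
    (f q - f p) * (s - r) ≤ (f s - f r) * (q - p) := by
  rcases eq_or_lt_of_le hpq with rfl | hpq
  · simp
  rcases eq_or_lt_of_le hrs with rfl | hrs
  · simp
  have key : (f q - f p) / (q - p) ≤ (f s - f r) / (s - r) := by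
    rcases eq_or_lt_of_le hqr with rfl | hqr
    · exact hf.slope_mono_adjacent (mem_univ _) (mem_univ _) hpq hrs
    · exact (hf.slope_mono_adjacent (mem_univ _) (mem_univ _) hpq hqr).trans
        (hf.slope_mono_adjacent (mem_univ _) (mem_univ _) hqr hrs)
  rw [div_le_div_iff₀ (by linarith) (by linarith)] at key
  linarith

lemma cvx_incr {f : ℝ → ℝ} (hf : ConvexOn ℝ univ f) {p q : ℝ} (hpq : p < q) (h : f p ≤ f q)
    {r s : ℝ} (hqr : q ≤ r) (hrs : r ≤ s) : f r ≤ f s := by
  have := cvx_cross hf hpq.le hqr hrs
  by_contra hc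
  push Not at hc
  nlinarith [mul_nonneg (sub_nonneg.2 h) (sub_nonneg.2 hrs)]

/-- Measures giving small mass to every window of length four. -/
def SpreadOut (μ : Measure ℝ) : Prop :=
  IsProbabilityMeasure μ ∧ ∀ a : ℝ, μ.real (Icc (a - 2) (a + 2)) ≤ 1 / 5

lemma line_ineq {μ : Measure ℝ} (hμ : SpreadOut μ) {f q : ℝ → ℝ} {z : ℝ}
    (hf : ConvexOn ℝ univ f) (hz : |z| ≤ 1 / 2)
    (hq : ∀ t r : ℝ, |r| ≤ 2 → q t ≤ max (f (t + r - 1)) (f (t + r + 1)))
    (hfi : Integrable (fun t => f (t + z)) μ) (hqi : Integrable q μ) :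
    ∫ t, q t ∂μ ≤ ∫ t, f (t + z) ∂μ := by
  obtain ⟨hP, hw⟩ := hμ
  obtain ⟨hz1, hz2⟩ := abs_le.1 hz
  by_cases h1 : ∀ x, f (x - 1) ≤ f (x + 1)
  · refine integral_mono hqi hfi fun t => ?_
    have a := hq t (-2) (by norm_num)
    have b : f (t - 3) ≤ f (t - 1) := by
      have := h1 (t - 2)
      ring_nf at this ⊢
      exact this
    have c : f (t - 1) ≤ f (t + z) :=
      cvx_incr hf (p := t - 3) (q := t - 1) (by linarith) b le_rfl (by linarith)
    rw [show t + -2 - 1 = t - 3 by ring, show t + -2 + 1 = t - 1 by ring, max_eq_right b] at a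
    linarith
  by_cases h2 : ∀ x, f (x + 1) ≤ f (x - 1)
  · refine integral_mono hqi hfi fun t => ?_
    have a := hq t 2 (by norm_num)
    have b : f (t + 3) ≤ f (t + 1) := by
      have := h2 (t + 2)
      ring_nf at this ⊢
      exact this
    rw [show t + 2 - 1 = t + 1 by ring, show t + 2 + 1 = t + 3 by ring, max_eq_left b] at a
    have := cvx_cross hf (p := t + z) (q := t + 1) (r := t + 1) (s := t + 3)
      (by linarith) le_rfl (by linarith)
    nlinarith
  push Not at h1 h2
  obtain ⟨x1, hx1⟩ := h1
  obtain ⟨x2, hx2⟩ := h2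
  have hc : Continuous f := by
    have := hf.continuousOn isOpen_univ
    rwa [continuousOn_univ] at this
  obtain ⟨a, -, ha⟩ := intermediate_value_uIcc (a := x1) (b := x2)
    (f := fun x => f (x + 1) - f (x - 1)) (by fun_prop)
    (show (0 : ℝ) ∈ uIcc (f (x1 + 1) - f (x1 - 1)) (f (x2 + 1) - f (x2 - 1)) from by
      rw [uIcc_of_le (by linarith)]; constructor <;> linarith)
  have hae : f (a - 1) = f (a + 1) := by linarith [show f (a + 1) - f (a - 1) = 0 from ha]
  obtain ⟨m, hm, hmin⟩ := isCompact_Icc.exists_isMinOn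
    (nonempty_Icc.2 (by linarith : a - 1 ≤ a + 1)) hc.continuousOn
  have hmc : f m ≤ f (a + 1) := hmin (right_mem_Icc.2 (by linarith))
  set L := f (a + 1) - f m with hL
  have hglob : ∀ x, f m ≤ f x := by
    intro x
    rcases le_total (a + 1) x with h | h
    · exact hmc.trans (cvx_incr hf (by linarith) hae.le le_rfl h)
    rcases le_total (a - 1) x with h' | h'
    · exact hmin ⟨h', h⟩
    · have := cvx_cross hf (p := x) (q := a - 1) (r := a - 1) (s := a + 1) h' le_rfl (by linarith)
      rw [hae] at this
      nlinarith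
  set W := Icc (a - 2) (a + 2)
  have hin : ∀ t ∈ W, q t ≤ f (t + z) + L := by
    intro t ht
    have := hq t (a - t) (abs_le.2 ⟨by linarith [ht.2], by linarith [ht.1]⟩)
    rw [show t + (a - t) - 1 = a - 1 by ring, show t + (a - t) + 1 = a + 1 by ring, hae,
      max_self] at this
    have := hglob (t + z)
    linarith
  have hout : ∀ t ∉ W, q t + L / 4 ≤ f (t + z) := by
    intro t ht
    simp only [W, mem_Icc, not_and_or, not_le] at ht
    rcases ht with ht | ht
    · have a1 := hq t 2 (by norm_num)
      rw [show t + 2 - 1 = t + 1 by ring, show t + 2 + 1 = t + 3 by ring] at a1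
      have b : f (t + 3) ≤ f (t + 1) := by
        rcases le_total (t + 3) (a - 1) with h | h
        · have := cvx_cross hf (p := t + 1) (q := t + 3) (r := a - 1) (s := a + 1)
            (by linarith) h (by linarith)
          rw [hae] at this
          nlinarith
        · have c1 : f (t + 3) ≤ f (a + 1) := by
            have := hf.le_max_of_mem_Icc (mem_univ (a - 1)) (mem_univ (a + 1))
              (show t + 3 ∈ Icc (a - 1) (a + 1) from ⟨h, by linarith⟩)
            rwa [hae, max_self] at this
          have c2 := cvx_cross hf (p := t + 1) (q := a - 1) (r := a - 1) (s := a + 1)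
            (by linarith) le_rfl (by linarith)
          rw [hae] at c2
          nlinarith
      rw [max_eq_left b] at a1
      have c3 := cvx_cross hf (p := t + z) (q := t + 1) (r := a - 1) (s := m)
        (by linarith) (by linarith) hm.1
      rw [hae] at c3
      rcases eq_or_lt_of_le hm.1 with h | h
      · have hL0 : L = 0 := by rw [hL, ← h, hae]; ring
        have := cvx_cross hf (p := t + z) (q := t + 1) (r := a - 1) (s := a + 1)
          (by linarith) (by linarith) (by linarith)
        rw [hae] at this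
        nlinarith
      · have hD : 0 ≤ f (t + z) - f (t + 1) := by nlinarith
        have hm2 : m - (a - 1) ≤ 2 := by linarith [hm.2]
        have : L * (1 - z) ≤ (f (t + z) - f (t + 1)) * 2 := by
          nlinarith [mul_le_mul_of_nonneg_left hm2 hD]
        nlinarith [mul_le_mul_of_nonneg_left (show (1 : ℝ) / 2 ≤ 1 - z by linarith)
          (show 0 ≤ L by rw [hL]; linarith)]
    · have a1 := hq t (-2) (by norm_num)
      rw [show t + -2 - 1 = t - 3 by ring, show t + -2 + 1 = t - 1 by ring] at a1
      have b : f (t - 3) ≤ f (t - 1) := by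
        rcases le_total (a + 1) (t - 3) with h | h
        · exact cvx_incr hf (by linarith) hae.le h (by linarith)
        · have c1 : f (t - 3) ≤ f (a + 1) := by
            have := hf.le_max_of_mem_Icc (mem_univ (a - 1)) (mem_univ (a + 1))
              (show t - 3 ∈ Icc (a - 1) (a + 1) from ⟨by linarith, h⟩)
            rwa [hae, max_self] at this
          exact c1.trans (cvx_incr hf (by linarith) hae.le le_rfl (by linarith))
      rw [max_eq_right b] at a1
      have c3 := cvx_cross hf (p := m) (q := a + 1) (r := t - 1) (s := t + z)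
        hm.2 (by linarith) (by linarith)
      have hD : 0 ≤ f (t + z) - f (t - 1) :=
        sub_nonneg.2 (cvx_incr hf (by linarith) hae.le (by linarith) (by linarith))
      have hm2 : a + 1 - m ≤ 2 := by linarith [hm.1]
      have : L * (1 + z) ≤ (f (t + z) - f (t - 1)) * 2 := by
        nlinarith [mul_le_mul_of_nonneg_left hm2 hD]
      nlinarith [mul_le_mul_of_nonneg_left (show (1 : ℝ) / 2 ≤ 1 + z by linarith)
        (show 0 ≤ L by rw [hL]; linarith)]
  have hpt : ∀ t, L / 4 - (5 * L / 4) * W.indicator (fun _ => (1 : ℝ)) t ≤ f (t + z) - q t := by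
    intro t
    by_cases h : t ∈ W
    · rw [indicator_of_mem h]; linarith [hin t h]
    · rw [indicator_of_notMem h]; linarith [hout t h]
  have hI : Integrable (W.indicator fun _ => (1 : ℝ)) μ :=
    (integrable_const 1).indicator measurableSet_Icc
  have := integral_mono ((integrable_const _).sub (hI.const_mul _)) (hfi.sub hqi) hpt
  simp only [Pi.sub_apply] at this
  rw [integral_sub (integrable_const _) (hI.const_mul _), integral_sub hfi hqi, integral_const,
    integral_const_mul, integral_indicator_const _ measurableSet_Icc] at this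
  simp only [probReal_univ, smul_eq_mul, one_mul, mul_one] at this
  have := hw a
  have hL0 : 0 ≤ L := by rw [hL]; linarith
  nlinarith

lemma spreadOut_gaussian (c : ℝ) {v : NNReal} (hv : 144 ≤ v) : SpreadOut (gaussianReal c v) := by
  refine ⟨inferInstance, fun a => ?_⟩
  have hv0 : v ≠ 0 := by
    rintro rfl; norm_num at hv
  have hvR : (144 : ℝ) ≤ v := by exact_mod_cast hv
  have hb : ∀ x, gaussianPDFReal c v x ≤ 1 / 28 := by
    intro x
    unfold gaussianPDFReal
    have h1 : Real.exp (-(x - c) ^ 2 / (2 * (v : ℝ))) ≤ 1 := by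
      apply Real.exp_le_one_iff.2
      apply div_nonpos_of_nonpos_of_nonneg <;> nlinarith
    have h2 : (28 : ℝ) ≤ Real.sqrt (2 * Real.pi * v) := by
      rw [Real.le_sqrt (by norm_num) (by positivity)]
      nlinarith [Real.pi_gt_three]
    calc (Real.sqrt (2 * Real.pi * v))⁻¹ * _ ≤ (Real.sqrt (2 * Real.pi * v))⁻¹ * 1 := by
          exact mul_le_mul_of_nonneg_left h1 (by positivity)
      _ ≤ 1 / 28 := by rw [mul_one, one_div]; exact inv_anti₀ (by norm_num) h2
  rw [measureReal_def, gaussianReal_apply_eq_integral _ hv0,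
    ENNReal.toReal_ofReal (setIntegral_nonneg measurableSet_Icc
      fun x _ => gaussianPDFReal_nonneg c v x)]
  calc ∫ x in Icc (a - 2) (a + 2), gaussianPDFReal c v x
      ≤ ∫ _ in Icc (a - 2) (a + 2), (1 / 28 : ℝ) :=
        setIntegral_mono_on (integrable_gaussianPDFReal c v).integrableOn (integrableOn_const (by
          simp)) measurableSet_Icc (fun x _ => hb x)
    _ ≤ 1 / 5 := by simp; norm_num

end Vale.Agent.P262
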