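import Mathlib
import Vale.Agent.P262.Line

/-!
Signing lemma: for convex test functions, signed prefix sums of short vectors can be no worse on
average than a Gaussian vector of bounded variance (a functional form of Banaszczyk's theorem).
-/

namespace Vale.Agent.P262

open MeasureTheory ProbabilityTheory Set
open scoped RealInnerProductSpace NNReal

set_option linter.unusedSectionVars false

variable {E : Type*} [NormedAddCommGroup E] [InnerProductSpace ℝ E] [FiniteDimensional ℝ E]
  [MeasurableSpace E] [BorelSpace E]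

/-- Convex functions of at most exponential growth. -/
structure Nice (F : E → ℝ) : Prop where
  cvx : ConvexOn ℝ univ F
  grow : ∃ A B : ℝ, 0 ≤ A ∧ 0 ≤ B ∧ ∀ x, |F x| ≤ A * Real.exp (B * ‖x‖)

lemma Nice.continuous {F : E → ℝ} (h : Nice F) : Continuous F := by
  have := h.cvx.continuousOn isOpen_univ
  rwa [continuousOn_univ] at this

lemma Nice.add {F G : E → ℝ} (hF : Nice F) (hG : Nice G) : Nice (fun x => F x + G x) := by
  obtain ⟨A, B, hA, hB, h1⟩ := hF.grow
  obtain ⟨A', B', hA', hB', h2⟩ := hG.grow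
  refine ⟨hF.cvx.add hG.cvx, A + A', B + B', by linarith, by linarith, fun x => ?_⟩
  have e1 : Real.exp (B * ‖x‖) ≤ Real.exp ((B + B') * ‖x‖) :=
    Real.exp_le_exp.2 (by nlinarith [norm_nonneg x])
  have e2 : Real.exp (B' * ‖x‖) ≤ Real.exp ((B + B') * ‖x‖) :=
    Real.exp_le_exp.2 (by nlinarith [norm_nonneg x])
  have := abs_add_le (F x) (G x)
  nlinarith [h1 x, h2 x, mul_le_mul_of_nonneg_left e1 hA, mul_le_mul_of_nonneg_left e2 hA']

lemma Nice.comp_add {F : E → ℝ} (hF : Nice F) (a : E) : Nice (fun x => F (x + a)) := by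
  refine ⟨?_, ?_⟩
  · have := hF.cvx.translate_right a
    simpa [Function.comp_def, add_comm] using this
  · obtain ⟨A, B, hA, hB, h⟩ := hF.grow
    refine ⟨A * Real.exp (B * ‖a‖), B, by positivity, hB, fun x => (h _).trans ?_⟩
    rw [mul_assoc, ← Real.exp_add]
    refine mul_le_mul_of_nonneg_left (Real.exp_le_exp.2 ?_) hA
    nlinarith [norm_add_le x a]

lemma integrable_exp_norm (B : ℝ) : Integrable (fun x : E => Real.exp (B * ‖x‖)) (stdGaussian E) := by
  obtain ⟨C, hC, hint⟩ := IsGaussian.exists_integrable_exp_sq (stdGaussian E)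
  refine (hint.const_mul (Real.exp (B ^ 2 / (4 * C)))).mono' (by fun_prop) ?_
  refine Filter.Eventually.of_forall fun x => ?_
  rw [Real.norm_eq_abs, abs_of_pos (Real.exp_pos _), ← Real.exp_add]
  refine Real.exp_le_exp.2 ?_
  have : 0 ≤ (2 * C * ‖x‖ - B) ^ 2 / (4 * C) := by positivity
  have e : (2 * C * ‖x‖ - B) ^ 2 / (4 * C) = C * ‖x‖ ^ 2 - B * ‖x‖ + B ^ 2 / (4 * C) := by
    field_simp; ring
  linarith

lemma Nice.integrable {F : E → ℝ} (hF : Nice F) (c : E) (σ : ℝ) :
    Integrable (fun g => F (c + σ • g)) (stdGaussian E) := by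
  obtain ⟨A, B, hA, hB, h⟩ := hF.grow
  refine ((integrable_exp_norm (B * |σ|)).const_mul (A * Real.exp (B * ‖c‖))).mono'
    (hF.continuous.comp (by fun_prop)).aestronglyMeasurable
    (Filter.Eventually.of_forall fun x => (h _).trans ?_)
  rw [mul_assoc, ← Real.exp_add]
  refine mul_le_mul_of_nonneg_left (Real.exp_le_exp.2 ?_) hA
  have := norm_add_le c (σ • x)
  rw [norm_smul, Real.norm_eq_abs] at this
  nlinarith

lemma Nice.le_integral {F : E → ℝ} (hF : Nice F) (c : E) (σ : ℝ) :
    F c ≤ ∫ g, F (c + σ • g) ∂stdGaussian E := by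
  have hi := hF.integrable c σ
  have hi' := hF.integrable c (-σ)
  have heq : ∫ g, F (c + (-σ) • g) ∂stdGaussian E = ∫ g, F (c + σ • g) ∂stdGaussian E := by
    conv_rhs => rw [← stdGaussian_map (LinearIsometryEquiv.neg ℝ (E := E))]
    have hm : Continuous fun g : E => F (c + σ • g) := hF.continuous.comp (by fun_prop)
    rw [integral_map (by fun_prop) hm.aestronglyMeasurable]
    refine integral_congr_ae (Filter.Eventually.of_forall fun g => ?_)
    simp
  have : ∫ _, F c ∂stdGaussian E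
      ≤ ∫ g, (1 / 2) * F (c + σ • g) + (1 / 2) * F (c + (-σ) • g) ∂stdGaussian E := by
    refine integral_mono (integrable_const _) ((hi.const_mul _).add (hi'.const_mul _)) fun g => ?_
    have := hF.cvx.2 (mem_univ (c + σ • g)) (mem_univ (c + (-σ) • g))
      (show (0 : ℝ) ≤ 1 / 2 by norm_num) (show (0 : ℝ) ≤ 1 / 2 by norm_num) (by norm_num)
    rw [show (1 / 2 : ℝ) • (c + σ • g) + (1 / 2 : ℝ) • (c + (-σ) • g) = c by module] at this
    simpa using this
  rw [integral_add (hi.const_mul _) (hi'.const_mul _), integral_const_mul, integral_const_mul, heq,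
    integral_const, probReal_univ, one_smul] at this
  linarith

/-- The one-step operator. -/
noncomputable def lop (u : E) (F : E → ℝ) (x : E) : ℝ :=
  sInf ((fun r : ℝ => max (F (x + (r - 1) • u)) (F (x + (r + 1) • u))) '' Icc (-2) 2)

lemma lop_le {F : E → ℝ} (hF : Continuous F) (u x : E) {r : ℝ} (hr : |r| ≤ 2) :
    lop u F x ≤ max (F (x + (r - 1) • u)) (F (x + (r + 1) • u)) :=
  csInf_le (isCompact_Icc.image (by fun_prop)).bddBelow ⟨r, abs_le.1 hr, rfl⟩

lemma lop_attained {F : E → ℝ} (hF : Continuous F) (u x : E) :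
    ∃ r : ℝ, |r| ≤ 2 ∧ lop u F x = max (F (x + (r - 1) • u)) (F (x + (r + 1) • u)) := by
  obtain ⟨r, hr, hre⟩ := (isCompact_Icc.image
    (f := fun r : ℝ => max (F (x + (r - 1) • u)) (F (x + (r + 1) • u))) (by fun_prop)).sInf_mem
    ((nonempty_Icc.2 (by norm_num : (-2 : ℝ) ≤ 2)).image _)
  exact ⟨r, abs_le.2 hr, hre.symm⟩

lemma lop_sign {F : E → ℝ} (hF : Nice F) (u x : E) :
    ∃ e : ℝ, (e = 1 ∨ e = -1) ∧ F (x + e • u) ≤ lop u F x := by
  obtain ⟨r, hr, hre⟩ := lop_attained hF.continuous u x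
  obtain ⟨h1, h2⟩ := abs_le.1 hr
  have key : ∀ e : ℝ, r - 1 ≤ e → e ≤ r + 1 → F (x + e • u) ≤ lop u F x := by
    intro e he1 he2
    rw [hre]
    refine hF.cvx.le_on_segment (mem_univ _) (mem_univ _) ?_
    rw [segment_eq_image']
    refine ⟨(e - (r - 1)) / 2, ⟨by linarith, by linarith⟩, ?_⟩
    simp only
    module
  rcases le_total 0 r with h | h
  · exact ⟨1, Or.inl rfl, key 1 (by linarith) (by linarith)⟩
  · exact ⟨-1, Or.inr rfl, key (-1) (by linarith) (by linarith)⟩

lemma nice_lop {F : E → ℝ} (hF : Nice F) (u : E) : Nice (lop u F) := by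
  refine ⟨⟨convex_univ, fun x _ y _ a b ha hb hab => ?_⟩, ?_⟩
  · obtain ⟨r, hr, hre⟩ := lop_attained hF.continuous u x
    obtain ⟨s, hs, hse⟩ := lop_attained hF.continuous u y
    obtain ⟨hr1, hr2⟩ := abs_le.1 hr
    obtain ⟨hs1, hs2⟩ := abs_le.1 hs
    refine (lop_le hF.continuous u _ (r := a * r + b * s)
      (abs_le.2 ⟨by nlinarith, by nlinarith⟩)).trans ?_
    rw [hre, hse]
    simp only [smul_eq_mul]
    apply max_le
    · have := hF.cvx.2 (mem_univ (x + (r - 1) • u)) (mem_univ (y + (s - 1) • u)) ha hb hab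
      rw [smul_eq_mul, smul_eq_mul] at this
      rw [show a • x + b • y + (a * r + b * s - 1) • u
        = a • (x + (r - 1) • u) + b • (y + (s - 1) • u) by
          obtain rfl : b = 1 - a := by linarith
          module]
      refine this.trans (add_le_add ?_ ?_) <;>
        exact mul_le_mul_of_nonneg_left (le_max_left _ _) ‹_›
    · have := hF.cvx.2 (mem_univ (x + (r + 1) • u)) (mem_univ (y + (s + 1) • u)) ha hb hab
      rw [smul_eq_mul, smul_eq_mul] at this
      rw [show a • x + b • y + (a * r + b * s + 1) • u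
        = a • (x + (r + 1) • u) + b • (y + (s + 1) • u) by
          obtain rfl : b = 1 - a := by linarith
          module]
      refine this.trans (add_le_add ?_ ?_) <;>
        exact mul_le_mul_of_nonneg_left (le_max_right _ _) ‹_›
  · obtain ⟨A, B, hA, hB, h⟩ := hF.grow
    refine ⟨A * Real.exp (B * (3 * ‖u‖)), B, by positivity, hB, fun x => ?_⟩
    obtain ⟨r, hr, hre⟩ := lop_attained hF.continuous u x
    obtain ⟨hr1, hr2⟩ := abs_le.1 hr
    have key : ∀ t : ℝ, |t| ≤ 3 →
        |F (x + t • u)| ≤ A * Real.exp (B * (3 * ‖u‖)) * Real.exp (B * ‖x‖) := by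
      intro t ht
      refine (h _).trans ?_
      rw [mul_assoc, ← Real.exp_add]
      refine mul_le_mul_of_nonneg_left (Real.exp_le_exp.2 ?_) hA
      have := norm_add_le x (t • u)
      rw [norm_smul, Real.norm_eq_abs] at this
      nlinarith [norm_nonneg u, mul_le_mul_of_nonneg_right ht (norm_nonneg u)]
    rw [hre]
    exact abs_max_le_max_abs_abs.trans (max_le (key _ (abs_le.2 ⟨by linarith, by linarith⟩))
      (key _ (abs_le.2 ⟨by linarith, by linarith⟩)))

lemma stdGaussian_split {n : E} (hn : ‖n‖ = 1) :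
    ((stdGaussian E).prod (gaussianReal 0 1)).map
      (fun p => p.1 - ⟪n, p.1⟫ • n + p.2 • n) = stdGaussian E := by
  apply Measure.ext_of_charFun
  ext t
  rw [charFun_apply, integral_map (by fun_prop) (by fun_prop), charFun_stdGaussian]
  have hsplit : ∀ p : E × ℝ, Complex.exp (⟪p.1 - ⟪n, p.1⟫ • n + p.2 • n, t⟫ * Complex.I)
      = Complex.exp (⟪p.1, t - ⟪n, t⟫ • n⟫ * Complex.I)
        * Complex.exp (⟪n, t⟫ * p.2 * Complex.I) := by
    intro p
    rw [← Complex.exp_add]
    congr 1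
    simp only [inner_add_left, inner_sub_left, inner_sub_right, real_inner_smul_left,
      real_inner_smul_right]
    rw [real_inner_comm n p.1]
    push_cast
    ring
  simp_rw [hsplit]
  rw [integral_prod_mul (fun g : E => Complex.exp (⟪g, t - ⟪n, t⟫ • n⟫ * Complex.I))
      (fun s : ℝ => Complex.exp (⟪n, t⟫ * s * Complex.I)),
    ← charFun_apply, ← charFun_apply_real, charFun_stdGaussian, charFun_gaussianReal,
    ← Complex.exp_add]
  congr 1
  have hp : ‖t - ⟪n, t⟫ • n‖ ^ 2 = ‖t‖ ^ 2 - ⟪n, t⟫ ^ 2 := by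
    rw [norm_sub_sq_real, real_inner_smul_right, norm_smul, hn, Real.norm_eq_abs, mul_one, sq_abs,
      real_inner_comm n t]
    ring
  rw [← Complex.ofReal_pow, hp]
  push_cast
  ring

lemma integrable_line {G : E → ℝ} (hG : Nice G) (b n : E) (σ : ℝ) :
    Integrable (fun s : ℝ => G (b + (σ * s) • n)) (gaussianReal 0 1) := by
  obtain ⟨A, B, hA, hB, h⟩ := hG.grow
  obtain ⟨C, hC, hint⟩ := IsGaussian.exists_integrable_exp_sq (gaussianReal 0 1)
  set D := B * |σ| * ‖n‖
  refine (hint.const_mul (A * Real.exp (B * ‖b‖ + D ^ 2 / (4 * C)))).mono'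
    (hG.continuous.comp (by fun_prop)).aestronglyMeasurable
    (Filter.Eventually.of_forall fun s => (h _).trans ?_)
  rw [mul_assoc, ← Real.exp_add]
  refine mul_le_mul_of_nonneg_left (Real.exp_le_exp.2 ?_) hA
  rw [Real.norm_eq_abs]
  have h1 := norm_add_le b ((σ * s) • n)
  rw [norm_smul, Real.norm_eq_abs, abs_mul] at h1
  have h2 : 0 ≤ (2 * C * |s| - D) ^ 2 / (4 * C) := by positivity
  have e : (2 * C * |s| - D) ^ 2 / (4 * C) = C * |s| ^ 2 - D * |s| + D ^ 2 / (4 * C) := by
    field_simp; ring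
  have h3 := mul_le_mul_of_nonneg_left h1 hB
  simp only [D] at *
  nlinarith

lemma lop_integral_le {F : E → ℝ} (hF : Nice F) {u : E} (hu : ‖u‖ ≤ 1) {z : ℝ}
    (hz : |z| ≤ 1 / 2) (c : E) :
    ∫ g, lop u F (c + (12 : ℝ) • g) ∂stdGaussian E
      ≤ ∫ g, F (c + z • u + (12 : ℝ) • g) ∂stdGaussian E := by
  have hL := nice_lop hF u
  by_cases hu0 : u = 0
  · subst hu0
    refine integral_mono (hL.integrable c 12) (hF.integrable _ 12) fun g => ?_
    have := lop_le hF.continuous (0 : E) (c + (12 : ℝ) • g) (r := 0) (by norm_num)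
    simpa using this
  set n := ‖u‖⁻¹ • u with hn
  have hpos : 0 < ‖u‖ := norm_pos_iff.2 hu0
  have hn1 : ‖n‖ = 1 := by
    rw [hn, norm_smul, norm_inv, norm_norm, inv_mul_cancel₀ hpos.ne']
  have hun : u = ‖u‖ • n := by rw [hn, smul_inv_smul₀ hpos.ne']
  have tr : ∀ G : E → ℝ, Nice G → ∀ b : E,
      ∫ g, G (b + (12 : ℝ) • g) ∂stdGaussian E
        = ∫ g, ∫ s, G (b + (12 : ℝ) • (g - ⟪n, g⟫ • n) + (12 * s) • n)
            ∂gaussianReal 0 1 ∂stdGaussian E ∧
      Integrable (fun g => ∫ s, G (b + (12 : ℝ) • (g - ⟪n, g⟫ • n) + (12 * s) • n)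
            ∂gaussianReal 0 1) (stdGaussian E) := by
    intro G hG b
    have hi := hG.integrable b 12
    rw [← stdGaussian_split hn1] at hi
    have hi2 := hi.comp_measurable (by fun_prop)
    have hrw : ∀ g : E, ∀ s : ℝ, b + (12 : ℝ) • (g - ⟪n, g⟫ • n + s • n)
        = b + (12 : ℝ) • (g - ⟪n, g⟫ • n) + (12 * s) • n := fun g s => by module
    constructor
    · conv_lhs => rw [← stdGaussian_split hn1]
      have hm : Continuous fun g : E => G (b + (12 : ℝ) • g) := hG.continuous.comp (by fun_prop)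
      simp only [Function.comp_def] at hi2
      rw [integral_map (by fun_prop) hm.aestronglyMeasurable, integral_prod _ hi2]
      simp_rw [hrw]
    · have := hi2.integral_prod_left
      simp only [Function.comp_def, hrw] at this
      exact this
  obtain ⟨e1, i1⟩ := tr (lop u F) hL c
  obtain ⟨e2, i2⟩ := tr F hF (c + z • u)
  rw [e1, e2]
  refine integral_mono i1 i2 fun g => ?_
  set y := c + (12 : ℝ) • (g - ⟪n, g⟫ • n) with hy
  have hk : ∀ s : ℝ, (12 * s) • n = ((12 / ‖u‖) * s) • u := by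
    intro s
    rw [hn, smul_smul]
    congr 1
    ring
  set V : ℝ≥0 := ⟨(12 / ‖u‖) ^ 2, sq_nonneg _⟩
  have hV : 144 ≤ V := by
    rw [← NNReal.coe_le_coe]
    show (144 : ℝ) ≤ (12 / ‖u‖) ^ 2
    have : (12 : ℝ) ≤ 12 / ‖u‖ := le_div_self (by norm_num) hpos hu
    nlinarith
  have hmap : (gaussianReal 0 1).map (fun s => (12 / ‖u‖) * s) = gaussianReal 0 V := by
    rw [gaussianReal_map_const_mul]
    congr 1
    · simp
    · rw [mul_one]; rfl
  have toLine : ∀ G : E → ℝ, Nice G → ∀ b : E,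
      ∫ s, G (b + (12 * s) • n) ∂gaussianReal 0 1 = ∫ t, G (b + t • u) ∂gaussianReal 0 V ∧
      Integrable (fun t => G (b + t • u)) (gaussianReal 0 V) := by
    intro G hG b
    have hm : AEStronglyMeasurable (fun t : ℝ => G (b + t • u))
        ((gaussianReal 0 1).map (fun s => (12 / ‖u‖) * s)) :=
      (hG.continuous.comp (by fun_prop)).aestronglyMeasurable
    constructor
    · rw [← hmap, integral_map (by fun_prop) hm]
      simp_rw [hk]
    · rw [← hmap, integrable_map_measure hm (by fun_prop)]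
      have := integrable_line hG b n 12
      simpa [Function.comp_def, hk] using this
  obtain ⟨f1, j1⟩ := toLine (lop u F) hL y
  obtain ⟨f2, j2⟩ := toLine F hF (y + z • u)
  show ∫ s, lop u F (y + (12 * s) • n) ∂gaussianReal 0 1
    ≤ ∫ s, F (c + z • u + (12 : ℝ) • (g - ⟪n, g⟫ • n) + (12 * s) • n) ∂gaussianReal 0 1
  rw [show c + z • u + (12 : ℝ) • (g - ⟪n, g⟫ • n) = y + z • u by rw [hy]; abel, f1, f2]
  have e : ∀ t : ℝ, y + z • u + t • u = y + (t + z) • u := fun t => by module
  simp only [e] at j2 ⊢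
  refine line_ineq (spreadOut_gaussian 0 hV) ?_ hz ?_ j2 j1 (f := fun t => F (y + t • u))
  · refine ⟨convex_univ, fun a _ b _ p q hp hq hpq => ?_⟩
    have := hF.cvx.2 (mem_univ (y + a • u)) (mem_univ (y + b • u)) hp hq hpq
    simp only [smul_eq_mul] at this ⊢
    rw [show y + (p * a + q * b) • u = p • (y + a • u) + q • (y + b • u) by
      obtain rfl : q = 1 - p := by linarith
      module]
    exact this
  · intro t r hr
    have := lop_le hF.continuous u (y + t • u) hr
    simpa only [add_assoc, ← add_smul, add_sub_assoc] using this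

/-- Functional form of Banaszczyk's signing theorem for prefix sums. -/
theorem exists_signs_le (n : ℕ) : ∀ (u : ℕ → E) (z : ℕ → ℝ) (h : ℕ → E → ℝ),
    (∀ k, ‖u k‖ ≤ 1) → (∀ k, |z k| ≤ 1 / 2) → (∀ k, Nice (h k)) →
    ∃ F : E → ℝ, Nice F ∧
      (∀ x, ∃ ε : ℕ → ℝ, (∀ k, ε k = 1 ∨ ε k = -1) ∧
        ∑ k ∈ Finset.range (n + 1), h k (x + ∑ i ∈ Finset.range k, ε i • u i) ≤ F x) ∧
      ∀ c, ∫ g, F (c + (12 : ℝ) • g) ∂stdGaussian E
        ≤ ∑ k ∈ Finset.range (n + 1),
            ∫ g, h k (c + ∑ i ∈ Finset.range k, z i • u i + (12 : ℝ) • g) ∂stdGaussian E := by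
  induction n with
  | zero =>
    intro u z h _ _ hh
    exact ⟨h 0, hh 0, fun x => ⟨fun _ => 1, fun _ => Or.inl rfl, by simp⟩, fun c => by simp⟩
  | succ n ih =>
    intro u z h hu hz hh
    obtain ⟨G, hG, hGs, hGe⟩ := ih (fun k => u (k + 1)) (fun k => z (k + 1)) (fun k => h (k + 1))
      (fun k => hu _) (fun k => hz _) (fun k => hh _)
    refine ⟨fun x => h 0 x + lop (u 0) G x, (hh 0).add (nice_lop hG _), fun x => ?_, fun c => ?_⟩
    · obtain ⟨e, he, hle⟩ := lop_sign hG (u 0) x
      obtain ⟨ε, hε, hsum⟩ := hGs (x + e • u 0)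
      refine ⟨fun k => if k = 0 then e else ε (k - 1), fun k => ?_, ?_⟩
      · by_cases hk : k = 0 <;> simp [hk, he, hε]
      · rw [Finset.sum_range_succ' _ (n + 1)]
        have hk : ∀ k, (∑ i ∈ Finset.range (k + 1),
            (if i = 0 then e else ε (i - 1)) • u i)
            = e • u 0 + ∑ i ∈ Finset.range k, ε i • u (i + 1) := by
          intro k
          rw [Finset.sum_range_succ', add_comm]
          simp
        simp only [hk, Finset.range_zero, Finset.sum_empty, add_zero, ← add_assoc]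
        linarith
    · rw [integral_add ((hh 0).integrable c 12) ((nice_lop hG _).integrable c 12),
        Finset.sum_range_succ' _ (n + 1)]
      have h1 := lop_integral_le hG (hu 0) (hz 0) c
      have h2 := hGe (c + z 0 • u 0)
      have hk : ∀ k, (∑ i ∈ Finset.range (k + 1), z i • u i)
          = z 0 • u 0 + ∑ i ∈ Finset.range k, z (i + 1) • u (i + 1) := fun k => by
        rw [Finset.sum_range_succ', add_comm]
      simp only [hk, Finset.range_zero, Finset.sum_empty, add_zero, ← add_assoc] at h1 h2 ⊢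
      linarith

/-- Signs for vectors in the unit ball with all tests no worse than a Gaussian. -/
theorem exists_signs (n : ℕ) (u : ℕ → E) (z : ℕ → ℝ) (h : ℕ → E → ℝ)
    (hu : ∀ k, ‖u k‖ ≤ 1) (hz : ∀ k, |z k| ≤ 1 / 2) (hh : ∀ k, Nice (h k)) :
    ∃ ε : ℕ → ℝ, (∀ k, ε k = 1 ∨ ε k = -1) ∧
      ∑ k ∈ Finset.range (n + 1), h k (∑ i ∈ Finset.range k, ε i • u i)
        ≤ ∑ k ∈ Finset.range (n + 1),
            ∫ g, h k (∑ i ∈ Finset.range k, z i • u i + (12 : ℝ) • g) ∂stdGaussian E := by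
  obtain ⟨F, hF, hs, he⟩ := exists_signs_le n u z h hu hz hh
  obtain ⟨ε, hε, hle⟩ := hs 0
  refine ⟨ε, hε, ?_⟩
  simp only [zero_add] at hle he ⊢
  have := he 0
  simp only [zero_add] at this
  have h0 := hF.le_integral 0 12
  simp only [zero_add] at h0
  linarith

end Vale.Agent.P262
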