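import Mathlib

/-!
Dyadic levels at which every eigenvalue is far from the threshold, and the lengths of the jumps
between them.
-/

namespace Vale.Agent.P262

open Finset

/-- The eighth root of two. -/
noncomputable def a8 : ℝ := √√√2

lemma a8_pow : a8 ^ 8 = 2 := by
  unfold a8
  rw [show (8 : ℕ) = 2 * (2 * 2) by rfl, pow_mul, Real.sq_sqrt (by positivity), pow_mul,
    Real.sq_sqrt (by positivity), Real.sq_sqrt (by positivity)]

lemma a8_pos : 0 < a8 := by unfold a8; positivity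

lemma a8_one_lt : 1 < a8 := by
  by_contra h
  push Not at h
  have := pow_le_one₀ (n := 8) a8_pos.le h
  rw [a8_pow] at this
  norm_num at this

lemma a8_gap : 1 / 7 ≤ 1 - 1 / a8 ^ 2 := by
  have h : (7 / 6 : ℝ) ≤ a8 ^ 2 := by
    by_contra h
    push Not at h
    have := pow_lt_pow_left₀ h (sq_nonneg _) (show (4 : ℕ) ≠ 0 by norm_num)
    rw [← pow_mul, show 2 * 4 = 8 by rfl, a8_pow] at this
    norm_num at this
  have : 1 / a8 ^ 2 ≤ 6 / 7 := by
    rw [div_le_div_iff₀ (pow_pos a8_pos 2) (by norm_num)]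
    linarith
  linarith

lemma a8_inv_le : 1 / a8 ≤ 24 / 25 := by
  have h : (25 / 24 : ℝ) ≤ a8 := by
    by_contra h
    push Not at h
    have := pow_lt_pow_left₀ h a8_pos.le (show (8 : ℕ) ≠ 0 by norm_num)
    rw [a8_pow] at this
    norm_num at this
  rw [div_le_div_iff₀ a8_pos (by norm_num)]
  linarith

lemma a8_pow_mul (n : ℕ) : (a8 ^ n) ^ 8 = 2 ^ n := by
  rw [← pow_mul, mul_comm, pow_mul, a8_pow]

/-- The tent function in logarithmic scale. -/
noncomputable def phi (t : ℝ) : ℝ := if t ≤ 1 then t else t⁻¹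

/-- A bounded primitive of `phi`. -/
noncomputable def psi (t : ℝ) : ℝ := if t ≤ 1 then t else 2 - t⁻¹

lemma phi_nonneg {t : ℝ} (ht : 0 ≤ t) : 0 ≤ phi t := by
  unfold phi; split <;> positivity

lemma psi_mem {t : ℝ} (ht : 0 ≤ t) : 0 ≤ psi t ∧ psi t ≤ 2 := by
  unfold psi
  split
  · constructor <;> linarith
  · rename_i h
    have h1 : t⁻¹ ≤ 1 := inv_le_one_of_one_le₀ (by linarith)
    have h2 : 0 ≤ t⁻¹ := by positivity
    constructor <;> linarith

lemma phi_le_psi {t b : ℝ} (ht : 0 ≤ t) (hb : 0 < b) (hb1 : b < 1) :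
    (1 - b) * phi t ≤ psi t - psi (b * t) := by
  unfold phi psi
  by_cases h : t ≤ 1
  · have : b * t ≤ 1 := by nlinarith
    simp only [h, this, if_true]
    linarith
  · push Not at h
    have h0 : 0 < t := by linarith
    have hx : t * t⁻¹ = 1 := mul_inv_cancel₀ h0.ne'
    by_cases h' : b * t ≤ 1
    · simp only [not_le.2 h, h', if_false, if_true]
      refine le_of_mul_le_mul_left ?_ h0
      have : 0 ≤ (t - 1) * (2 - b * (t + 1)) := mul_nonneg (by linarith) (by nlinarith)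
      nlinarith
    · simp only [not_le.2 h, h', if_false]
      push Not at h'
      rw [mul_inv]
      have hbb : b * b⁻¹ = 1 := mul_inv_cancel₀ hb.ne'
      have h2 : 1 - b ≤ b⁻¹ - 1 := by
        refine le_of_mul_le_mul_left ?_ hb
        nlinarith [sq_nonneg (b - 1)]
      nlinarith [mul_le_mul_of_nonneg_right h2 (inv_nonneg.2 h0.le)]

variable {d : ℕ} (g : Fin d → ℝ) (δ : ℝ)

/-- Fourth root of the average eigenvalue at level `l`. -/
noncomputable def qv (l : ℕ) (j : Fin d) : ℝ := √√(g j) / a8 ^ (2 * l)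

lemma qv_nonneg (l : ℕ) (j : Fin d) : 0 ≤ qv g l j := by
  have := a8_pos
  unfold qv; positivity

lemma qv_add (l r : ℕ) (j : Fin d) : qv g l j = qv g (l + r) j * (a8 ^ r) ^ 2 := by
  have := a8_pos.ne'
  unfold qv
  rw [← pow_mul, mul_add, pow_add, mul_comm r 2]
  field_simp

lemma qv_anti {l m : ℕ} (h : l ≤ m) (j : Fin d) : qv g m j ≤ qv g l j := by
  obtain ⟨r, rfl⟩ := Nat.exists_eq_add_of_le h
  rw [qv_add g l r]
  exact le_mul_of_one_le_right (qv_nonneg g _ j) (one_le_pow₀ (one_le_pow₀ a8_one_lt.le))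

lemma qv_pow {j : Fin d} (hg : 0 ≤ g j) (l : ℕ) : qv g l j ^ 4 = g j / 2 ^ l := by
  unfold qv
  rw [div_pow, show (4 : ℕ) = 2 * 2 by rfl, pow_mul, Real.sq_sqrt (Real.sqrt_nonneg _),
    Real.sq_sqrt hg, ← pow_mul, show 2 * l * (2 * 2) = l * 8 by ring, pow_mul, a8_pow_mul]

/-- The number of eigenvalues near the threshold, softly counted. -/
noncomputable def lev (l : ℕ) : ℝ := ∑ j, phi (qv g l j)

lemma sum_lev_le (m : ℕ) : ∑ l ∈ range m, lev g l ≤ 14 * d := by
  unfold lev
  rw [sum_comm]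
  refine (sum_le_sum fun j _ => show ∑ l ∈ range m, phi (qv g l j) ≤ 14 from ?_).trans
    (by simp [mul_comm])
  have hb : 0 < 1 / a8 ^ 2 := by have := a8_pos; positivity
  have hb1 : 1 / a8 ^ 2 < 1 := by linarith [a8_gap]
  have h : ∀ l, (1 / 7) * phi (qv g l j) ≤ psi (qv g l j) - psi (qv g (l + 1) j) := by
    intro l
    have := phi_le_psi (qv_nonneg g l j) hb hb1
    have e : 1 / a8 ^ 2 * qv g l j = qv g (l + 1) j := by
      rw [qv_add g l 1 j, pow_one]
      have := a8_pos.ne'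
      field_simp
    rw [e] at this
    exact (mul_le_mul_of_nonneg_right a8_gap (phi_nonneg (qv_nonneg g l j))).trans this
  have := sum_le_sum (s := range m) fun l _ => h l
  rw [← mul_sum, sum_range_sub'] at this
  linarith [(psi_mem (qv_nonneg g 0 j)).2, (psi_mem (qv_nonneg g m j)).1]

lemma exists_good (hδ : 0 < δ) (c : ℕ) : ∃ l, c < l ∧ lev g l ≤ δ := by
  by_contra h
  push Not at h
  set n := ⌈14 * (d : ℝ) / δ⌉₊ + 1
  have h1 : (n : ℝ) * δ ≤ ∑ l ∈ Ico (c + 1) (c + 1 + n), lev g l := by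
    have := card_nsmul_le_sum (Ico (c + 1) (c + 1 + n)) (fun l => lev g l) δ
      fun l hl => (h l (by simp at hl; omega)).le
    simpa [nsmul_eq_mul] using this
  have h2 : ∑ l ∈ Ico (c + 1) (c + 1 + n), lev g l ≤ 14 * d :=
    (sum_le_sum_of_subset_of_nonneg (fun l hl => by simp at hl ⊢; omega) fun l _ _ =>
      sum_nonneg fun j _ => phi_nonneg (qv_nonneg g l j)).trans (sum_lev_le g (c + 1 + n))
  have h3 : 14 * (d : ℝ) / δ < n := by
    push_cast [n]
    linarith [Nat.le_ceil (14 * (d : ℝ) / δ)]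
  rw [div_lt_iff₀ hδ] at h3
  linarith

open scoped Classical in
/-- The levels used for cutting. -/
noncomputable def cut : ℕ → ℕ
  | 0 => 0
  | k + 1 => if h : ∃ l, cut k < l ∧ lev g l ≤ δ then Nat.find h else cut k + 1

lemma cut_lt (k : ℕ) : cut g δ k < cut g δ (k + 1) := by
  classical
  show _ < dite _ _ _
  split
  · rename_i h; exact (Nat.find_spec h).1
  · omega

lemma le_cut : ∀ k, k ≤ cut g δ k
  | 0 => le_rfl
  | k + 1 => Nat.succ_le_of_lt (lt_of_le_of_lt (le_cut k) (cut_lt g δ k))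

lemma cut_strictMono : StrictMono (cut g δ) := strictMono_nat_of_lt_succ (cut_lt g δ)

lemma lev_cut (hδ : 0 < δ) (k : ℕ) : lev g (cut g δ (k + 1)) ≤ δ := by
  classical
  have h : ∃ l, cut g δ k < l ∧ lev g l ≤ δ := exists_good g δ hδ _
  show lev g (dite _ _ _) ≤ δ
  rw [dif_pos h]
  exact (Nat.find_spec h).2

/-- The number of levels in jump `k`. -/
noncomputable def len (k : ℕ) : ℕ := cut g δ (k + 1) - cut g δ k

lemma one_le_len (k : ℕ) : 1 ≤ len g δ k := by
  have := cut_lt g δ k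
  unfold len; omega

lemma cut_succ (k : ℕ) : cut g δ (k + 1) = cut g δ k + len g δ k := by
  have := cut_lt g δ k
  unfold len; omega

lemma bad_between (hδ : 0 < δ) (k l : ℕ) (h1 : cut g δ k < l) (h2 : l < cut g δ (k + 1)) :
    δ < lev g l := by
  classical
  have h : ∃ l, cut g δ k < l ∧ lev g l ≤ δ := exists_good g δ hδ _
  by_contra hc
  push Not at hc
  have e : cut g δ (k + 1) = Nat.find h := dif_pos h
  have := Nat.find_min' h ⟨h1, hc⟩
  omega

lemma sum_len_sub_one (hδ : 0 < δ) (K : ℕ) :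
    ∑ k ∈ range K, ((len g δ k : ℝ) - 1) ≤ 14 * d / δ := by
  rw [le_div_iff₀ hδ, Finset.sum_mul]
  refine le_trans ?_ (sum_lev_le g (cut g δ K))
  induction K with
  | zero => simp [cut]
  | succ K ih =>
    rw [sum_range_succ, ← sum_range_add_sum_Ico (fun l => lev g l) (cut_lt g δ K).le]
    refine add_le_add ih ?_
    have h := card_nsmul_le_sum (Ico (cut g δ K + 1) (cut g δ (K + 1))) (fun l => lev g l) δ
      fun l hl => (bad_between g δ hδ K l (by simp at hl; omega) (by simp at hl; omega)).le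
    rw [Nat.card_Ico, nsmul_eq_mul] at h
    have : ((cut g δ (K + 1) - (cut g δ K + 1) : ℕ) : ℝ) = (len g δ K : ℝ) - 1 := by
      rw [eq_sub_iff_add_eq]
      have := cut_lt g δ K
      norm_cast
      unfold len; omega
    rw [this] at h
    exact h.trans (sum_le_sum_of_subset_of_nonneg (fun l hl => by simp at hl ⊢; omega)
      fun l _ _ => sum_nonneg fun j _ => phi_nonneg (qv_nonneg g l j))

/-- Smoothing exponent of one jump. -/
def xi (ℓ : ℕ) : ℕ := if ℓ ≤ 1 then 0 else Nat.log 2 ℓ + 1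

lemma le_two_pow_xi (ℓ : ℕ) : ℓ ≤ 2 ^ xi ℓ := by
  unfold xi
  split
  · simpa
  · exact (Nat.lt_pow_succ_log_self (by norm_num) ℓ).le

lemma two_pow_xi_le {ℓ : ℕ} (h : xi ℓ ≠ 0) : 2 ^ xi ℓ ≤ 2 * ℓ := by
  unfold xi at h ⊢
  split
  · simp_all
  · rw [pow_succ, mul_comm]
    exact Nat.mul_le_mul_left 2 (Nat.pow_log_le_self 2 (by omega))

/-- Smoothed exponents. -/
noncomputable def Yv : ℕ → ℕ
  | 0 => xi (len g δ 0)
  | k + 1 => max (xi (len g δ (k + 1))) (Yv k - len g δ (k + 1))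

lemma len_le_two_pow (k : ℕ) : len g δ k ≤ 2 ^ Yv g δ k := by
  refine (le_two_pow_xi _).trans (Nat.pow_le_pow_right two_pos ?_)
  cases k with
  | zero => exact le_rfl
  | succ k => exact le_max_left _ _

lemma Yv_le_add (k : ℕ) : Yv g δ k ≤ Yv g δ (k + 1) + len g δ (k + 1) := by
  have : Yv g δ k - len g δ (k + 1) ≤ Yv g δ (k + 1) := le_max_right _ _
  omega

/-- The weight of one jump. -/
noncomputable def Tw (k : ℕ) : ℝ := if Yv g δ k = 0 then 0 else 2 ^ Yv g δ k

lemma Tw_nonneg (k : ℕ) : 0 ≤ Tw g δ k := by unfold Tw; split <;> positivity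

lemma sum_Tw (hδ : 0 < δ) (K : ℕ) : ∑ k ∈ range K, Tw g δ k ≤ 112 * d / δ := by
  have hb : ∀ ℓ : ℕ, 1 ≤ ℓ → (if xi ℓ = 0 then 0 else (2 : ℝ) ^ xi ℓ) ≤ 4 * ((ℓ : ℝ) - 1) := by
    intro ℓ hℓ
    split
    · have : (1 : ℝ) ≤ ℓ := by exact_mod_cast hℓ
      linarith
    · rename_i h
      have h2 : (2 : ℝ) ≤ ℓ := by
        have : 2 ≤ ℓ := by by_contra hc; exact h (if_pos (by omega))
        exact_mod_cast this
      have : ((2 : ℝ) ^ xi ℓ) ≤ 2 * ℓ := by exact_mod_cast two_pow_xi_le h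
      linarith
  have key : ∀ k, Tw g δ (k + 1) ≤ 4 * ((len g δ (k + 1) : ℝ) - 1) + Tw g δ k / 2 := by
    intro k
    have h1 := hb _ (one_le_len g δ (k + 1))
    have h2 := Tw_nonneg g δ k
    have hl : (1 : ℝ) ≤ len g δ (k + 1) := by exact_mod_cast one_le_len g δ (k + 1)
    have e : Yv g δ (k + 1) = max (xi (len g δ (k + 1))) (Yv g δ k - len g δ (k + 1)) := rfl
    by_cases h0 : Yv g δ (k + 1) = 0
    · rw [show Tw g δ (k + 1) = 0 from if_pos h0]
      linarith
    rw [show Tw g δ (k + 1) = 2 ^ Yv g δ (k + 1) from if_neg h0, e]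
    rw [e] at h0
    rcases le_total (Yv g δ k - len g δ (k + 1)) (xi (len g δ (k + 1))) with h | h
    · rw [max_eq_left h] at h0 ⊢
      rw [if_neg h0] at h1
      linarith
    · rw [max_eq_right h] at h0 ⊢
      have hlen := one_le_len g δ (k + 1)
      rw [show Tw g δ k = 2 ^ Yv g δ k from if_neg (by omega)] at h2 ⊢
      have : (2 : ℝ) ^ (Yv g δ k - len g δ (k + 1)) * 2 ≤ 2 ^ Yv g δ k := by
        rw [← pow_succ]
        exact pow_le_pow_right₀ one_le_two (by omega)
      linarith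
  have main : ∀ K, ∑ k ∈ range (K + 1), Tw g δ k + Tw g δ K
      ≤ 8 * ∑ k ∈ range (K + 1), ((len g δ k : ℝ) - 1) := by
    intro K
    induction K with
    | zero =>
      have h1 := hb _ (one_le_len g δ 0)
      simp only [zero_add, sum_range_one]
      rw [show Tw g δ 0 = if xi (len g δ 0) = 0 then 0 else 2 ^ xi (len g δ 0) from rfl]
      linarith
    | succ K ih =>
      rw [sum_range_succ _ (K + 1), sum_range_succ _ (K + 1)]
      have := key K
      linarith
  have hd : 0 ≤ 112 * (d : ℝ) / δ := by positivity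
  cases K with
  | zero => simpa using hd
  | succ K =>
    have h1 := main K
    have h2 := sum_len_sub_one g δ hδ (K + 1)
    have h3 := Tw_nonneg g δ K
    rw [show 112 * (d : ℝ) / δ = 8 * (14 * d / δ) by ring]
    linarith

end Vale.Agent.P262
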