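import Mathlib
import Vale.Agent.P262.Scale

/-!
The data of one jump between two cutting levels, with the elementary inequalities it gives.
-/

namespace Vale.Agent.P262

open Finset

/-- One jump: `ℓ` levels, smoothing exponent `Y`, fourth roots `q` of the average eigenvalues at
the lower end. -/
structure Jump (d : ℕ) where
  ℓ : ℕ
  Y : ℕ
  δ : ℝ
  q : Fin d → ℝ
  low : Finset (Fin d)
  U0 : Fin d → ℝ
  cor2 : Finset (Fin d)
  q2 : Fin d → ℝ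
  ω : Fin d → ℝ
  δ_pos : 0 < δ
  δ_le : δ ≤ 1
  one_le_ℓ : 1 ≤ ℓ
  ℓ_le : ℓ ≤ 2 ^ Y
  q_nonneg : ∀ j, 0 ≤ q j
  low_le : ∀ j ∈ low, q j ≤ 1
  U0_nonneg : ∀ j, 0 ≤ U0 j
  U0_hi : ∀ j, 1 < q j → U0 j / 2 ^ ℓ ≤ (a8 ^ Y * q j ^ 3 + (a8 ^ Y) ^ 6) / a8
  U0_band : ∑ j ∈ univ.filter (fun j => q j ≤ 1 ∧ j ∉ low), U0 j / 2 ^ ℓ ≤ 2 * δ * (a8 ^ Y) ^ 6
  good_hi : ∑ j ∈ univ.filter (fun j => 1 < q j), (q j)⁻¹ ≤ δ
  good_lo : ∑ j ∈ univ.filter (fun j => q j ≤ 1), q j ≤ δ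
  cor2_sub : ∀ j ∈ cor2, 1 < q j ∧ (a8 ^ Y) ^ 2 ≤ q j
  q2_pos : ∀ j ∈ cor2, 0 < q2 j
  good2 : ∑ j ∈ cor2, (q2 j ^ 4)⁻¹ ≤ δ
  ω_nonneg : ∀ j, 0 ≤ ω j

namespace Jump

variable {d : ℕ} (J : Jump d)

/-- `2 ^ (Y / 8)`. -/
noncomputable def P : ℝ := a8 ^ J.Y

/-- The new error scale. -/
noncomputable def U (j : Fin d) : ℝ := J.P * J.q j ^ 3 + J.P ^ 6

/-- Coordinates above the threshold at the lower end. -/
noncomputable def hi : Finset (Fin d) := univ.filter (fun j => 1 < J.q j)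

/-- Corrected coordinates. -/
noncomputable def cor : Finset (Fin d) := univ.filter (fun j => 1 < J.q j ∧ J.P ^ 2 ≤ J.q j)

/-- Coordinates left uncorrected above the threshold. -/
noncomputable def gr : Finset (Fin d) := univ.filter (fun j => 1 < J.q j ∧ J.q j < J.P ^ 2)

/-- Coordinates crossing the threshold during the jump. -/
noncomputable def band : Finset (Fin d) := univ.filter (fun j => J.q j ≤ 1 ∧ j ∉ J.low)

/-- Corrected now, not at the next jump. -/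
noncomputable def out : Finset (Fin d) := J.cor \ J.cor2

/-- Number of halvings. -/
def n : ℕ := J.ℓ + 2 * J.Y + 1

lemma P_one_le : 1 ≤ J.P := one_le_pow₀ a8_one_lt.le

lemma P_pos : 0 < J.P := lt_of_lt_of_le one_pos J.P_one_le

lemma P_pow : J.P ^ 8 = 2 ^ J.Y := a8_pow_mul _

lemma P_pow_le {a b : ℕ} (h : a ≤ b) : J.P ^ a ≤ J.P ^ b := pow_le_pow_right₀ J.P_one_le h

lemma U_pos (j : Fin d) : 0 < J.U j := by
  have := J.P_pos
  have := J.q_nonneg j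
  unfold U; positivity

lemma n_add_one_le : ((J.n : ℝ) + 1) ≤ 5 * J.P ^ 8 := by
  rw [J.P_pow]
  have h : 2 * J.Y ≤ 2 * 2 ^ J.Y := Nat.mul_le_mul_left 2 (Nat.lt_two_pow_self).le
  have h1 := J.ℓ_le
  have h2 : 1 ≤ 2 ^ J.Y := Nat.one_le_two_pow
  exact_mod_cast show J.n + 1 ≤ 5 * 2 ^ J.Y by unfold n; omega

lemma two_pow_n : (2 : ℝ) ^ J.n = 2 ^ J.ℓ * (2 * J.P ^ 16) := by
  rw [show (16 : ℕ) = 8 * 2 by rfl, pow_mul, J.P_pow, n, ← pow_mul, pow_add, pow_add, pow_one,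
    mul_comm J.Y 2]
  ring

lemma mem_hi {j : Fin d} : j ∈ J.hi ↔ 1 < J.q j := by simp [hi]

lemma cor_subset_hi : J.cor ⊆ J.hi := fun j hj => by simp [cor, hi] at hj ⊢; exact hj.1

lemma gr_subset_hi : J.gr ⊆ J.hi := fun j hj => by simp [gr, hi] at hj ⊢; exact hj.1

lemma cor2_subset : J.cor2 ⊆ J.cor := fun j hj => by
  rw [cor, mem_filter]
  exact ⟨mem_univ _, J.cor2_sub j hj⟩

lemma hi_not_low {j : Fin d} (h : j ∈ J.hi) : j ∉ J.low := fun hl => by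
  rw [mem_hi] at h
  linarith [J.low_le j hl]

lemma band_not_low {j : Fin d} (h : j ∈ J.band) : j ∉ J.low := by
  simp [band] at h; exact h.2

lemma q_inv_le {j : Fin d} (h : j ∈ J.hi) : (J.q j)⁻¹ ≤ J.δ :=
  (single_le_sum (f := fun j => (J.q j)⁻¹) (fun i _ => inv_nonneg.2 (J.q_nonneg i)) h).trans
    J.good_hi

lemma sum_hi_inv_pow {s : Finset (Fin d)} (hs : s ⊆ J.hi) {a : ℕ} (ha : 1 ≤ a) :
    ∑ j ∈ s, (J.q j ^ a)⁻¹ ≤ J.δ := by
  refine le_trans (le_trans (sum_le_sum fun j hj => ?_) (sum_le_sum_of_subset_of_nonneg hs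
    fun i _ _ => inv_nonneg.2 (J.q_nonneg i))) J.good_hi
  have h1 := J.mem_hi.1 (hs hj)
  exact inv_anti₀ (by linarith) (le_self_pow₀ h1.le (by omega))

lemma card_gr : (J.gr.card : ℝ) ≤ J.δ * J.P ^ 2 := by
  have h : (J.gr.card : ℝ) * (J.P ^ 2)⁻¹ ≤ J.δ := by
    refine le_trans ?_ (J.sum_hi_inv_pow J.gr_subset_hi (a := 1) le_rfl)
    rw [← nsmul_eq_mul, ← sum_const]
    refine sum_le_sum fun j hj => ?_
    simp [gr] at hj
    rw [pow_one]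
    exact inv_anti₀ (by linarith [hj.1]) hj.2.le
  have := J.P_pos
  rw [← div_eq_mul_inv, div_le_iff₀ (by positivity)] at h
  exact h

lemma q_div_U {j : Fin d} (h : j ∈ J.hi) : J.q j / J.U j ≤ (J.P ^ 4)⁻¹ := by
  have hq := J.mem_hi.1 h
  have hP := J.P_pos
  rw [div_le_iff₀ (J.U_pos j), inv_mul_eq_div, le_div_iff₀ (by positivity), U]
  rcases le_total (J.q j) (J.P ^ 2) with h' | h'
  · have := mul_le_mul_of_nonneg_right h' (pow_nonneg hP.le 4)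
    have : 0 ≤ J.P * J.q j ^ 3 := by positivity
    nlinarith
  · have h2 : J.P ^ 4 ≤ J.q j ^ 2 := by
      calc J.P ^ 4 = (J.P ^ 2) ^ 2 := by ring
        _ ≤ _ := pow_le_pow_left₀ (by positivity) h' 2
    have h3 : J.q j * J.P ^ 4 ≤ J.q j * J.q j ^ 2 := mul_le_mul_of_nonneg_left h2 (by linarith)
    have h4 : J.q j ^ 3 ≤ J.P * J.q j ^ 3 := le_mul_of_one_le_left (by positivity) J.P_one_le
    have : 0 ≤ J.P ^ 6 := by positivity
    nlinarith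

lemma qP_le {j : Fin d} (h : j ∈ J.hi) : (J.q j * J.P) ^ 2 ≤ J.U j := by
  have hq := J.mem_hi.1 h
  have hP := J.P_pos
  rw [U]
  rcases le_total (J.q j) (J.P ^ 2) with h' | h'
  · have := pow_le_pow_left₀ (by linarith) h' 2
    have := mul_le_mul_of_nonneg_right this (sq_nonneg J.P)
    have : 0 ≤ J.P * J.q j ^ 3 := by positivity
    nlinarith
  · have h2 : J.P ≤ J.q j := le_trans (le_self_pow₀ J.P_one_le (by norm_num)) h'
    have h3 := mul_le_mul_of_nonneg_left h2 (show 0 ≤ J.q j ^ 2 * J.P by positivity)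
    have : 0 ≤ J.P ^ 6 := by positivity
    nlinarith

lemma U_div_cor {j : Fin d} (h : j ∈ J.cor) : J.U j ≤ 2 * √J.δ * J.q j ^ 4 := by
  have hh := J.cor_subset_hi h
  simp [cor] at h
  have hP := J.P_pos
  have hs : 1 ≤ √J.δ * √(J.q j) := by
    rw [← Real.sqrt_mul J.δ_pos.le]
    refine Real.one_le_sqrt.2 ?_
    have := J.q_inv_le hh
    rw [inv_le_iff_one_le_mul₀ (by linarith [h.1])] at this
    linarith
  have h1 : J.P ≤ √(J.q j) := Real.le_sqrt_of_sq_le h.2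
  have hq : √(J.q j) ^ 2 = J.q j := Real.sq_sqrt (by linarith [h.1])
  set r := √(J.q j)
  have hr : 1 ≤ r := le_trans J.P_one_le h1
  rw [U, ← hq]
  have h2 : J.P ^ 6 ≤ r ^ 6 := pow_le_pow_left₀ hP.le h1 6
  have h3 : J.P * (r ^ 2) ^ 3 ≤ r * (r ^ 2) ^ 3 := mul_le_mul_of_nonneg_right h1 (by positivity)
  have h4 : r ^ 6 ≤ r ^ 7 := pow_le_pow_right₀ hr (by norm_num)
  have h5 : r ^ 7 * 1 ≤ r ^ 7 * (√J.δ * r) := mul_le_mul_of_nonneg_left hs (by positivity)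
  nlinarith

lemma trace_band {A : ℝ} (hA : 0 ≤ A) :
    ∑ j ∈ J.band, (J.q j ^ 4 + A * (J.U0 j / 2 ^ J.ℓ)) ≤ (1 + 2 * A) * J.δ * J.P ^ 6 := by
  rw [sum_add_distrib, ← mul_sum]
  have h1 : ∑ j ∈ J.band, J.q j ^ 4 ≤ J.δ := by
    refine le_trans ?_ J.good_lo
    refine (sum_le_sum fun j hj => ?_).trans (sum_le_sum_of_subset_of_nonneg
      (fun j hj => by simp [band] at hj ⊢; exact hj.1) fun i _ _ => J.q_nonneg i)
    simp [band] at hj
    exact pow_le_of_le_one (J.q_nonneg j) hj.1 (by norm_num)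
  have h2 := mul_le_mul_of_nonneg_left J.U0_band hA
  have h3 : J.δ ≤ J.δ * J.P ^ 6 := le_mul_of_one_le_right J.δ_pos.le (one_le_pow₀ J.P_one_le)
  simp only [band, P] at h1 h2 h3 ⊢
  linarith

lemma trace_gr {A : ℝ} (hA : 0 ≤ A) :
    ∑ j ∈ J.gr, (J.q j ^ 4 + A * (J.U0 j / 2 ^ J.ℓ)) ≤ (1 + 2 * A) * J.δ * J.P ^ 10 := by
  have hP := J.P_pos
  refine (sum_le_sum fun j hj => show J.q j ^ 4 + A * (J.U0 j / 2 ^ J.ℓ)
    ≤ (1 + 2 * A) * J.P ^ 8 from ?_).trans ?_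
  · simp [gr] at hj
    have h1 : J.q j ^ 4 ≤ J.P ^ 8 := by
      calc J.q j ^ 4 ≤ (J.P ^ 2) ^ 4 := pow_le_pow_left₀ (J.q_nonneg j) hj.2.le 4
        _ = _ := by ring
    have h3 : J.q j ^ 3 ≤ (J.P ^ 2) ^ 3 := pow_le_pow_left₀ (J.q_nonneg j) hj.2.le 3
    have h4 : (J.P * J.q j ^ 3 + J.P ^ 6) / a8 ≤ 2 * J.P ^ 8 := by
      rw [div_le_iff₀ a8_pos]
      have h5 := J.P_pow_le (show 7 ≤ 8 by norm_num)
      have h6 := J.P_pow_le (show 6 ≤ 8 by norm_num)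
      have h7 := mul_le_mul_of_nonneg_left h3 hP.le
      have h8 : 0 ≤ J.P ^ 8 := by positivity
      nlinarith [a8_one_lt]
    have := mul_le_mul_of_nonneg_left ((J.U0_hi j hj.1).trans h4) hA
    linarith
  · rw [sum_const, nsmul_eq_mul]
    refine (mul_le_mul_of_nonneg_right J.card_gr (by positivity)).trans (le_of_eq ?_)
    ring

end Jump

end Vale.Agent.P262
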