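import Mathlib
import Vale.Agent.P262.Core

/-!
Gaussian integrals used with the signing lemma: second moments, moments of quadratic forms and a
maximal inequality for prefix sums.
-/

namespace Vale.Agent.P262

open MeasureTheory ProbabilityTheory Set
open scoped RealInnerProductSpace NNReal

set_option linter.unusedSectionVars false

section general

variable {E : Type*} [NormedAddCommGroup E] [InnerProductSpace ℝ E] [FiniteDimensional ℝ E]
  [MeasurableSpace E] [BorelSpace E]

lemma Nice.of_poly {F : E → ℝ} (hc : ConvexOn ℝ univ F) {A : ℝ} (hA : 0 ≤ A) {m : ℕ}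
    (h : ∀ x, |F x| ≤ A * (1 + ‖x‖) ^ m) : Nice F := by
  refine ⟨hc, A * m.factorial * Real.exp 1, 1, by positivity, zero_le_one, fun x => (h x).trans ?_⟩
  have h1 : 0 ≤ 1 + ‖x‖ := by positivity
  have := Real.pow_div_factorial_le_exp (x := 1 + ‖x‖) h1 m
  rw [div_le_iff₀ (by positivity), Real.exp_add] at this
  rw [one_mul]
  calc A * (1 + ‖x‖) ^ m ≤ A * (Real.exp 1 * Real.exp ‖x‖ * m.factorial) :=
        mul_le_mul_of_nonneg_left this hA
    _ = _ := by ring

lemma nice_const (a : ℝ) : Nice (fun _ : E => a) :=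
  ⟨convexOn_const _ convex_univ, |a|, 0, abs_nonneg _, le_rfl, fun x => by simp⟩

lemma Nice.const_mul {F : E → ℝ} (h : Nice F) {c : ℝ} (hc : 0 ≤ c) :
    Nice (fun x => c * F x) := by
  obtain ⟨A, B, hA, hB, hF⟩ := h.grow
  refine ⟨by simpa using h.cvx.smul hc, c * A, B, by positivity, hB, fun x => ?_⟩
  rw [abs_mul, abs_of_nonneg hc, mul_assoc]
  exact mul_le_mul_of_nonneg_left (hF x) hc

lemma Nice.finsum {κ : Type*} (s : Finset κ) {F : κ → E → ℝ} (h : ∀ i ∈ s, Nice (F i)) :
    Nice (fun x => ∑ i ∈ s, F i x) := by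
  classical
  induction s using Finset.induction_on with
  | empty => simpa using nice_const (E := E) 0
  | insert a s ha ih =>
    simp only [Finset.sum_insert ha]
    exact (h a (Finset.mem_insert_self _ _)).add (ih fun i hi => h i (Finset.mem_insert_of_mem hi))

lemma convexOn_sq_clm (l : E →L[ℝ] ℝ) : ConvexOn ℝ univ (fun x => l x ^ 2) := by
  simpa [Function.comp_def] using (Even.convexOn_pow (𝕜 := ℝ) (n := 2) even_two).comp_linearMap l.toLinearMap

lemma nice_sq (l : E →L[ℝ] ℝ) : Nice (fun x => l x ^ 2) := by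
  refine Nice.of_poly (convexOn_sq_clm l) (A := ‖l‖ ^ 2) (by positivity) (m := 2) fun x => ?_
  have h := l.le_opNorm x
  rw [Real.norm_eq_abs] at h
  rw [abs_pow, ← mul_pow]
  gcongr
  calc |l x| ≤ ‖l‖ * ‖x‖ := h
    _ ≤ _ := mul_le_mul_of_nonneg_left (by linarith) (norm_nonneg _)

lemma integral_sq_stdGaussian (l : E →L[ℝ] ℝ) : ∫ g, l g ^ 2 ∂stdGaussian E = ‖l‖ ^ 2 := by
  rw [← variance_dual_stdGaussian, variance_eq_integral l.continuous.aemeasurable]
  simp

end general

section euclid

variable {ι : Type*} [Fintype ι]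

/-- The quadratic form with diagonal `w`. -/
noncomputable def qform (w : ι → ℝ) (x : EuclideanSpace ℝ ι) : ℝ := ∑ i, w i * x i ^ 2

lemma qform_nonneg {w : ι → ℝ} (hw : ∀ i, 0 ≤ w i) (x : EuclideanSpace ℝ ι) : 0 ≤ qform w x :=
  Finset.sum_nonneg fun i _ => by have := hw i; positivity

lemma convexOn_qform {w : ι → ℝ} (hw : ∀ i, 0 ≤ w i) : ConvexOn ℝ univ (qform w) := by
  classical
  unfold qform
  have : ∀ s : Finset ι, ConvexOn ℝ univ (fun x : EuclideanSpace ℝ ι => ∑ i ∈ s, w i * x i ^ 2) := by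
    intro s
    induction s using Finset.induction_on with
    | empty => simpa using convexOn_const (0 : ℝ) convex_univ
    | insert a s ha ih =>
      simp only [Finset.sum_insert ha]
      refine ConvexOn.add ?_ ih
      simpa using (convexOn_sq_clm (EuclideanSpace.proj (𝕜 := ℝ) a)).smul (hw a)
  exact this _

lemma qform_le {w : ι → ℝ} (hw : ∀ i, 0 ≤ w i) (x : EuclideanSpace ℝ ι) :
    qform w x ≤ (∑ i, w i) * ‖x‖ ^ 2 := by
  rw [qform, Finset.sum_mul]
  refine Finset.sum_le_sum fun i _ => mul_le_mul_of_nonneg_left ?_ (hw i)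
  rw [EuclideanSpace.real_norm_sq_eq]
  exact Finset.single_le_sum (f := fun j => x j ^ 2) (fun j _ => sq_nonneg _) (Finset.mem_univ i)

lemma nice_qform_pow {w : ι → ℝ} (hw : ∀ i, 0 ≤ w i) (q : ℕ) :
    Nice (fun x => qform w x ^ q) := by
  refine Nice.of_poly ((convexOn_qform hw).pow (fun x _ => qform_nonneg hw x) q)
    (A := (∑ i, w i) ^ q) (pow_nonneg (Finset.sum_nonneg fun i _ => hw i) q) (m := 2 * q)
    fun x => ?_
  rw [abs_pow, abs_of_nonneg (qform_nonneg hw x), pow_mul, ← mul_pow]
  refine pow_le_pow_left₀ (qform_nonneg hw x) ((qform_le hw x).trans ?_) q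
  refine mul_le_mul_of_nonneg_left ?_ (Finset.sum_nonneg fun i _ => hw i)
  nlinarith [norm_nonneg x]

lemma integral_exp_sq_line {a : ℝ} (h1 : a ≤ 1 / 4) :
    ∫ x, Real.exp (a * x ^ 2) ∂gaussianReal 0 1 ≤ Real.exp (2 * a) ∨ a < 0 := by
  by_cases h0 : a < 0
  · exact Or.inr h0
  push Not at h0
  refine Or.inl ?_
  rw [integral_gaussianReal_eq_integral_smul one_ne_zero]
  have : ∀ x : ℝ, gaussianPDFReal 0 1 x • Real.exp (a * x ^ 2)
      = (√(2 * Real.pi))⁻¹ * Real.exp (-(1 / 2 - a) * x ^ 2) := by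
    intro x
    simp only [gaussianPDFReal, NNReal.coe_one, mul_one, sub_zero, smul_eq_mul]
    rw [mul_assoc, ← Real.exp_add]
    congr 2
    ring
  simp_rw [this]
  rw [integral_const_mul, integral_gaussian]
  have hb : (0 : ℝ) < 1 / 2 - a := by linarith
  have e : (√(2 * Real.pi))⁻¹ * √(Real.pi / (1 / 2 - a)) = √(1 / (1 - 2 * a)) := by
    have hden : (1 : ℝ) - 2 * a ≠ 0 := by linarith
    rw [← Real.sqrt_inv, ← Real.sqrt_mul (by positivity)]
    congr 1
    have : Real.pi ≠ 0 := Real.pi_ne_zero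
    field_simp
  rw [e, Real.sqrt_le_left (Real.exp_pos _).le, ← Real.exp_nat_mul]
  refine le_trans ?_ (Real.add_one_le_exp _)
  rw [div_le_iff₀ (by linarith)]
  push_cast
  nlinarith

lemma integral_exp_qform {w : ι → ℝ} {a : ℝ} (h0 : ∀ i, 0 ≤ a * w i) (h1 : ∀ i, a * w i ≤ 1 / 4) :
    ∫ g, Real.exp (a * qform w g) ∂stdGaussian (EuclideanSpace ℝ ι)
      ≤ Real.exp (2 * (a * ∑ i, w i)) := by
  rw [← map_pi_eq_stdGaussian, integral_map (by fun_prop) (by unfold qform; fun_prop)]
  simp only [qform, Finset.mul_sum, Real.exp_sum, ← mul_assoc]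
  rw [integral_fintype_prod_eq_prod (f := fun i x => Real.exp (a * w i * x ^ 2))]
  refine Finset.prod_le_prod (fun i _ => integral_nonneg fun x => (Real.exp_pos _).le) fun i _ => ?_
  rcases integral_exp_sq_line (h1 i) with h | h
  · simpa [mul_assoc] using h
  · exact absurd h (not_lt.2 (h0 i))

/-- Moments of a diagonal quadratic form of a Gaussian vector. -/
lemma integral_qform_pow {w : ι → ℝ} {W : ℝ} (hw : ∀ i, 0 ≤ w i) (hW : ∀ i, w i ≤ W)
    (hpos : 0 < W) (q : ℕ) :
    ∫ g, qform w g ^ q ∂stdGaussian (EuclideanSpace ℝ ι)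
      ≤ (4 * q * W) ^ q * Real.exp ((∑ i, w i) / (2 * W)) := by
  have key := integral_exp_qform (w := w) (a := 1 / (4 * W))
    (fun i => by have := hw i; positivity)
    (fun i => by rw [div_mul_eq_mul_div, div_le_iff₀ (by positivity)]; linarith [hW i])
  rw [show 2 * (1 / (4 * W) * ∑ i, w i) = (∑ i, w i) / (2 * W) by field_simp; ring] at key
  have hint : Integrable (fun g => qform w g ^ q) (stdGaussian (EuclideanSpace ℝ ι)) := by
    simpa using (nice_qform_pow hw q).integrable 0 1
  by_cases hE : Integrable (fun g => Real.exp (1 / (4 * W) * qform w g))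
      (stdGaussian (EuclideanSpace ℝ ι))
  · refine le_trans ?_ (mul_le_mul_of_nonneg_left key (by positivity))
    rw [← integral_const_mul]
    refine integral_mono hint (hE.const_mul _) fun g => ?_
    have hq := qform_nonneg hw g
    set Q := qform w g
    have h := Real.pow_div_factorial_le_exp (x := 1 / (4 * W) * Q) (by positivity) q
    rw [div_le_iff₀ (by positivity)] at h
    have hf : (q.factorial : ℝ) ≤ (q : ℝ) ^ q := by exact_mod_cast Nat.factorial_le_pow q
    calc Q ^ q = (4 * W) ^ q * (1 / (4 * W) * Q) ^ q := by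
          rw [← mul_pow]; congr 1; field_simp
      _ ≤ (4 * W) ^ q * (Real.exp (1 / (4 * W) * Q) * (q : ℝ) ^ q) := by
          refine mul_le_mul_of_nonneg_left (h.trans ?_) (by positivity)
          exact mul_le_mul_of_nonneg_left hf (Real.exp_pos _).le
      _ = _ := by simp only [mul_pow]; ring
  · exfalso
    apply hE
    rw [← map_pi_eq_stdGaussian, integrable_map_measure (by unfold qform; fun_prop) (by fun_prop)]
    have : ((fun g => Real.exp (1 / (4 * W) * qform w g)) ∘ (WithLp.toLp 2))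
        = fun x : ι → ℝ => ∏ i, Real.exp (1 / (4 * W) * w i * x i ^ 2) := by
      funext x
      simp [qform, Finset.mul_sum, Real.exp_sum, mul_assoc]
    rw [this]
    refine Integrable.fintype_prod (f := fun i t => Real.exp (1 / (4 * W) * w i * t ^ 2)) fun i => ?_
    have hb : 1 / (4 * W) * w i ≤ 1 / 4 := by
      rw [div_mul_eq_mul_div, div_le_iff₀ (by positivity)]; linarith [hW i]
    rw [gaussianReal_of_var_ne_zero _ one_ne_zero,
      integrable_withDensity_iff (measurable_gaussianPDF 0 1)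
        (Filter.Eventually.of_forall fun x => gaussianPDF_lt_top)]
    simp only [toReal_gaussianPDF, gaussianPDFReal, NNReal.coe_one, mul_one, sub_zero]
    have := (integrable_exp_neg_mul_sq (b := 1 / 2 - 1 / (4 * W) * w i) (by linarith)).const_mul
      (√(2 * Real.pi))⁻¹
    refine (this.congr (Filter.Eventually.of_forall fun t => ?_))
    simp only
    rw [mul_comm (Real.exp _), mul_assoc (√(2 * Real.pi))⁻¹, ← Real.exp_add]
    congr 2
    ring

/-- Running maximum of absolute values. -/
noncomputable def runMax (w : ℕ → ℝ) : ℕ → ℝ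
  | 0 => |w 0|
  | k + 1 => max (runMax w k) |w (k + 1)|

lemma runMax_nonneg (w : ℕ → ℝ) : ∀ k, 0 ≤ runMax w k
  | 0 => abs_nonneg _
  | k + 1 => (runMax_nonneg w k).trans (le_max_left _ _)

lemma abs_le_runMax (w : ℕ → ℝ) {i : ℕ} : ∀ {k : ℕ}, i ≤ k → |w i| ≤ runMax w k
  | 0, h => by rw [Nat.le_zero.1 h]; exact le_rfl
  | k + 1, h => by
    rcases Nat.lt_or_eq_of_le h with h | rfl
    · exact (abs_le_runMax w (Nat.lt_succ_iff.1 h)).trans (le_max_left _ _)
    · exact le_max_right _ _

/-- Pathwise form of Doob's inequality. -/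
lemma doob_path (w : ℕ → ℝ) (h0 : w 0 = 0) (n : ℕ) :
    runMax w n ^ 2
      ≤ 4 * w n ^ 2 - 4 * ∑ k ∈ Finset.range n, runMax w k * (|w (k + 1)| - |w k|) := by
  have key : ∀ n, 2 * ∑ k ∈ Finset.range n, runMax w k * (|w (k + 1)| - |w k|)
      ≤ 2 * runMax w n * |w n| - runMax w n ^ 2 := by
    intro n
    induction n with
    | zero => simp [runMax, h0]
    | succ n ih =>
      rw [Finset.sum_range_succ]
      show _ ≤ 2 * max (runMax w n) |w (n + 1)| * |w (n + 1)| - max (runMax w n) |w (n + 1)| ^ 2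
      rcases le_total |w (n + 1)| (runMax w n) with h | h
      · rw [max_eq_left h]
        nlinarith
      · rw [max_eq_right h]
        nlinarith [sq_nonneg (|w (n + 1)| - runMax w n)]
  have := key n
  nlinarith [sq_nonneg (runMax w n - 2 * |w n|), sq_abs (w n)]

/-- Prefix sums of a coordinate-indexed combination. -/
noncomputable def walk {M : ℕ} (e : Fin M → ι) (b : Fin M → ℝ) (x : EuclideanSpace ℝ ι)
    (k : ℕ) : ℝ :=
  ∑ i ∈ Finset.univ.filter (fun i : Fin M => (i : ℕ) < k), b i * x (e i)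

variable {M : ℕ} (e : Fin M → ι) (b : Fin M → ℝ)

lemma walk_eq_clm (k : ℕ) :
    ∃ l : EuclideanSpace ℝ ι →L[ℝ] ℝ, ∀ x, walk e b x k = l x :=
  ⟨∑ i ∈ Finset.univ.filter (fun i : Fin M => (i : ℕ) < k), b i • EuclideanSpace.proj (e i),
    fun x => by simp [walk]⟩

lemma convexOn_runMax_walk :
    ∀ k, ConvexOn ℝ univ (fun x => runMax (walk e b x) k)
  | 0 => by
    obtain ⟨l, hl⟩ := walk_eq_clm e b 0
    simp only [runMax, hl]
    simpa [Function.comp_def] using
      (convexOn_norm (E := ℝ) convex_univ).comp_linearMap l.toLinearMap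
  | k + 1 => by
    obtain ⟨l, hl⟩ := walk_eq_clm e b (k + 1)
    refine (convexOn_runMax_walk k).sup ?_
    simp only [hl]
    simpa [Function.comp_def] using
      (convexOn_norm (E := ℝ) convex_univ).comp_linearMap l.toLinearMap

lemma walk_abs_le (x : EuclideanSpace ℝ ι) (k : ℕ) : |walk e b x k| ≤ (∑ i, |b i|) * ‖x‖ := by
  rw [walk, Finset.sum_mul]
  refine (Finset.abs_sum_le_sum_abs _ _).trans
    ((Finset.sum_le_sum fun i _ => ?_).trans (Finset.sum_le_univ_sum_of_nonneg fun i => by positivity))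
  rw [abs_mul]
  refine mul_le_mul_of_nonneg_left ?_ (abs_nonneg _)
  simpa [Real.norm_eq_abs] using PiLp.norm_apply_le x (e i)

lemma runMax_walk_le (x : EuclideanSpace ℝ ι) :
    ∀ k, runMax (walk e b x) k ≤ (∑ i, |b i|) * ‖x‖
  | 0 => walk_abs_le e b x 0
  | k + 1 => max_le (runMax_walk_le x k) (walk_abs_le e b x (k + 1))

lemma nice_runMax_sq (k : ℕ) : Nice (fun x => runMax (walk e b x) k ^ 2) := by
  refine Nice.of_poly ((convexOn_runMax_walk e b k).pow (fun x _ => runMax_nonneg _ _) 2)
    (A := (∑ i, |b i|) ^ 2) (by positivity) (m := 2) fun x => ?_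
  rw [abs_pow, abs_of_nonneg (runMax_nonneg _ _), ← mul_pow]
  refine pow_le_pow_left₀ (runMax_nonneg _ _) ((runMax_walk_le e b x k).trans ?_) 2
  exact mul_le_mul_of_nonneg_left (by linarith) (Finset.sum_nonneg fun i _ => abs_nonneg _)

/-- Doob's inequality for Gaussian prefix sums. -/
lemma integral_runMax_sq (he : Function.Injective e) :
    ∫ g, runMax (walk e b g) M ^ 2 ∂stdGaussian (EuclideanSpace ℝ ι) ≤ 4 * ∑ i, b i ^ 2 := by
  classical
  set μ := stdGaussian (EuclideanSpace ℝ ι)
  set φ : ℕ → EuclideanSpace ℝ ι → ℝ :=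
    fun k x => runMax (walk e b x) k * (|walk e b x (k + 1)| - |walk e b x k|) with hφ
  have hc : ∀ k, Continuous fun x => walk e b x k := fun k => by
    obtain ⟨l, hl⟩ := walk_eq_clm e b k
    simp only [hl]
    exact l.continuous
  have hcm : ∀ k, Continuous fun x => runMax (walk e b x) k := by
    intro k
    induction k with
    | zero => exact (hc 0).abs
    | succ k ih => exact ih.max (hc _).abs
  have hφi : ∀ k, Integrable (φ k) μ := by
    intro k
    have h2 : Nice (fun x : EuclideanSpace ℝ ι => (1 + ‖x‖) ^ 2) := by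
      refine Nice.of_poly ?_ (A := 1) zero_le_one (m := 2) fun x => ?_
      · exact ((convexOn_const (1 : ℝ) convex_univ).add (convexOn_norm convex_univ)).pow
          (fun x _ => add_nonneg zero_le_one (norm_nonneg x)) 2
      · rw [one_mul, abs_of_nonneg (sq_nonneg _)]
    have h3 := (h2.integrable 0 1).const_mul ((∑ i, |b i|) * (2 * ∑ i, |b i|))
    simp only [zero_add, one_smul] at h3
    refine h3.mono' (((hcm k).mul ((hc _).abs.sub (hc k).abs))).aestronglyMeasurable
      (Filter.Eventually.of_forall fun x => ?_)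
    rw [Real.norm_eq_abs, hφ, abs_mul, abs_of_nonneg (runMax_nonneg _ _)]
    have a1 := runMax_walk_le e b x k
    have a2 : abs (|walk e b x (k + 1)| - |walk e b x k|) ≤ 2 * (∑ i, |b i|) * ‖x‖ := by
      have := walk_abs_le e b x k
      have := walk_abs_le e b x (k + 1)
      rw [abs_le]
      constructor <;> linarith [abs_nonneg (walk e b x k), abs_nonneg (walk e b x (k + 1))]
    have hS : 0 ≤ ∑ i, |b i| := Finset.sum_nonneg fun i _ => abs_nonneg _
    refine (mul_le_mul a1 a2 (abs_nonneg _) (by positivity)).trans ?_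
    have h4 : ‖x‖ * ‖x‖ ≤ (1 + ‖x‖) ^ 2 := by nlinarith [norm_nonneg x]
    have h5 := mul_le_mul_of_nonneg_left h4 (mul_nonneg hS (mul_nonneg zero_le_two hS))
    linarith
  have hφ0 : ∀ k, k < M → 0 ≤ ∫ x, φ k x ∂μ := by
    intro k hk
    let f : ι → (ℝ ≃ₗᵢ[ℝ] ℝ) := fun i =>
      if i = e ⟨k, hk⟩ then LinearIsometryEquiv.neg ℝ else LinearIsometryEquiv.refl ℝ ℝ
    let R : EuclideanSpace ℝ ι ≃ₗᵢ[ℝ] EuclideanSpace ℝ ι := LinearIsometryEquiv.piLpCongrRight 2 f
    have hflip : ∀ x, R x (e ⟨k, hk⟩) = - x (e ⟨k, hk⟩) := fun x => by simp [R, f]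
    have hsame : ∀ x i, i ≠ e ⟨k, hk⟩ → R x i = x i := fun x i hi => by simp [R, f, hi]
    have hw : ∀ x j, j ≤ k → walk e b (R x) j = walk e b x j := by
      intro x j hj
      refine Finset.sum_congr rfl fun i hi => ?_
      rw [Finset.mem_filter] at hi
      rw [hsame x _ fun h => ?_]
      have := congrArg Fin.val (he h)
      simp at this
      omega
    have hs : ∀ x, walk e b x (k + 1) = walk e b x k + b ⟨k, hk⟩ * x (e ⟨k, hk⟩) := by
      intro x
      rw [walk, walk, show Finset.univ.filter (fun i : Fin M => (i : ℕ) < k + 1)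
        = insert ⟨k, hk⟩ (Finset.univ.filter (fun i : Fin M => (i : ℕ) < k)) by
          ext i; simp [Fin.ext_iff]; omega]
      rw [Finset.sum_insert (by simp), add_comm]
    have hm : ∀ x, ∀ j ≤ k, runMax (walk e b (R x)) j = runMax (walk e b x) j := by
      intro x j hj
      induction j with
      | zero => simp [runMax, hw x 0 hj]
      | succ j ih => simp [runMax, hw x (j + 1) hj, ih (by omega)]
    have heq : ∫ x, φ k (R x) ∂μ = ∫ x, φ k x ∂μ := by
      conv_rhs => rw [show μ = μ.map R from (stdGaussian_map R).symm]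
      rw [integral_map R.continuous.aemeasurable]
      exact ((hcm k).mul ((hc _).abs.sub (hc k).abs)).aestronglyMeasurable
    have hi2 : Integrable (fun x => φ k (R x)) μ := by
      have h := hφi k
      rw [show μ = μ.map R from (stdGaussian_map R).symm] at h
      exact h.comp_aemeasurable R.continuous.aemeasurable
    have : 0 ≤ ∫ x, φ k x + φ k (R x) ∂μ := by
      refine integral_nonneg fun x => ?_
      simp only [hφ, hm x k le_rfl, hs, hw x k le_rfl, hflip]
      have h1 := runMax_nonneg (walk e b x) k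
      have h2 : 2 * |walk e b x k| ≤ |walk e b x k + b ⟨k, hk⟩ * x (e ⟨k, hk⟩)|
          + |walk e b x k + b ⟨k, hk⟩ * -x (e ⟨k, hk⟩)| := by
        have := abs_add_le (walk e b x k + b ⟨k, hk⟩ * x (e ⟨k, hk⟩))
          (walk e b x k + b ⟨k, hk⟩ * -x (e ⟨k, hk⟩))
        rw [show walk e b x k + b ⟨k, hk⟩ * x (e ⟨k, hk⟩)
          + (walk e b x k + b ⟨k, hk⟩ * -x (e ⟨k, hk⟩)) = 2 * walk e b x k by ring, abs_mul,
          abs_two] at this
        exact this
      show (0 : ℝ) ≤ _
      nlinarith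
    rw [integral_add (hφi k) hi2, heq] at this
    linarith
  obtain ⟨l, hl⟩ := walk_eq_clm e b M
  have hval : ∫ g, l g ^ 2 ∂μ = ∑ i, b i ^ 2 := by
    rw [integral_sq_stdGaussian]
    have hl' : l = innerSL ℝ (WithLp.toLp 2 fun j => ∑ i, if e i = j then b i else 0) := by
      ext x
      rw [← hl, walk, Finset.filter_true_of_mem fun i _ => i.isLt, innerSL_apply_apply,
        PiLp.inner_apply]
      simp [Finset.mul_sum]
      rw [Finset.sum_comm]
      simp [mul_comm]
    rw [hl', innerSL_apply_norm, EuclideanSpace.real_norm_sq_eq]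
    have : ∀ i, (∑ j, if e j = e i then b j else 0) = b i := fun i => by simp [he.eq_iff]
    rw [← Finset.sum_subset (Finset.subset_univ (Finset.univ.image e)) fun j _ hj => ?_,
      Finset.sum_image fun i _ j _ h => he h]
    · simp [this]
    · have h0 : (∑ i, if e i = j then b i else 0) = 0 :=
        Finset.sum_eq_zero fun i _ => by
          rw [if_neg fun h => hj (Finset.mem_image.2 ⟨i, Finset.mem_univ _, h⟩)]
      simp [h0]
  have hL : Integrable (fun g => l g ^ 2) μ := by simpa using (nice_sq l).integrable 0 1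
  have hR : Integrable (fun g => runMax (walk e b g) M ^ 2) μ := by
    simpa using (nice_runMax_sq e b M).integrable 0 1
  have hS : Integrable (fun g => ∑ k ∈ Finset.range M, φ k g) μ :=
    integrable_finsetSum _ fun k _ => hφi k
  calc ∫ g, runMax (walk e b g) M ^ 2 ∂μ
      ≤ ∫ g, 4 * l g ^ 2 - 4 * ∑ k ∈ Finset.range M, φ k g ∂μ := by
        refine integral_mono hR ((hL.const_mul 4).sub (hS.const_mul 4)) fun g => ?_
        have := doob_path (walk e b g) (by simp [walk]) M
        rw [hl g] at this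
        exact this
    _ = 4 * (∑ i, b i ^ 2) - 4 * ∑ k ∈ Finset.range M, ∫ g, φ k g ∂μ := by
        rw [integral_sub (hL.const_mul 4) (hS.const_mul 4), integral_const_mul, integral_const_mul,
          hval, integral_finsetSum _ fun k _ => hφi k]
    _ ≤ _ := by
        have := Finset.sum_nonneg fun k (hk : k ∈ Finset.range M) => hφ0 k (Finset.mem_range.1 hk)
        linarith

end euclid

end Vale.Agent.P262
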