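import Mathlib
import Vale.Agent.P262.Gauss

/-!
Splitting a finite family in two while controlling several quadratic functionals at once.
-/

namespace Vale.Agent.P262

open MeasureTheory ProbabilityTheory Set
open scoped RealInnerProductSpace NNReal

/-- The functional `x ↦ ∑ v i * x i`. -/
noncomputable def lin {ι : Type*} [Fintype ι] (v : ι → ℝ) : EuclideanSpace ℝ ι →L[ℝ] ℝ :=
  innerSL ℝ (WithLp.toLp 2 v)

lemma lin_apply {ι : Type*} [Fintype ι] (v : ι → ℝ) (x : EuclideanSpace ℝ ι) :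
    lin v x = ∑ i, v i * x i := by
  rw [lin, innerSL_apply_apply, PiLp.inner_apply]
  simp [mul_comm]

lemma lin_norm_sq {ι : Type*} [Fintype ι] (v : ι → ℝ) : ‖lin v‖ ^ 2 = ∑ i, v i ^ 2 := by
  rw [lin, innerSL_apply_norm, EuclideanSpace.real_norm_sq_eq]

lemma integral_lin_sq {ι : Type*} [Fintype ι] (v : ι → ℝ) (σ : ℝ) :
    ∫ g, lin v (σ • g) ^ 2 ∂stdGaussian (EuclideanSpace ℝ ι) = σ ^ 2 * ∑ i, v i ^ 2 := by
  simp only [map_smul, smul_eq_mul, mul_pow]
  rw [integral_const_mul, integral_sq_stdGaussian, lin_norm_sq]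

lemma group_bound {a B D : ℝ} (hB : 0 ≤ B) (h0 : B = 0 → a = 0) (h : B⁻¹ * a ≤ D) :
    a ≤ D * B := by
  rcases hB.eq_or_lt with h' | h'
  · rw [h0 h'.symm, ← h', mul_zero]
  · rw [inv_mul_le_iff₀ h'] at h
    linarith

/-- One signing of a finite family with several saturated and additive quadratic objectives. -/
theorem halve {ι F G κ κ' : Type*} [Fintype F] [Fintype G] [Fintype κ] [Fintype κ']
    (s : Finset ι) (y : ι → F → ℝ) (y' : ι → G → ℝ) (z : ι → ℝ) {R : ℝ} (hR : 0 ≤ R)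
    (hy : ∀ i ∈ s, ∑ f, y i f ^ 2 ≤ R) (hz : ∀ i ∈ s, |z i| ≤ 1 / 2)
    (w : κ → F → ℝ) (hw : ∀ g f, 0 ≤ w g f) (w' : κ' → G → ℝ) (hw' : ∀ g f, 0 ≤ w' g f) :
    ∃ ε : ι → ℝ, (∀ i, ε i = 1 ∨ ε i = -1) ∧
      (∀ g, ∑ f, w g f * (∑ i ∈ s, (ε i - z i) * y i f) ^ 2
        ≤ 144 * (R + 1) * (Fintype.card κ + Fintype.card κ') * ∑ f, w g f) ∧
      (∀ g, ∑ f, w' g f * (∑ i ∈ s, (ε i - z i) * y' i f) ^ 2
        ≤ 144 * (R + 1) * (Fintype.card κ + Fintype.card κ') * ∑ f, w' g f * ∑ i ∈ s, y' i f ^ 2) := by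
  classical
  set m := s.card with hm
  set e : Fin m → ι := fun k => (s.equivFin.symm k : ι) with he
  have hes : ∀ k, e k ∈ s := fun k => (s.equivFin.symm k).2
  have hsum : ∀ φ : ι → ℝ, ∑ i ∈ s, φ i = ∑ k, φ (e k) := by
    intro φ
    rw [← Finset.sum_coe_sort s]
    exact (Equiv.sum_comp s.equivFin.symm (fun i : s => φ i)).symm
  set r := Real.sqrt (R + 1) with hr
  have hr0 : 0 < r := Real.sqrt_pos.2 (by linarith)
  have hr2 : r ^ 2 = R + 1 := Real.sq_sqrt (by linarith)
  let uf : Fin m → (F ⊕ Fin m) → ℝ :=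
    fun k => Sum.elim (fun f => r⁻¹ * y (e k) f) (fun j => if j = k then r⁻¹ else 0)
  let u : ℕ → EuclideanSpace ℝ (F ⊕ Fin m) :=
    fun k => if hk : k < m then WithLp.toLp 2 (uf ⟨k, hk⟩) else 0
  let z' : ℕ → ℝ := fun k => if hk : k < m then z (e ⟨k, hk⟩) else 0
  let v : F → (F ⊕ Fin m) → ℝ := fun f => Sum.elim (fun f' => if f' = f then r else 0) 0
  let v' : G → (F ⊕ Fin m) → ℝ := fun h => Sum.elim 0 (fun j => r * y' (e j) h)
  let B : κ → ℝ := fun g => ∑ f, w g f
  let B' : κ' → ℝ := fun g => ∑ f, w' g f * ∑ i ∈ s, y' i f ^ 2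
  have hB : ∀ g, 0 ≤ B g := fun g => Finset.sum_nonneg fun f _ => hw g f
  have hB' : ∀ g, 0 ≤ B' g := fun g => Finset.sum_nonneg fun f _ =>
    mul_nonneg (hw' g f) (Finset.sum_nonneg fun i _ => sq_nonneg _)
  let T : EuclideanSpace ℝ (F ⊕ Fin m) → ℝ := fun x =>
    (∑ g, (B g)⁻¹ * ∑ f, w g f * lin (v f) x ^ 2)
      + ∑ g, (B' g)⁻¹ * ∑ f, w' g f * lin (v' f) x ^ 2
  have hT : Nice T := by
    refine Nice.add (Nice.finsum _ fun g _ => Nice.const_mul (Nice.finsum _ fun f _ => ?_)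
      (inv_nonneg.2 (hB g))) (Nice.finsum _ fun g _ => Nice.const_mul (Nice.finsum _ fun f _ => ?_)
      (inv_nonneg.2 (hB' g)))
    · exact (nice_sq _).const_mul (hw g f)
    · exact (nice_sq _).const_mul (hw' g f)
  set x0 := ∑ i ∈ Finset.range m, z' i • u i with hx0
  let h : ℕ → EuclideanSpace ℝ (F ⊕ Fin m) → ℝ :=
    fun k => if k = m then fun x => T (x + -x0) else fun _ => 0
  have hu : ∀ k, ‖u k‖ ≤ 1 := by
    intro k
    simp only [u]
    split
    · rename_i hk
      rw [← abs_norm, ← sq_le_one_iff_abs_le_one, EuclideanSpace.real_norm_sq_eq]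
      simp only [uf, Fintype.sum_sum_type, Sum.elim_inl, Sum.elim_inr, mul_pow, ← Finset.mul_sum,
        ite_pow, zero_pow two_ne_zero, Finset.sum_ite_eq', Finset.mem_univ, if_true]
      have := hy _ (hes ⟨k, hk⟩)
      rw [inv_pow, hr2]
      have h1 : (0 : ℝ) < R + 1 := by linarith
      rw [← mul_add_one, inv_mul_le_iff₀ h1]
      linarith
    · simp
  have hz' : ∀ k, |z' k| ≤ 1 / 2 := by
    intro k
    simp only [z']
    split
    · exact hz _ (hes _)
    · norm_num
  have hh : ∀ k, Nice (h k) := by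
    intro k
    simp only [h]
    split
    · exact hT.comp_add _
    · exact nice_const 0
  obtain ⟨ε, hε, hle⟩ := exists_signs m u z' h hu hz' hh
  have key : T (∑ i ∈ Finset.range m, ε i • u i + -x0)
      ≤ ∫ g, T ((12 : ℝ) • g) ∂stdGaussian (EuclideanSpace ℝ (F ⊕ Fin m)) := by
    have hs : ∀ φ : ℕ → ℝ, (∀ k, k ≠ m → φ k = 0) → ∑ k ∈ Finset.range (m + 1), φ k = φ m :=
      fun φ hφ => Finset.sum_eq_single_of_mem m (by simp) fun k _ hk => hφ k hk
    rw [hs _ fun k hk => by simp [h, hk], hs _ fun k hk => by simp [h, hk]] at hle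
    simp only [h, if_true] at hle
    have e0 : ∀ g : EuclideanSpace ℝ (F ⊕ Fin m),
        x0 + (12 : ℝ) • g + -x0 = (12 : ℝ) • g := fun g => by abel
    simp only [← hx0, e0] at hle
    exact hle
  have hi : ∀ v : (F ⊕ Fin m) → ℝ, Integrable (fun g => lin v ((12 : ℝ) • g) ^ 2)
      (stdGaussian (EuclideanSpace ℝ (F ⊕ Fin m))) := fun v => by
    simpa using (nice_sq (lin v)).integrable 0 12
  have hint : ∫ g, T ((12 : ℝ) • g) ∂stdGaussian (EuclideanSpace ℝ (F ⊕ Fin m))
      ≤ 144 * (R + 1) * (Fintype.card κ + Fintype.card κ') := by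
    have i1 : ∀ g : κ, Integrable (fun x => (B g)⁻¹ * ∑ f, w g f * lin (v f) ((12 : ℝ) • x) ^ 2)
        (stdGaussian (EuclideanSpace ℝ (F ⊕ Fin m))) := fun g =>
      (integrable_finsetSum _ fun f _ => (hi _).const_mul _).const_mul _
    have i2 : ∀ g : κ', Integrable (fun x => (B' g)⁻¹ * ∑ f, w' g f * lin (v' f) ((12 : ℝ) • x) ^ 2)
        (stdGaussian (EuclideanSpace ℝ (F ⊕ Fin m))) := fun g =>
      (integrable_finsetSum _ fun f _ => (hi _).const_mul _).const_mul _
    simp only [T]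
    rw [integral_add (integrable_finsetSum _ fun g _ => i1 g)
      (integrable_finsetSum _ fun g _ => i2 g), integral_finsetSum _ fun g _ => i1 g,
      integral_finsetSum _ fun g _ => i2 g, mul_add]
    refine add_le_add ?_ ?_
    · rw [show (Fintype.card κ : ℝ) = ∑ _g : κ, (1 : ℝ) by simp, Finset.mul_sum]
      refine Finset.sum_le_sum fun g _ => ?_
      rw [integral_const_mul, integral_finsetSum _ fun f _ => (hi _).const_mul _]
      simp only [integral_const_mul, integral_lin_sq, v, Fintype.sum_sum_type, Sum.elim_inl,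
        Sum.elim_inr, Pi.zero_apply, ite_pow, zero_pow two_ne_zero, Finset.sum_ite_eq',
        Finset.mem_univ, if_true, Finset.sum_const_zero, add_zero, hr2]
      rw [← Finset.sum_mul, mul_one]
      rcases eq_or_ne (B g) 0 with h0 | h0
      · rw [h0]; simp only [inv_zero, zero_mul]; positivity
      · rw [← mul_assoc, inv_mul_cancel₀ h0]; norm_num
    · rw [show (Fintype.card κ' : ℝ) = ∑ _g : κ', (1 : ℝ) by simp, Finset.mul_sum]
      refine Finset.sum_le_sum fun g _ => ?_
      rw [integral_const_mul, integral_finsetSum _ fun f _ => (hi _).const_mul _]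
      simp only [integral_const_mul, integral_lin_sq, v', Fintype.sum_sum_type, Sum.elim_inl,
        Sum.elim_inr, Pi.zero_apply, zero_pow two_ne_zero, Finset.sum_const_zero, zero_add,
        mul_pow, ← Finset.mul_sum, hr2, mul_one]
      have : ∑ f, w' g f * (12 ^ 2 * ((R + 1) * ∑ j, y' (e j) f ^ 2))
          = 144 * (R + 1) * B' g := by
        simp only [B', Finset.mul_sum, hsum]
        refine Finset.sum_congr rfl fun f _ => Finset.sum_congr rfl fun j _ => ?_
        ring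
      rw [this]
      rcases eq_or_ne (B' g) 0 with h0 | h0
      · rw [h0]; simp only [inv_zero, zero_mul]; positivity
      · rw [mul_left_comm, inv_mul_cancel₀ h0, mul_one]
  let εi : ι → ℝ := fun i => if hi : i ∈ s then ε (s.equivFin ⟨i, hi⟩) else 1
  have hεe : ∀ k, εi (e k) = ε k := by
    intro k
    simp [εi, e, hes k]
  have hx : ∀ j, (∑ i ∈ Finset.range m, ε i • u i + -x0) j
      = ∑ k : Fin m, (εi (e k) - z (e k)) * uf k j := by
    intro j
    rw [hx0, ← sub_eq_add_neg, ← Finset.sum_sub_distrib, ← Fin.sum_univ_eq_sum_range]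
    simp only [WithLp.ofLp_sum, Finset.sum_apply]
    refine Finset.sum_congr rfl fun k _ => ?_
    simp [u, z', hεe]
    ring
  have hv : ∀ f, lin (v f) (∑ i ∈ Finset.range m, ε i • u i + -x0)
      = ∑ i ∈ s, (εi i - z i) * y i f := by
    intro f
    rw [lin_apply, hsum, Fintype.sum_sum_type]
    rw [Finset.sum_eq_single f (fun f' _ hf' => by simp [v, hf']) (by simp)]
    simp only [v, Sum.elim_inl, Sum.elim_inr, Pi.zero_apply, zero_mul, Finset.sum_const_zero,
      add_zero, if_true, hx, uf, Finset.mul_sum]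
    refine Finset.sum_congr rfl fun k _ => ?_
    field_simp
  have hv' : ∀ f, lin (v' f) (∑ i ∈ Finset.range m, ε i • u i + -x0)
      = ∑ i ∈ s, (εi i - z i) * y' i f := by
    intro f
    rw [lin_apply, hsum, Fintype.sum_sum_type]
    simp only [v', Sum.elim_inl, Sum.elim_inr, Pi.zero_apply, zero_mul, Finset.sum_const_zero,
      zero_add, hx, uf, mul_ite, mul_zero, Finset.sum_ite_eq, Finset.mem_univ, if_true]
    refine Finset.sum_congr rfl fun k _ => ?_
    field_simp
  have hTv := key.trans hint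
  simp only [T, hv, hv'] at hTv
  have p1 : ∀ g, 0 ≤ (B g)⁻¹ * ∑ f, w g f * (∑ i ∈ s, (εi i - z i) * y i f) ^ 2 := fun g =>
    mul_nonneg (inv_nonneg.2 (hB g)) (Finset.sum_nonneg fun f _ => mul_nonneg (hw g f) (sq_nonneg _))
  have p2 : ∀ g, 0 ≤ (B' g)⁻¹ * ∑ f, w' g f * (∑ i ∈ s, (εi i - z i) * y' i f) ^ 2 := fun g =>
    mul_nonneg (inv_nonneg.2 (hB' g))
      (Finset.sum_nonneg fun f _ => mul_nonneg (hw' g f) (sq_nonneg _))
  refine ⟨εi, fun i => ?_, fun g => group_bound (hB g) ?_ ?_, fun g => group_bound (hB' g) ?_ ?_⟩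
  · simp only [εi]
    split
    · exact hε _
    · exact Or.inl rfl
  · intro h0
    refine Finset.sum_eq_zero fun f hf => ?_
    rw [(Finset.sum_eq_zero_iff_of_nonneg fun f _ => hw g f).1 h0 f hf, zero_mul]
  · have := Finset.single_le_sum (fun g _ => p1 g) (Finset.mem_univ g)
    have := Finset.sum_nonneg fun g (_ : g ∈ (Finset.univ : Finset κ')) => p2 g
    linarith
  · intro h0
    refine Finset.sum_eq_zero fun f hf => ?_
    have := (Finset.sum_eq_zero_iff_of_nonneg fun f _ =>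
      mul_nonneg (hw' g f) (Finset.sum_nonneg fun i _ => sq_nonneg _)).1 h0 f hf
    rcases mul_eq_zero.1 this with h1 | h1
    · rw [h1, zero_mul]
    · rw [Finset.sum_eq_zero (f := fun i => (εi i - z i) * y' i f) fun i hi => ?_, zero_pow two_ne_zero,
        mul_zero]
      have := (Finset.sum_eq_zero_iff_of_nonneg fun i _ => sq_nonneg _).1 h1 i hi
      rw [sq_eq_zero_iff] at this
      rw [this, mul_zero]
  · have := Finset.single_le_sum (fun g _ => p2 g) (Finset.mem_univ g)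
    have := Finset.sum_nonneg fun g (_ : g ∈ (Finset.univ : Finset κ)) => p1 g
    linarith

end Vale.Agent.P262
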