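import Mathlib
import Vale.Agent.P262.Halve

/-!
Ordering a zero-sum family of short vectors: the best ordering is no worse than a Gaussian walk.
-/

namespace Vale.Agent.P262

open MeasureTheory ProbabilityTheory Finset
open scoped RealInnerProductSpace NNReal

lemma pow_mid (q : ℕ) {a b c : ℝ} (ha : 0 ≤ a) (hb : 0 ≤ b) (hc : 0 ≤ c) (h : c ≤ (a + b) / 2) :
    c ^ q ≤ (a ^ q + b ^ q) / 2 := by
  rcases Nat.eq_zero_or_pos q with rfl | hq
  · simp
  refine (pow_le_pow_left₀ hc h q).trans ?_
  rw [div_pow, div_le_iff₀ (by positivity)]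
  refine (add_pow_le ha hb q).trans (le_of_eq ?_)
  obtain ⟨r, rfl⟩ : ∃ r, q = r + 1 := ⟨q - 1, by omega⟩
  rw [Nat.add_sub_cancel, pow_succ (2 : ℝ)]
  ring

lemma runMax_le {w : ℕ → ℝ} {c : ℝ} : ∀ {n : ℕ}, (∀ k ≤ n, |w k| ≤ c) → runMax w n ≤ c
  | 0, h => h 0 le_rfl
  | n + 1, h => max_le (runMax_le fun k hk => h k (by omega)) (h (n + 1) le_rfl)

variable {M : ℕ}

/-- Prefix sum of the first `k` terms. -/
noncomputable def pre (φ : Fin M → ℝ) (k : ℕ) : ℝ :=
  ∑ i ∈ Finset.univ.filter (fun i : Fin M => (i : ℕ) < k), φ i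

lemma pre_zero (φ : Fin M → ℝ) : pre φ 0 = 0 := by simp [pre]

lemma pre_top (φ : Fin M → ℝ) {k : ℕ} (hk : M ≤ k) : pre φ k = ∑ i, φ i := by
  rw [pre, Finset.filter_true_of_mem fun i _ => lt_of_lt_of_le i.isLt hk]

/-- Folding a signed ordering into a new one. -/
lemma fold_perm (π : Equiv.Perm (Fin M)) (ε : Fin M → ℝ) (hε : ∀ i, ε i = 1 ∨ ε i = -1) :
    ∃ π' : Equiv.Perm (Fin M), ∃ g : ℕ → ℕ, ∃ sg : ℕ → ℝ,
      (∀ k, 1 ≤ k → k < M → g k < M) ∧
      (∀ k l, 1 ≤ k → k < M → 1 ≤ l → l < M → g k = g l → k = l) ∧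
      (∀ k, sg k = 1 ∨ sg k = -1) ∧
      ∀ φ : Fin M → ℝ, (∑ i, φ i = 0) → ∀ k, 1 ≤ k → k < M →
        pre (fun i => φ (π' i)) k = sg k *
          ((pre (fun i => φ (π i)) (g k + 1) + sg k * pre (fun i => ε i * φ (π i)) (g k + 1)) / 2) := by
  classical
  set pos : Finset (Fin M) := univ.filter (fun i => ε i = 1) with hpos
  set P := pos.card with hP
  let cp : ℕ → ℕ := fun t => (pos.filter (fun j : Fin M => (j : ℕ) < t)).card
  let cn : ℕ → ℕ := fun t => ((univ \ pos).filter (fun j : Fin M => (j : ℕ) < t)).card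
  have hcard : P + (univ \ pos).card = M := by
    rw [Finset.card_sdiff_of_subset (Finset.subset_univ _), Finset.card_univ, Fintype.card_fin]
    have := Finset.card_le_univ pos
    rw [Fintype.card_fin] at this
    omega
  have hcp : ∀ i ∈ pos, ∀ t, (i : ℕ) < t → cp i < cp t := by
    intro i hi t ht
    refine Finset.card_lt_card ⟨fun j hj => ?_, fun h => ?_⟩
    · simp only [Finset.mem_filter] at hj ⊢
      exact ⟨hj.1, lt_trans hj.2 ht⟩
    · have := h (Finset.mem_filter.2 ⟨hi, ht⟩)
      simp at this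
  have hcn : ∀ i ∉ pos, ∀ t, (i : ℕ) < t → cn i < cn t := by
    intro i hi t ht
    refine Finset.card_lt_card ⟨fun j hj => ?_, fun h => ?_⟩
    · simp only [Finset.mem_filter] at hj ⊢
      exact ⟨hj.1, lt_trans hj.2 ht⟩
    · have := h (Finset.mem_filter.2 ⟨by simp [hi], ht⟩)
      simp at this
  have hcpP : ∀ t, cp t ≤ P := fun t => Finset.card_le_card (Finset.filter_subset _ _)
  have hcnN : ∀ t, cn t ≤ M - P := fun t =>
    (Finset.card_le_card (Finset.filter_subset _ _)).trans (by omega)
  let rk : Fin M → ℕ := fun i => if i ∈ pos then cp i else M - 1 - cn i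
  have hrk1 : ∀ i ∈ pos, rk i < P := by
    intro i hi
    simp only [rk, if_pos hi]
    exact lt_of_lt_of_le (hcp i hi _ (Nat.lt_succ_self _)) (hcpP _)
  have hrk2 : ∀ i ∉ pos, P ≤ rk i ∧ rk i < M := by
    intro i hi
    simp only [rk, if_neg hi]
    have := lt_of_lt_of_le (hcn i hi _ (Nat.lt_succ_self _)) (hcnN _)
    omega
  have hlt : ∀ i, rk i < M := by
    intro i
    by_cases hi : i ∈ pos
    · have := hrk1 i hi
      omega
    · exact (hrk2 i hi).2
  have hinj : Function.Injective (fun i : Fin M => (⟨rk i, hlt i⟩ : Fin M)) := by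
    intro i j hij
    simp only [Fin.mk.injEq] at hij
    by_cases hi : i ∈ pos <;> by_cases hj : j ∈ pos
    · simp only [rk, if_pos hi, if_pos hj] at hij
      rcases lt_trichotomy (i : ℕ) j with h | h | h
      · exact absurd hij (hcp i hi _ h).ne
      · exact Fin.ext h
      · exact absurd hij (hcp j hj _ h).ne'
    · have := hrk1 i hi
      have := (hrk2 j hj).1
      omega
    · have := hrk1 j hj
      have := (hrk2 i hi).1
      omega
    · have h1 := lt_of_lt_of_le (hcn i hi _ (Nat.lt_succ_self _)) (hcnN _)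
      have h2 := lt_of_lt_of_le (hcn j hj _ (Nat.lt_succ_self _)) (hcnN _)
      simp only [rk, if_neg hi, if_neg hj] at hij
      rcases lt_trichotomy (i : ℕ) j with h | h | h
      · have := hcn i hi _ h
        omega
      · exact Fin.ext h
      · have := hcn j hj _ h
        omega
  let σ : Equiv.Perm (Fin M) := Equiv.ofBijective _ (Finite.injective_iff_bijective.1 hinj)
  have hσ : ∀ i, ((σ i : Fin M) : ℕ) = rk i := fun i => rfl
  let π' : Equiv.Perm (Fin M) := σ.symm.trans π
  let gF : ℕ → ℕ := fun k =>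
    if hk : 1 ≤ k ∧ k < M then
      (if σ.symm ⟨k - 1, by omega⟩ ∈ pos then (σ.symm ⟨k - 1, by omega⟩ : ℕ)
        else (σ.symm ⟨k, hk.2⟩ : ℕ))
    else 0
  let sF : ℕ → ℝ := fun k =>
    if hk : 1 ≤ k ∧ k < M then
      (if σ.symm ⟨k - 1, by omega⟩ ∈ pos then 1 else -1)
    else 1
  have hneg : ∀ k (h1 : 1 ≤ k) (h2 : k < M), σ.symm ⟨k - 1, by omega⟩ ∉ pos →
      σ.symm ⟨k, h2⟩ ∉ pos := by
    intro k h1 h2 h hk
    have a := (hrk2 _ h).1
    have b := hrk1 _ hk
    rw [← hσ, Equiv.apply_symm_apply] at a b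
    simp at a b
    omega
  refine ⟨π', gF, sF, fun k h1 h2 => ?_, fun k l h1 h2 h3 h4 hkl => ?_, fun k => ?_,
    fun φ h0 k h1 h2 => ?_⟩
  · simp only [gF, dif_pos (And.intro h1 h2)]
    split <;> exact Fin.isLt _
  · simp only [gF, dif_pos (And.intro h1 h2), dif_pos (And.intro h3 h4)] at hkl
    split at hkl <;> split at hkl
    all_goals
      have := congrArg (fun i => ((σ i : Fin M) : ℕ)) (Fin.ext hkl)
      simp only [Equiv.apply_symm_apply] at this
    · omega
    · rename_i ha hb
      exact absurd (by rw [← Fin.ext hkl]; exact ha) (hneg l h3 h4 hb)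
    · rename_i ha hb
      exact absurd (by rw [Fin.ext hkl]; exact hb) (hneg k h1 h2 ha)
    · exact this
  · simp only [sF]
    split
    · split <;> simp
    · simp
  have hS : ∀ t, pre (fun i => φ (π' i)) t
      = ∑ i ∈ univ.filter (fun i => rk i < t), φ (π i) := by
    intro t
    rw [pre]
    refine (Finset.sum_equiv σ (fun i => ?_) fun i _ => ?_).symm
    · simp only [Finset.mem_filter, Finset.mem_univ, true_and, hσ]
    · simp [π']
  rw [hS]
  by_cases hp : σ.symm ⟨k - 1, by omega⟩ ∈ pos
  · set i0 := σ.symm ⟨k - 1, by omega⟩ with hi0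
    have hg : gF k = i0 := by simp only [gF, dif_pos (And.intro h1 h2), ← hi0, if_pos hp]
    have hs : sF k = 1 := by simp only [sF, dif_pos (And.intro h1 h2), ← hi0, if_pos hp]
    have hr : rk i0 = k - 1 := by rw [← hσ, hi0, Equiv.apply_symm_apply]
    rw [hg, hs, one_mul, one_mul, pre, pre, ← Finset.sum_add_distrib, Finset.sum_div]
    rw [Finset.sum_filter, Finset.sum_filter]
    refine Finset.sum_congr rfl fun i _ => ?_
    have hr' : rk i0 = cp i0 := if_pos hp
    by_cases hi : i ∈ pos
    · have hri : rk i = cp i := if_pos hi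
      have hiff : rk i < k ↔ (i : ℕ) < i0 + 1 := by
        constructor
        · intro h
          by_contra hc
          push Not at hc
          have := hcp i0 hp i (by omega)
          omega
        · intro h
          rcases Nat.lt_or_eq_of_le (Nat.lt_succ_iff.1 h) with h' | h'
          · have := hcp i hi _ h'
            omega
          · rw [Fin.ext h']; omega
      have he : ε i = 1 := (Finset.mem_filter.1 hi).2
      simp only [hiff, he, one_mul]
      split <;> ring
    · have he : ε i = -1 := (hε i).resolve_left fun h => hi (by simp [pos, h])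
      have : ¬ rk i < k := by
        have := (hrk2 i hi).1
        have := hrk1 i0 hp
        omega
      simp only [this, if_false, he]
      split <;> ring
  · set i0 := σ.symm ⟨k, h2⟩ with hi0
    have hi0n : i0 ∉ pos := hneg k h1 h2 hp
    have hg : gF k = i0 := by simp only [gF, dif_pos (And.intro h1 h2), ← hi0, if_neg hp]
    have hs : sF k = -1 := by simp only [sF, dif_pos (And.intro h1 h2), if_neg hp]
    have hr : rk i0 = k := by rw [← hσ, hi0, Equiv.apply_symm_apply]
    have hc : ∑ i ∈ univ.filter (fun i => rk i < k), φ (π i)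
        = - ∑ i ∈ univ.filter (fun i => ¬ rk i < k), φ (π i) := by
      have := Finset.sum_filter_add_sum_filter_not univ (fun i => rk i < k) (fun i => φ (π i))
      rw [Equiv.sum_comp π φ, h0] at this
      linarith
    rw [hc, hg, hs, neg_one_mul, neg_one_mul, pre, pre, neg_inj, ← sub_eq_add_neg,
      ← Finset.sum_sub_distrib, Finset.sum_div]
    rw [Finset.sum_filter, Finset.sum_filter]
    refine Finset.sum_congr rfl fun i _ => ?_
    have hr' : rk i0 = M - 1 - cn i0 := if_neg hi0n
    by_cases hi : i ∈ pos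
    · have he : ε i = 1 := (Finset.mem_filter.1 hi).2
      have : rk i < k := by
        have := hrk1 i hi
        have := (hrk2 i0 hi0n).1
        omega
      simp [this, he]
    · have hri : rk i = M - 1 - cn i := if_neg hi
      have he : ε i = -1 := (hε i).resolve_left fun h => hi (by simp [pos, h])
      have hiff : ¬ rk i < k ↔ (i : ℕ) < i0 + 1 := by
        have b0 := lt_of_lt_of_le (hcn i0 hi0n _ (Nat.lt_succ_self _)) (hcnN _)
        have bi := lt_of_lt_of_le (hcn i hi _ (Nat.lt_succ_self _)) (hcnN _)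
        constructor
        · intro h
          by_contra hc
          push Not at hc
          have := hcn i0 hi0n i (by omega)
          omega
        · intro h
          rcases Nat.lt_or_eq_of_le (Nat.lt_succ_iff.1 h) with h' | h'
          · have := hcn i hi _ h'
            omega
          · rw [Fin.ext h']; omega
      simp only [hiff, he]
      split <;> ring

/-- The ordering lemma. -/
theorem order {F G κ κ' : Type*} [Fintype F] [Fintype G] [Fintype κ] [Fintype κ'] (n : ℕ)
    (hM : M + 1 ≤ 2 ^ (n + 1))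
    (a : Fin M → F → ℝ) (b : Fin M → G → ℝ) {R : ℝ} (hR : 0 ≤ R)
    (ha : ∀ p, ∑ f, a p f ^ 2 ≤ R) (ha0 : ∀ f, ∑ p, a p f = 0) (hb0 : ∀ f, ∑ p, b p f = 0)
    (w : κ → F → ℝ) (hw : ∀ g f, 0 ≤ w g f) (wb : κ → ℝ) (hwb : ∀ g f, w g f ≤ wb g)
    (hwb0 : ∀ g, 0 ≤ wb g)
    (w' : κ' → G → ℝ) (hw' : ∀ g f, 0 ≤ w' g f) :
    ∃ π : Equiv.Perm (Fin M), ∀ k ≤ M,
      (∀ g, ∑ f, w g f * pre (fun i => a (π i) f) k ^ 2
        ≤ 5000 * (R + 1) * (Fintype.card κ + 576 * (R + 1) * Fintype.card κ' + 1)
          * (∑ f, w g f + (n + 1) * wb g)) ∧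
      (∀ g, ∑ f, w' g f * pre (fun i => b (π i) f) k ^ 2
        ≤ (Fintype.card κ + 576 * (R + 1) * Fintype.card κ') * ∑ f, w' g f * ∑ p, b p f ^ 2) := by
  classical
  let q : κ → ℕ := fun g => n + 1 + ⌈(∑ f, w g f) / wb g⌉₊
  let B : κ → ℝ := fun g => 2304 * (R + 1) * (wb g * q g)
  let B' : κ' → ℝ := fun g => ∑ f, w' g f * ∑ p, b p f ^ 2
  have hB' : ∀ g, 0 ≤ B' g := fun g => sum_nonneg fun f _ =>
    mul_nonneg (hw' g f) (sum_nonneg fun p _ => sq_nonneg _)
  have hB : ∀ g, 0 ≤ B g := fun g => by have := hwb0 g; positivity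
  let Q : κ → (F → ℝ) → ℝ := fun g S => (B g)⁻¹ * ∑ f, w g f * S f ^ 2
  have hQ : ∀ g S, 0 ≤ Q g S := fun g S =>
    mul_nonneg (inv_nonneg.2 (hB g)) (sum_nonneg fun f _ => mul_nonneg (hw g f) (sq_nonneg _))
  let H : (F → ℝ) → ℝ := fun S => ∑ g, Q g S ^ q g
  have hH : ∀ S, 0 ≤ H S := fun S => sum_nonneg fun g _ => pow_nonneg (hQ g S) _
  let fm : (G → ℕ → ℝ) → ℝ := fun W => ∑ g, (B' g)⁻¹ * ∑ f, w' g f * runMax (W f) M ^ 2
  let Φ : Equiv.Perm (Fin M) → ℝ := fun π =>
    ∑ k ∈ range (M + 1), H (fun f => pre (fun i => a (π i) f) k)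
      + fm (fun f => pre (fun i => b (π i) f))
  obtain ⟨π, -, hπ⟩ := Finset.exists_min_image univ Φ univ_nonempty
  -- signs along the minimiser
  set r := Real.sqrt (R + 1) with hr
  have hr0 : 0 < r := Real.sqrt_pos.2 (by linarith)
  have hr2 : r ^ 2 = R + 1 := Real.sq_sqrt (by linarith)
  let uf : Fin M → (F ⊕ Fin M) → ℝ :=
    fun k => Sum.elim (fun f => r⁻¹ * a (π k) f) (fun j => if j = k then r⁻¹ else 0)
  let u : ℕ → EuclideanSpace ℝ (F ⊕ Fin M) :=
    fun k => if hk : k < M then WithLp.toLp 2 (uf ⟨k, hk⟩) else 0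
  let v : κ → (F ⊕ Fin M) → ℝ := fun g => Sum.elim (fun f => (B g)⁻¹ * ((R + 1) * w g f)) 0
  have hv : ∀ g i, 0 ≤ v g i := by
    intro g i
    rcases i with f | j
    · have := hB g
      have := hw g f
      simp only [v, Sum.elim_inl]
      positivity
    · simp [v]
  let e : Fin M → F ⊕ Fin M := Sum.inr
  let bw : G → Fin M → ℝ := fun f i => r * b (π i) f
  let T : EuclideanSpace ℝ (F ⊕ Fin M) → ℝ := fun x => ∑ g, qform (v g) x ^ q g
  let Tf : EuclideanSpace ℝ (F ⊕ Fin M) → ℝ := fun x =>
    ∑ g, (B' g)⁻¹ * ∑ f, w' g f * runMax (walk e (bw f) x) M ^ 2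
  have hT : Nice T := Nice.finsum _ fun g _ => nice_qform_pow (hv g) _
  have hTf : Nice Tf := Nice.finsum _ fun g _ => (Nice.finsum _ fun f _ =>
    (nice_runMax_sq e (bw f) M).const_mul (hw' g f)).const_mul (inv_nonneg.2 (hB' g))
  let h : ℕ → EuclideanSpace ℝ (F ⊕ Fin M) → ℝ :=
    fun k => if k = M then fun x => T x + Tf x else T
  have hh : ∀ k, Nice (h k) := by
    intro k
    simp only [h]
    split
    · exact hT.add hTf
    · exact hT
  have hu : ∀ k, ‖u k‖ ≤ 1 := by
    intro k
    simp only [u]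
    split
    · rename_i hk
      rw [← abs_norm, ← sq_le_one_iff_abs_le_one, EuclideanSpace.real_norm_sq_eq]
      simp only [uf, Fintype.sum_sum_type, Sum.elim_inl, Sum.elim_inr, mul_pow, ← Finset.mul_sum,
        ite_pow, zero_pow two_ne_zero, Finset.sum_ite_eq', Finset.mem_univ, if_true]
      rw [inv_pow, hr2, ← mul_add_one, inv_mul_le_iff₀ (by linarith)]
      linarith [ha (π ⟨k, hk⟩)]
    · simp
  obtain ⟨ε, hε, hle⟩ := exists_signs M u (fun _ => 0) h hu (fun _ => by norm_num) hh
  have hsumsplit : ∀ X : ℕ → EuclideanSpace ℝ (F ⊕ Fin M),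
      ∑ k ∈ range (M + 1), h k (X k) = ∑ k ∈ range (M + 1), T (X k) + Tf (X M) := by
    intro X
    rw [sum_range_succ, sum_range_succ, add_assoc]
    refine congrArg₂ (· + ·) (sum_congr rfl fun k hk => ?_) (by simp [h])
    simp [h, (mem_range.1 hk).ne]
  -- the Gaussian side
  have hgauss : ∑ k ∈ range (M + 1), ∫ g, h k (∑ i ∈ range k, (0 : ℝ) • u i + (12 : ℝ) • g)
        ∂stdGaussian (EuclideanSpace ℝ (F ⊕ Fin M))
      ≤ Fintype.card κ + 576 * (R + 1) * Fintype.card κ' := by
    have hTi : Integrable (fun g => T ((12 : ℝ) • g))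
        (stdGaussian (EuclideanSpace ℝ (F ⊕ Fin M))) := by simpa using hT.integrable 0 12
    have hTfi : Integrable (fun g => Tf ((12 : ℝ) • g))
        (stdGaussian (EuclideanSpace ℝ (F ⊕ Fin M))) := by simpa using hTf.integrable 0 12
    have e1 : ∑ k ∈ range (M + 1), ∫ g, h k (∑ i ∈ range k, (0 : ℝ) • u i + (12 : ℝ) • g)
          ∂stdGaussian (EuclideanSpace ℝ (F ⊕ Fin M))
        = (M + 1) * (∫ g, T ((12 : ℝ) • g) ∂stdGaussian (EuclideanSpace ℝ (F ⊕ Fin M)))
          + ∫ g, Tf ((12 : ℝ) • g) ∂stdGaussian (EuclideanSpace ℝ (F ⊕ Fin M)) := by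
      simp only [zero_smul, sum_const_zero, zero_add]
      rw [sum_range_succ, sum_congr rfl fun k hk => by rw [show h k = T by
        simp [h, (mem_range.1 hk).ne]], sum_const, card_range, nsmul_eq_mul]
      simp only [h, if_true]
      rw [integral_add hTi hTfi]
      ring
    rw [e1]
    refine add_le_add ?_ ?_
    · have hi : ∀ g, Integrable (fun x => qform (v g) ((12 : ℝ) • x) ^ q g)
          (stdGaussian (EuclideanSpace ℝ (F ⊕ Fin M))) := fun g => by
        simpa using (nice_qform_pow (hv g) (q g)).integrable 0 12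
      simp only [T]
      rw [integral_finsetSum _ fun g _ => hi g, Finset.mul_sum,
        show (Fintype.card κ : ℝ) = ∑ _g : κ, (1 : ℝ) by simp]
      refine sum_le_sum fun g _ => ?_
      have hq1 : n + 1 ≤ q g := Nat.le_add_right _ _
      rcases (hwb0 g).eq_or_lt with h0 | h0
      · have : ∀ x, qform (v g) x = 0 := fun x => by
          simp [qform, v, Fintype.sum_sum_type, show ∀ f, w g f = 0 from fun f =>
            le_antisymm ((hwb g f).trans_eq h0.symm) (hw g f)]
        simp [this, zero_pow (show q g ≠ 0 by omega)]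
      have hqpos : (0 : ℝ) < q g := Nat.cast_pos.2 (by omega)
      have e2 : ∀ x : EuclideanSpace ℝ (F ⊕ Fin M),
          qform (v g) ((12 : ℝ) • x) = qform (fun i => 144 * v g i) x := fun x => by
        simp only [qform, PiLp.smul_apply, smul_eq_mul]
        exact sum_congr rfl fun i _ => by ring
      simp only [e2]
      have hW : ∀ i, 144 * v g i ≤ 1 / (16 * q g) := by
        intro i
        rcases i with f | j
        · simp only [v, B, Sum.elim_inl]
          rw [inv_mul_eq_div, mul_div_assoc', div_le_div_iff₀ (by positivity) (by positivity)]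
          nlinarith [mul_le_mul_of_nonneg_left (hwb g f)
            (show (0 : ℝ) ≤ 2304 * (R + 1) * q g by positivity)]
        · simp only [v, Sum.elim_inr, Pi.zero_apply, mul_zero]
          positivity
      refine (mul_le_mul_of_nonneg_left (integral_qform_pow
        (fun i => mul_nonneg (by norm_num) (hv g i)) hW (by positivity) (q g))
        (by positivity)).trans ?_
      have e3 : 4 * (q g : ℝ) * (1 / (16 * q g)) = 1 / 4 := by field_simp; ring
      rw [e3]
      have e4 : (∑ i, 144 * v g i) / (2 * (1 / (16 * q g))) ≤ (q g : ℝ) / 2 := by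
        simp only [v, B, Fintype.sum_sum_type, Sum.elim_inl, Sum.elim_inr, Pi.zero_apply, mul_zero,
          sum_const_zero, add_zero, ← mul_sum]
        rw [div_le_iff₀ (by positivity)]
        have hS : (∑ f, w g f) ≤ q g * wb g := by
          rw [← div_le_iff₀ h0]
          refine (Nat.le_ceil _).trans ?_
          exact Nat.cast_le.2 (Nat.le_add_left _ _)
        rw [inv_mul_eq_div, mul_div_assoc', div_le_iff₀ (by positivity)]
        field_simp
        nlinarith [mul_le_mul_of_nonneg_left hS (show (0 : ℝ) ≤ R + 1 by linarith)]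
      refine (mul_le_mul_of_nonneg_left (mul_le_mul_of_nonneg_left (Real.exp_le_exp.2 e4)
        (by positivity)) (by positivity)).trans ?_
      have e5 : Real.exp ((q g : ℝ) / 2) ≤ 2 ^ q g := by
        rw [show (q g : ℝ) / 2 = (q g : ℕ) * (1 / 2 : ℝ) by ring, Real.exp_nat_mul]
        refine pow_le_pow_left₀ (Real.exp_pos _).le ?_ _
        have := Real.exp_bound_div_one_sub_of_interval' (x := 1 / 2) (by norm_num) (by norm_num)
        norm_num at this ⊢
        linarith
      refine (mul_le_mul_of_nonneg_left (mul_le_mul_of_nonneg_left e5 (by positivity))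
        (by positivity)).trans ?_
      rw [← mul_pow]
      have hM' : ((M : ℝ) + 1) ≤ 2 ^ q g := by
        calc ((M : ℝ) + 1) ≤ 2 ^ (n + 1) := by exact_mod_cast hM
          _ ≤ _ := pow_le_pow_right₀ one_le_two hq1
      refine (mul_le_mul_of_nonneg_right hM' (by positivity)).trans ?_
      rw [← mul_pow]
      norm_num
    · have hi : ∀ f, Integrable (fun x => runMax (walk e (bw f) ((12 : ℝ) • x)) M ^ 2)
          (stdGaussian (EuclideanSpace ℝ (F ⊕ Fin M))) := fun f => by
        simpa using (nice_runMax_sq e (bw f) M).integrable 0 12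
      have hi2 : ∀ g, Integrable (fun x => (B' g)⁻¹
          * ∑ f, w' g f * runMax (walk e (bw f) ((12 : ℝ) • x)) M ^ 2)
          (stdGaussian (EuclideanSpace ℝ (F ⊕ Fin M))) := fun g =>
        (integrable_finsetSum _ fun f _ => (hi f).const_mul _).const_mul _
      simp only [Tf]
      rw [integral_finsetSum _ fun g _ => hi2 g,
        show (Fintype.card κ' : ℝ) = ∑ _g : κ', (1 : ℝ) by simp, Finset.mul_sum]
      refine sum_le_sum fun g _ => ?_
      rw [integral_const_mul, integral_finsetSum _ fun f _ => (hi f).const_mul _, mul_one]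
      have e2 : ∀ f, ∫ x, runMax (walk e (bw f) ((12 : ℝ) • x)) M ^ 2
          ∂stdGaussian (EuclideanSpace ℝ (F ⊕ Fin M)) ≤ 576 * (R + 1) * ∑ p, b p f ^ 2 := by
        intro f
        have e3 : ∀ x, walk e (bw f) ((12 : ℝ) • x) = walk e (fun i => 12 * bw f i) x := by
          intro x
          funext k
          simp only [walk, PiLp.smul_apply, smul_eq_mul]
          exact sum_congr rfl fun i _ => by ring
        simp only [e3]
        refine (integral_runMax_sq e _ Sum.inr_injective).trans (le_of_eq ?_)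
        simp only [bw, mul_pow, ← mul_sum, hr2, Equiv.sum_comp π (fun p => b p f ^ 2)]
        ring
      have e4 : ∑ f, w' g f * (∫ x, runMax (walk e (bw f) ((12 : ℝ) • x)) M ^ 2
          ∂stdGaussian (EuclideanSpace ℝ (F ⊕ Fin M))) ≤ 576 * (R + 1) * B' g := by
        simp only [B', mul_sum]
        refine sum_le_sum fun f _ => (mul_le_mul_of_nonneg_left (e2 f) (hw' g f)).trans (le_of_eq ?_)
        rw [mul_sum, mul_sum]
        exact sum_congr rfl fun p _ => by ring
      simp only [integral_const_mul]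
      refine (mul_le_mul_of_nonneg_left e4 (inv_nonneg.2 (hB' g))).trans ?_
      rcases eq_or_ne (B' g) 0 with h0 | h0
      · rw [h0, inv_zero, zero_mul]; positivity
      · rw [mul_left_comm, inv_mul_cancel₀ h0, mul_one]
  -- the signed walk
  let U : F → ℕ → ℝ := fun f => pre (fun i => ε i * a (π i) f)
  let U' : G → ℕ → ℝ := fun f => pre (fun i => ε i * b (π i) f)
  have hx : ∀ k, ∀ j, (∑ i ∈ range k, ε i • u i) j
      = ∑ i ∈ univ.filter (fun i : Fin M => (i : ℕ) < k), ε i * uf i j := by
    intro k j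
    have : ∀ k, ∑ i ∈ range k, ε i • u i
        = ∑ i ∈ univ.filter (fun i : Fin M => (i : ℕ) < k), ε i • WithLp.toLp 2 (uf i) := by
      intro k
      induction k with
      | zero => simp
      | succ k ih =>
        rw [sum_range_succ, ih]
        by_cases hk : k < M
        · rw [show univ.filter (fun i : Fin M => (i : ℕ) < k + 1)
            = insert ⟨k, hk⟩ (univ.filter (fun i : Fin M => (i : ℕ) < k)) by
              ext i; simp [Fin.ext_iff]; omega, sum_insert (by simp), add_comm]
          simp [u, hk]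
        · rw [show univ.filter (fun i : Fin M => (i : ℕ) < k + 1)
            = univ.filter (fun i : Fin M => (i : ℕ) < k) by
              ext i; simp; omega]
          simp [u, hk]
    rw [this]
    simp [WithLp.ofLp_sum, Finset.sum_apply]
  have hTU : ∀ k, T (∑ i ∈ range k, ε i • u i) = H (fun f => U f k) := by
    intro k
    refine sum_congr rfl fun g _ => congrArg (· ^ q g) ?_
    simp only [qform, v, Fintype.sum_sum_type, Sum.elim_inl, Sum.elim_inr, Pi.zero_apply, zero_mul,
      sum_const_zero, add_zero, hx, uf, Q, U, pre, mul_sum]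
    refine sum_congr rfl fun f _ => ?_
    have : ∑ i ∈ univ.filter (fun i : Fin M => (i : ℕ) < k), ε i * (r⁻¹ * a (π i) f)
        = r⁻¹ * ∑ i ∈ univ.filter (fun i : Fin M => (i : ℕ) < k), ε i * a (π i) f := by
      rw [mul_sum]; exact sum_congr rfl fun i _ => by ring
    rw [this, mul_pow, inv_pow, hr2]
    have : R + 1 ≠ 0 := by linarith
    field_simp
  have hTfU : Tf (∑ i ∈ range M, ε i • u i) = fm U' := by
    simp only [Tf, fm]
    refine sum_congr rfl fun g _ => congrArg _ (sum_congr rfl fun f _ => ?_)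
    suffices hwalk : walk e (bw f) (∑ i ∈ range M, ε i • u i) = U' f by rw [hwalk]
    funext k
    simp only [walk, U', pre, hx, uf, e, bw, Sum.elim_inr, mul_ite, mul_zero,
      Finset.sum_ite_eq, Finset.mem_filter, Finset.mem_univ, true_and, Fin.isLt, if_true]
    refine sum_congr rfl fun i _ => ?_
    field_simp
  have hΦU : ∑ k ∈ range (M + 1), H (fun f => U f k) + fm U'
      ≤ Fintype.card κ + 576 * (R + 1) * Fintype.card κ' := by
    refine le_trans ?_ (hle.trans hgauss)
    rw [hsumsplit, hTfU]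
    simp only [hTU]
    exact le_rfl
  -- folding
  obtain ⟨π', gk, sg, hg1, hg2, hsg, hfold⟩ := fold_perm π (fun i => ε i) (fun i => hε i)
  have hHmid : ∀ k, 1 ≤ k → k < M → H (fun f => pre (fun i => a (π' i) f) k)
      ≤ (H (fun f => pre (fun i => a (π i) f) (gk k + 1)) + H (fun f => U f (gk k + 1))) / 2 := by
    intro k h1 h2
    simp only [H, ← sum_add_distrib, sum_div]
    refine sum_le_sum fun g _ => pow_mid _ (hQ _ _) (hQ _ _) (hQ _ _) ?_
    simp only [Q, ← mul_add, mul_div_assoc]
    refine mul_le_mul_of_nonneg_left ?_ (inv_nonneg.2 (hB g))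
    rw [← sum_add_distrib, sum_div]
    refine sum_le_sum fun f _ => ?_
    rw [hfold (fun p => a p f) (ha0 f) k h1 h2, ← mul_add, mul_div_assoc]
    refine mul_le_mul_of_nonneg_left ?_ (hw g f)
    rcases hsg k with h | h <;> rw [h] <;>
      nlinarith [sq_nonneg (pre (fun i => a (π i) f) (gk k + 1) - U f (gk k + 1)),
        sq_nonneg (pre (fun i => a (π i) f) (gk k + 1) + U f (gk k + 1))]
  have hsumH : ∑ k ∈ range (M + 1), H (fun f => pre (fun i => a (π' i) f) k)
      ≤ (∑ k ∈ range (M + 1), H (fun f => pre (fun i => a (π i) f) k)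
          + ∑ k ∈ range (M + 1), H (fun f => U f k)) / 2 := by
    have h0 : H (fun _ => 0) = 0 := sum_eq_zero fun g _ => by
      simp [Q, zero_pow (show q g ≠ 0 by simp [q])]
    have hend : ∀ k ∈ range (M + 1), k ∉ Finset.Ico 1 M →
        H (fun f => pre (fun i => a (π' i) f) k) = 0 := by
      intro k hk hk'
      have hk2 : k < M + 1 := mem_range.1 hk
      simp only [Finset.mem_Ico, not_and_or, not_le, not_lt] at hk'
      rcases hk' with hk' | hk'
      · obtain rfl : k = 0 := by omega
        simp only [pre_zero, h0]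
      · rw [show (fun f => pre (fun i => a (π' i) f) k) = fun _ => 0 from funext fun f => by
          rw [pre_top _ hk', Equiv.sum_comp π' (fun p => a p f), ha0], h0]
    have hre : ∀ φ : ℕ → ℝ, (∀ t, 0 ≤ φ t) →
        ∑ k ∈ Finset.Ico 1 M, φ (gk k + 1) ≤ ∑ t ∈ range (M + 1), φ t := by
      intro φ hφ
      rw [← sum_image (g := fun k => gk k + 1) (f := φ) fun k hk l hl hkl => ?_]
      · exact sum_le_sum_of_subset_of_nonneg (fun t ht => by
          obtain ⟨k, hk, rfl⟩ := Finset.mem_image.1 ht
          have := hg1 k (Finset.mem_Ico.1 hk).1 (Finset.mem_Ico.1 hk).2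
          exact mem_range.2 (by omega)) fun t _ _ => hφ _
      · rw [Finset.mem_coe, Finset.mem_Ico] at hk hl
        exact hg2 k l hk.1 hk.2 hl.1 hl.2 (by simpa using hkl)
    rw [← sum_subset (fun k hk => mem_range.2 (by simp at hk; omega)) hend]
    refine (sum_le_sum fun k hk => hHmid k (Finset.mem_Ico.1 hk).1 (Finset.mem_Ico.1 hk).2).trans ?_
    rw [← sum_div, sum_add_distrib]
    gcongr
    · exact hre (fun t => H (fun f => pre (fun i => a (π i) f) t)) fun t => hH _
    · exact hre (fun t => H (fun f => U f t)) fun t => hH _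
  have hfm : fm (fun f => pre (fun i => b (π' i) f))
      ≤ (fm (fun f => pre (fun i => b (π i) f)) + fm U') / 2 := by
    simp only [fm, ← sum_add_distrib, sum_div]
    refine sum_le_sum fun g _ => ?_
    rw [← mul_add, mul_div_assoc, ← sum_add_distrib, sum_div]
    refine mul_le_mul_of_nonneg_left (sum_le_sum fun f _ => ?_) (inv_nonneg.2 (hB' g))
    rw [← mul_add, mul_div_assoc]
    refine mul_le_mul_of_nonneg_left (pow_mid 2 (runMax_nonneg _ _) (runMax_nonneg _ _)
      (runMax_nonneg _ _) (runMax_le fun k hk => ?_)) (hw' g f)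
    have n1 := runMax_nonneg (pre (fun i => b (π i) f)) M
    have n2 := runMax_nonneg (U' f) M
    by_cases hk1 : 1 ≤ k ∧ k < M
    · rw [hfold (fun p => b p f) (hb0 f) k hk1.1 hk1.2]
      have hgk := hg1 k hk1.1 hk1.2
      obtain ⟨c1, c2⟩ := abs_le.1 (abs_le_runMax (pre (fun i => b (π i) f))
        (show gk k + 1 ≤ M by omega))
      obtain ⟨c3, c4⟩ := abs_le.1 (abs_le_runMax (U' f) (show gk k + 1 ≤ M by omega))
      simp only [U'] at c3 c4 ⊢
      rcases hsg k with h | h <;> rw [h, abs_le] <;> constructor <;> linarith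
    · rcases Nat.eq_zero_or_pos k with rfl | hk0
      · rw [pre_zero, abs_zero]; linarith
      · rw [pre_top _ (show M ≤ k by omega), Equiv.sum_comp π' (fun p => b p f), hb0, abs_zero]
        linarith
  have hmin : Φ π ≤ Fintype.card κ + 576 * (R + 1) * Fintype.card κ' := by
    have := hπ π' (mem_univ _)
    simp only [Φ] at this ⊢
    linarith
  refine ⟨π, fun k hk => ⟨fun g => ?_, fun g => ?_⟩⟩
  · set S : F → ℝ := fun f => pre (fun i => a (π i) f) k
    set D : ℝ := Fintype.card κ + 576 * (R + 1) * Fintype.card κ'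
    have hD : 0 ≤ D := by positivity
    have hfm0 : 0 ≤ fm (fun f => pre (fun i => b (π i) f)) := sum_nonneg fun g _ =>
      mul_nonneg (inv_nonneg.2 (hB' g)) (sum_nonneg fun f _ => mul_nonneg (hw' g f) (sq_nonneg _))
    have hqD : Q g S ^ q g ≤ D := by
      refine le_trans ?_ hmin
      simp only [Φ]
      refine le_trans ?_ (le_add_of_nonneg_right hfm0)
      refine le_trans ?_ (single_le_sum (f := fun k => H (fun f => pre (fun i => a (π i) f) k))
        (fun k _ => hH _) (mem_range.2 (Nat.lt_succ_of_le hk)))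
      exact single_le_sum (f := fun g => Q g S ^ q g) (fun g _ => pow_nonneg (hQ g S) _) (mem_univ g)
    have hQD : Q g S ≤ D + 1 := by
      by_contra hc
      push Not at hc
      have := le_self_pow₀ (show 1 ≤ Q g S by linarith) (show q g ≠ 0 by simp [q])
      linarith
    refine (group_bound (hB g) (fun h0 => ?_) hQD).trans ?_
    · refine sum_eq_zero fun f _ => ?_
      have hwb1 : wb g = 0 := by
        by_contra hc
        have : 0 < wb g := lt_of_le_of_ne (hwb0 g) (Ne.symm hc)
        have : (0 : ℝ) < q g := Nat.cast_pos.2 (by simp [q])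
        have : 0 < B g := by simp only [B]; positivity
        linarith
      rw [le_antisymm ((hwb g f).trans_eq hwb1) (hw g f), zero_mul]
    · simp only [B]
      have hS : wb g * q g ≤ ∑ f, w g f + 2 * ((n + 1) * wb g) := by
        rcases (hwb0 g).eq_or_lt with h0 | h0
        · rw [← h0, zero_mul, mul_zero, mul_zero, add_zero]; exact sum_nonneg fun f _ => hw g f
        have := (Nat.ceil_lt_add_one (show 0 ≤ (∑ f, w g f) / wb g from
          div_nonneg (sum_nonneg fun f _ => hw g f) h0.le)).le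
        simp only [q, Nat.cast_add, Nat.cast_one]
        have h2 := mul_le_mul_of_nonneg_left this h0.le
        rw [mul_add, mul_div_cancel₀ _ h0.ne'] at h2
        have : 0 ≤ (n : ℝ) * wb g := by positivity
        nlinarith
      have hW : 0 ≤ ∑ f, w g f := sum_nonneg fun f _ => hw g f
      have hn : 0 ≤ ((n : ℝ) + 1) * wb g := by have := hwb0 g; positivity
      have h1 := mul_le_mul_of_nonneg_left hS (show (0 : ℝ) ≤ (D + 1) * (2304 * (R + 1)) by positivity)
      have h2 : 0 ≤ (D + 1) * (R + 1) * ∑ f, w g f := by positivity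
      have h3 : 0 ≤ (D + 1) * (R + 1) * (((n : ℝ) + 1) * wb g) := by positivity
      linarith
  · set D : ℝ := Fintype.card κ + 576 * (R + 1) * Fintype.card κ'
    have hH0 : 0 ≤ ∑ k ∈ range (M + 1), H (fun f => pre (fun i => a (π i) f) k) :=
      sum_nonneg fun k _ => hH _
    refine group_bound (hB' g) (fun h0 => ?_) ?_
    · refine sum_eq_zero fun f hf => ?_
      have := (sum_eq_zero_iff_of_nonneg fun f _ =>
        mul_nonneg (hw' g f) (sum_nonneg fun p _ => sq_nonneg _)).1 h0 f hf
      rcases mul_eq_zero.1 this with h1 | h1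
      · rw [h1, zero_mul]
      · rw [show pre (fun i => b (π i) f) k = 0 from sum_eq_zero fun i _ =>
          sq_eq_zero_iff.1 ((sum_eq_zero_iff_of_nonneg fun p _ => sq_nonneg _).1 h1 _ (mem_univ _)),
          zero_pow two_ne_zero, mul_zero]
    · refine le_trans ?_ hmin
      simp only [Φ]
      refine le_trans ?_ (le_add_of_nonneg_left hH0)
      simp only [fm]
      refine le_trans ?_ (single_le_sum (f := fun g => (B' g)⁻¹ *
        ∑ f, w' g f * runMax (pre (fun i => b (π i) f)) M ^ 2) (fun g _ =>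
          mul_nonneg (inv_nonneg.2 (hB' g)) (sum_nonneg fun f _ =>
            mul_nonneg (hw' g f) (sq_nonneg _))) (mem_univ g))
      refine mul_le_mul_of_nonneg_left (sum_le_sum fun f _ => ?_) (inv_nonneg.2 (hB' g))
      refine mul_le_mul_of_nonneg_left ?_ (hw' g f)
      have := abs_le_runMax (pre (fun i => b (π i) f)) hk
      nlinarith [abs_nonneg (pre (fun i => b (π i) f) k),
        sq_abs (pre (fun i => b (π i) f) k)]

end Vale.Agent.P262
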