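import Mathlib
import Vale.Agent.P262.Halve

/-!
Repeated halving: a finite family is cut into `2 ^ n` pieces with all deviations under control.
-/

namespace Vale.Agent.P262

open Finset

variable {ι : Type*}

/-- Deviation of piece `p` from the average of `M` pieces. -/
noncomputable def pdev (s : Finset ι) (pc : ι → ℕ) (M : ℕ) (p : ℕ) (φ : ι → ℝ) : ℝ :=
  (∑ i ∈ s.filter (fun i => pc i = p), φ i) - (∑ i ∈ s, φ i) / M

lemma pdev_child (s : Finset ι) (pc : ι → ℕ) (n p b : ℕ) (ε : ℕ → ι → ℝ)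
    (hε : ∀ q i, ε q i = 1 ∨ ε q i = -1) (hb : b < 2) (φ : ι → ℝ) :
    pdev s (fun i => 2 * pc i + if ε (pc i) i = 1 then 0 else 1) (2 ^ (n + 1)) (2 * p + b) φ
      = pdev s pc (2 ^ n) p φ / 2
        + (if b = 0 then 1 else -1) / 2 * ∑ i ∈ s.filter (fun i => pc i = p), ε p i * φ i := by
  have key : ∑ i ∈ s.filter (fun i => (2 * pc i + if ε (pc i) i = 1 then 0 else 1) = 2 * p + b), φ i
      = ∑ i ∈ s.filter (fun i => pc i = p),
          (1 + (if b = 0 then 1 else -1) * ε p i) / 2 * φ i := by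
    rw [Finset.sum_filter, Finset.sum_filter]
    refine Finset.sum_congr rfl fun i _ => ?_
    by_cases hp : pc i = p
    · subst hp
      rcases hε (pc i) i with h | h <;> interval_cases b <;> norm_num [h]
    · rw [if_neg hp, if_neg]
      split <;> omega
  simp only [pdev, key]
  have : ∀ i, (1 + (if b = 0 then (1 : ℝ) else -1) * ε p i) / 2 * φ i
      = φ i / 2 + (if b = 0 then (1 : ℝ) else -1) / 2 * (ε p i * φ i) := fun i => by ring
  simp only [this, Finset.sum_add_distrib, ← Finset.mul_sum, ← Finset.sum_div]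
  push_cast
  ring

lemma sum_range_two_mul (φ : ℕ → ℝ) :
    ∀ m, ∑ q ∈ range (2 * m), φ q = ∑ p ∈ range m, (φ (2 * p) + φ (2 * p + 1))
  | 0 => by simp
  | m + 1 => by
    rw [show 2 * (m + 1) = 2 * m + 1 + 1 by ring, sum_range_succ, sum_range_succ,
      sum_range_two_mul φ m, sum_range_succ]
    ring

lemma sum_fiber (s : Finset ι) (pc : ι → ℕ) (M : ℕ) (h : ∀ i ∈ s, pc i < M) (φ : ι → ℝ) :
    ∑ p ∈ range M, ∑ i ∈ s.filter (fun i => pc i = p), φ i = ∑ i ∈ s, φ i :=
  Finset.sum_fiberwise_of_maps_to (fun i hi => mem_range.2 (h i hi)) φ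

/-- Halving tree. -/
theorem tree {F G τ κ κ' : Type*} [Fintype F] [Fintype G] [Fintype τ] [Fintype κ] [Fintype κ']
    (s : Finset ι) (y : ι → F → ℝ) (y' : ι → G → ℝ) (t : ι → τ → ℝ) {R : ℝ} (hR : 0 ≤ R)
    (hy : ∀ i ∈ s, ∑ f, y i f ^ 2 ≤ R) (ht : ∀ i ∈ s, ∑ f, t i f ^ 2 ≤ 1)
    (w : κ → F → ℝ) (hw : ∀ g f, 0 ≤ w g f) (w' : κ' → G → ℝ) (hw' : ∀ g f, 0 ≤ w' g f)
    (C : ℝ) (hC : 144 * (R + 2) * (Fintype.card κ + Fintype.card κ' + 2) ≤ C) (n : ℕ) :
    ∃ pc : ι → ℕ, (∀ i ∈ s, pc i < 2 ^ n) ∧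
      (∀ g p, p < 2 ^ n → ∑ f, w g f * pdev s pc (2 ^ n) p (y · f) ^ 2 ≤ 4 * C * ∑ f, w g f) ∧
      (∀ g, ∑ p ∈ range (2 ^ n), ∑ f, w' g f * pdev s pc (2 ^ n) p (y' · f) ^ 2
        ≤ C * ∑ f, w' g f * ∑ i ∈ s, y' i f ^ 2) ∧
      (∀ p, p < 2 ^ n → ∑ f, pdev s pc (2 ^ n) p (t · f) ^ 2
        ≤ 8 * C * (C + 1) * ((∑ i ∈ s, ∑ f, t i f ^ 2) / 2 ^ n + 1)) ∧
      (∀ p, p < 2 ^ n → pdev s pc (2 ^ n) p (fun i => ∑ f, t i f ^ 2) ^ 2 ≤ 4 * C) := by
  classical
  have hC1 : 1 ≤ C := by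
    have h1 : (0 : ℝ) ≤ Fintype.card κ := Nat.cast_nonneg _
    have h2 : (0 : ℝ) ≤ Fintype.card κ' := Nat.cast_nonneg _
    have h3 := mul_le_mul (show (2 : ℝ) ≤ R + 2 by linarith)
      (show (2 : ℝ) ≤ Fintype.card κ + Fintype.card κ' + 2 by linarith) zero_le_two (by linarith)
    nlinarith
  set T := ∑ i ∈ s, ∑ f, t i f ^ 2 with hT
  have hT0 : 0 ≤ T := sum_nonneg fun i _ => sum_nonneg fun f _ => sq_nonneg _
  induction n with
  | zero =>
    have h0 : ∀ p φ, p < 2 ^ 0 → pdev s (fun _ => 0) (2 ^ 0) p φ = 0 := by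
      intro p φ hp
      obtain rfl : p = 0 := by simpa using hp
      simp [pdev]
    refine ⟨fun _ => 0, fun i _ => by simp, fun g p hp => ?_, fun g => ?_, fun p hp => ?_,
      fun p hp => ?_⟩
    · simp only [h0 p _ hp, zero_pow two_ne_zero, mul_zero, sum_const_zero]
      exact mul_nonneg (by linarith) (sum_nonneg fun f _ => hw g f)
    · rw [sum_eq_zero (s := range (2 ^ 0)) fun p hp => sum_eq_zero fun f _ => ?_]
      · exact mul_nonneg (by linarith) (sum_nonneg fun f _ =>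
          mul_nonneg (hw' g f) (sum_nonneg fun i _ => sq_nonneg _))
      · rw [h0 p _ (mem_range.1 hp)]; simp
    · simp only [h0 p _ hp, zero_pow two_ne_zero, sum_const_zero]
      positivity
    · simp only [h0 p _ hp, zero_pow two_ne_zero]
      linarith
  | succ n ih =>
    obtain ⟨pc, hpc, hS, hA, hD, hQ⟩ := ih
    have ext : ∀ p : ℕ, ∃ ε : ι → ℝ, (∀ i, ε i = 1 ∨ ε i = -1) ∧
        (∀ g, ∑ f, w g f * (∑ i ∈ s.filter (fun i => pc i = p), ε i * y i f) ^ 2
          ≤ C * ∑ f, w g f) ∧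
        (∑ i ∈ s.filter (fun i => pc i = p), ε i * ∑ f, t i f ^ 2) ^ 2 ≤ C ∧
        (∀ g, ∑ f, w' g f * (∑ i ∈ s.filter (fun i => pc i = p), ε i * y' i f) ^ 2
          ≤ C * ∑ f, w' g f * ∑ i ∈ s.filter (fun i => pc i = p), y' i f ^ 2) ∧
        ∑ f, (∑ i ∈ s.filter (fun i => pc i = p), ε i * t i f) ^ 2
          ≤ C * ∑ i ∈ s.filter (fun i => pc i = p), ∑ f, t i f ^ 2 := by
      intro p
      have hy2 : ∀ i ∈ s.filter (fun i => pc i = p),
          ∑ f, Sum.elim (y i) (fun _ : Unit => ∑ f, t i f ^ 2) f ^ 2 ≤ R + 1 := by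
        intro i hi
        simp only [Fintype.sum_sum_type, Sum.elim_inl, Sum.elim_inr, univ_unique, sum_singleton]
        have hi' := (mem_filter.1 hi).1
        have := hy i hi'
        have := ht i hi'
        have h0 : 0 ≤ ∑ f, t i f ^ 2 := sum_nonneg fun f _ => sq_nonneg _
        nlinarith
      obtain ⟨ε, h1, h2, h3⟩ := halve (F := F ⊕ Unit) (G := G ⊕ τ) (κ := κ ⊕ Unit)
        (κ' := κ' ⊕ Unit) (s.filter (fun i => pc i = p))
        (fun i => Sum.elim (y i) (fun _ => ∑ f, t i f ^ 2))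
        (fun i => Sum.elim (y' i) (t i)) (fun _ => 0) (R := R + 1) (by linarith)
        hy2 (fun i _ => by norm_num)
        (Sum.elim (fun g => Sum.elim (w g) 0) (fun _ => Sum.elim 0 1))
        (fun g f => by rcases g with g | g <;> rcases f with f | f <;> simp [hw])
        (Sum.elim (fun g => Sum.elim (w' g) 0) (fun _ => Sum.elim 0 1))
        (fun g f => by rcases g with g | g <;> rcases f with f | f <;> simp [hw'])
      · simp only [sub_zero, Fintype.sum_sum_type, Sum.elim_inl, Sum.elim_inr, Fintype.card_sum,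
          Fintype.card_unit, Nat.cast_add, Nat.cast_one] at h2 h3
        have hK : ∀ {B : ℝ}, 0 ≤ B → 144 * (R + 1 + 1)
            * ((Fintype.card κ : ℝ) + 1 + ((Fintype.card κ' : ℝ) + 1)) * B ≤ C * B := fun hB =>
          mul_le_mul_of_nonneg_right (by linarith) hB
        refine ⟨ε, h1, fun g => ?_, ?_, fun g => ?_, ?_⟩
        · have := h2 (Sum.inl g)
          simp only [Sum.elim_inl, Sum.elim_inr, Pi.zero_apply, zero_mul, sum_const_zero,
            add_zero] at this
          exact this.trans (hK (sum_nonneg fun f _ => hw g f))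
        · have := h2 (Sum.inr ())
          simp only [Sum.elim_inl, Sum.elim_inr, Pi.zero_apply, Pi.one_apply, zero_mul, one_mul,
            sum_const_zero, zero_add, univ_unique, sum_singleton] at this
          exact this.trans ((hK zero_le_one).trans (le_of_eq (mul_one C)))
        · have := h3 (Sum.inl g)
          simp only [Sum.elim_inl, Sum.elim_inr, Pi.zero_apply, zero_mul, sum_const_zero,
            add_zero] at this
          exact this.trans (hK (sum_nonneg fun f _ =>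
            mul_nonneg (hw' g f) (sum_nonneg fun i _ => sq_nonneg _)))
        · have := h3 (Sum.inr ())
          simp only [Sum.elim_inl, Sum.elim_inr, Pi.zero_apply, Pi.one_apply, zero_mul, one_mul,
            sum_const_zero, zero_add] at this
          refine this.trans ?_
          rw [sum_comm (γ := τ)]
          exact hK (sum_nonneg fun f _ => sum_nonneg fun i _ => sq_nonneg _)
    choose ε hε he1 he2 he3 he4 using ext
    refine ⟨fun i => 2 * pc i + if ε (pc i) i = 1 then 0 else 1, fun i hi => ?_, fun g q hq => ?_,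
      fun g => ?_, fun q hq => ?_, fun q hq => ?_⟩
    · have := hpc i hi
      show (2 * pc i + if ε (pc i) i = 1 then 0 else 1) < 2 ^ (n + 1)
      rw [pow_succ]
      split <;> omega
    · obtain ⟨p, b, rfl, hb⟩ : ∃ p b, q = 2 * p + b ∧ b < 2 :=
        ⟨q / 2, q % 2, (Nat.div_add_mod q 2).symm, Nat.mod_lt _ two_pos⟩
      have hp : p < 2 ^ n := by rw [pow_succ] at hq; omega
      refine le_trans (sum_le_sum (g := fun f => w g f * (2⁻¹ * pdev s pc (2 ^ n) p (y · f) ^ 2
          + 2⁻¹ * (∑ i ∈ s.filter (fun i => pc i = p), ε p i * y i f) ^ 2))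
        fun f _ => mul_le_mul_of_nonneg_left ?_ (hw g f)) ?_
      · rw [pdev_child s pc n p b ε hε hb]
        split <;> nlinarith [sq_nonneg (pdev s pc (2 ^ n) p (y · f)
          - ∑ i ∈ s.filter (fun i => pc i = p), ε p i * y i f),
          sq_nonneg (pdev s pc (2 ^ n) p (y · f)
          + ∑ i ∈ s.filter (fun i => pc i = p), ε p i * y i f)]
      · simp only [mul_add, sum_add_distrib, mul_left_comm (w g _) (2⁻¹ : ℝ), ← mul_sum]
        have := hS g p hp
        have := he1 p g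
        have h0 : 0 ≤ C * ∑ f, w g f := mul_nonneg (by linarith) (sum_nonneg fun f _ => hw g f)
        linarith
    · rw [pow_succ', sum_range_two_mul]
      have hcalc : ∀ p, (∑ f, w' g f * pdev s (fun i => 2 * pc i + if ε (pc i) i = 1 then 0 else 1)
            (2 * 2 ^ n) (2 * p) (y' · f) ^ 2)
          + ∑ f, w' g f * pdev s (fun i => 2 * pc i + if ε (pc i) i = 1 then 0 else 1)
            (2 * 2 ^ n) (2 * p + 1) (y' · f) ^ 2
          = 2⁻¹ * (∑ f, w' g f * pdev s pc (2 ^ n) p (y' · f) ^ 2)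
            + 2⁻¹ * ∑ f, w' g f * (∑ i ∈ s.filter (fun i => pc i = p), ε p i * y' i f) ^ 2 := by
        intro p
        simp only [mul_sum, ← sum_add_distrib]
        refine sum_congr rfl fun f _ => ?_
        rw [← pow_succ']
        have a0 := pdev_child s pc n p 0 ε hε two_pos (y' · f)
        have a1 := pdev_child s pc n p 1 ε hε one_lt_two (y' · f)
        simp only [add_zero, if_true, one_ne_zero, if_false] at a0 a1
        rw [a0, a1]
        ring
      rw [sum_congr rfl fun p _ => hcalc p, sum_add_distrib, ← mul_sum, ← mul_sum]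
      have h1 := hA g
      have h2 : ∑ p ∈ range (2 ^ n),
          ∑ f, w' g f * (∑ i ∈ s.filter (fun i => pc i = p), ε p i * y' i f) ^ 2
          ≤ C * ∑ f, w' g f * ∑ i ∈ s, y' i f ^ 2 := by
        refine (sum_le_sum fun p _ => he3 p g).trans (le_of_eq ?_)
        rw [← mul_sum, sum_comm]
        simp only [← mul_sum, sum_fiber s pc _ hpc]
      linarith
    · obtain ⟨p, b, rfl, hb⟩ : ∃ p b, q = 2 * p + b ∧ b < 2 :=
        ⟨q / 2, q % 2, (Nat.div_add_mod q 2).symm, Nat.mod_lt _ two_pos⟩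
      have hp : p < 2 ^ n := by rw [pow_succ] at hq; omega
      have h1 := hD p hp
      have h2 := he4 p
      have h3 : ∑ i ∈ s.filter (fun i => pc i = p), ∑ f, t i f ^ 2 ≤ T / 2 ^ n + (4 * C + 1) := by
        have := hQ p hp
        simp only [pdev, ← hT] at this
        push_cast at this
        nlinarith [sq_nonneg (∑ i ∈ s.filter (fun i => pc i = p), ∑ f, t i f ^ 2 - T / 2 ^ n - 1)]
      have h4 : ∑ f, pdev s (fun i => 2 * pc i + if ε (pc i) i = 1 then 0 else 1) (2 ^ (n + 1))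
          (2 * p + b) (t · f) ^ 2 ≤ 3⁻¹ * ∑ f, pdev s pc (2 ^ n) p (t · f) ^ 2
            + ∑ f, (∑ i ∈ s.filter (fun i => pc i = p), ε p i * t i f) ^ 2 := by
        simp only [mul_sum, ← sum_add_distrib]
        refine sum_le_sum fun f _ => ?_
        rw [pdev_child s pc n p b ε hε hb]
        split <;> nlinarith [sq_nonneg (pdev s pc (2 ^ n) p (t · f)
          - 3 * ∑ i ∈ s.filter (fun i => pc i = p), ε p i * t i f),
          sq_nonneg (pdev s pc (2 ^ n) p (t · f)
          + 3 * ∑ i ∈ s.filter (fun i => pc i = p), ε p i * t i f)]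
      have h5 : T / 2 ^ (n + 1) = (T / 2 ^ n) / 2 := by rw [pow_succ, div_div]
      rw [h5]
      have h6 : 0 ≤ T / 2 ^ n := by positivity
      have h7 := mul_le_mul_of_nonneg_left h3 (show (0 : ℝ) ≤ C by linarith)
      nlinarith [mul_nonneg (mul_nonneg (show (0 : ℝ) ≤ C by linarith) (show (0 : ℝ) ≤ C by linarith)) h6,
        mul_nonneg (show (0 : ℝ) ≤ C by linarith) h6]
    · obtain ⟨p, b, rfl, hb⟩ : ∃ p b, q = 2 * p + b ∧ b < 2 :=
        ⟨q / 2, q % 2, (Nat.div_add_mod q 2).symm, Nat.mod_lt _ two_pos⟩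
      have hp : p < 2 ^ n := by rw [pow_succ] at hq; omega
      rw [pdev_child s pc n p b ε hε hb]
      have := hQ p hp
      have := he2 p
      split <;> nlinarith [sq_nonneg (pdev s pc (2 ^ n) p (fun i => ∑ f, t i f ^ 2)
          - ∑ i ∈ s.filter (fun i => pc i = p), ε p i * ∑ f, t i f ^ 2),
          sq_nonneg (pdev s pc (2 ^ n) p (fun i => ∑ f, t i f ^ 2)
          + ∑ i ∈ s.filter (fun i => pc i = p), ε p i * ∑ f, t i f ^ 2)]

end Vale.Agent.P262
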