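import Mathlib
import Vale.Agent.P262.Tree
import Vale.Agent.P262.Order
import Vale.Agent.P262.Jump

/-!
Inside one node: halving, then ordering of the pieces, grouped into half-children.
-/

namespace Vale.Agent.P262

open Finset

/-- Constant of the halving tree. -/
noncomputable def cT : ℝ := 5040

/-- Size of the features of one piece. -/
noncomputable def cR : ℝ := 12 * cT + 16 * cT * (cT + 1)

/-- Constant of the node step. -/
noncomputable def cN : ℝ :=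
  7 * (5000 * (cR + 1) * (5 + 576 * (cR + 1) * 2 + 1)) + (5 + 576 * (cR + 1) * 2) * cT

variable {ι : Type*} {d : ℕ}

/-- Sum over the first `r` half-children minus its linear interpolation. -/
noncomputable def cum (s : Finset ι) (hl : ι → ℕ) (m r : ℕ) (f : ι → ℝ) : ℝ :=
  (∑ i ∈ s.filter (fun i => hl i < r), f i) - (r : ℝ) / m * ∑ i ∈ s, f i

lemma cum_pieces (s : Finset ι) (pc : ι → ℕ) {M : ℕ} (hpc : ∀ i ∈ s, pc i < M)
    (π : Equiv.Perm (Fin M)) (R : ℕ) (hR : R ≤ M) (pn : ι → ℕ)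
    (hpn : ∀ i, ∀ h : pc i < M, pn i = (π.symm ⟨pc i, h⟩ : ℕ)) (f : ι → ℝ) :
    pre (fun k => pdev s pc M (π k) f) R
      = (∑ i ∈ s.filter (fun i => pn i < R), f i) - (R : ℝ) / M * ∑ i ∈ s, f i := by
  have hc : (univ.filter (fun k : Fin M => (k : ℕ) < R)).card = R := by
    rw [Fin.card_filter_val_lt, min_eq_right hR]
  simp only [pre, pdev]
  rw [sum_sub_distrib, sum_const, hc, nsmul_eq_mul, mul_div_assoc', div_mul_eq_mul_div]
  congr 1
  rw [sum_comm' (t' := s) (s' := fun i => univ.filter (fun k : Fin M => (k : ℕ) < R ∧ pc i = (π k : ℕ)))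
    (h := fun k i => by simp [and_comm, and_left_comm])]
  rw [sum_filter]
  refine sum_congr rfl fun i hi => ?_
  have h := hpc i hi
  have e : ∀ k : Fin M, ((k : ℕ) < R ∧ pc i = (π k : ℕ)) ↔ (k = π.symm ⟨pc i, h⟩ ∧ pn i < R) := by
    intro k
    rw [Equiv.eq_symm_apply, Fin.ext_iff, hpn i h]
    constructor
    · rintro ⟨a, b⟩
      have : π.symm ⟨pc i, h⟩ = k := by rw [Equiv.symm_apply_eq]; exact Fin.ext b
      exact ⟨b.symm, this ▸ a⟩
    · rintro ⟨a, b⟩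
      have : π.symm ⟨pc i, h⟩ = k := by rw [Equiv.symm_apply_eq]; exact Fin.ext a.symm
      exact ⟨this ▸ b, a.symm⟩
  rw [sum_const, nsmul_eq_mul]
  by_cases hb : pn i < R
  · rw [if_pos hb, show univ.filter (fun k : Fin M => (k : ℕ) < R ∧ pc i = (π k : ℕ))
      = {π.symm ⟨pc i, h⟩} by ext k; simp [e, hb], card_singleton, Nat.cast_one, one_mul]
  · rw [if_neg hb, show univ.filter (fun k : Fin M => (k : ℕ) < R ∧ pc i = (π k : ℕ)) = ∅ by
      ext k; simp [e, hb], card_empty, Nat.cast_zero, zero_mul]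

lemma pre_const_mul {M : ℕ} (c : ℝ) (φ : Fin M → ℝ) (k : ℕ) :
    pre (fun i => c * φ i) k = c * pre φ k := by simp [pre, mul_sum]

lemma pdev_zero_sum (s : Finset ι) (pc : ι → ℕ) {M : ℕ} (hM : 0 < M) (hpc : ∀ i ∈ s, pc i < M)
    (φ : ι → ℝ) : ∑ p : Fin M, pdev s pc M p φ = 0 := by
  rw [Fin.sum_univ_eq_sum_range (fun p => pdev s pc M p φ) M]
  simp only [pdev]
  rw [sum_sub_distrib, sum_fiber s pc M hpc, sum_const, card_range, nsmul_eq_mul]
  have : (M : ℝ) ≠ 0 := Nat.cast_ne_zero.2 hM.ne'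
  field_simp
  ring

lemma sum_ite_hi (s : Finset (Fin d)) (φ : Fin d → Fin d → ℝ) :
    ∑ j, ∑ l, (if j ∈ s ∧ l ∈ s then φ j l else 0) = ∑ j ∈ s, ∑ l ∈ s, φ j l := by
  simp only [ite_and, sum_ite_irrel, sum_const_zero, sum_ite_mem, univ_inter]

/-- The traced coordinates have small trace per piece. -/
lemma node_trace (J : Jump d) {A : ℝ} (hA : 0 ≤ A) (hAδ : (2 + 4 * A) * J.δ ≤ 1)
    (s : Finset ι) (v : ι → Fin d → ℝ)
    (hG : ∀ θ : Fin d → ℝ, (∀ j ∈ J.low, θ j = 0) →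
      |∑ i ∈ s, (∑ j, θ j * v i j) ^ 2 - ∑ j, J.q j ^ 4 * 2 ^ J.ℓ * θ j ^ 2|
        ≤ A * ∑ j, J.U0 j * θ j ^ 2) :
    (∑ i ∈ s, ∑ j ∈ J.band ∪ J.gr, v i j ^ 2) / 2 ^ J.n ≤ 1 := by
  classical
  have hWd : Disjoint J.band J.gr := disjoint_left.2 fun j h1 h2 => by
    simp [Jump.band] at h1; simp [Jump.gr] at h2; linarith [h1.1, h2.1]
  have hP := J.P_pos
  rw [div_le_one (by positivity), sum_comm]
  refine (sum_le_sum fun j hjW => show ∑ i ∈ s, v i j ^ 2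
    ≤ 2 ^ J.ℓ * (J.q j ^ 4 + A * (J.U0 j / 2 ^ J.ℓ)) from ?_).trans ?_
  · have hl : j ∉ J.low := by
      rcases mem_union.1 hjW with h | h
      · exact J.band_not_low h
      · exact J.hi_not_low (J.gr_subset_hi h)
    have := hG (fun l => if l = j then 1 else 0) (fun l hl' => by
      rw [if_neg (fun h : l = j => hl (h ▸ hl'))])
    simp only [ite_mul, one_mul, zero_mul, ite_pow, one_pow, ne_eq, OfNat.ofNat_ne_zero,
      not_false_eq_true, zero_pow, mul_ite, mul_one, mul_zero, sum_ite_eq', mem_univ,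
      if_true] at this
    have := (abs_le.1 this).2
    have e : (2 : ℝ) ^ J.ℓ * (J.U0 j / 2 ^ J.ℓ) = J.U0 j := mul_div_cancel₀ _ (by positivity)
    rw [mul_add, mul_left_comm, e]
    linarith
  · rw [← mul_sum, sum_union hWd, J.two_pow_n]
    refine mul_le_mul_of_nonneg_left ?_ (by positivity)
    have h1 := J.trace_band hA
    have h2 := J.trace_gr hA
    have h3 : (1 + 2 * A) * J.δ * J.P ^ 6 ≤ (1 + 2 * A) * J.δ * J.P ^ 10 :=
      mul_le_mul_of_nonneg_left (J.P_pow_le (by norm_num))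
        (mul_nonneg (by linarith) J.δ_pos.le)
    have h4 : (2 + 4 * A) * J.δ * J.P ^ 10 ≤ 1 * J.P ^ 16 :=
      mul_le_mul hAδ (J.P_pow_le (by norm_num)) (by positivity) zero_le_one
    have h5 : 0 ≤ J.P ^ 16 := by positivity
    linarith

/-- Halving inside one node. -/
lemma node_tree (J : Jump d) (s : Finset ι) (v w : ι → Fin d → ℝ)
    (hv : ∀ i, ∑ j, v i j ^ 2 ≤ 1)
    (hT : (∑ i ∈ s, ∑ j ∈ J.band ∪ J.gr, v i j ^ 2) / 2 ^ J.n ≤ 1) :
    ∃ pc : ι → ℕ, (∀ i ∈ s, pc i < 2 ^ J.n) ∧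
      (∀ p, p < 2 ^ J.n →
        (∑ j ∈ J.cor, (J.q j)⁻¹ * pdev s pc (2 ^ J.n) p (v · j) ^ 2 ≤ 4 * cT) ∧
        (∑ j ∈ J.hi, ∑ l ∈ J.hi, (J.q j)⁻¹ * (J.q l)⁻¹
          * pdev s pc (2 ^ J.n) p (fun i => v i j * v i l) ^ 2 ≤ 4 * cT) ∧
        (pdev s pc (2 ^ J.n) p (fun i => ∑ j ∈ J.band, v i j ^ 2) ^ 2 ≤ 4 * cT) ∧
        (∑ j ∈ J.band ∪ J.gr, pdev s pc (2 ^ J.n) p (v · j) ^ 2 ≤ 16 * cT * (cT + 1))) ∧
      (∑ p ∈ range (2 ^ J.n), ∑ j ∈ J.low, J.ω j * pdev s pc (2 ^ J.n) p (w · j) ^ 2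
        ≤ cT * ∑ i ∈ s, ∑ j ∈ J.low, J.ω j * w i j ^ 2) ∧
      (∑ p ∈ range (2 ^ J.n), pdev s pc (2 ^ J.n) p (fun i => ∑ j ∈ J.low, J.ω j * w i j ^ 2) ^ 2
        ≤ cT * ∑ i ∈ s, (∑ j ∈ J.low, J.ω j * w i j ^ 2) ^ 2) := by
  classical
  let t : ι → Fin d → ℝ := fun i j => if j ∈ J.band ∪ J.gr then v i j else 0
  have ht2 : ∀ i, ∑ j, t i j ^ 2 = ∑ j ∈ J.band ∪ J.gr, v i j ^ 2 := fun i => by
    simp only [t, ite_pow, zero_pow two_ne_zero, sum_ite_mem, univ_inter]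
  have ht : ∀ i, ∑ j, t i j ^ 2 ≤ 1 := fun i => by
    rw [ht2]; exact (sum_le_univ_sum_of_nonneg fun j => sq_nonneg _).trans (hv i)
  let y : ι → (Fin d ⊕ (Fin d × Fin d) ⊕ Unit) → ℝ := fun i =>
    Sum.elim (v i) (Sum.elim (fun p => v i p.1 * v i p.2) fun _ => ∑ j ∈ J.band, v i j ^ 2)
  have hy : ∀ i ∈ s, ∑ f, y i f ^ 2 ≤ 3 := by
    intro i _
    simp only [y, Fintype.sum_sum_type, Sum.elim_inl, Sum.elim_inr, univ_unique, sum_singleton,
      mul_pow, Fintype.sum_prod_type]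
    rw [← sum_mul_sum]
    have h1 := hv i
    have h0 : 0 ≤ ∑ j, v i j ^ 2 := sum_nonneg fun j _ => sq_nonneg _
    have h2 : ∑ j ∈ J.band, v i j ^ 2 ≤ 1 :=
      (sum_le_univ_sum_of_nonneg fun j => sq_nonneg _).trans h1
    have h3 : 0 ≤ ∑ j ∈ J.band, v i j ^ 2 := sum_nonneg fun j _ => sq_nonneg _
    nlinarith
  let wT : Fin 3 → (Fin d ⊕ (Fin d × Fin d) ⊕ Unit) → ℝ :=
    ![Sum.elim (fun j => if j ∈ J.cor then (J.q j)⁻¹ else 0) 0,
      Sum.elim 0 (Sum.elim (fun p => if p.1 ∈ J.hi ∧ p.2 ∈ J.hi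
        then (J.q p.1)⁻¹ * (J.q p.2)⁻¹ else 0) 0),
      Sum.elim 0 (Sum.elim 0 1)]
  have hq := fun j => inv_nonneg.2 (J.q_nonneg j)
  have hwT : ∀ g f, 0 ≤ wT g f := by
    intro g f
    fin_cases g <;> rcases f with j | ⟨j, l⟩ | u <;> simp [wT] <;> split <;>
      first
        | positivity
        | exact hq _
        | exact mul_nonneg (hq _) (hq _)
        | exact J.q_nonneg _
        | exact le_rfl
  let wA : Fin 2 → (Fin d ⊕ Unit) → ℝ :=
    ![Sum.elim (fun j => if j ∈ J.low then J.ω j else 0) 0, Sum.elim 0 1]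
  have hwA : ∀ g f, 0 ≤ wA g f := by
    intro g f
    fin_cases g <;> rcases f with j | u <;> simp [wA]
    split
    · exact J.ω_nonneg j
    · exact le_rfl
  obtain ⟨pc, hpc, hS, hA', hD, -⟩ := tree s y
    (fun i => Sum.elim (w i) fun _ => ∑ j ∈ J.low, J.ω j * w i j ^ 2) t (R := 3)
    (by norm_num) hy (fun i _ => ht i) wT hwT wA hwA cT (by simp [cT]; norm_num) J.n
  have hcT : (0 : ℝ) ≤ cT := by simp [cT]
  have hd1 := J.δ_le
  refine ⟨pc, hpc, fun p hp => ⟨?_, ?_, ?_, ?_⟩, ?_, ?_⟩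
  · have h := hS 0 p hp
    simp only [wT, y, Matrix.cons_val_zero, Fintype.sum_sum_type, Sum.elim_inl, Sum.elim_inr,
      Pi.zero_apply, zero_mul, sum_const_zero, add_zero, ite_mul, sum_ite_mem, univ_inter] at h
    refine h.trans (mul_le_of_le_one_right (by positivity) ?_)
    have := J.sum_hi_inv_pow J.cor_subset_hi (a := 1) le_rfl
    simp only [pow_one] at this
    linarith
  · have h := hS 1 p hp
    simp only [wT, y, Matrix.cons_val_one, Matrix.cons_val_zero, Fintype.sum_sum_type, Sum.elim_inl,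
      Sum.elim_inr, Pi.zero_apply, zero_mul, sum_const_zero, add_zero, zero_add,
      Fintype.sum_prod_type, ite_mul, sum_ite_hi] at h
    refine h.trans (mul_le_of_le_one_right (by positivity) ?_)
    rw [← sum_mul_sum]
    have h1 : ∑ j ∈ J.hi, (J.q j)⁻¹ ≤ 1 := le_trans J.good_hi hd1
    exact mul_le_one₀ h1 (sum_nonneg fun j _ => hq j) h1
  · have h := hS 2 p hp
    simp only [wT, y, Matrix.cons_val, Fintype.sum_sum_type, Sum.elim_inl, Sum.elim_inr,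
      Pi.zero_apply, Pi.one_apply, zero_mul, one_mul, sum_const_zero, zero_add, univ_unique,
      sum_singleton, mul_one] at h
    exact h
  · have h := hD p hp
    simp only [ht2] at h
    refine le_trans (le_of_eq ?_) (h.trans ((mul_le_mul_of_nonneg_left (add_le_add hT le_rfl)
      (by positivity)).trans (le_of_eq (by ring))))
    rw [← univ_inter (J.band ∪ J.gr), ← sum_ite_mem]
    refine sum_congr rfl fun j _ => ?_
    by_cases hj : j ∈ J.band ∪ J.gr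
    · simp only [t, hj, if_true]
    · simp only [t, hj, if_false, pdev, sum_const_zero, zero_div, sub_zero, zero_pow two_ne_zero]
  · have h := hA' 0
    simp only [wA, Matrix.cons_val_zero, Fintype.sum_sum_type, Sum.elim_inl,
      Sum.elim_inr, Pi.zero_apply, zero_mul, sum_const_zero, add_zero, ite_mul, sum_ite_mem,
      univ_inter] at h
    refine h.trans (le_of_eq ?_)
    rw [sum_comm (s := s)]
    simp [mul_sum]
  · have h := hA' 1
    simp only [wA, Matrix.cons_val_one, Matrix.cons_val_zero,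
      Fintype.sum_sum_type, Sum.elim_inl, Sum.elim_inr, Pi.zero_apply, Pi.one_apply, zero_mul,
      sum_const_zero, zero_add, one_mul, univ_unique, sum_singleton] at h
    exact h

/-- Ordering the pieces of one node. -/
lemma node_pieces (J : Jump d) (s : Finset ι) (v w : ι → Fin d → ℝ) (pc : ι → ℕ)
    (hpc : ∀ i ∈ s, pc i < 2 ^ J.n)
    (hb : ∀ p, p < 2 ^ J.n →
        (∑ j ∈ J.cor, (J.q j)⁻¹ * pdev s pc (2 ^ J.n) p (v · j) ^ 2 ≤ 4 * cT) ∧
        (∑ j ∈ J.hi, ∑ l ∈ J.hi, (J.q j)⁻¹ * (J.q l)⁻¹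
          * pdev s pc (2 ^ J.n) p (fun i => v i j * v i l) ^ 2 ≤ 4 * cT) ∧
        (pdev s pc (2 ^ J.n) p (fun i => ∑ j ∈ J.band, v i j ^ 2) ^ 2 ≤ 4 * cT) ∧
        (∑ j ∈ J.band ∪ J.gr, pdev s pc (2 ^ J.n) p (v · j) ^ 2 ≤ 16 * cT * (cT + 1))) :
    ∃ π : Equiv.Perm (Fin (2 ^ J.n)), ∀ k ≤ 2 ^ J.n,
      let K1 : ℝ := 5000 * (cR + 1) * (5 + 576 * (cR + 1) * 2 + 1)
      let X : (ι → ℝ) → ℝ := fun φ => pre (fun i => pdev s pc (2 ^ J.n) (π i) φ) k
      (∑ j ∈ J.cor, X (v · j) ^ 2 / J.q j ^ 4 ≤ K1 * (7 * J.P ^ 2)) ∧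
      (∑ j ∈ J.hi, ∑ l ∈ J.hi, X (fun i => v i j * v i l) ^ 2 / (J.U j * J.U l) ≤ K1 * 7) ∧
      (∑ j ∈ J.band, X (v · j) ^ 2 ≤ K1 * (7 * (J.band.card + J.P ^ 8))) ∧
      (∑ j ∈ J.gr, X (v · j) ^ 2 ≤ K1 * (7 * J.P ^ 8)) ∧
      (X (fun i => ∑ j ∈ J.band, v i j ^ 2) ^ 2 ≤ K1 * (7 * J.P ^ 8)) ∧
      (∑ j ∈ J.low, J.ω j * X (w · j) ^ 2 ≤ (5 + 576 * (cR + 1) * 2) *
        ∑ p ∈ range (2 ^ J.n), ∑ j ∈ J.low, J.ω j * pdev s pc (2 ^ J.n) p (w · j) ^ 2) ∧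
      (X (fun i => ∑ j ∈ J.low, J.ω j * w i j ^ 2) ^ 2 ≤ (5 + 576 * (cR + 1) * 2) *
        ∑ p ∈ range (2 ^ J.n),
          pdev s pc (2 ^ J.n) p (fun i => ∑ j ∈ J.low, J.ω j * w i j ^ 2) ^ 2) := by
  classical
  have hP := J.P_pos
  have hq := fun j => J.q_nonneg j
  have hU := fun j => (J.U_pos j).le
  have hd1 := J.δ_le
  let cF : Fin d → ℝ := fun j => if j ∈ J.cor then (√(J.q j))⁻¹ else 0
  let cE : Fin d → ℝ := fun j => if j ∈ J.hi then (√(J.q j))⁻¹ else 0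
  have hcF : ∀ j, cF j ^ 2 = if j ∈ J.cor then (J.q j)⁻¹ else 0 := by
    intro j
    simp only [cF]
    split <;> simp [Real.sq_sqrt (J.q_nonneg j)]
  have hcE : ∀ j, cE j ^ 2 = if j ∈ J.hi then (J.q j)⁻¹ else 0 := by
    intro j
    simp only [cE]
    split <;> simp [Real.sq_sqrt (J.q_nonneg j)]
  let dv : Fin (2 ^ J.n) → (ι → ℝ) → ℝ := fun p φ => pdev s pc (2 ^ J.n) p φ
  let a : Fin (2 ^ J.n) → (Fin d ⊕ Fin d ⊕ (Fin d × Fin d) ⊕ Unit) → ℝ := fun p =>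
    Sum.elim (fun j => cF j * dv p (v · j))
      (Sum.elim (fun j => (if j ∈ J.band ∪ J.gr then 1 else 0) * dv p (v · j))
        (Sum.elim (fun jl => (cE jl.1 * cE jl.2) * dv p (fun i => v i jl.1 * v i jl.2))
          fun _ => dv p (fun i => ∑ j ∈ J.band, v i j ^ 2)))
  let b : Fin (2 ^ J.n) → (Fin d ⊕ Unit) → ℝ := fun p =>
    Sum.elim (fun j => dv p (w · j)) fun _ => dv p (fun i => ∑ j ∈ J.low, J.ω j * w i j ^ 2)
  have e1 : ∀ j l, (if j ∈ J.hi then (J.q j)⁻¹ else 0) * (if l ∈ J.hi then (J.q l)⁻¹ else 0)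
      = if j ∈ J.hi ∧ l ∈ J.hi then (J.q j)⁻¹ * (J.q l)⁻¹ else 0 := by
    intro j l
    split_ifs <;> simp_all
  have ha : ∀ p, ∑ f, a p f ^ 2 ≤ cR := by
    intro p
    obtain ⟨h0, h1, h2, h3⟩ := hb p p.isLt
    simp only [a, Fintype.sum_sum_type, Sum.elim_inl, Sum.elim_inr, univ_unique, sum_singleton,
      mul_pow, hcF, hcE, Fintype.sum_prod_type, e1, ite_pow, one_pow, zero_pow two_ne_zero,
      ite_mul, zero_mul, one_mul, sum_ite_mem, univ_inter, sum_ite_hi]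
    unfold cR
    linarith
  have hM : 0 < 2 ^ J.n := Nat.two_pow_pos _
  have ha0 : ∀ f, ∑ p, a p f = 0 := by
    intro f
    rcases f with j | j | jl | u <;>
      simp only [a, dv, Sum.elim_inl, Sum.elim_inr, ← mul_sum, pdev_zero_sum s pc hM hpc, mul_zero]
  have hb0 : ∀ f, ∑ p, b p f = 0 := by
    intro f
    rcases f with j | u <;>
      simp only [b, dv, Sum.elim_inl, Sum.elim_inr, pdev_zero_sum s pc hM hpc]
  let wO : Fin 5 → (Fin d ⊕ Fin d ⊕ (Fin d × Fin d) ⊕ Unit) → ℝ :=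
    ![Sum.elim (fun j => if j ∈ J.cor then (J.q j ^ 3)⁻¹ else 0) 0,
      Sum.elim 0 (Sum.elim 0 (Sum.elim (fun p => if p.1 ∈ J.hi ∧ p.2 ∈ J.hi
        then (J.q p.1 / J.U p.1) * (J.q p.2 / J.U p.2) else 0) 0)),
      Sum.elim 0 (Sum.elim (fun j => if j ∈ J.band then 1 else 0) 0),
      Sum.elim 0 (Sum.elim (fun j => if j ∈ J.gr then 1 else 0) 0),
      Sum.elim 0 (Sum.elim 0 (Sum.elim 0 1))]
  let wA : Fin 2 → (Fin d ⊕ Unit) → ℝ :=
    ![Sum.elim (fun j => if j ∈ J.low then J.ω j else 0) 0, Sum.elim 0 1]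
  let wb : Fin 5 → ℝ := ![(J.P ^ 6)⁻¹, (J.P ^ 8)⁻¹, 1, 1, 1]
  have hwA : ∀ g f, 0 ≤ wA g f := by
    intro g f
    fin_cases g <;> rcases f with j | u <;> simp [wA]
    split
    · exact J.ω_nonneg j
    · exact le_rfl
  have hwO : ∀ g f, 0 ≤ wO g f := by
    intro g f
    fin_cases g <;> rcases f with j | j | ⟨j, l⟩ | u <;> simp [wO] <;> split <;>
      first
        | exact inv_nonneg.2 (pow_nonneg (hq _) 3)
        | exact pow_nonneg (hq _) 3
        | exact mul_nonneg (div_nonneg (hq _) (hU _)) (div_nonneg (hq _) (hU _))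
        | exact le_rfl
        | exact zero_le_one
  have hwb : ∀ g f, wO g f ≤ wb g := by
    intro g f
    have u6 : 0 ≤ (J.P ^ 6)⁻¹ := by positivity
    have u8 : 0 ≤ (J.P ^ 8)⁻¹ := by positivity
    fin_cases g <;> rcases f with j | j | ⟨j, l⟩ | u
    all_goals simp [wO, wb]
    all_goals try positivity
    all_goals (split <;> first | exact u6 | exact u8 | exact zero_le_one | exact le_rfl | skip)
    · rename_i hj
      refine inv_anti₀ (by positivity) ?_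
      simp [Jump.cor] at hj
      calc J.P ^ 6 = (J.P ^ 2) ^ 3 := by ring
        _ ≤ _ := pow_le_pow_left₀ (by positivity) hj.2 3
    · rename_i hj
      have h1 := J.q_div_U hj.1
      have h2 := J.q_div_U hj.2
      refine (mul_le_mul h1 h2 (div_nonneg (hq _) (hU _)) (by positivity)).trans (le_of_eq ?_)
      rw [← mul_inv, ← pow_add]
  have hcR : 0 ≤ cR := by unfold cR cT; positivity
  obtain ⟨π, hπ⟩ := order (M := 2 ^ J.n) J.n (by
      have := Nat.one_le_two_pow (n := J.n)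
      rw [pow_succ]; omega) a b hcR ha ha0 hb0
    wO hwO wb hwb (fun g => by fin_cases g <;> simp [wb] <;> positivity) wA hwA
  refine ⟨π, fun k hk => ?_⟩
  intro K1 X
  obtain ⟨hs, hadd⟩ := hπ k hk
  simp only [Fintype.card_fin, Nat.cast_ofNat] at hs hadd
  have hn := J.n_add_one_le
  have h8 : 1 ≤ J.P ^ 8 := one_le_pow₀ J.P_one_le
  have hK1 : 0 ≤ K1 := by positivity
  have fin : ∀ {Y Wt B : ℝ}, Y ≤ K1 * Wt → Wt ≤ B → Y ≤ K1 * B := fun h1 h2 =>
    h1.trans (mul_le_mul_of_nonneg_left h2 hK1)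
  refine ⟨?_, ?_, ?_, ?_, ?_, ?_, ?_⟩
  · have h := hs 0
    simp only [wO, wb, a, dv, Matrix.cons_val_zero, Fintype.sum_sum_type, Sum.elim_inl,
      Sum.elim_inr, Pi.zero_apply, zero_mul, sum_const_zero, add_zero, ite_mul, sum_ite_mem,
      univ_inter, pre_const_mul] at h
    refine fin (le_trans (le_of_eq (sum_congr rfl fun j hj => ?_)) h) ?_
    · rw [mul_pow, hcF, if_pos hj]
      have := J.mem_hi.1 (J.cor_subset_hi hj)
      field_simp
      rfl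
    · have h1 := J.sum_hi_inv_pow J.cor_subset_hi (a := 3) (by norm_num)
      have h2 := mul_le_mul_of_nonneg_right hn (show 0 ≤ (J.P ^ 6)⁻¹ by positivity)
      have e : 5 * J.P ^ 8 * (J.P ^ 6)⁻¹ = 5 * J.P ^ 2 := by field_simp
      have h3 : 1 ≤ J.P ^ 2 := one_le_pow₀ J.P_one_le
      linarith
  · have h := hs 1
    simp only [wO, wb, a, dv, Matrix.cons_val_one, Matrix.cons_val_zero, Fintype.sum_sum_type,
      Sum.elim_inl, Sum.elim_inr, Pi.zero_apply, zero_mul, sum_const_zero, add_zero, zero_add,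
      Fintype.sum_prod_type, ite_mul, sum_ite_hi, pre_const_mul] at h
    refine fin (le_trans (le_of_eq (sum_congr rfl fun j hj => sum_congr rfl fun l hl => ?_)) h) ?_
    · rw [mul_pow, mul_pow, hcE, hcE, if_pos hj, if_pos hl]
      have := J.mem_hi.1 hj
      have := J.mem_hi.1 hl
      have := J.U_pos j
      have := J.U_pos l
      field_simp
      rfl
    · have h1 : ∑ j ∈ J.hi, J.q j / J.U j ≤ 1 := by
        refine le_trans (sum_le_sum fun j hj => ?_) (le_trans J.good_hi hd1)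
        have hq1 := J.mem_hi.1 hj
        rw [div_le_iff₀ (J.U_pos j), inv_mul_eq_div, le_div_iff₀ (by linarith), Jump.U]
        have := le_mul_of_one_le_left (show 0 ≤ J.q j ^ 3 by positivity) J.P_one_le
        have : J.q j * J.q j ≤ J.q j ^ 3 := by
          rw [← sq]; exact pow_le_pow_right₀ hq1.le (by norm_num)
        have : 0 ≤ J.P ^ 6 := by positivity
        linarith
      have h0 : 0 ≤ ∑ j ∈ J.hi, J.q j / J.U j :=
        sum_nonneg fun j _ => div_nonneg (hq j) (hU j)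
      have h2 : ∑ j ∈ J.hi, ∑ l ∈ J.hi, J.q j / J.U j * (J.q l / J.U l) ≤ 1 := by
        rw [← sum_mul_sum]; exact mul_le_one₀ h1 h0 h1
      have h3 := mul_le_mul_of_nonneg_right hn (show 0 ≤ (J.P ^ 8)⁻¹ by positivity)
      have : 5 * J.P ^ 8 * (J.P ^ 8)⁻¹ = 5 := by field_simp
      linarith
  · have h := hs 2
    simp only [wO, wb, a, dv, Matrix.cons_val, Fintype.sum_sum_type, Sum.elim_inl, Sum.elim_inr,
      Pi.zero_apply, zero_mul, sum_const_zero, add_zero, zero_add, ite_mul, one_mul, mul_one,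
      sum_ite_mem, univ_inter, sum_const, nsmul_eq_mul] at h
    refine fin (le_trans (le_of_eq (sum_congr rfl fun j hj => ?_)) h) ?_
    · simp [X, mem_union, hj]
    · have : (0 : ℝ) ≤ J.band.card := Nat.cast_nonneg _
      linarith
  · have h := hs 3
    simp only [wO, wb, a, dv, Matrix.cons_val, Fintype.sum_sum_type, Sum.elim_inl, Sum.elim_inr,
      Pi.zero_apply, zero_mul, sum_const_zero, add_zero, zero_add, ite_mul, one_mul, mul_one,
      sum_ite_mem, univ_inter, sum_const, nsmul_eq_mul] at h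
    refine fin (le_trans (le_of_eq (sum_congr rfl fun j hj => ?_)) h) ?_
    · simp [X, mem_union, hj]
    · have h1 := J.card_gr
      have h2 : J.δ * J.P ^ 2 ≤ 1 * J.P ^ 8 :=
        mul_le_mul hd1 (J.P_pow_le (by norm_num)) (by positivity) zero_le_one
      linarith
  · have h := hs 4
    simp only [wO, wb, a, dv, Matrix.cons_val, Fintype.sum_sum_type, Sum.elim_inl, Sum.elim_inr,
      Pi.zero_apply, Pi.one_apply, zero_mul, sum_const_zero, add_zero, zero_add, one_mul, mul_one,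
      univ_unique, sum_singleton] at h
    refine fin h ?_
    linarith
  · have h := hadd 0
    simp only [wA, b, dv, Matrix.cons_val_zero, Fintype.sum_sum_type, Sum.elim_inl,
      Sum.elim_inr, Pi.zero_apply, zero_mul, sum_const_zero, add_zero, ite_mul, sum_ite_mem,
      univ_inter] at h
    refine h.trans (le_of_eq ?_)
    rw [sum_comm (s := range _)]
    simp only [← mul_sum]
    congr 1
    refine sum_congr rfl fun j _ => ?_
    rw [Fin.sum_univ_eq_sum_range (fun p => pdev s pc (2 ^ J.n) p (w · j) ^ 2)]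
  · have h := hadd 1
    simp only [wA, b, dv, Matrix.cons_val_one, Matrix.cons_val_zero,
      Fintype.sum_sum_type, Sum.elim_inl, Sum.elim_inr, Pi.zero_apply, Pi.one_apply, zero_mul,
      sum_const_zero, zero_add, one_mul, univ_unique, sum_singleton] at h
    refine h.trans (le_of_eq ?_)
    rw [Fin.sum_univ_eq_sum_range
      (fun p => pdev s pc (2 ^ J.n) p (fun i => ∑ j ∈ J.low, J.ω j * w i j ^ 2) ^ 2)]

theorem node_order (J : Jump d) {A : ℝ} (hA : 0 ≤ A) (hAδ : (2 + 4 * A) * J.δ ≤ 1)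
    (s : Finset ι) (v w : ι → Fin d → ℝ) (hv : ∀ i, ∑ j, v i j ^ 2 ≤ 1)
    (hG : ∀ θ : Fin d → ℝ, (∀ j ∈ J.low, θ j = 0) →
      |∑ i ∈ s, (∑ j, θ j * v i j) ^ 2 - ∑ j, J.q j ^ 4 * 2 ^ J.ℓ * θ j ^ 2|
        ≤ A * ∑ j, J.U0 j * θ j ^ 2)
    {θ₀ E : ℝ} (hθ : 0 ≤ θ₀) (he : ∑ i ∈ s, ∑ j ∈ J.low, J.ω j * w i j ^ 2 ≤ E)
    (hq : ∀ i ∈ s, ∑ j ∈ J.low, J.ω j * w i j ^ 2 ≤ θ₀ * E) :
    ∃ hl : ι → ℕ, (∀ i, hl i < 2 * 2 ^ J.ℓ) ∧ ∀ r ≤ 2 * 2 ^ J.ℓ,
      (∑ j ∈ J.cor, cum s hl (2 * 2 ^ J.ℓ) r (v · j) ^ 2 / J.q j ^ 4 ≤ cN * J.P ^ 2) ∧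
      (∑ j ∈ J.hi, ∑ l ∈ J.hi,
        cum s hl (2 * 2 ^ J.ℓ) r (fun i => v i j * v i l) ^ 2 / (J.U j * J.U l) ≤ cN) ∧
      (∑ j ∈ J.band, cum s hl (2 * 2 ^ J.ℓ) r (v · j) ^ 2 ≤ cN * (J.band.card + J.P ^ 8)) ∧
      (∑ j ∈ J.gr, cum s hl (2 * 2 ^ J.ℓ) r (v · j) ^ 2 ≤ cN * J.P ^ 8) ∧
      (cum s hl (2 * 2 ^ J.ℓ) r (fun i => ∑ j ∈ J.band, v i j ^ 2) ^ 2 ≤ cN * J.P ^ 8) ∧
      (∑ j ∈ J.low, J.ω j * cum s hl (2 * 2 ^ J.ℓ) r (w · j) ^ 2 ≤ cN * E) ∧
      (cum s hl (2 * 2 ^ J.ℓ) r (fun i => ∑ j ∈ J.low, J.ω j * w i j ^ 2) ^ 2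
        ≤ cN * (θ₀ * E) * E) := by
  classical
  have hP := J.P_pos
  have hq0 : ∀ i, 0 ≤ ∑ j ∈ J.low, J.ω j * w i j ^ 2 := fun i =>
    sum_nonneg fun j _ => mul_nonneg (J.ω_nonneg j) (sq_nonneg _)
  have hE : 0 ≤ E := le_trans (sum_nonneg fun i _ => hq0 i) he
  have hθE : 0 ≤ θ₀ * E := mul_nonneg hθ hE
  obtain ⟨pc, hpc, hb, hL, hQ⟩ := node_tree J s v w hv (node_trace J hA hAδ s v hG)
  obtain ⟨π, hπ⟩ := node_pieces J s v w pc hpc hb
  let pn : ι → ℕ := fun i => if h : pc i < 2 ^ J.n then (π.symm ⟨pc i, h⟩ : ℕ) else 0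
  have hpn : ∀ i, ∀ h : pc i < 2 ^ J.n, pn i = (π.symm ⟨pc i, h⟩ : ℕ) := fun i h => dif_pos h
  let G : ℕ := 2 ^ (2 * J.Y)
  have hG0 : 0 < G := Nat.two_pow_pos _
  have hMG : 2 ^ J.n = 2 * 2 ^ J.ℓ * G := by
    simp only [G, Jump.n, pow_add, pow_one]; ring
  refine ⟨fun i => pn i / G, fun i => ?_, fun r hr => ?_⟩
  · rw [Nat.div_lt_iff_lt_mul hG0, ← hMG]
    simp only [pn]
    split
    · exact Fin.isLt _
    · exact Nat.two_pow_pos _
  have hrG : r * G ≤ 2 ^ J.n := by rw [hMG]; exact Nat.mul_le_mul_right G hr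
  have hcum : ∀ φ : ι → ℝ, cum s (fun i => pn i / G) (2 * 2 ^ J.ℓ) r φ
      = pre (fun k => pdev s pc (2 ^ J.n) (π k) φ) (r * G) := by
    intro φ
    rw [cum_pieces s pc hpc π _ hrG pn hpn, cum]
    simp only [Nat.div_lt_iff_lt_mul hG0]
    rw [hMG]
    push_cast
    rw [mul_div_mul_right _ _ (Nat.cast_ne_zero.2 hG0.ne')]
  obtain ⟨h1, h2, h3, h4, h5, h6, h7⟩ := hπ (r * G) hrG
  simp only [hcum]
  have hcR : 0 ≤ cR := by unfold cR cT; positivity
  have hcT : (0 : ℝ) ≤ cT := by simp [cT]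
  set K1 : ℝ := 5000 * (cR + 1) * (5 + 576 * (cR + 1) * 2 + 1)
  set K2 : ℝ := 5 + 576 * (cR + 1) * 2
  have hK1 : 0 ≤ K1 := by positivity
  have hK2 : 0 ≤ K2 * cT := by positivity
  have hN : cN = 7 * K1 + K2 * cT := rfl
  have fin : ∀ {X B : ℝ}, 0 ≤ B → X ≤ K1 * (7 * B) → X ≤ cN * B := fun hB h => by
    have := mul_nonneg hK2 hB
    rw [hN]
    linarith
  refine ⟨fin (by positivity) h1, ?_, fin ?_ h3, fin (by positivity) h4, fin (by positivity) h5,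
    ?_, ?_⟩
  · rw [hN]; linarith
  · have : (0 : ℝ) ≤ J.band.card := Nat.cast_nonneg _
    positivity
  · have e2 := h6.trans (mul_le_mul_of_nonneg_left
      (hL.trans (mul_le_mul_of_nonneg_left he hcT)) (show 0 ≤ K2 by positivity))
    have : 0 ≤ 7 * K1 * E := by positivity
    rw [hN]
    linarith
  · have e1 : ∑ i ∈ s, (∑ j ∈ J.low, J.ω j * w i j ^ 2) ^ 2 ≤ θ₀ * E * E := by
      refine (sum_le_sum fun i hi => ?_).trans
        ((mul_sum s (fun i => ∑ j ∈ J.low, J.ω j * w i j ^ 2) (θ₀ * E)).ge.trans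
          (mul_le_mul_of_nonneg_left he hθE))
      rw [sq]
      exact mul_le_mul_of_nonneg_right (hq i hi) (hq0 i)
    have e2 := h7.trans (mul_le_mul_of_nonneg_left
      (hQ.trans (mul_le_mul_of_nonneg_left e1 hcT)) (show 0 ≤ K2 by positivity))
    have : 0 ≤ 7 * K1 * (θ₀ * E * E) := by positivity
    rw [hN]
    linarith

end Vale.Agent.P262
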