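import Mathlib
import Vale.Agent.P262.Node

/-!
Exchange across one boundary between two half-children: the boundary sum is corrected on the
coordinates far above the threshold.
-/

namespace Vale.Agent.P262

open Finset

/-- Constant of one exchange signing. -/
noncomputable def cH : ℝ := 4608

variable {ι : Type*} {d : ℕ}

/-- Cauchy-Schwarz for a weighted quadratic form. -/
lemma frob_le (s : Finset (Fin d)) (U : Fin d → ℝ) (hU : ∀ j, 0 < U j) (X : Fin d → Fin d → ℝ)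
    {B : ℝ} (hX : ∑ j ∈ s, ∑ l ∈ s, X j l ^ 2 / (U j * U l) ≤ B) (θ : Fin d → ℝ)
    (hθ : ∀ j ∉ s, θ j = 0) :
    |∑ j, ∑ l, θ j * θ l * X j l| ≤ √B * ∑ j, U j * θ j ^ 2 := by
  have hB : 0 ≤ B := le_trans (sum_nonneg fun j _ => sum_nonneg fun l _ =>
    div_nonneg (sq_nonneg _) (mul_nonneg (hU j).le (hU l).le)) hX
  have hS : 0 ≤ ∑ j, U j * θ j ^ 2 := sum_nonneg fun j _ => mul_nonneg (hU j).le (sq_nonneg _)
  have e : ∑ j, ∑ l, θ j * θ l * X j l = ∑ p ∈ s ×ˢ s, θ p.1 * θ p.2 * X p.1 p.2 := by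
    rw [sum_product]
    refine (sum_congr rfl fun j _ => ?_).trans
      (sum_subset (subset_univ s) fun j _ hj => by simp [hθ j hj]).symm
    exact (sum_subset (subset_univ s) fun l _ hl => by simp [hθ l hl]).symm
  rw [e]
  refine abs_le_of_sq_le_sq ?_ (mul_nonneg (Real.sqrt_nonneg _) hS)
  rw [mul_pow, Real.sq_sqrt hB]
  refine (sum_sq_le_sum_mul_sum_of_sq_le_mul (s ×ˢ s)
    (r := fun p => θ p.1 * θ p.2 * X p.1 p.2)
    (f := fun p => X p.1 p.2 ^ 2 / (U p.1 * U p.2))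
    (g := fun p => (U p.1 * θ p.1 ^ 2) * (U p.2 * θ p.2 ^ 2))
    (fun p _ => div_nonneg (sq_nonneg _) (mul_nonneg (hU _).le (hU _).le))
    (fun p _ => mul_nonneg (mul_nonneg (hU _).le (sq_nonneg _))
      (mul_nonneg (hU _).le (sq_nonneg _))) fun p _ => le_of_eq ?_).trans ?_
  · have := (hU p.1).ne'
    have := (hU p.2).ne'
    field_simp
  · rw [sum_product, sum_product]
    simp only []
    rw [← sum_mul_sum, sq]
    have h2 : ∑ j ∈ s, U j * θ j ^ 2 ≤ ∑ j, U j * θ j ^ 2 :=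
      sum_le_univ_sum_of_nonneg fun j => mul_nonneg (hU j).le (sq_nonneg _)
    have h3 : 0 ≤ ∑ j ∈ s, U j * θ j ^ 2 :=
      sum_nonneg fun j _ => mul_nonneg (hU j).le (sq_nonneg _)
    exact mul_le_mul hX (mul_le_mul h2 h2 h3 hS) (mul_nonneg h3 h3) hB

lemma cauchy (s : Finset ι) (a b : ι → ℝ) :
    (∑ i ∈ s, a i * b i) ^ 2 ≤ (∑ i ∈ s, a i ^ 2) * ∑ i ∈ s, b i ^ 2 :=
  sum_mul_sq_le_sq_mul_sq s a b

/-- The shift that cancels `base` on the corrected coordinates. -/
lemma exists_shift (J : Jump d) (U : Finset ι) (v : ι → Fin d → ℝ) (hv : ∀ i, ∑ j, v i j ^ 2 ≤ 1)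
    {A cB : ℝ} (hA : 0 ≤ A) (hAδ : 2 * A * √J.δ ≤ 1 / 2)
    (hGU : ∀ θ : Fin d → ℝ, (∀ j ∉ J.hi, θ j = 0) →
      |∑ i ∈ U, (∑ j, θ j * v i j) ^ 2 - ∑ j, J.q j ^ 4 * θ j ^ 2| ≤ A * ∑ j, J.U j * θ j ^ 2)
    (base : Fin d → ℝ) (hbase : ∑ j ∈ J.cor, base j ^ 2 / J.q j ^ 4 ≤ cB * J.P ^ 2) :
    ∃ z : ι → ℝ, (∀ j ∈ J.cor, ∑ i ∈ U, z i * v i j = -2 * base j) ∧
      (∀ i, z i ^ 2 ≤ 16 * cB * J.δ) ∧
      (∑ i ∈ U, z i ^ 2 ≤ 24 * cB * J.P ^ 2) ∧
      ∑ j ∈ J.gr, (∑ i ∈ U, z i * v i j) ^ 2 ≤ 64 * A ^ 2 * cB * J.P ^ 8 := by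
  classical
  have hP := J.P_pos
  have hqs : ∀ θ : Fin d → ℝ, (∀ j ∉ J.cor, θ j = 0) →
      A * ∑ j, J.U j * θ j ^ 2 ≤ 1 / 2 * ∑ j, J.q j ^ 4 * θ j ^ 2 := by
    intro θ hθ
    rw [mul_sum, mul_sum]
    refine sum_le_sum fun j _ => ?_
    by_cases hj : j ∈ J.cor
    · have h1 := mul_le_mul_of_nonneg_left (J.U_div_cor hj) hA
      have h2 := mul_le_mul_of_nonneg_right hAδ (pow_nonneg (J.q_nonneg j) 4)
      have h3 : A * J.U j ≤ 1 / 2 * J.q j ^ 4 := by linarith
      have := mul_le_mul_of_nonneg_right h3 (sq_nonneg (θ j))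
      linarith
    · simp [hθ j hj]
  have hsup : ∀ θ : Fin d → ℝ, (∀ j ∉ J.cor, θ j = 0) → ∀ j ∉ J.hi, θ j = 0 := fun θ hθ j hj =>
    hθ j fun h => hj (J.cor_subset_hi h)
  let T : (Fin d → ℝ) →ₗ[ℝ] Fin d → ℝ :=
    { toFun := fun y j => if j ∈ J.cor then ∑ i ∈ U, v i j * ∑ l ∈ J.cor, v i l * y l else y j
      map_add' := fun a b => by
        funext j
        simp only [Pi.add_apply]
        split
        · rw [← sum_add_distrib]
          refine sum_congr rfl fun i _ => ?_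
          rw [← mul_add, ← sum_add_distrib]
          simp [mul_add]
        · rfl
      map_smul' := fun c a => by
        funext j
        simp only [Pi.smul_apply, smul_eq_mul, RingHom.id_apply]
        split
        · rw [mul_sum]
          refine sum_congr rfl fun i _ => ?_
          rw [mul_left_comm c, mul_sum _ _ c]
          simp [mul_left_comm]
        · rfl }
  have hquad : ∀ y : Fin d → ℝ, (∀ j ∉ J.cor, y j = 0) →
      ∑ i ∈ U, (∑ j, y j * v i j) ^ 2 = ∑ j ∈ J.cor, y j * T y j := by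
    intro y hy
    have h : ∀ i, ∑ j, y j * v i j = ∑ l ∈ J.cor, v i l * y l := fun i => by
      rw [← sum_subset (subset_univ J.cor) fun j _ hj => by simp [hy j hj]]
      exact sum_congr rfl fun l _ => mul_comm _ _
    have hT : ∀ j ∈ J.cor, T y j = ∑ i ∈ U, v i j * ∑ l ∈ J.cor, v i l * y l := fun j hj =>
      if_pos hj
    rw [sum_congr (g := fun j => ∑ i ∈ U, y j * (v i j * ∑ l ∈ J.cor, v i l * y l)) rfl fun j hj =>
      by rw [hT j hj, mul_sum], sum_comm]
    refine sum_congr rfl fun i _ => ?_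
    rw [h, sq, sum_mul]
    exact sum_congr rfl fun j _ => by ring
  have hlow : ∀ y : Fin d → ℝ, (∀ j ∉ J.cor, y j = 0) →
      1 / 2 * ∑ j, J.q j ^ 4 * y j ^ 2 ≤ ∑ i ∈ U, (∑ j, y j * v i j) ^ 2 ∧
      ∑ i ∈ U, (∑ j, y j * v i j) ^ 2 ≤ 3 / 2 * ∑ j, J.q j ^ 4 * y j ^ 2 := by
    intro y hy
    obtain ⟨a, b⟩ := abs_le.1 (hGU y (hsup y hy))
    have := hqs y hy
    constructor <;> linarith
  have hinj : Function.Injective T := by
    rw [← LinearMap.ker_eq_bot]
    refine LinearMap.ker_eq_bot'.2 fun y hy => ?_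
    have hoff : ∀ j ∉ J.cor, y j = 0 := fun j hj => by
      have := congrFun hy j
      simpa [T, hj] using this
    have h0 : ∑ i ∈ U, (∑ j, y j * v i j) ^ 2 = 0 := by
      rw [hquad y hoff]
      exact sum_eq_zero fun j _ => by rw [hy]; simp
    have h1 := (hlow y hoff).1
    have hnn : ∀ j ∈ (univ : Finset (Fin d)), 0 ≤ J.q j ^ 4 * y j ^ 2 := fun j _ => by
      have := J.q_nonneg j
      positivity
    have h2 := (sum_eq_zero_iff_of_nonneg hnn).1 (le_antisymm (by linarith) (sum_nonneg hnn))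
    funext j
    by_cases hj : j ∈ J.cor
    · have hq : 0 < J.q j := by have := J.mem_hi.1 (J.cor_subset_hi hj); linarith
      rcases mul_eq_zero.1 (h2 j (mem_univ j)) with h | h
      · exact absurd h (pow_ne_zero _ hq.ne')
      · exact sq_eq_zero_iff.1 h
    · exact hoff j hj
  obtain ⟨y, hy⟩ := LinearMap.injective_iff_surjective.1 hinj
    (fun j => if j ∈ J.cor then -2 * base j else 0)
  have hoff : ∀ j ∉ J.cor, y j = 0 := fun j hj => by
    have := congrFun hy j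
    simpa [T, hj] using this
  set G := ∑ j, J.q j ^ 4 * y j ^ 2 with hGdef
  have hG0 : 0 ≤ G := sum_nonneg fun j _ => by have := J.q_nonneg j; positivity
  have hGN : G ≤ 16 * cB * J.P ^ 2 := by
    have h1 := (hlow y hoff).1
    rw [hquad y hoff, sum_congr rfl fun j hj => show y j * T y j = -2 * (y j * base j) by
      rw [hy]; simp [hj]; ring, ← mul_sum, ← hGdef] at h1
    have h2 : (∑ j ∈ J.cor, y j * base j) ^ 2 ≤ G * (cB * J.P ^ 2) := by
      refine (sum_sq_le_sum_mul_sum_of_sq_le_mul J.cor (r := fun j => y j * base j)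
        (f := fun j => J.q j ^ 4 * y j ^ 2) (g := fun j => base j ^ 2 / J.q j ^ 4)
        (fun j _ => by have := J.q_nonneg j; positivity)
        (fun j _ => by have := J.q_nonneg j; positivity) fun j hj => le_of_eq ?_).trans ?_
      · have hq : 0 < J.q j := by have := J.mem_hi.1 (J.cor_subset_hi hj); linarith
        field_simp
      · refine mul_le_mul (sum_le_univ_sum_of_nonneg fun j => by
          have := J.q_nonneg j; positivity) hbase (sum_nonneg fun j _ => by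
          have := J.q_nonneg j; positivity) hG0
    have hN : 0 ≤ cB * J.P ^ 2 := le_trans (sum_nonneg fun j _ => by
      have := J.q_nonneg j; positivity) hbase
    have h3 := pow_le_pow_left₀ (show 0 ≤ 1 / 2 * G by linarith) h1 2
    have h4 : G * G ≤ (16 * cB * J.P ^ 2) * G := by linarith
    rcases hG0.eq_or_lt with h | h
    · rw [← h]; linarith
    · exact le_of_mul_le_mul_right h4 h
  have hy2a : ∀ j ∈ J.cor, J.P ^ 8 ≤ J.q j ^ 4 ∧ J.P ^ 6 ≤ J.δ * J.q j ^ 4 := by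
    intro j hj
    have hh := J.q_inv_le (J.cor_subset_hi hj)
    simp [Jump.cor] at hj
    have h2 : (J.P ^ 2) ^ 3 ≤ J.q j ^ 3 := pow_le_pow_left₀ (by positivity) hj.2 3
    constructor
    · calc J.P ^ 8 = (J.P ^ 2) ^ 4 := by ring
        _ ≤ _ := pow_le_pow_left₀ (by positivity) hj.2 4
    · rw [inv_le_iff_one_le_mul₀ (by linarith [hj.1])] at hh
      have := mul_le_mul h2 hh zero_le_one (by have := J.q_nonneg j; positivity)
      nlinarith
  have hy8 : J.P ^ 8 * ∑ j, y j ^ 2 ≤ G := by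
    rw [mul_sum]
    refine sum_le_sum fun j _ => ?_
    by_cases hj : j ∈ J.cor
    · exact mul_le_mul_of_nonneg_right (hy2a j hj).1 (sq_nonneg _)
    · simp [hoff j hj]
  have hy6 : J.P ^ 6 * ∑ j, y j ^ 2 ≤ J.δ * G := by
    rw [mul_sum, mul_sum]
    refine sum_le_sum fun j _ => ?_
    by_cases hj : j ∈ J.cor
    · have := mul_le_mul_of_nonneg_right (hy2a j hj).2 (sq_nonneg (y j))
      linarith
    · simp [hoff j hj]
  let z : ι → ℝ := fun i => ∑ j, y j * v i j
  have hzv : ∀ j, ∑ i ∈ U, z i * v i j = ∑ i ∈ U, v i j * ∑ l ∈ J.cor, v i l * y l := by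
    intro j
    refine sum_congr rfl fun i _ => ?_
    simp only [z]
    rw [mul_comm, ← sum_subset (subset_univ J.cor) fun l _ hl => by simp [hoff l hl]]
    congr 1
    exact sum_congr rfl fun l _ => mul_comm _ _
  refine ⟨z, fun j hj => ?_, fun i => ?_, ?_, ?_⟩
  · rw [hzv]
    have := congrFun hy j
    simpa [T, hj] using this
  · have h1 : z i ^ 2 ≤ ∑ j, y j ^ 2 :=
      (cauchy univ y (v i)).trans (mul_le_of_le_one_right (sum_nonneg fun j _ => sq_nonneg _) (hv i))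
    have h2 : J.P ^ 6 * ∑ j, y j ^ 2 ≤ J.P ^ 6 * (16 * cB * J.δ) := by
      refine (hy6.trans (mul_le_mul_of_nonneg_left hGN J.δ_pos.le)).trans ?_
      have h3 := J.P_pow_le (show 2 ≤ 6 by norm_num)
      have hcB : 0 ≤ cB := by
        by_contra hc
        push Not at hc
        have : cB * J.P ^ 2 < 0 := mul_neg_of_neg_of_pos hc (by positivity)
        linarith
      have := mul_le_mul_of_nonneg_left h3 (show 0 ≤ 16 * cB * J.δ from
        mul_nonneg (by linarith) J.δ_pos.le)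
      linarith
    exact h1.trans (le_of_mul_le_mul_left h2 (by positivity))
  · have := (hlow y hoff).2
    simp only [z]
    linarith
  · set θ : Fin d → ℝ := fun j => if j ∈ J.gr then ∑ i ∈ U, z i * v i j else 0 with hθ
    set W := ∑ j ∈ J.gr, (∑ i ∈ U, z i * v i j) ^ 2 with hW
    have hdis : ∀ j, θ j * y j = 0 := by
      intro j
      by_cases h1 : j ∈ J.gr
      · by_cases h2 : j ∈ J.cor
        · simp [Jump.gr] at h1
          simp [Jump.cor] at h2
          linarith [h1.2, h2.2]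
        · simp [hoff j h2]
      · simp [hθ, h1]
    have hB : ∑ i ∈ U, (∑ j, θ j * v i j) * z i = W := by
      simp only [sum_mul]
      rw [sum_comm, hW, ← univ_inter J.gr, ← sum_ite_mem]
      refine sum_congr rfl fun j _ => ?_
      simp only [hθ]
      split
      · rw [sq, mul_sum]
        exact sum_congr rfl fun i _ => by ring
      · simp
    have hθhi : ∀ j ∉ J.hi, θ j = 0 := fun j hj => if_neg fun h => hj (J.gr_subset_hi h)
    have hsplit : ∀ (c : Fin d → ℝ) (t : ℝ), ∑ j, c j * (θ j + t * y j) ^ 2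
        = ∑ j, c j * θ j ^ 2 + t ^ 2 * ∑ j, c j * y j ^ 2 := by
      intro c t
      rw [mul_sum, ← sum_add_distrib]
      refine sum_congr rfl fun j _ => ?_
      linear_combination (2 * t * c j) * hdis j
    have hQ : ∀ t : ℝ, ∑ i ∈ U, (∑ j, (θ j + t * y j) * v i j) ^ 2
        = ∑ i ∈ U, (∑ j, θ j * v i j) ^ 2 + 2 * t * W + t ^ 2 * ∑ i ∈ U, z i ^ 2 := by
      intro t
      rw [← hB, mul_sum, mul_sum, ← sum_add_distrib, ← sum_add_distrib]
      refine sum_congr rfl fun i _ => ?_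
      have : ∑ j, (θ j + t * y j) * v i j = (∑ j, θ j * v i j) + t * z i := by
        simp only [z, add_mul, sum_add_distrib, mul_sum, mul_assoc]
      rw [this]
      ring
    have hquad : ∀ t : ℝ, 0 ≤ (A * ∑ j, J.U j * y j ^ 2) * (t * t) + (-2 * W) * t
        + A * ∑ j, J.U j * θ j ^ 2 := by
      intro t
      have key : ∀ t : ℝ, |∑ i ∈ U, (∑ j, θ j * v i j) ^ 2 + 2 * t * W + t ^ 2 * ∑ i ∈ U, z i ^ 2
          - (∑ j, J.q j ^ 4 * θ j ^ 2 + t ^ 2 * ∑ j, J.q j ^ 4 * y j ^ 2)|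
          ≤ A * (∑ j, J.U j * θ j ^ 2 + t ^ 2 * ∑ j, J.U j * y j ^ 2) := by
        intro t
        rw [← hQ, ← hsplit, ← hsplit]
        refine hGU (fun j => θ j + t * y j) fun j hj => ?_
        rw [hθhi j hj, hsup y hoff j hj]
        ring
      obtain ⟨a1, a2⟩ := abs_le.1 (key t)
      obtain ⟨b1, b2⟩ := abs_le.1 (key (-t))
      linarith
    have hd := discrim_le_zero hquad
    rw [discrim] at hd
    have hUy : ∑ j, J.U j * y j ^ 2 ≤ 32 * cB * J.P := by
      have h1 : ∑ j, J.U j * y j ^ 2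
          ≤ J.P / J.P ^ 2 * G + J.P ^ 6 * ∑ j, y j ^ 2 := by
        rw [hGdef, mul_sum, mul_sum, ← sum_add_distrib]
        refine sum_le_sum fun j _ => ?_
        rw [Jump.U, add_mul]
        by_cases hj : j ∈ J.cor
        · simp [Jump.cor] at hj
          refine add_le_add ?_ le_rfl
          rw [div_mul_eq_mul_div, le_div_iff₀ (by positivity)]
          have := mul_le_mul_of_nonneg_left hj.2
            (show 0 ≤ J.P * J.q j ^ 3 * y j ^ 2 by have := J.q_nonneg j; positivity)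
          linarith
        · simp [hoff j hj]
      have h2 : J.P / J.P ^ 2 * G ≤ J.P * (16 * cB) := by
        rw [div_mul_eq_mul_div, div_le_iff₀ (by positivity)]
        have := mul_le_mul_of_nonneg_left hGN hP.le
        linarith
      have h3 : J.P ^ 6 * ∑ j, y j ^ 2 ≤ 16 * cB := by
        refine le_of_mul_le_mul_left ?_ (show 0 < J.P ^ 2 by positivity)
        have e : J.P ^ 2 * (J.P ^ 6 * ∑ j, y j ^ 2) = J.P ^ 8 * ∑ j, y j ^ 2 := by ring
        linarith
      have hcB : 0 ≤ cB := by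
        have : 0 ≤ J.P ^ 6 * ∑ j, y j ^ 2 := by positivity
        linarith
      have := mul_le_mul_of_nonneg_left J.P_one_le (show 0 ≤ 16 * cB by linarith)
      linarith
    have hUθ : ∑ j, J.U j * θ j ^ 2 ≤ 2 * J.P ^ 7 * W := by
      rw [hW, mul_sum]
      refine le_trans (le_of_eq ?_) (sum_le_sum (s := J.gr)
        (f := fun j => J.U j * (∑ i ∈ U, z i * v i j) ^ 2) fun j hj => ?_)
      · rw [← univ_inter J.gr, ← sum_ite_mem]
        refine sum_congr rfl fun j _ => ?_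
        simp only [hθ]
        split <;> simp
      · refine mul_le_mul_of_nonneg_right ?_ (sq_nonneg _)
        simp [Jump.gr] at hj
        rw [Jump.U]
        have h1 := mul_le_mul_of_nonneg_left (pow_le_pow_left₀ (J.q_nonneg j) hj.2.le 3) hP.le
        have h2 := J.P_pow_le (show 6 ≤ 7 by norm_num)
        linarith
    have hW0 : 0 ≤ W := sum_nonneg fun j _ => sq_nonneg _
    have hU0 : 0 ≤ ∑ j, J.U j * y j ^ 2 :=
      sum_nonneg fun j _ => mul_nonneg (J.U_pos j).le (sq_nonneg _)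
    have hU1 : 0 ≤ ∑ j, J.U j * θ j ^ 2 :=
      sum_nonneg fun j _ => mul_nonneg (J.U_pos j).le (sq_nonneg _)
    have hW2 : W * W ≤ A ^ 2 * (32 * cB * J.P * (2 * J.P ^ 7)) * W := by
      have h1 := mul_le_mul hUy hUθ hU1 (hU0.trans hUy)
      have h2 := mul_le_mul_of_nonneg_left h1 (sq_nonneg A)
      linarith
    rcases hW0.eq_or_lt with h | h
    · rw [← h]
      have : 0 ≤ cB := by
        by_contra hc
        push Not at hc
        have h0 : 32 * cB * J.P < 0 := mul_neg_of_neg_of_pos (by linarith) hP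
        linarith [hU0.trans hUy]
      positivity
    · have := le_of_mul_le_mul_right hW2 h
      linarith

/-- One exchange. -/
theorem exchange (J : Jump d) (U : Finset ι) (v w : ι → Fin d → ℝ) (hv : ∀ i, ∑ j, v i j ^ 2 ≤ 1)
    {A cB η θ₀ E Kb : ℝ} (hA : 0 ≤ A) (hAδ : 2 * A * √J.δ ≤ 1 / 2) (hcB : 0 ≤ cB)
    (hη0 : 0 ≤ η) (hη : η ≤ 1 / 2) (hηδ : 16 * cB * J.δ ≤ η ^ 2)
    (hzA : J.δ * √(24 * cB) * (1 + √A) ≤ 1)
    (hE : 0 ≤ E) (hθ : 0 ≤ θ₀)
    (hGU : ∀ θ : Fin d → ℝ, (∀ j ∉ J.hi, θ j = 0) →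
      |∑ i ∈ U, (∑ j, θ j * v i j) ^ 2 - ∑ j, J.q j ^ 4 * θ j ^ 2| ≤ A * ∑ j, J.U j * θ j ^ 2)
    (base : Fin d → ℝ) (hbase : ∑ j ∈ J.cor, base j ^ 2 / J.q j ^ 4 ≤ cB * J.P ^ 2)
    (hband : ∑ i ∈ U, ∑ j ∈ J.band, v i j ^ 2 ≤ Kb * J.P ^ 6)
    (he : ∑ i ∈ U, ∑ j ∈ J.low, J.ω j * w i j ^ 2 ≤ 2 * E)
    (hq : ∀ i ∈ U, ∑ j ∈ J.low, J.ω j * w i j ^ 2 ≤ θ₀ * E) :
    ∃ ε : ι → ℝ, (∀ i, ε i = 1 ∨ ε i = -1) ∧
      (∑ j ∈ J.cor2, (base j + (∑ i ∈ U, ε i * v i j) / 2) ^ 2 / J.q2 j ^ 4 ≤ cH) ∧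
      (∑ j ∈ J.out, (base j + (∑ i ∈ U, ε i * v i j) / 2) ^ 2 ≤ cH * J.out.card) ∧
      (∀ θ : Fin d → ℝ, (∀ j ∉ J.hi, θ j = 0) →
        |∑ i ∈ U, ε i * (∑ j, θ j * v i j) ^ 2| ≤ (√cH + 1) * ∑ j, J.U j * θ j ^ 2) ∧
      (|∑ i ∈ U, ε i * ∑ j ∈ J.band, v i j ^ 2| ≤ (√cH + η * Kb) * J.P ^ 6) ∧
      (|∑ i ∈ U, ε i * ∑ j ∈ J.low, J.ω j * w i j ^ 2| ≤ (√(2 * cH * θ₀) + 2 * η) * E) ∧
      (∑ j ∈ J.gr, (∑ i ∈ U, ε i * v i j) ^ 2 ≤ (2 * cH + 128 * A ^ 2 * cB) * J.P ^ 8) ∧
      (∑ j ∈ J.band, (∑ i ∈ U, ε i * v i j) ^ 2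
        ≤ (2 * cH + 48 * cB * Kb) * (J.band.card + J.P ^ 8)) ∧
      (∑ j ∈ J.low, J.ω j * (∑ i ∈ U, ε i * w i j) ^ 2 ≤ (4 * cH + 96 * cB) * (J.P ^ 2 * E)) := by
  classical
  obtain ⟨z, hzb, hz1, hz2, hzgr⟩ := exists_shift J U v hv hA hAδ hGU base hbase
  have hP := J.P_pos
  have hd1 := J.δ_le
  have hzη : ∀ i, |z i| ≤ η := fun i => abs_le_of_sq_le_sq ((hz1 i).trans hηδ) hη0
  let y : ι → (Fin d ⊕ (Fin d × Fin d) ⊕ Unit) → ℝ := fun i =>
    Sum.elim (v i) (Sum.elim (fun p => v i p.1 * v i p.2) fun _ => ∑ j ∈ J.band, v i j ^ 2)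
  have hy : ∀ i ∈ U, ∑ f, y i f ^ 2 ≤ 3 := by
    intro i _
    simp only [y, Fintype.sum_sum_type, Sum.elim_inl, Sum.elim_inr, univ_unique, sum_singleton,
      mul_pow, Fintype.sum_prod_type]
    rw [← sum_mul_sum]
    have h1 := hv i
    have h0 : 0 ≤ ∑ j, v i j ^ 2 := sum_nonneg fun j _ => sq_nonneg _
    have h2 : ∑ j ∈ J.band, v i j ^ 2 ≤ 1 :=
      (sum_le_univ_sum_of_nonneg fun j => sq_nonneg _).trans h1
    have h3 : 0 ≤ ∑ j ∈ J.band, v i j ^ 2 := sum_nonneg fun j _ => sq_nonneg _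
    nlinarith
  let wT : Fin 6 → (Fin d ⊕ (Fin d × Fin d) ⊕ Unit) → ℝ :=
    ![Sum.elim (fun j => if j ∈ J.cor2 then (J.q2 j ^ 4)⁻¹ else 0) 0,
      Sum.elim (fun j => if j ∈ J.out then 1 else 0) 0,
      Sum.elim 0 (Sum.elim (fun p => if p.1 ∈ J.hi ∧ p.2 ∈ J.hi
        then (J.U p.1 * J.U p.2)⁻¹ else 0) 0),
      Sum.elim 0 (Sum.elim 0 1),
      Sum.elim (fun j => if j ∈ J.band then 1 else 0) 0,
      Sum.elim (fun j => if j ∈ J.gr then 1 else 0) 0]
  have hU := fun j => (J.U_pos j).le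
  have hwT : ∀ g f, 0 ≤ wT g f := by
    intro g f
    fin_cases g <;> rcases f with j | ⟨j, l⟩ | u <;> simp [wT] <;> split <;>
      first
        | exact zero_le_one
        | exact le_rfl
        | (rename_i hj; have := J.q2_pos j hj; positivity)
        | exact inv_nonneg.2 (mul_nonneg (hU _) (hU _))
        | exact mul_nonneg (inv_nonneg.2 (hU _)) (inv_nonneg.2 (hU _))
  let wA : Fin 2 → (Fin d ⊕ Unit) → ℝ :=
    ![Sum.elim (fun j => if j ∈ J.low then J.ω j else 0) 0, Sum.elim 0 1]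
  have hwA : ∀ g f, 0 ≤ wA g f := by
    intro g f
    fin_cases g <;> rcases f with j | u <;> simp [wA]
    split
    · exact J.ω_nonneg j
    · exact le_rfl
  obtain ⟨ε, hε, hs, ha⟩ := halve U y
    (fun i => Sum.elim (w i) fun _ => ∑ j ∈ J.low, J.ω j * w i j ^ 2) z (R := 3) (by norm_num) hy
    (fun i _ => (hzη i).trans hη) wT hwT wA hwA
  simp only [Fintype.card_fin, Nat.cast_ofNat] at hs ha
  have hK : (144 * (3 + 1) * (6 + 2) : ℝ) = cH := by norm_num [cH]
  rw [hK] at hs ha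
  have hcH : (0 : ℝ) ≤ cH := by norm_num [cH]
  have h0 := hs 0
  have h1 := hs 1
  have h2 := hs 2
  have h3 := hs 3
  have h4 := hs 4
  have h5 := hs 5
  have g0 := ha 0
  have g1 := ha 1
  simp only [wT, wA, y, Matrix.cons_val_zero, Matrix.cons_val_one, Matrix.cons_val,
    Fintype.sum_sum_type, Sum.elim_inl, Sum.elim_inr, Pi.zero_apply, Pi.one_apply, zero_mul,
    one_mul, mul_one, sum_const_zero, add_zero, zero_add, univ_unique, sum_singleton,
    card_singleton, Nat.cast_one, Fintype.sum_prod_type, ite_mul, sum_ite_hi, sum_ite_mem, univ_inter, sum_const,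
    nsmul_eq_mul] at h0 h1 h2 h3 h4 h5 g0 g1
  have hsplit : ∀ f : ι → ℝ, ∑ i ∈ U, ε i * f i
      = ∑ i ∈ U, (ε i - z i) * f i + ∑ i ∈ U, z i * f i := fun f => by
    rw [← sum_add_distrib]
    exact sum_congr rfl fun i _ => by ring
  have hcorr : ∀ j ∈ J.cor, base j + (∑ i ∈ U, ε i * v i j) / 2
      = (∑ i ∈ U, (ε i - z i) * v i j) / 2 := fun j hj => by
    rw [hsplit, hzb j hj]; ring
  have hsq : ∀ f : ι → ℝ, (∑ i ∈ U, ε i * f i) ^ 2
      ≤ 2 * ((∑ i ∈ U, (ε i - z i) * f i) ^ 2 + (∑ i ∈ U, z i * f i) ^ 2) := fun f => by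
    rw [hsplit]; exact add_sq_le
  have hzabs : ∀ f : ι → ℝ, (∀ i, 0 ≤ f i) → |∑ i ∈ U, z i * f i| ≤ η * ∑ i ∈ U, f i := by
    intro f hf
    refine (abs_sum_le_sum_abs _ _).trans ?_
    rw [mul_sum]
    refine sum_le_sum fun i _ => ?_
    rw [abs_mul, abs_of_nonneg (hf i)]
    exact mul_le_mul_of_nonneg_right (hzη i) (hf i)
  refine ⟨ε, hε, ?_, ?_, fun θ hθ => ?_, ?_, ?_, ?_, ?_, ?_⟩
  · refine le_trans (sum_le_sum fun j hj => ?_) ((h0.trans (mul_le_of_le_one_right hcH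
      (le_trans J.good2 hd1))))
    rw [hcorr j (J.cor2_subset hj), div_pow, div_div, mul_comm (J.q2 j ^ 4)⁻¹]
    have := J.q2_pos j hj
    rw [← div_eq_mul_inv]
    exact div_le_div_of_nonneg_left (sq_nonneg _) (by positivity)
      (le_mul_of_one_le_left (by positivity) (by norm_num))
  · refine le_trans (sum_le_sum fun j hj => ?_) h1
    rw [hcorr j (Finset.sdiff_subset hj), div_pow]
    exact div_le_self (sq_nonneg _) (by norm_num)
  · rw [hsplit]
    refine (abs_add_le _ _).trans ?_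
    rw [add_mul, one_mul]
    refine add_le_add ?_ ?_
    · have hX : ∑ j ∈ J.hi, ∑ l ∈ J.hi,
          (∑ i ∈ U, (ε i - z i) * (v i j * v i l)) ^ 2 / (J.U j * J.U l) ≤ cH := by
        refine le_trans (le_of_eq ?_) (h2.trans (mul_le_of_le_one_right hcH ?_))
        · exact sum_congr rfl fun j _ => sum_congr rfl fun l _ => by rw [div_eq_inv_mul]
        · simp only [mul_inv]
          rw [← sum_mul_sum]
          have hi : ∑ j ∈ J.hi, (J.U j)⁻¹ ≤ 1 := by
            refine le_trans (sum_le_sum fun j hj => ?_) (le_trans J.good_hi hd1)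
            have hq1 := J.mem_hi.1 hj
            refine inv_anti₀ (by linarith) ?_
            rw [Jump.U]
            have := le_mul_of_one_le_left (show 0 ≤ J.q j ^ 3 by positivity) J.P_one_le
            have := le_self_pow₀ hq1.le (show 3 ≠ 0 by norm_num)
            have : 0 ≤ J.P ^ 6 := by positivity
            linarith
          exact mul_le_one₀ hi (sum_nonneg fun j _ => inv_nonneg.2 (hU j)) hi
      refine le_trans (le_of_eq (congrArg _ ?_)) (frob_le J.hi J.U J.U_pos _ hX θ hθ)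
      rw [sum_congr rfl fun i _ => show (ε i - z i) * (∑ j, θ j * v i j) ^ 2
          = ∑ j, ∑ l, θ j * θ l * ((ε i - z i) * (v i j * v i l)) by
        rw [sq, sum_mul_sum, mul_sum]
        refine sum_congr rfl fun j _ => ?_
        rw [mul_sum]
        exact sum_congr rfl fun l _ => by ring, sum_comm]
      refine sum_congr rfl fun j _ => ?_
      rw [sum_comm]
      exact sum_congr rfl fun l _ => by rw [mul_sum]
    · refine (abs_sum_le_sum_abs _ _).trans ?_
      have hsq : ∀ i, |z i * (∑ j, θ j * v i j) ^ 2|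
          ≤ |z i| * (J.δ * ∑ j ∈ J.hi, J.q j * θ j ^ 2 * v i j ^ 2) := by
        intro i
        rw [abs_mul, abs_of_nonneg (sq_nonneg (∑ j, θ j * v i j))]
        refine mul_le_mul_of_nonneg_left ?_ (abs_nonneg _)
        rw [← sum_subset (subset_univ J.hi) fun j _ hj => by simp [hθ j hj]]
        refine (sum_sq_le_sum_mul_sum_of_sq_le_mul J.hi (r := fun j => θ j * v i j)
          (f := fun j => (J.q j)⁻¹) (g := fun j => J.q j * θ j ^ 2 * v i j ^ 2)
          (fun j _ => inv_nonneg.2 (J.q_nonneg j))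
          (fun j _ => by have := J.q_nonneg j; positivity) fun j hj => le_of_eq ?_).trans ?_
        · have := J.mem_hi.1 hj
          field_simp
        · exact mul_le_mul_of_nonneg_right J.good_hi (sum_nonneg fun j _ => by
            have := J.q_nonneg j; positivity)
      refine (sum_le_sum fun i _ => hsq i).trans ?_
      have e : ∑ i ∈ U, |z i| * (J.δ * ∑ j ∈ J.hi, J.q j * θ j ^ 2 * v i j ^ 2)
          = ∑ j ∈ J.hi, J.δ * J.q j * θ j ^ 2 * ∑ i ∈ U, |z i| * v i j ^ 2 := by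
        simp only [mul_sum]
        rw [sum_comm]
        exact sum_congr rfl fun j _ => sum_congr rfl fun i _ => by ring
      rw [e]
      refine le_trans (sum_le_sum fun j hj => ?_)
        (sum_le_univ_sum_of_nonneg fun j => mul_nonneg (hU j) (sq_nonneg _))
      have hq1 := J.mem_hi.1 hj
      have hT : ∑ i ∈ U, v i j ^ 2 ≤ J.q j ^ 4 + A * J.U j := by
        have := hGU (fun l => if l = j then 1 else 0) fun l hl => by
          rw [if_neg (fun h : l = j => hl (h ▸ hj))]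
        simp only [ite_mul, one_mul, zero_mul, ite_pow, one_pow, ne_eq, OfNat.ofNat_ne_zero,
          not_false_eq_true, zero_pow, mul_ite, mul_one, mul_zero, sum_ite_eq', mem_univ,
          if_true] at this
        linarith [(abs_le.1 this).2]
      have hS : ∑ i ∈ U, |z i| * v i j ^ 2 ≤ √(24 * cB) * J.P * (J.q j ^ 2 + √A * √(J.U j)) := by
        refine le_of_pow_le_pow_left₀ two_ne_zero (by positivity) ?_
        refine (cauchy U (fun i => |z i|) (fun i => v i j ^ 2)).trans ?_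
        rw [mul_pow, mul_pow, Real.sq_sqrt (by linarith)]
        refine mul_le_mul (by simpa [sq_abs] using hz2) ?_
          (sum_nonneg fun i _ => sq_nonneg _) (by positivity)
        refine le_trans (sum_le_sum fun i _ => ?_) (hT.trans ?_)
        · rw [← pow_mul]
          have hs := (single_le_sum (f := fun l => v i l ^ 2) (fun l _ => sq_nonneg _) (mem_univ j)).trans (hv i)
          show v i j ^ (2 * 2) ≤ v i j ^ 2
          rw [pow_mul, sq (v i j ^ 2)]
          exact mul_le_of_le_one_right (sq_nonneg _) hs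
        · have ea : (√A * √(J.U j)) ^ 2 = A * J.U j := by
            rw [mul_pow, Real.sq_sqrt hA, Real.sq_sqrt (hU j)]
          have : 0 ≤ J.q j ^ 2 * (√A * √(J.U j)) := by positivity
          nlinarith
      have hU2 : J.q j * J.P * (J.q j ^ 2 + √A * √(J.U j)) ≤ (1 + √A) * J.U j := by
        have h1 : J.q j * J.P * J.q j ^ 2 ≤ J.U j := by
          rw [Jump.U]
          have : 0 ≤ J.P ^ 6 := by positivity
          linarith
        have h2 : J.q j * J.P ≤ √(J.U j) := Real.le_sqrt_of_sq_le (J.qP_le hj)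
        have h3 := mul_le_mul_of_nonneg_right h2
          (mul_nonneg (Real.sqrt_nonneg A) (Real.sqrt_nonneg (J.U j)))
        have h4 : √(J.U j) * (√A * √(J.U j)) = √A * J.U j := by
          rw [mul_left_comm, Real.mul_self_sqrt (hU j)]
        linarith
      calc J.δ * J.q j * θ j ^ 2 * ∑ i ∈ U, |z i| * v i j ^ 2
          ≤ J.δ * J.q j * θ j ^ 2 * (√(24 * cB) * J.P * (J.q j ^ 2 + √A * √(J.U j))) :=
            mul_le_mul_of_nonneg_left hS (by have := J.δ_pos; positivity)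
        _ = J.δ * √(24 * cB) * θ j ^ 2 * (J.q j * J.P * (J.q j ^ 2 + √A * √(J.U j))) := by ring
        _ ≤ J.δ * √(24 * cB) * θ j ^ 2 * ((1 + √A) * J.U j) :=
            mul_le_mul_of_nonneg_left hU2 (by have := J.δ_pos; positivity)
        _ = (J.δ * √(24 * cB) * (1 + √A)) * (J.U j * θ j ^ 2) := by ring
        _ ≤ J.U j * θ j ^ 2 :=
            mul_le_of_le_one_left (mul_nonneg (hU j) (sq_nonneg _)) hzA
  · rw [hsplit]
    refine (abs_add_le _ _).trans ?_
    have e1 : |∑ i ∈ U, (ε i - z i) * ∑ j ∈ J.band, v i j ^ 2| ≤ √cH := Real.abs_le_sqrt h3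
    have e2 := (hzabs (fun i => ∑ j ∈ J.band, v i j ^ 2) fun i =>
      sum_nonneg fun j _ => sq_nonneg _).trans (mul_le_mul_of_nonneg_left hband hη0)
    have : √cH ≤ √cH * J.P ^ 6 :=
      le_mul_of_one_le_right (Real.sqrt_nonneg _) (one_le_pow₀ J.P_one_le)
    linarith
  · rw [hsplit]
    refine (abs_add_le _ _).trans ?_
    have hq2 : ∑ i ∈ U, (∑ j ∈ J.low, J.ω j * w i j ^ 2) ^ 2 ≤ θ₀ * E * (2 * E) := by
      refine (sum_le_sum fun i hi => ?_).trans
        ((mul_sum U (fun i => ∑ j ∈ J.low, J.ω j * w i j ^ 2) (θ₀ * E)).ge.trans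
          (mul_le_mul_of_nonneg_left he (by positivity)))
      rw [sq]
      exact mul_le_mul_of_nonneg_right (hq i hi)
        (sum_nonneg fun j _ => mul_nonneg (J.ω_nonneg j) (sq_nonneg _))
    have e1 : |∑ i ∈ U, (ε i - z i) * ∑ j ∈ J.low, J.ω j * w i j ^ 2| ≤ √(2 * cH * θ₀) * E := by
      refine abs_le_of_sq_le_sq ((g1.trans (mul_le_mul_of_nonneg_left hq2 hcH)).trans (le_of_eq ?_))
        (by positivity)
      rw [mul_pow, Real.sq_sqrt (by positivity)]
      ring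
    have e2 := (hzabs (fun i => ∑ j ∈ J.low, J.ω j * w i j ^ 2) fun i =>
      sum_nonneg fun j _ => mul_nonneg (J.ω_nonneg j) (sq_nonneg _)).trans
      (mul_le_mul_of_nonneg_left he hη0)
    linarith
  · refine (sum_le_sum fun j _ => hsq (fun i => v i j)).trans ?_
    rw [← mul_sum, sum_add_distrib]
    have h6 : (J.gr.card : ℝ) ≤ J.P ^ 8 := by
      refine J.card_gr.trans ((mul_le_mul hd1 (J.P_pow_le (show 2 ≤ 8 by norm_num))
        (by positivity) zero_le_one).trans_eq (one_mul _))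
    have := mul_le_mul_of_nonneg_left h6 hcH
    linarith
  · refine (sum_le_sum fun j _ => hsq (fun i => v i j)).trans ?_
    rw [← mul_sum, sum_add_distrib]
    have h6 : ∑ j ∈ J.band, (∑ i ∈ U, z i * v i j) ^ 2 ≤ 24 * cB * J.P ^ 2 * (Kb * J.P ^ 6) := by
      refine (sum_le_sum fun j _ => cauchy U z (fun i => v i j)).trans ?_
      rw [← mul_sum, sum_comm]
      exact mul_le_mul hz2 hband (sum_nonneg fun i _ => sum_nonneg fun j _ => sq_nonneg _)
        (by positivity)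
    have hn : (0 : ℝ) ≤ J.band.card := Nat.cast_nonneg _
    have hKb : 0 ≤ Kb := by
      by_contra hc
      push Not at hc
      have : Kb * J.P ^ 6 < 0 := mul_neg_of_neg_of_pos hc (by positivity)
      linarith [sum_nonneg fun i (_ : i ∈ U) => sum_nonneg fun j (_ : j ∈ J.band) =>
        sq_nonneg (v i j)]
    have := mul_nonneg (mul_nonneg hcB hKb) hn
    have := mul_nonneg hcH (pow_nonneg hP.le 8)
    linarith
  · refine (sum_le_sum fun j _ => mul_le_mul_of_nonneg_left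
      (hsq (fun i => w i j)) (J.ω_nonneg j)).trans ?_
    simp only [mul_left_comm (J.ω _) (2 : ℝ), ← mul_sum, mul_add, sum_add_distrib]
    have h6 : ∑ j ∈ J.low, J.ω j * (∑ i ∈ U, z i * w i j) ^ 2 ≤ 24 * cB * J.P ^ 2 * (2 * E) := by
      refine (sum_le_sum fun j _ => mul_le_mul_of_nonneg_left (cauchy U z (fun i => w i j))
        (J.ω_nonneg j)).trans ?_
      simp only [mul_left_comm (J.ω _), ← mul_sum]
      refine mul_le_mul hz2 ?_ (sum_nonneg fun j _ => mul_nonneg (J.ω_nonneg j)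
        (sum_nonneg fun i _ => sq_nonneg _)) (by positivity)
      rw [sum_comm] at he
      simpa [mul_sum] using he
    have h7 : ∑ j ∈ J.low, J.ω j * ∑ i ∈ U, w i j ^ 2 ≤ 2 * E := by
      rw [sum_comm] at he
      simpa [mul_sum] using he
    have h8 := g0.trans (mul_le_mul_of_nonneg_left h7 hcH)
    have h9 := mul_le_mul_of_nonneg_left (one_le_pow₀ (n := 2) J.P_one_le)
      (show 0 ≤ 4 * cH * E by positivity)
    linarith

end Vale.Agent.P262
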