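import Mathlib

/-!
Prefix sums over a positioned family and their linear interpolations.
-/

namespace Vale.Agent.P262

open Finset

variable {ι : Type*} [Fintype ι]

/-- Sum over the items placed before `p`. -/
noncomputable def psum (pos : ι → ℕ) (f : ι → ℝ) (p : ℕ) : ℝ :=
  ∑ i ∈ univ.filter (fun i => pos i < p), f i

/-- Sum over the items placed at `p`. -/
noncomputable def nsum (pos : ι → ℕ) (f : ι → ℝ) (p : ℕ) : ℝ :=
  ∑ i ∈ univ.filter (fun i => pos i = p), f i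

lemma psum_succ (pos : ι → ℕ) (f : ι → ℝ) (p : ℕ) :
    psum pos f (p + 1) = psum pos f p + nsum pos f p := by
  simp only [psum, nsum, sum_filter, ← sum_add_distrib]
  refine sum_congr rfl fun i _ => ?_
  rcases lt_trichotomy (pos i) p with h | h | h
  · simp [h, h.ne, Nat.lt_succ_of_lt h]
  · simp [h]
  · simp [h.ne', not_lt.2 h.le, not_lt.2 (Nat.succ_le_of_lt h)]

lemma psum_zero (pos : ι → ℕ) (f : ι → ℝ) : psum pos f 0 = 0 := by simp [psum]

lemma psum_top (pos : ι → ℕ) (f : ι → ℝ) {M : ℕ} (h : ∀ i, pos i < M) {p : ℕ} (hp : M ≤ p) :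
    psum pos f p = ∑ i, f i := by
  rw [psum, filter_true_of_mem fun i _ => lt_of_lt_of_le (h i) hp]

/-- Linear interpolation of `S` between consecutive integers, sampled at step `1 / m`. -/
noncomputable def itp (S : ℕ → ℝ) (m h : ℕ) : ℝ :=
  S (h / m) + ((h % m : ℕ) : ℝ) / m * (S (h / m + 1) - S (h / m))

lemma itp_eval (S : ℕ → ℝ) {m p r : ℕ} (hr : r ≤ m) (hm : 0 < m) :
    itp S m (m * p + r) = S p + (r : ℝ) / m * (S (p + 1) - S p) := by
  rcases Nat.lt_or_eq_of_le hr with h | rfl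
  · rw [itp, Nat.mul_add_div hm, Nat.div_eq_of_lt h, Nat.add_zero, Nat.mul_add_mod,
      Nat.mod_eq_of_lt h]
  · rw [itp, ← Nat.mul_succ, Nat.mul_div_cancel_left _ hm, Nat.mul_mod_right]
    have : (r : ℝ) ≠ 0 := Nat.cast_ne_zero.2 hm.ne'
    simp [div_self this]

lemma itp_mul (S : ℕ → ℝ) {m : ℕ} (hm : 0 < m) (p : ℕ) : itp S m (m * p) = S p := by
  simpa using itp_eval S (r := 0) (Nat.zero_le m) hm (p := p)

lemma itp_succ (S : ℕ → ℝ) {m : ℕ} (hm : 0 < m) (h : ℕ) :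
    itp S m (h + 1) - itp S m h = (S (h / m + 1) - S (h / m)) / m := by
  obtain ⟨p, r, hr, rfl⟩ : ∃ p r, r < m ∧ h = m * p + r :=
    ⟨h / m, h % m, Nat.mod_lt _ hm, (Nat.div_add_mod h m).symm⟩
  rw [add_assoc, itp_eval S hr hm, itp_eval S hr.le hm, Nat.mul_add_div hm, Nat.div_eq_of_lt hr]
  push_cast
  ring_nf

lemma itp_double (S : ℕ → ℝ) {L : ℕ} (hL : 0 < L) (q : ℕ) :
    itp S (2 * L) (2 * q) = itp S L q := by
  obtain ⟨p, r, hr, rfl⟩ : ∃ p r, r < L ∧ q = L * p + r :=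
    ⟨q / L, q % L, Nat.mod_lt _ hL, (Nat.div_add_mod q L).symm⟩
  rw [show 2 * (L * p + r) = 2 * L * p + 2 * r by ring, itp_eval S (by omega) (by omega),
    itp_eval S hr.le hL]
  push_cast
  rw [mul_div_mul_left _ _ (two_ne_zero (α := ℝ))]

lemma itp_itp (S : ℕ → ℝ) {L m : ℕ} (hL : 0 < L) (hm : 0 < m) (h : ℕ) :
    itp (itp S L) m h = itp S (L * m) h := by
  obtain ⟨p, r, s, hr, hs, rfl⟩ : ∃ p r s, r < L ∧ s < m ∧ h = m * (L * p + r) + s :=
    ⟨h / m / L, h / m % L, h % m, Nat.mod_lt _ hL, Nat.mod_lt _ hm, by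
      rw [Nat.div_add_mod, Nat.div_add_mod]⟩
  have hb : m * r + s ≤ L * m := by
    calc m * r + s ≤ m * (r + 1) := by rw [Nat.mul_add, mul_one]; omega
      _ ≤ m * L := Nat.mul_le_mul_left m hr
      _ = L * m := Nat.mul_comm _ _
  rw [itp_eval _ hs.le hm, add_assoc (L * p) r 1, itp_eval S hr.le hL,
    itp_eval S (r := r + 1) hr hL,
    show m * (L * p + r) + s = L * m * p + (m * r + s) by ring, itp_eval S hb (Nat.mul_pos hL hm)]
  have h1 : (L : ℝ) ≠ 0 := Nat.cast_ne_zero.2 hL.ne'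
  have h2 : (m : ℝ) ≠ 0 := Nat.cast_ne_zero.2 hm.ne'
  push_cast
  field_simp
  ring

/-- Prefix sums of a two-level placement. -/
lemma psum_refine (pos hl : ι → ℕ) (f : ι → ℝ) {m : ℕ} (hl_lt : ∀ i, hl i < m) {p r : ℕ}
    (hr : r ≤ m) :
    psum (fun i => m * pos i + hl i) f (m * p + r)
      = psum pos f p + ∑ i ∈ univ.filter (fun i => pos i = p ∧ hl i < r), f i := by
  simp only [psum, sum_filter, ← sum_add_distrib]
  refine sum_congr rfl fun i _ => ?_
  have := hl_lt i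
  rcases lt_trichotomy (pos i) p with h | h | h
  · have : m * (pos i + 1) ≤ m * p := Nat.mul_le_mul_left m h
    rw [Nat.mul_add, mul_one] at this
    simp [h, h.ne, show m * pos i + hl i < m * p + r by omega]
  · subst h
    simp
  · have : m * (p + 1) ≤ m * pos i := Nat.mul_le_mul_left m h
    rw [Nat.mul_add, mul_one] at this
    simp [h.ne', not_lt.2 h.le, show ¬ m * pos i + hl i < m * p + r by omega]

end Vale.Agent.P262
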