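import Mathlib
import Vale.Agent.P262.Jump
import Vale.Agent.P262.Seq

/-!
Interface between one jump and the iteration over all jumps.
-/

namespace Vale.Agent.P262

open Finset

variable {d N : ℕ}

/-- Correction of the interpolation at an old boundary. -/
noncomputable def kink (pos : Fin N → ℕ) (f : Fin N → ℝ) (L M c : ℕ) : ℝ :=
  if 1 ≤ c ∧ c < M * L then (nsum pos f (c / L) - nsum pos f ((c - 1) / L)) / (4 * L) else 0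

/-- Deviation of new boundary sums from interpolated old ones, the kink removed. -/
noncomputable def bdev (pos pos' : Fin N → ℕ) (f : Fin N → ℝ) (L M c : ℕ) : ℝ :=
  psum pos' f c - itp (psum pos f) L c - kink pos f L M c

/-- What is known when a jump starts: `M` nodes given by `pos`, working vectors `w`. -/
structure StepIn (J : Jump d) (A cP E : ℝ) (M : ℕ) (v : Fin N → Fin d → ℝ) (pos : Fin N → ℕ)
    (w : Fin N → Fin d → ℝ) : Prop where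
  norm_le : ∀ i, ∑ j, v i j ^ 2 ≤ 1
  sum_zero : ∀ j, ∑ i, v i j = 0
  pos_lt : ∀ i, pos i < M
  w_eq : ∀ i j, j ∉ J.low → w i j = v i j
  energy : ∀ p, ∑ i ∈ univ.filter (fun i => pos i = p), ∑ j ∈ J.low, J.ω j * w i j ^ 2 ≤ E
  cov : ∀ p, p < M → ∀ θ : Fin d → ℝ, (∀ j ∈ J.low, θ j = 0) →
    |∑ i ∈ univ.filter (fun i => pos i = p), (∑ j, θ j * v i j) ^ 2
        - ∑ j, J.q j ^ 4 * 2 ^ J.ℓ * θ j ^ 2| ≤ A * ∑ j, J.U0 j * θ j ^ 2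
  corr : ∀ p, ∑ j ∈ J.cor, psum pos (v · j) p ^ 2 / J.q j ^ 4 ≤ cP

/-- What a jump delivers. -/
structure StepOut (J : Jump d) (A cP cS θ₀ E : ℝ) (M : ℕ) (v : Fin N → Fin d → ℝ)
    (pos : Fin N → ℕ) (w : Fin N → Fin d → ℝ) (pos' : Fin N → ℕ) (w' : Fin N → Fin d → ℝ) :
    Prop where
  pos_lt : ∀ i, pos' i < M * 2 ^ J.ℓ
  window : ∀ i, 2 ^ J.ℓ * pos i ≤ pos' i + 1 ∧ pos' i ≤ 2 ^ J.ℓ * pos i + 2 ^ J.ℓ
  w_eq : ∀ i j, j ∉ J.low → w' i j = v i j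
  removed : ∀ p, ∀ e : Fin N → ℝ, (∀ i, |e i| ≤ 1) →
    ∑ j ∈ J.low, J.ω j * (∑ i ∈ univ.filter (fun i => pos i = p), e i * (w i j - w' i j)) ^ 2
      ≤ E / θ₀
  energy : ∀ c, ∑ i ∈ univ.filter (fun i => pos' i = c), ∑ j ∈ J.low, J.ω j * w' i j ^ 2
    ≤ 3 / 5 * E
  band_energy : ∀ c, ∑ i ∈ univ.filter (fun i => pos' i = c), ∑ j ∈ J.band, v i j ^ 2
    ≤ cS * J.P ^ 6
  cov : ∀ c, c < M * 2 ^ J.ℓ → ∀ θ : Fin d → ℝ, (∀ j, J.q j ≤ 1 → θ j = 0) →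
    |∑ i ∈ univ.filter (fun i => pos' i = c), (∑ j, θ j * v i j) ^ 2
        - ∑ j, J.q j ^ 4 * θ j ^ 2| ≤ A * ∑ j, J.U j * θ j ^ 2
  corr : ∀ c, ∑ j ∈ J.cor2, psum pos' (v · j) c ^ 2 / J.q2 j ^ 4 ≤ cP
  left : ∀ c, ∑ j ∈ J.out, psum pos' (v · j) c ^ 2 ≤ cS * J.out.card
  dev_gr : ∀ c, ∑ j ∈ J.gr, bdev pos pos' (v · j) (2 ^ J.ℓ) M c ^ 2 ≤ cS * J.P ^ 8
  dev_band : ∀ c, ∑ j ∈ J.band, bdev pos pos' (v · j) (2 ^ J.ℓ) M c ^ 2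
    ≤ cS * (J.band.card + J.P ^ 8)
  dev_low : ∀ c, ∑ j ∈ J.low, J.ω j * bdev pos pos' (w' · j) (2 ^ J.ℓ) M c ^ 2
    ≤ cS * J.P ^ 2 * E

/-- Every admissible jump can be carried out. -/
def StepThm : Prop :=
  ∃ A cP cS θ₀ δ₀ : ℝ, 0 ≤ A ∧ 0 ≤ cP ∧ 0 ≤ cS ∧ 0 < θ₀ ∧ 0 < δ₀ ∧ δ₀ ≤ 1 ∧
    ∀ (d N : ℕ) (J : Jump d), J.δ ≤ δ₀ → ∀ (E : ℝ) (M : ℕ) (v : Fin N → Fin d → ℝ)
      (pos : Fin N → ℕ) (w : Fin N → Fin d → ℝ), 0 ≤ E → StepIn J A cP E M v pos w →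
      ∃ pos' w', StepOut J A cP cS θ₀ E M v pos w pos' w'

end Vale.Agent.P262
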