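import Mathlib
import Vale.Agent.P262.Node
import Vale.Agent.P262.Exchange
import Vale.Agent.P262.StepDef

/-!
A placement of all items in half-children, and the sums over half-children.
-/

namespace Vale.Agent.P262

open Finset

variable {d N : ℕ}

/-- Prefix sums of the refined placement minus interpolated old ones. -/
noncomputable def gap (pos hidx : Fin N → ℕ) (m : ℕ) (h : ℕ) (f : Fin N → ℝ) : ℝ :=
  psum hidx f h - itp (psum pos f) m h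

lemma psum_lincomb {κ : Type*} (s : Finset κ) (pos : Fin N → ℕ) (c : κ → ℝ)
    (f : κ → Fin N → ℝ) (p : ℕ) :
    psum pos (fun i => ∑ k ∈ s, c k * f k i) p = ∑ k ∈ s, c k * psum pos (f k) p := by
  simp only [psum, mul_sum]
  rw [sum_comm]

lemma gap_lincomb {κ : Type*} (s : Finset κ) (pos hidx : Fin N → ℕ) (m h : ℕ) (c : κ → ℝ)
    (f : κ → Fin N → ℝ) :
    gap pos hidx m h (fun i => ∑ k ∈ s, c k * f k i) = ∑ k ∈ s, c k * gap pos hidx m h (f k) := by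
  simp only [gap, itp, psum_lincomb, ← sum_sub_distrib, mul_sum, ← sum_add_distrib]
  exact sum_congr rfl fun k _ => by ring

lemma gap_eq_cum (pos : Fin N → ℕ) (hl : ℕ → Fin N → ℕ) {m : ℕ} (hm : ∀ p i, hl p i < m)
    (h : ℕ) (f : Fin N → ℝ) :
    gap pos (fun i => m * pos i + hl (pos i) i) m h f
      = cum (univ.filter (fun i => pos i = h / m)) (hl (h / m)) m (h % m) f := by
  rcases N.eq_zero_or_pos with rfl | hN
  · simp [gap, cum, psum, itp]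
  have hm0 : 0 < m := lt_of_le_of_lt (Nat.zero_le _) (hm 0 ⟨0, hN⟩)
  conv_lhs => rw [← Nat.div_add_mod h m]
  rw [gap, psum_refine pos (fun i => hl (pos i) i) f (fun i => hm _ i) (Nat.mod_lt h hm0).le,
    itp_eval _ (Nat.mod_lt h hm0).le hm0, psum_succ, add_sub_cancel_left, cum]
  have : ∑ i ∈ univ.filter (fun i => pos i = h / m ∧ hl (pos i) i < h % m), f i
      = ∑ i ∈ (univ.filter (fun i => pos i = h / m)).filter (fun i => hl (h / m) i < h % m), f i := by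
    rw [filter_filter]
    refine sum_congr (filter_congr fun i _ => ?_) fun _ _ => rfl
    constructor <;> rintro ⟨a, b⟩ <;> exact ⟨a, by rw [a] at *; exact b⟩
  rw [this, nsum]
  ring

lemma quad_expand (v : Fin N → Fin d → ℝ) (θ : Fin d → ℝ) :
    (fun i => (∑ j, θ j * v i j) ^ 2)
      = fun i => ∑ p : Fin d × Fin d, θ p.1 * θ p.2 * (v i p.1 * v i p.2) := by
  funext i
  rw [sq, sum_mul_sum, Fintype.sum_prod_type]
  exact sum_congr rfl fun j _ => sum_congr rfl fun l _ => by ring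

/-- The properties of a placement in half-children. -/
structure Placed (J : Jump d) (θ₀ E : ℝ) (M : ℕ) (v : Fin N → Fin d → ℝ) (pos : Fin N → ℕ)
    (w : Fin N → Fin d → ℝ) (hidx : Fin N → ℕ) : Prop where
  div_eq : ∀ i, hidx i / (2 * 2 ^ J.ℓ) = pos i
  top : ∀ f, gap pos hidx (2 * 2 ^ J.ℓ) (2 * (M * 2 ^ J.ℓ)) f = 0
  g_cor : ∀ h, ∑ j ∈ J.cor, gap pos hidx (2 * 2 ^ J.ℓ) h (v · j) ^ 2 / J.q j ^ 4 ≤ cN * J.P ^ 2
  g_cov : ∀ h, ∀ θ : Fin d → ℝ, (∀ j ∉ J.hi, θ j = 0) →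
    |gap pos hidx (2 * 2 ^ J.ℓ) h (fun i => (∑ j, θ j * v i j) ^ 2)|
      ≤ √cN * ∑ j, J.U j * θ j ^ 2
  g_band : ∀ h, ∑ j ∈ J.band, gap pos hidx (2 * 2 ^ J.ℓ) h (v · j) ^ 2
    ≤ cN * (J.band.card + J.P ^ 8)
  g_gr : ∀ h, ∑ j ∈ J.gr, gap pos hidx (2 * 2 ^ J.ℓ) h (v · j) ^ 2 ≤ cN * J.P ^ 8
  g_tr : ∀ h, |gap pos hidx (2 * 2 ^ J.ℓ) h (fun i => ∑ j ∈ J.band, v i j ^ 2)|
    ≤ √cN * J.P ^ 4
  g_low : ∀ h, ∑ j ∈ J.low, J.ω j * gap pos hidx (2 * 2 ^ J.ℓ) h (w · j) ^ 2 ≤ cN * E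
  g_e : ∀ h, |gap pos hidx (2 * 2 ^ J.ℓ) h (fun i => ∑ j ∈ J.low, J.ω j * w i j ^ 2)|
    ≤ √(cN * θ₀) * E

lemma cN_nonneg : 0 ≤ cN := by unfold cN cR cT; positivity

lemma exists_placed (J : Jump d) {A : ℝ} (hA : 0 ≤ A) (hAδ : (2 + 4 * A) * J.δ ≤ 1) {θ₀ E : ℝ}
    (hθ : 0 ≤ θ₀) (hE : 0 ≤ E) (M : ℕ) (v w : Fin N → Fin d → ℝ) (pos : Fin N → ℕ)
    (hv : ∀ i, ∑ j, v i j ^ 2 ≤ 1) (hpos : ∀ i, pos i < M)
    (hG : ∀ p, p < M → ∀ θ : Fin d → ℝ, (∀ j ∈ J.low, θ j = 0) →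
      |∑ i ∈ univ.filter (fun i => pos i = p), (∑ j, θ j * v i j) ^ 2
          - ∑ j, J.q j ^ 4 * 2 ^ J.ℓ * θ j ^ 2| ≤ A * ∑ j, J.U0 j * θ j ^ 2)
    (he : ∀ p, ∑ i ∈ univ.filter (fun i => pos i = p), ∑ j ∈ J.low, J.ω j * w i j ^ 2 ≤ E)
    (hq : ∀ i, ∑ j ∈ J.low, J.ω j * w i j ^ 2 ≤ θ₀ * E) :
    ∃ hidx : Fin N → ℕ, Placed J θ₀ E M v pos w hidx := by
  classical
  set m := 2 * 2 ^ J.ℓ with hm
  have hm0 : 0 < m := by positivity
  have hP := J.P_pos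
  have hN := cN_nonneg
  have key : ∀ p, ∃ hl : Fin N → ℕ, (∀ i, hl i < m) ∧ ∀ r ≤ m,
      let G : (Fin N → ℝ) → ℝ := cum (univ.filter (fun i => pos i = p)) hl m r
      (∑ j ∈ J.cor, G (v · j) ^ 2 / J.q j ^ 4 ≤ cN * J.P ^ 2) ∧
      (∑ j ∈ J.hi, ∑ l ∈ J.hi, G (fun i => v i j * v i l) ^ 2 / (J.U j * J.U l) ≤ cN) ∧
      (∑ j ∈ J.band, G (v · j) ^ 2 ≤ cN * (J.band.card + J.P ^ 8)) ∧
      (∑ j ∈ J.gr, G (v · j) ^ 2 ≤ cN * J.P ^ 8) ∧
      (G (fun i => ∑ j ∈ J.band, v i j ^ 2) ^ 2 ≤ cN * J.P ^ 8) ∧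
      (∑ j ∈ J.low, J.ω j * G (w · j) ^ 2 ≤ cN * E) ∧
      (G (fun i => ∑ j ∈ J.low, J.ω j * w i j ^ 2) ^ 2 ≤ cN * (θ₀ * E) * E) := by
    intro p
    by_cases hp : p < M
    · exact node_order J hA hAδ _ v w hv (hG p hp) hθ (he p) (fun i _ => hq i)
    · refine ⟨fun _ => 0, fun _ => hm0, fun r _ => ?_⟩
      have he : univ.filter (fun i => pos i = p) = (∅ : Finset (Fin N)) :=
        filter_eq_empty_iff.2 fun i _ h => hp (h ▸ hpos i)
      have h0 : (0 : ℝ) ≤ J.band.card := Nat.cast_nonneg _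
      simp only [he, cum, filter_empty, sum_empty, mul_zero, sub_zero, zero_pow two_ne_zero,
        zero_div, sum_const_zero]
      refine ⟨?_, hN, ?_, ?_, ?_, ?_, ?_⟩ <;> positivity
  choose hl hlm hb using key
  refine ⟨fun i => m * pos i + hl (pos i) i, ⟨fun i => ?_, fun f => ?_, ?_, ?_, ?_, ?_, ?_, ?_, ?_⟩⟩
  · rw [← hm, Nat.mul_add_div hm0, Nat.div_eq_of_lt (hlm _ i), Nat.add_zero]
  · rw [← hm, gap_eq_cum pos hl hlm, show 2 * (M * 2 ^ J.ℓ) = m * M by rw [hm]; ring,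
      Nat.mul_div_cancel_left _ hm0, Nat.mul_mod_right, cum]
    simp
  all_goals intro h
  all_goals obtain ⟨b1, b2, b3, b4, b5, b6, b7⟩ := hb (h / m) (h % m) (Nat.mod_lt h hm0).le
  all_goals simp only [← hm]
  · simpa only [gap_eq_cum pos hl hlm] using b1
  · intro θ hθ'
    rw [quad_expand, gap_lincomb, Fintype.sum_prod_type]
    refine frob_le J.hi J.U J.U_pos _ ?_ θ hθ'
    simpa only [gap_eq_cum pos hl hlm] using b2
  · simpa only [gap_eq_cum pos hl hlm] using b3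
  · simpa only [gap_eq_cum pos hl hlm] using b4
  · rw [gap_eq_cum pos hl hlm]
    refine abs_le_of_sq_le_sq (b5.trans (le_of_eq ?_)) (by positivity)
    rw [mul_pow, Real.sq_sqrt hN]
    ring
  · simpa only [gap_eq_cum pos hl hlm] using b6
  · rw [gap_eq_cum pos hl hlm]
    refine abs_le_of_sq_le_sq (b7.trans (le_of_eq ?_)) (by positivity)
    rw [mul_pow, Real.sq_sqrt (by positivity)]
    ring

/-- Sum over one half-child. -/
lemma half_sum (pos hidx : Fin N → ℕ) {m : ℕ} (hm : 0 < m) (h : ℕ) (f : Fin N → ℝ) :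
    nsum hidx f h
      = nsum pos f (h / m) / m + (gap pos hidx m (h + 1) f - gap pos hidx m h f) := by
  have h1 := psum_succ hidx f h
  have h2 := itp_succ (psum pos f) hm h
  rw [psum_succ, add_sub_cancel_left] at h2
  simp only [gap]
  linarith

/-- Sum over the two halves that meet at boundary `q`. -/
noncomputable def meet (hidx : Fin N → ℕ) (q : ℕ) : Finset (Fin N) :=
  univ.filter (fun i => (hidx i + 1) / 2 = q)

lemma meet_sum (hidx : Fin N → ℕ) (f : Fin N → ℝ) {q : ℕ} (hq : 1 ≤ q) :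
    ∑ i ∈ meet hidx q, f i = nsum hidx f (2 * q - 1) + nsum hidx f (2 * q) := by
  simp only [meet, nsum, sum_filter, ← sum_add_distrib]
  refine sum_congr rfl fun i _ => ?_
  by_cases h1 : hidx i = 2 * q - 1
  · rw [if_pos (by omega), if_pos h1, if_neg (by omega), add_zero]
  by_cases h2 : hidx i = 2 * q
  · rw [if_pos (by omega), if_neg h1, if_pos h2, zero_add]
  rw [if_neg (by omega), if_neg h1, if_neg h2, add_zero]

lemma meet_zero (hidx : Fin N → ℕ) (f : Fin N → ℝ) :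
    ∑ i ∈ meet hidx 0, f i = nsum hidx f 0 := by
  simp only [meet, nsum]
  refine sum_congr (filter_congr fun i _ => ?_) fun _ _ => rfl
  omega

lemma meet_top (hidx : Fin N → ℕ) (f : Fin N → ℝ) {H : ℕ} (hH : ∀ i, hidx i < 2 * H) :
    ∑ i ∈ meet hidx H, f i = nsum hidx f (2 * H - 1) := by
  simp only [meet, nsum]
  refine sum_congr (filter_congr fun i _ => ?_) fun _ _ => rfl
  have := hH i
  omega

variable {J : Jump d} {θ₀ E A : ℝ} {M : ℕ} {v w : Fin N → Fin d → ℝ} {pos hidx : Fin N → ℕ}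

lemma Placed.hidx_lt (hp : Placed J θ₀ E M v pos w hidx) (hpos : ∀ i, pos i < M) (i : Fin N) :
    hidx i < 2 * (M * 2 ^ J.ℓ) := by
  have h1 := hp.div_eq i
  have h2 : hidx i / (2 * 2 ^ J.ℓ) < M := by rw [h1]; exact hpos i
  rw [Nat.div_lt_iff_lt_mul (by positivity)] at h2
  calc hidx i < M * (2 * 2 ^ J.ℓ) := h2
    _ = _ := by ring

lemma Placed.half_cov (hp : Placed J θ₀ E M v pos w hidx) (hA : 0 ≤ A)
    (hG : ∀ p, p < M → ∀ θ : Fin d → ℝ, (∀ j ∈ J.low, θ j = 0) →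
      |∑ i ∈ univ.filter (fun i => pos i = p), (∑ j, θ j * v i j) ^ 2
          - ∑ j, J.q j ^ 4 * 2 ^ J.ℓ * θ j ^ 2| ≤ A * ∑ j, J.U0 j * θ j ^ 2)
    {h : ℕ} (hh : h < 2 * (M * 2 ^ J.ℓ)) (θ : Fin d → ℝ) (hθ : ∀ j ∉ J.hi, θ j = 0) :
    |nsum hidx (fun i => (∑ j, θ j * v i j) ^ 2) h - (∑ j, J.q j ^ 4 * θ j ^ 2) / 2|
      ≤ (A / (2 * a8) + 2 * √cN) * ∑ j, J.U j * θ j ^ 2 := by
  have hm : 0 < 2 * 2 ^ J.ℓ := by positivity
  have hp' : h / (2 * 2 ^ J.ℓ) < M := by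
    rw [Nat.div_lt_iff_lt_mul hm]
    calc h < 2 * (M * 2 ^ J.ℓ) := hh
      _ = _ := by ring
  have h0 := hG _ hp' θ (fun j hj => hθ j fun h => J.hi_not_low h hj)
  have g1 := hp.g_cov (h + 1) θ hθ
  have g2 := hp.g_cov h θ hθ
  rw [half_sum pos hidx hm h]
  set X := nsum pos (fun i => (∑ j, θ j * v i j) ^ 2) (h / (2 * 2 ^ J.ℓ))
  set S := ∑ j, J.U j * θ j ^ 2
  have hU0 : A * (∑ j, J.U0 j * θ j ^ 2) ≤ A / a8 * 2 ^ J.ℓ * S := by
    rw [mul_sum, mul_sum]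
    refine sum_le_sum fun j _ => ?_
    by_cases hj : j ∈ J.hi
    · have h1 := J.U0_hi j (J.mem_hi.1 hj)
      rw [div_le_iff₀ (by positivity)] at h1
      have h2 := mul_le_mul_of_nonneg_left h1 (mul_nonneg hA (sq_nonneg (θ j)))
      calc A * (J.U0 j * θ j ^ 2) = A * θ j ^ 2 * J.U0 j := by ring
        _ ≤ _ := h2
        _ = _ := by rw [Jump.U, Jump.P]; ring
    · simp [hθ j hj]
  have hsum : ∑ j, J.q j ^ 4 * 2 ^ J.ℓ * θ j ^ 2 = 2 ^ J.ℓ * ∑ j, J.q j ^ 4 * θ j ^ 2 := by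
    rw [mul_sum]; exact sum_congr rfl fun j _ => by ring
  rw [hsum] at h0
  have h3 : |X / ((2 * 2 ^ J.ℓ : ℕ) : ℝ) - (∑ j, J.q j ^ 4 * θ j ^ 2) / 2| ≤ A / (2 * a8) * S := by
    have e : X / ((2 * 2 ^ J.ℓ : ℕ) : ℝ) - (∑ j, J.q j ^ 4 * θ j ^ 2) / 2
        = (X - 2 ^ J.ℓ * ∑ j, J.q j ^ 4 * θ j ^ 2) / (2 * 2 ^ J.ℓ) := by
      push_cast
      field_simp
    rw [e, abs_div, abs_of_pos (show (0 : ℝ) < 2 * 2 ^ J.ℓ by positivity),
      div_le_iff₀ (by positivity)]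
    have e2 : A / (2 * a8) * S * (2 * 2 ^ J.ℓ) = A / a8 * 2 ^ J.ℓ * S := by
      have := a8_pos.ne'
      field_simp
    rw [e2]
    exact h0.trans hU0
  calc |X / ((2 * 2 ^ J.ℓ : ℕ) : ℝ)
        + (gap pos hidx _ (h + 1) (fun i => (∑ j, θ j * v i j) ^ 2)
          - gap pos hidx _ h (fun i => (∑ j, θ j * v i j) ^ 2))
        - (∑ j, J.q j ^ 4 * θ j ^ 2) / 2|
      ≤ |X / ((2 * 2 ^ J.ℓ : ℕ) : ℝ) - (∑ j, J.q j ^ 4 * θ j ^ 2) / 2|
        + |gap pos hidx _ (h + 1) (fun i => (∑ j, θ j * v i j) ^ 2)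
          - gap pos hidx _ h (fun i => (∑ j, θ j * v i j) ^ 2)| := by
        rw [add_sub_right_comm]; exact abs_add_le _ _
    _ ≤ _ := by
        refine (add_le_add h3 ((abs_sub _ _).trans (add_le_add g1 g2))).trans (le_of_eq ?_)
        ring

lemma Placed.half_band (hp : Placed J θ₀ E M v pos w hidx) (hA : 0 ≤ A)
    (hAδ : (2 + 4 * A) * J.δ ≤ 1) (hpos : ∀ i, pos i < M)
    (hG : ∀ p, p < M → ∀ θ : Fin d → ℝ, (∀ j ∈ J.low, θ j = 0) →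
      |∑ i ∈ univ.filter (fun i => pos i = p), (∑ j, θ j * v i j) ^ 2
          - ∑ j, J.q j ^ 4 * 2 ^ J.ℓ * θ j ^ 2| ≤ A * ∑ j, J.U0 j * θ j ^ 2)
    (h : ℕ) : nsum hidx (fun i => ∑ j ∈ J.band, v i j ^ 2) h ≤ (cN + 3 / 2) * J.P ^ 6 := by
  have hP := J.P_pos
  have hm : 0 < 2 * 2 ^ J.ℓ := by positivity
  have g1 := (abs_le.1 (hp.g_tr (h + 1))).2
  have g2 := (abs_le.1 (hp.g_tr h)).1
  rw [half_sum pos hidx hm h]
  have h4 : 2 * √cN * J.P ^ 4 ≤ (cN + 1) * J.P ^ 6 := by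
    have h1 := mul_le_mul_of_nonneg_left (J.P_pow_le (show 4 ≤ 6 by norm_num))
      (show 0 ≤ 2 * √cN by positivity)
    have h2 : 2 * √cN ≤ cN + 1 := by
      nlinarith [sq_nonneg (√cN - 1), Real.sq_sqrt cN_nonneg]
    have := mul_le_mul_of_nonneg_right h2 (pow_nonneg hP.le 6)
    linarith
  have h5 : nsum pos (fun i => ∑ j ∈ J.band, v i j ^ 2) (h / (2 * 2 ^ J.ℓ))
      ≤ ((2 * 2 ^ J.ℓ : ℕ) : ℝ) * (1 / 2 * J.P ^ 6) := by
    set p := h / (2 * 2 ^ J.ℓ)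
    by_cases hp' : p < M
    · rw [nsum, sum_comm]
      refine (sum_le_sum (g := fun j => 2 ^ J.ℓ * (J.q j ^ 4 + A * (J.U0 j / 2 ^ J.ℓ)))
        fun j hj => ?_).trans ?_
      · have := hG p hp' (fun l => if l = j then 1 else 0) (fun l hl' => by
          rw [if_neg (fun h : l = j => J.band_not_low hj (h ▸ hl'))])
        simp only [ite_mul, one_mul, zero_mul, ite_pow, one_pow, ne_eq, OfNat.ofNat_ne_zero,
          not_false_eq_true, zero_pow, mul_ite, mul_one, mul_zero, sum_ite_eq', mem_univ,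
          if_true] at this
        have e : (2 : ℝ) ^ J.ℓ * (J.U0 j / 2 ^ J.ℓ) = J.U0 j :=
          mul_div_cancel₀ _ (by positivity)
        rw [mul_add, mul_left_comm, e]
        linarith [(abs_le.1 this).2]
      · rw [← mul_sum]
        have h1 := J.trace_band hA
        have h2 : (1 + 2 * A) * J.δ * J.P ^ 6 ≤ 1 * J.P ^ 6 :=
          mul_le_mul_of_nonneg_right (by nlinarith [J.δ_pos]) (by positivity)
        have h3 := mul_le_mul_of_nonneg_left (h1.trans h2) (pow_nonneg zero_le_two J.ℓ)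
        push_cast
        linarith
    · rw [nsum, filter_eq_empty_iff.2 fun i _ (hi : pos i = p) => hp' (hi ▸ hpos i), sum_empty]
      positivity
  have h6 : nsum pos (fun i => ∑ j ∈ J.band, v i j ^ 2) (h / (2 * 2 ^ J.ℓ))
      / ((2 * 2 ^ J.ℓ : ℕ) : ℝ) ≤ 1 / 2 * J.P ^ 6 := by
    rw [div_le_iff₀ (by positivity)]
    linarith
  linarith

lemma Placed.half_energy (hp : Placed J θ₀ E M v pos w hidx) (hE : 0 ≤ E)
    (he : ∀ p, ∑ i ∈ univ.filter (fun i => pos i = p), ∑ j ∈ J.low, J.ω j * w i j ^ 2 ≤ E)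
    (h : ℕ) :
    nsum hidx (fun i => ∑ j ∈ J.low, J.ω j * w i j ^ 2) h ≤ (1 / 4 + 2 * √(cN * θ₀)) * E := by
  have hm : 0 < 2 * 2 ^ J.ℓ := by positivity
  have g1 := (abs_le.1 (hp.g_e (h + 1))).2
  have g2 := (abs_le.1 (hp.g_e h)).1
  rw [half_sum pos hidx hm h]
  have h6 : nsum pos (fun i => ∑ j ∈ J.low, J.ω j * w i j ^ 2) (h / (2 * 2 ^ J.ℓ))
      / ((2 * 2 ^ J.ℓ : ℕ) : ℝ) ≤ 1 / 4 * E := by
    rw [div_le_iff₀ (by positivity)]
    have h1 := he (h / (2 * 2 ^ J.ℓ))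
    have h2 : (4 : ℝ) ≤ ((2 * 2 ^ J.ℓ : ℕ) : ℝ) := by
      have : 2 ^ 1 ≤ 2 ^ J.ℓ := Nat.pow_le_pow_right two_pos J.one_le_ℓ
      exact_mod_cast show 4 ≤ 2 * 2 ^ J.ℓ by omega
    have h3 := mul_le_mul_of_nonneg_left h2 hE
    simp only [nsum]
    linarith
  linarith

end Vale.Agent.P262
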