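import Mathlib

/-!
A zero-sum family whose orderings all have a partial sum of norm at least a constant times `√d`.
-/

namespace Vale.Agent.P262

open Finset

lemma exists_count {N : ℕ} (P : Fin N → Prop) [DecidablePred P] {m : ℕ}
    (hm : m ≤ (univ.filter P).card) :
    ∃ k, k ≤ N ∧ (univ.filter fun i : Fin N => (i : ℕ) < k ∧ P i).card = m := by
  induction m with
  | zero => exact ⟨0, Nat.zero_le _, by simp⟩
  | succ m ih =>
    have hex : ∃ k, m + 1 ≤ (univ.filter fun i : Fin N => (i : ℕ) < k ∧ P i).card :=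
      ⟨N, by simpa using hm⟩
    refine ⟨Nat.find hex, Nat.find_le (by simpa using hm), le_antisymm ?_ (Nat.find_spec hex)⟩
    set k := Nat.find hex with hk
    have hk0 : k ≠ 0 := fun h => by have := Nat.find_spec hex; rw [← hk, h] at this; simp at this
    have h1 := Nat.find_min hex (show k - 1 < k by omega)
    rw [not_le] at h1
    have hs : (univ.filter fun i : Fin N => (i : ℕ) < k ∧ P i)
        ⊆ (univ.filter fun i : Fin N => (i : ℕ) < k - 1 ∧ P i)
          ∪ univ.filter fun i : Fin N => (i : ℕ) = k - 1 := by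
      intro i hi
      simp only [mem_filter, mem_univ, true_and, mem_union] at hi ⊢
      by_cases h : (i : ℕ) = k - 1
      · exact Or.inr h
      · exact Or.inl ⟨by omega, hi.2⟩
    have h2 := (card_le_card hs).trans (card_union_le _ _)
    have h3 : (univ.filter fun i : Fin N => (i : ℕ) = k - 1).card ≤ 1 :=
      card_le_one.2 fun a ha b hb => Fin.ext (by simp at ha hb; omega)
    omega

theorem steinitz_lower (d : ℕ) (hd : 1 ≤ d) :
    ∃ (N : ℕ) (v : Fin N → EuclideanSpace ℝ (Fin d)), (∀ i, ‖v i‖ ≤ 1) ∧ ∑ i, v i = 0 ∧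
      ∀ π : Equiv.Perm (Fin N), ∃ k : ℕ, k ≤ N ∧
        1 / 3 * √(d : ℝ) ≤ ‖∑ i ∈ univ.filter (fun i : Fin N => (i : ℕ) < k), v (π i)‖ := by
  classical
  have hd0 : (0 : ℝ) < d := by exact_mod_cast hd
  let e : Fin d → EuclideanSpace ℝ (Fin d) := fun i => EuclideanSpace.single i 1
  set u : EuclideanSpace ℝ (Fin d) := (d : ℝ)⁻¹ • ∑ i, e i with hu
  have hej : ∀ i j, e i j = if j = i then 1 else 0 := fun i j => by simp [e, PiLp.single_apply]
  have huj : ∀ j, u j = (d : ℝ)⁻¹ := fun j => by
    simp [hu, WithLp.ofLp_sum, Finset.sum_apply, hej]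
  let v : Fin (d + d) → EuclideanSpace ℝ (Fin d) := Fin.append e (fun _ => -u)
  have hun : ‖u‖ ≤ 1 := by
    rw [← abs_norm, ← sq_le_one_iff_abs_le_one, EuclideanSpace.real_norm_sq_eq]
    simp only [huj, sum_const, card_univ, Fintype.card_fin, nsmul_eq_mul]
    rw [inv_pow, ← div_eq_mul_inv, div_le_one (by positivity)]
    exact le_self_pow₀ (by exact_mod_cast hd) two_ne_zero
  refine ⟨d + d, v, fun i => ?_, ?_, fun π => ?_⟩
  · refine Fin.addCases (fun a => ?_) (fun a => ?_) i
    · simp [v, e]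
    · simp only [v, Fin.append_right, norm_neg]
      exact hun
  · rw [Fin.sum_univ_add]
    simp only [v, Fin.append_left, Fin.append_right, sum_const, card_univ, Fintype.card_fin]
    rw [← Nat.cast_smul_eq_nsmul ℝ, hu, smul_neg, smul_inv_smul₀ hd0.ne', add_neg_cancel]
  set m := d / 2 with hm
  by_cases hd1 : d = 1
  · subst hd1
    refine ⟨1, by norm_num, ?_⟩
    rw [show univ.filter (fun i : Fin (1 + 1) => (i : ℕ) < 1) = {0} by decide, sum_singleton]
    have : ‖v (π 0)‖ = 1 := by
      refine Fin.addCases (fun a => ?_) (fun a => ?_) (π 0)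
      · simp [v, e]
      · simp only [v, Fin.append_right, norm_neg]
        rw [EuclideanSpace.norm_eq]
        simp [huj]
    rw [this]; norm_num
  let P : Fin (d + d) → Prop := fun i => (π i : ℕ) < d
  have hcard : (univ.filter P).card = d := by
    have h1 : univ.filter P = (univ.filter fun j : Fin (d + d) => (j : ℕ) < d).image π.symm := by
      ext i
      simp only [P, mem_filter, mem_univ, true_and, mem_image]
      exact ⟨fun h => ⟨π i, h, by simp⟩, by rintro ⟨j, hj, rfl⟩; simpa using hj⟩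
    rw [h1, card_image_of_injective _ π.symm.injective, Fin.card_filter_val_lt]
    omega
  obtain ⟨k, hk, hkc⟩ := exists_count P (m := m) (by omega)
  refine ⟨k, hk, ?_⟩
  set T := univ.filter fun i : Fin (d + d) => (i : ℕ) < k
  have hkc' : (T.filter P).card = m := by rwa [filter_filter]
  set r := ((T.filter fun i => ¬ P i).card : ℝ)
  set S := ((T.filter P).image fun i => (π i : ℕ))
  have hS : S.card = m := by
    rw [card_image_of_injective _ (fun a b h => π.injective (Fin.ext h)), hkc']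
  have hcoord : ∀ j : Fin d, (∑ i ∈ T, v (π i)) j
      = (if (j : ℕ) ∈ S then 1 else 0) - r * (d : ℝ)⁻¹ := by
    intro j
    rw [← sum_filter_add_sum_filter_not T P]
    simp only [WithLp.ofLp_add, Pi.add_apply, WithLp.ofLp_sum, Finset.sum_apply]
    have a : ∑ i ∈ T.filter P, v (π i) j = if (j : ℕ) ∈ S then 1 else 0 := by
      have h1 : ∀ i ∈ T.filter P, v (π i) j = if (j : ℕ) = (π i : ℕ) then 1 else 0 := by
        intro i hi
        have hlt : (π i : ℕ) < d := (mem_filter.1 hi).2
        rw [show π i = Fin.castAdd d ⟨π i, hlt⟩ from Fin.ext rfl]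
        simp only [v, Fin.append_left, hej, Fin.ext_iff, Fin.val_castAdd]
      rw [sum_congr rfl h1, ← sum_image (s := T.filter P) (g := fun i => (π i : ℕ))
        (f := fun n => if (j : ℕ) = n then (1 : ℝ) else 0)
        (fun a _ b _ h => π.injective (Fin.ext h)), sum_ite_eq]
    have b : ∑ i ∈ T.filter (fun i => ¬ P i), v (π i) j = -(r * (d : ℝ)⁻¹) := by
      have h1 : ∀ i ∈ T.filter (fun i => ¬ P i), v (π i) j = -(d : ℝ)⁻¹ := by
        intro i hi
        have hge : d ≤ (π i : ℕ) := not_lt.1 (mem_filter.1 hi).2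
        rw [show π i = Fin.natAdd d ⟨(π i : ℕ) - d, by omega⟩ from Fin.ext (by simp; omega)]
        simp only [v, Fin.append_right, WithLp.ofLp_neg, Pi.neg_apply, huj]
      rw [sum_congr rfl h1, sum_const, nsmul_eq_mul]
      ring
    rw [a, b]
    ring
  have hcnt : (univ.filter fun j : Fin d => (j : ℕ) ∈ S).card = m := by
    rw [← hS, ← card_image_of_injective _ Fin.val_injective]
    congr 1
    ext n
    simp only [mem_image, mem_filter, mem_univ, true_and]
    constructor
    · rintro ⟨a, ha, rfl⟩; exact ha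
    · intro hn
      obtain ⟨i, hi, rfl⟩ := mem_image.1 hn
      exact ⟨⟨π i, (mem_filter.1 hi).2⟩, hn, rfl⟩
  refine le_of_sq_le_sq ?_ (norm_nonneg _)
  rw [EuclideanSpace.real_norm_sq_eq, mul_pow, Real.sq_sqrt hd0.le]
  simp only [hcoord]
  set t := r * (d : ℝ)⁻¹
  have e1 : ∑ j : Fin d, ((if (j : ℕ) ∈ S then 1 else 0) - t) ^ 2
      = (m : ℝ) * (1 - 2 * t) + (d : ℝ) * t ^ 2 := by
    have : ∀ j : Fin d, ((if (j : ℕ) ∈ S then 1 else 0) - t) ^ 2
        = (if (j : ℕ) ∈ S then 1 - 2 * t else 0) + t ^ 2 := fun j => by split <;> ring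
    simp only [this, sum_add_distrib, ← sum_filter, sum_const, hcnt, card_univ, Fintype.card_fin,
      nsmul_eq_mul]
  rw [e1]
  have h2 : 2 * (m : ℝ) ≤ d := by exact_mod_cast show 2 * m ≤ d by omega
  have h3 : (d : ℝ) ≤ 3 * m := by exact_mod_cast show d ≤ 3 * m by omega
  have h4 := sq_nonneg ((d : ℝ) * t - m)
  have h5 : (d : ℝ) ^ 2 * (1 / 6) ≤ (m : ℝ) * ((d : ℝ) - m) := by
    nlinarith [mul_nonneg (sub_nonneg.2 h2) (sub_nonneg.2 h3)]
  refine le_of_mul_le_mul_left ?_ hd0
  nlinarith

end Vale.Agent.P262
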