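import Mathlib
import Vale.Agent.P262.StepDef

/-!
The sequence of jumps read off from the cutting levels, and the totals of its parameters.
-/

namespace Vale.Agent.P262

open Finset

variable {d : ℕ}

/-- Eigenvalues together with the threshold. -/
structure Levels (d : ℕ) where
  g : Fin d → ℝ
  δ : ℝ
  g_nonneg : ∀ j, 0 ≤ g j
  δ_pos : 0 < δ
  δ_le : δ ≤ 1

namespace Levels

variable (Λ : Levels d)

/-- Number of nodes before jump `k`. -/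
noncomputable def M (k : ℕ) : ℕ := 2 ^ cut Λ.g Λ.δ k

/-- Fourth roots at the lower end of jump `k`. -/
noncomputable def q (k : ℕ) (j : Fin d) : ℝ := qv Λ.g (cut Λ.g Λ.δ (k + 1)) j

/-- Scale of jump `k`. -/
noncomputable def P (k : ℕ) : ℝ := a8 ^ Yv Λ.g Λ.δ k

/-- Coordinates low at the start of jump `k`. -/
noncomputable def loS : ℕ → Finset (Fin d)
  | 0 => ∅
  | k + 1 => univ.filter (fun j => Λ.q k j ≤ 1)

/-- Coordinates corrected in jump `k`. -/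
noncomputable def coS (k : ℕ) : Finset (Fin d) :=
  univ.filter (fun j => 1 < Λ.q k j ∧ Λ.P k ^ 2 ≤ Λ.q k j)

/-- Error scale at the start of jump `k`. -/
noncomputable def U0 : ℕ → Fin d → ℝ
  | 0 => fun _ => 0
  | k + 1 => fun j => Λ.P k * Λ.q k j ^ 3 + Λ.P k ^ 6

lemma P_pos (k : ℕ) : 0 < Λ.P k := pow_pos a8_pos _

lemma one_le_P (k : ℕ) : 1 ≤ Λ.P k := one_le_pow₀ a8_one_lt.le

lemma P_pow (k : ℕ) : Λ.P k ^ 8 = 2 ^ Yv Λ.g Λ.δ k := a8_pow_mul _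

lemma P_pow_le_Tw (k : ℕ) : Λ.P k ^ 8 ≤ 1 + Tw Λ.g Λ.δ k := by
  rw [P_pow]
  unfold Tw
  split
  · rename_i h; simp [h]
  · linarith

lemma q_nonneg (k : ℕ) (j : Fin d) : 0 ≤ Λ.q k j := qv_nonneg _ _ _

lemma q_succ (k : ℕ) (j : Fin d) :
    Λ.q k j = Λ.q (k + 1) j * (a8 ^ len Λ.g Λ.δ (k + 1)) ^ 2 := by
  simp only [q, cut_succ Λ.g Λ.δ (k + 1)]
  exact qv_add Λ.g _ _ j

lemma q_anti {k m : ℕ} (h : k ≤ m) (j : Fin d) : Λ.q m j ≤ Λ.q k j :=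
  qv_anti Λ.g ((cut_strictMono Λ.g Λ.δ).monotone (by omega)) j

lemma q_pow_succ (k : ℕ) (j : Fin d) :
    Λ.q (k + 1) j ^ 4 * 2 ^ len Λ.g Λ.δ (k + 1) = Λ.q k j ^ 4 := by
  rw [Λ.q_succ k j, mul_pow, ← pow_mul _ 2 4, show 2 * 4 = 8 by rfl, a8_pow_mul]

lemma q_pow_zero (j : Fin d) : Λ.q 0 j ^ 4 * 2 ^ len Λ.g Λ.δ 0 = Λ.g j := by
  rw [q, qv_pow Λ.g (Λ.g_nonneg j), cut_succ, cut, Nat.zero_add, div_mul_cancel₀]
  positivity

lemma P_le_succ (k : ℕ) : Λ.P k ≤ Λ.P (k + 1) * a8 ^ len Λ.g Λ.δ (k + 1) := by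
  rw [P, P, ← pow_add]
  exact pow_le_pow_right₀ a8_one_lt.le (Yv_le_add _ _ k)

lemma two_pow_len (k : ℕ) : (2 : ℝ) ^ len Λ.g Λ.δ k = (a8 ^ len Λ.g Λ.δ k) ^ 8 :=
  (a8_pow_mul _).symm

lemma a8_le_len (k : ℕ) : a8 ≤ a8 ^ len Λ.g Λ.δ k :=
  le_self_pow₀ a8_one_lt.le (by have := one_le_len Λ.g Λ.δ k; omega)

lemma sum_lo (k : ℕ) : ∑ j ∈ univ.filter (fun j => Λ.q k j ≤ 1), Λ.q k j ≤ Λ.δ := by
  refine le_trans ?_ (lev_cut Λ.g Λ.δ Λ.δ_pos k)
  refine le_trans (sum_le_sum fun j hj => ?_)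
    (sum_le_sum_of_subset_of_nonneg (filter_subset _ _) fun i _ _ => phi_nonneg (qv_nonneg _ _ _))
  have hj' := (mem_filter.1 hj).2
  unfold q at hj' ⊢
  simp [phi, hj']

lemma sum_hi (k : ℕ) : ∑ j ∈ univ.filter (fun j => 1 < Λ.q k j), (Λ.q k j)⁻¹ ≤ Λ.δ := by
  refine le_trans ?_ (lev_cut Λ.g Λ.δ Λ.δ_pos k)
  refine le_trans (sum_le_sum fun j hj => ?_)
    (sum_le_sum_of_subset_of_nonneg (filter_subset _ _) fun i _ _ => phi_nonneg (qv_nonneg _ _ _))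
  have hj' := (mem_filter.1 hj).2
  unfold q at hj' ⊢
  simp [phi, not_le.2 hj']

lemma coS_succ_subset (k : ℕ) : Λ.coS (k + 1) ⊆ Λ.coS k := by
  intro j hj
  simp only [coS, mem_filter, mem_univ, true_and] at hj ⊢
  refine ⟨lt_of_lt_of_le hj.1 (Λ.q_anti (Nat.le_succ k) j), ?_⟩
  rw [Λ.q_succ k j]
  refine le_trans (pow_le_pow_left₀ (Λ.P_pos k).le (Λ.P_le_succ k) 2) ?_
  rw [mul_pow]
  exact mul_le_mul_of_nonneg_right hj.2 (sq_nonneg _)

lemma exists_q_le (j : Fin d) : ∃ k, Λ.q k j ≤ 1 := by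
  obtain ⟨n, hn⟩ := pow_unbounded_of_one_lt (√√(Λ.g j)) a8_one_lt
  refine ⟨n, ?_⟩
  have := a8_pos
  rw [q, qv, div_le_one (by positivity)]
  refine hn.le.trans (pow_le_pow_right₀ a8_one_lt.le ?_)
  have := le_cut Λ.g Λ.δ (n + 1)
  omega

lemma not_coS_of_q_le {k : ℕ} {j : Fin d} (h : Λ.q k j ≤ 1) : j ∉ Λ.coS k := by
  simp [coS, not_lt.2 h]

lemma exists_not_coS (j : Fin d) : ∃ k, j ∉ Λ.coS k :=
  (Λ.exists_q_le j).imp fun _ h => Λ.not_coS_of_q_le h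

open scoped Classical in
/-- First jump in which the coordinate is not corrected. -/
noncomputable def ib (j : Fin d) : ℕ := Nat.find (Λ.exists_not_coS j)

open scoped Classical in
/-- The jump in which the coordinate crosses the threshold. -/
noncomputable def bb (j : Fin d) : ℕ := Nat.find (Λ.exists_q_le j)

lemma ib_le_bb (j : Fin d) : Λ.ib j ≤ Λ.bb j := by
  classical
  exact Nat.find_min' _ (Λ.not_coS_of_q_le (Nat.find_spec (Λ.exists_q_le j)))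

lemma q_le_iff {k : ℕ} {j : Fin d} : Λ.q k j ≤ 1 ↔ Λ.bb j ≤ k := by
  classical
  exact ⟨fun h => Nat.find_min' _ h,
    fun h => (Λ.q_anti h j).trans (Nat.find_spec (Λ.exists_q_le j))⟩

lemma mem_loS {k : ℕ} {j : Fin d} : j ∈ Λ.loS k ↔ Λ.bb j < k := by
  cases k with
  | zero => simp [loS]
  | succ k => simp [loS, q_le_iff]

lemma mem_coS {k : ℕ} {j : Fin d} : j ∈ Λ.coS k ↔ k < Λ.ib j := by
  classical
  refine ⟨fun h => ?_, fun h => not_not.1 (Nat.find_min (Λ.exists_not_coS j) h)⟩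
  by_contra hc
  push Not at hc
  induction k, hc using Nat.le_induction with
  | base => exact Nat.find_spec (Λ.exists_not_coS j) h
  | succ m _ ih => exact ih (Λ.coS_succ_subset m h)

/-- Growth of weights. -/
noncomputable def rho : ℝ := 11 / 10

lemma one_le_rho : (1 : ℝ) ≤ rho := by unfold rho; norm_num

/-- Weights. -/
noncomputable def om (k : ℕ) (j : Fin d) : ℝ :=
  if Λ.q k j ≤ 1 then rho ^ (k - Λ.bb j) else rho ^ (k - Λ.ib j)

lemma one_le_om (k : ℕ) (j : Fin d) : 1 ≤ Λ.om k j := by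
  unfold om; split <;> exact one_le_pow₀ one_le_rho

lemma om_pos (k : ℕ) (j : Fin d) : 0 < Λ.om k j := lt_of_lt_of_le one_pos (Λ.one_le_om k j)

lemma om_succ_le (k : ℕ) (j : Fin d) : Λ.om (k + 1) j ≤ rho * Λ.om k j := by
  unfold om
  simp only [q_le_iff]
  by_cases h : Λ.bb j ≤ k
  · rw [if_pos h, if_pos (by omega), ← pow_succ']
    exact pow_le_pow_right₀ one_le_rho (by omega)
  · rw [if_neg h]
    by_cases h' : Λ.bb j ≤ k + 1
    · rw [if_pos h', show k + 1 - Λ.bb j = 0 by omega, pow_zero]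
      exact one_le_mul_of_one_le_of_one_le one_le_rho (one_le_pow₀ one_le_rho)
    · rw [if_neg h', ← pow_succ']
      exact pow_le_pow_right₀ one_le_rho (by omega)

lemma om_new {k : ℕ} {j : Fin d} (h : Λ.ib j = k) : Λ.om k j = 1 := by
  have := Λ.ib_le_bb j
  unfold om
  split
  · rw [show k - Λ.bb j = 0 by omega, pow_zero]
  · rw [show k - Λ.ib j = 0 by omega, pow_zero]

lemma om_band {k : ℕ} {j : Fin d} (h : Λ.bb j = k) : Λ.om k j = 1 := by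
  rw [om, if_pos (Λ.q_le_iff.2 h.le), h, Nat.sub_self, pow_zero]

lemma sum_inv_rho (n : ℕ) : ∑ t ∈ range n, (rho ^ t)⁻¹ ≤ 11 := by
  have h : ∀ n, ∑ t ∈ range n, (rho ^ t)⁻¹ ≤ 11 - 10 * (rho ^ n)⁻¹ * rho := by
    intro n
    induction n with
    | zero => simp [rho]; norm_num
    | succ n ih =>
      rw [sum_range_succ]
      have e : (rho ^ (n + 1))⁻¹ * rho = (rho ^ n)⁻¹ := by
        unfold rho
        rw [pow_succ]
        field_simp
      have : (rho ^ n)⁻¹ * rho = (rho ^ n)⁻¹ * (11 / 10) := rfl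
      rw [mul_assoc, e]
      rw [mul_assoc, this] at ih
      linarith
  have h0 : 0 < rho := by unfold rho; norm_num
  have : 0 ≤ 10 * (rho ^ n)⁻¹ * rho := by positivity
  linarith [h n]

lemma sum_inv_om (j : Fin d) (K : ℕ) : ∑ k ∈ Ico (Λ.ib j) K, (Λ.om k j)⁻¹ ≤ 22 := by
  have hib := Λ.ib_le_bb j
  have h0 : 0 < rho := by unfold rho; norm_num
  have shift : ∀ a b : ℕ, ∑ k ∈ Ico a b, (rho ^ (k - a))⁻¹ ≤ 11 := by
    intro a b
    rw [sum_Ico_eq_sum_range]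
    simpa using sum_inv_rho (b - a)
  calc ∑ k ∈ Ico (Λ.ib j) K, (Λ.om k j)⁻¹
      ≤ ∑ k ∈ Ico (Λ.ib j) (Λ.bb j) ∪ Ico (Λ.bb j) K, (Λ.om k j)⁻¹ :=
        sum_le_sum_of_subset_of_nonneg (fun k hk => by simp at hk ⊢; omega)
          fun k _ _ => (inv_pos.2 (Λ.om_pos k j)).le
    _ = ∑ k ∈ Ico (Λ.ib j) (Λ.bb j), (Λ.om k j)⁻¹ + ∑ k ∈ Ico (Λ.bb j) K, (Λ.om k j)⁻¹ :=
        sum_union (by simp [Finset.disjoint_left]; omega)
    _ ≤ 11 + 11 := by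
        refine add_le_add (le_trans (le_of_eq (sum_congr rfl fun k hk => ?_)) (shift _ _))
          (le_trans (le_of_eq (sum_congr rfl fun k hk => ?_)) (shift _ _))
        · simp at hk
          rw [om, if_neg (fun h => by have := Λ.q_le_iff.1 h; omega)]
        · simp at hk
          rw [om, if_pos (Λ.q_le_iff.2 hk.1)]
    _ = 22 := by norm_num

lemma U0_hi (k : ℕ) (j : Fin d) : 1 < Λ.q k j → Λ.U0 k j / 2 ^ len Λ.g Λ.δ k ≤
    (a8 ^ Yv Λ.g Λ.δ k * Λ.q k j ^ 3 + (a8 ^ Yv Λ.g Λ.δ k) ^ 6) / a8 := by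
  intro _
  have := a8_pos
  have hq := Λ.q_nonneg k j
  cases k with
  | zero => simp only [U0, zero_div]; positivity
  | succ k =>
    simp only [U0, Λ.q_succ k j, Λ.two_pow_len]
    change _ ≤ (Λ.P (k + 1) * Λ.q (k + 1) j ^ 3 + Λ.P (k + 1) ^ 6) / a8
    have h1 := Λ.a8_le_len (k + 1)
    have h2 := Λ.P_le_succ k
    have h0 := Λ.P_pos k
    have h0' := Λ.P_pos (k + 1)
    set p := a8 ^ len Λ.g Λ.δ (k + 1)
    have hp : 0 < p := lt_of_lt_of_le a8_pos h1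
    set x := Λ.q (k + 1) j
    set Q := Λ.P (k + 1)
    calc (Λ.P k * (x * p ^ 2) ^ 3 + Λ.P k ^ 6) / p ^ 8
        ≤ (Q * p * (x * p ^ 2) ^ 3 + (Q * p) ^ 6) / p ^ 8 := by gcongr
      _ = Q * x ^ 3 / p + Q ^ 6 / p ^ 2 := by field_simp
      _ ≤ Q * x ^ 3 / a8 + Q ^ 6 / a8 := by
          gcongr
          exact h1.trans (le_self_pow₀ (le_trans a8_one_lt.le h1) two_ne_zero)
      _ = _ := by ring

lemma U0_band (k : ℕ) :
    ∑ j ∈ univ.filter (fun j => Λ.q k j ≤ 1 ∧ j ∉ Λ.loS k), Λ.U0 k j / 2 ^ len Λ.g Λ.δ k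
      ≤ 2 * Λ.δ * (a8 ^ Yv Λ.g Λ.δ k) ^ 6 := by
  have hδ := Λ.δ_pos
  cases k with
  | zero =>
    have := a8_pos
    simp only [U0, zero_div, sum_const_zero]; positivity
  | succ k =>
    change _ ≤ 2 * Λ.δ * Λ.P (k + 1) ^ 6
    rw [Λ.two_pow_len]
    have h1 := Λ.a8_le_len (k + 1)
    have h2 := Λ.P_le_succ k
    have h0 := Λ.P_pos k
    have hQ1 := Λ.one_le_P (k + 1)
    set p := a8 ^ len Λ.g Λ.δ (k + 1) with hp_def
    have hp1 : 1 ≤ p := le_trans a8_one_lt.le h1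
    have hp : 0 < p := lt_of_lt_of_le one_pos hp1
    set Q := Λ.P (k + 1)
    set S := univ.filter (fun j => Λ.q (k + 1) j ≤ 1 ∧ j ∉ Λ.loS (k + 1)) with hS
    have hsum : ∑ j ∈ S, Λ.q (k + 1) j ≤ Λ.δ :=
      le_trans (sum_le_sum_of_subset_of_nonneg
        (fun j hj => by simp [hS] at hj ⊢; exact hj.1) fun i _ _ => Λ.q_nonneg _ i) (Λ.sum_lo (k + 1))
    have key : ∀ j ∈ S, Λ.U0 (k + 1) j / p ^ 8 ≤ 2 * Q ^ 6 * Λ.q (k + 1) j := by
      intro j hj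
      simp [hS, loS] at hj
      have hx0 := Λ.q_nonneg (k + 1) j
      simp only [U0, Λ.q_succ k j, ← hp_def] at hj ⊢
      set x := Λ.q (k + 1) j
      have hx3 : x ^ 3 ≤ x := pow_le_of_le_one hx0 hj.1 (by norm_num)
      have hxp : 1 ≤ x * p ^ 2 := hj.2.le
      have hQ6 : Q ≤ Q ^ 6 := le_self_pow₀ hQ1 (by norm_num)
      calc (Λ.P k * (x * p ^ 2) ^ 3 + Λ.P k ^ 6) / p ^ 8
          ≤ (Q * p * (x * p ^ 2) ^ 3 + (Q * p) ^ 6) / p ^ 8 := by gcongr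
        _ = Q * x ^ 3 / p + Q ^ 6 / p ^ 2 := by field_simp
        _ ≤ Q ^ 6 * x + Q ^ 6 * x := by
            refine add_le_add ((div_le_self (by positivity) hp1).trans (by gcongr)) ?_
            rw [div_le_iff₀ (by positivity)]
            nlinarith [mul_le_mul_of_nonneg_left hxp (by positivity : 0 ≤ Q ^ 6)]
        _ = _ := by ring
    refine (sum_le_sum key).trans ?_
    rw [← mul_sum]
    refine (mul_le_mul_of_nonneg_left hsum (by positivity)).trans (le_of_eq (by ring))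

/-- The jump number `k`. -/
noncomputable def J (k : ℕ) : Jump d where
  ℓ := len Λ.g Λ.δ k
  Y := Yv Λ.g Λ.δ k
  δ := Λ.δ
  q := Λ.q k
  low := Λ.loS k
  U0 := Λ.U0 k
  cor2 := Λ.coS (k + 1)
  q2 := Λ.q (k + 1)
  ω := Λ.om k
  δ_pos := Λ.δ_pos
  δ_le := Λ.δ_le
  one_le_ℓ := one_le_len _ _ k
  ℓ_le := len_le_two_pow _ _ k
  q_nonneg := Λ.q_nonneg k
  low_le := fun _ hj => Λ.q_le_iff.2 (Λ.mem_loS.1 hj).le
  U0_nonneg := fun j => by
    cases k with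
    | zero => exact le_rfl
    | succ k =>
      have := Λ.P_pos k
      have := Λ.q_nonneg k j
      simp only [U0]
      positivity
  U0_hi := Λ.U0_hi k
  U0_band := Λ.U0_band k
  good_hi := Λ.sum_hi k
  good_lo := Λ.sum_lo k
  cor2_sub := fun j hj => (mem_filter.1 (Λ.coS_succ_subset k hj)).2
  q2_pos := fun j hj => lt_trans one_pos (mem_filter.1 hj).2.1
  good2 := by
    refine le_trans (sum_le_sum fun j hj => ?_) (le_trans (sum_le_sum_of_subset_of_nonneg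
      (fun j hj => ?_) fun j _ _ => inv_nonneg.2 (Λ.q_nonneg (k + 1) j)) (Λ.sum_hi (k + 1)))
    · have h := (mem_filter.1 hj).2.1
      exact inv_anti₀ (by linarith) (le_self_pow₀ h.le (by norm_num))
    · exact mem_filter.2 ⟨mem_univ _, (mem_filter.1 hj).2.1⟩
  ω_nonneg := fun j => (Λ.om_pos k j).le

lemma J_P (k : ℕ) : (Λ.J k).P = Λ.P k := rfl

lemma J_cor (k : ℕ) : (Λ.J k).cor = Λ.coS k := rfl

lemma mem_gr {k : ℕ} {j : Fin d} : j ∈ (Λ.J k).gr ↔ Λ.ib j ≤ k ∧ k < Λ.bb j := by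
  change j ∈ univ.filter (fun j => 1 < Λ.q k j ∧ Λ.q k j < Λ.P k ^ 2) ↔ _
  have h1 := Λ.q_le_iff (k := k) (j := j)
  have h2 := Λ.mem_coS (k := k) (j := j)
  simp only [coS, mem_filter, mem_univ, true_and] at h2 ⊢
  constructor
  · rintro ⟨a, b⟩
    exact ⟨not_lt.1 fun hc => not_le.2 b (h2.2 hc).2, not_le.1 fun hc => not_lt.2 (h1.2 hc) a⟩
  · rintro ⟨a, b⟩
    have hq : 1 < Λ.q k j := not_le.1 fun hc => not_lt.2 (h1.1 hc) b
    exact ⟨hq, not_le.1 fun hc => not_lt.2 a (h2.1 ⟨hq, hc⟩)⟩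

lemma mem_band {k : ℕ} {j : Fin d} : j ∈ (Λ.J k).band ↔ Λ.bb j = k := by
  change j ∈ univ.filter (fun j => Λ.q k j ≤ 1 ∧ j ∉ Λ.loS k) ↔ _
  simp only [mem_filter, mem_univ, true_and, q_le_iff, mem_loS]
  omega

lemma mem_out {k : ℕ} {j : Fin d} : j ∈ (Λ.J k).out ↔ Λ.ib j = k + 1 := by
  change j ∈ Λ.coS k \ Λ.coS (k + 1) ↔ _
  simp only [Finset.mem_sdiff, mem_coS]
  omega

/-- Coordinates not corrected in jump `k`. -/
noncomputable def act (k : ℕ) : Finset (Fin d) := univ.filter (fun j => Λ.ib j ≤ k)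

lemma sum_act (k : ℕ) (f : Fin d → ℝ) :
    ∑ j ∈ Λ.act k, f j
      = ∑ j ∈ (Λ.J k).gr, f j + ∑ j ∈ (Λ.J k).band, f j + ∑ j ∈ (Λ.J k).low, f j := by
  classical
  have hlow : ∀ j, j ∈ (Λ.J k).low ↔ Λ.bb j < k := fun j => Λ.mem_loS
  have e : Λ.act k = ((Λ.J k).gr ∪ (Λ.J k).band) ∪ (Λ.J k).low := by
    ext j
    have := Λ.ib_le_bb j
    simp only [act, mem_filter, mem_univ, true_and, Finset.mem_union, mem_gr, mem_band, hlow]
    omega
  rw [e, sum_union, sum_union]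
  · simp only [Finset.disjoint_left, mem_gr, mem_band]; omega
  · simp only [Finset.disjoint_left, Finset.mem_union, mem_gr, mem_band, hlow]; omega

lemma sum_act_succ (k : ℕ) (f : Fin d → ℝ) :
    ∑ j ∈ Λ.act (k + 1), f j = ∑ j ∈ Λ.act k, f j + ∑ j ∈ (Λ.J k).out, f j := by
  classical
  have e : Λ.act (k + 1) = Λ.act k ∪ (Λ.J k).out := by
    ext j
    simp only [act, mem_filter, mem_univ, true_and, Finset.mem_union, mem_out]
    omega
  rw [e, sum_union]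
  simp only [Finset.disjoint_left, act, mem_filter, mem_univ, true_and, mem_out]
  omega

lemma sum_card_fibre (i : Fin d → ℕ) (K : ℕ) :
    ∑ k ∈ range K, ((univ.filter (fun j => i j = k)).card : ℝ) ≤ d := by
  rw [← Nat.cast_sum, Finset.sum_card_fiberwise_eq_card_filter]
  exact_mod_cast (Finset.card_filter_le _ _).trans (by simp)

lemma sum_card_band (K : ℕ) : ∑ k ∈ range K, ((Λ.J k).band.card : ℝ) ≤ d := by
  refine le_trans (le_of_eq (sum_congr rfl fun k _ => ?_)) (sum_card_fibre Λ.bb K)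
  congr 2
  ext j
  simp [mem_band]

lemma sum_card_out (K : ℕ) : ∑ k ∈ range K, ((Λ.J k).out.card : ℝ) ≤ d := by
  refine le_trans (le_of_eq ?_) (sum_card_fibre (fun j => Λ.ib j - 1 + (if Λ.ib j = 0 then K else 0)) K)
  refine sum_congr rfl fun k hk => ?_
  congr 2
  ext j
  simp only [mem_out, mem_filter, mem_univ, true_and]
  have := Finset.mem_range.1 hk
  split <;> omega

/-- Bound for the weighted grey coordinates. -/
noncomputable def GB : ℕ → ℝ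
  | 0 => Tw Λ.g Λ.δ 0
  | k + 1 => 11 / 20 * GB k + Tw Λ.g Λ.δ (k + 1)

lemma GB_nonneg : ∀ k, 0 ≤ Λ.GB k
  | 0 => Tw_nonneg _ _ _
  | k + 1 => by
    have := GB_nonneg k
    have := Tw_nonneg Λ.g Λ.δ (k + 1)
    rw [GB]; positivity

lemma gray (k : ℕ) {j : Fin d} (h : j ∈ (Λ.J k).gr) : Λ.om k j * Λ.P k ^ 8 ≤ Λ.GB k := by
  obtain ⟨hik, hkb⟩ := Λ.mem_gr.1 h
  rw [om, if_neg (fun hc => by have := Λ.q_le_iff.1 hc; omega), P_pow]
  have small : ∀ m, Λ.ib j ≤ m → m < Λ.bb j →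
      Λ.q m j ^ 4 < 2 ^ Yv Λ.g Λ.δ m ∧ 1 < Λ.q m j := by
    intro m h1 h2
    obtain ⟨a, b⟩ := (mem_filter.1 (Λ.mem_gr.2 ⟨h1, h2⟩)).2
    change 1 < Λ.q m j at a
    change Λ.q m j < Λ.P m ^ 2 at b
    refine ⟨?_, a⟩
    rw [← P_pow]
    calc Λ.q m j ^ 4 < (Λ.P m ^ 2) ^ 4 := pow_lt_pow_left₀ b (by linarith) (by norm_num)
      _ = _ := by ring
  clear h
  induction k, hik using Nat.le_induction with
  | base =>
    have h1 := small _ le_rfl hkb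
    have hY : Yv Λ.g Λ.δ (Λ.ib j) ≠ 0 := by
      intro h0
      rw [h0, pow_zero] at h1
      linarith [one_lt_pow₀ h1.2 (show (4 : ℕ) ≠ 0 by norm_num), h1.1]
    rw [Nat.sub_self, pow_zero, one_mul]
    have : Tw Λ.g Λ.δ (Λ.ib j) ≤ Λ.GB (Λ.ib j) := by
      cases Λ.ib j with
      | zero => exact le_rfl
      | succ i =>
        have := Λ.GB_nonneg i
        rw [GB]; linarith
    simpa [Tw, hY] using this
  | succ m hm ih =>
    have ih := ih (by omega)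
    obtain ⟨h1, -⟩ := small m hm (by omega)
    obtain ⟨-, h2⟩ := small (m + 1) (by omega) hkb
    rw [← Λ.q_pow_succ m j] at h1
    have hlt : len Λ.g Λ.δ (m + 1) < Yv Λ.g Λ.δ m := by
      have h3 : (1 : ℝ) ≤ Λ.q (m + 1) j ^ 4 := one_le_pow₀ h2.le
      have h4 := lt_of_le_of_lt (le_mul_of_one_le_left (by positivity) h3) h1
      exact (pow_lt_pow_iff_right₀ one_lt_two).1 h4
    have hY : Yv Λ.g Λ.δ (m + 1) + 1 ≤ Yv Λ.g Λ.δ m := by
      have hx : xi (len Λ.g Λ.δ (m + 1)) ≤ len Λ.g Λ.δ (m + 1) := by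
        unfold xi
        split
        · omega
        · rename_i hl
          have := Nat.log_lt_self 2 (show len Λ.g Λ.δ (m + 1) ≠ 0 by omega)
          omega
      have h1l := one_le_len Λ.g Λ.δ (m + 1)
      have e : Yv Λ.g Λ.δ (m + 1) = max (xi (len Λ.g Λ.δ (m + 1)))
          (Yv Λ.g Λ.δ m - len Λ.g Λ.δ (m + 1)) := rfl
      rw [e]; omega
    have h2Y : (2 : ℝ) ^ Yv Λ.g Λ.δ (m + 1) * 2 ≤ 2 ^ Yv Λ.g Λ.δ m := by
      rw [← pow_succ]; exact pow_le_pow_right₀ one_le_two hY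
    rw [show m + 1 - Λ.ib j = (m - Λ.ib j) + 1 by omega, pow_succ, GB]
    have hpos : 0 ≤ rho ^ (m - Λ.ib j) := pow_nonneg (by unfold rho; norm_num) _
    have h5 := mul_le_mul_of_nonneg_left h2Y hpos
    have h6 := Tw_nonneg Λ.g Λ.δ (m + 1)
    have e : rho = 11 / 10 := rfl
    rw [e] at hpos h5 ih ⊢
    linarith

/-- A geometric recursion. -/
lemma sum_rec_le {f g : ℕ → ℝ} {r : ℝ} (hr0 : 0 ≤ r) (hf : ∀ k, 0 ≤ f k) (hg : ∀ k, 0 ≤ g k)
    (h : ∀ k, f (k + 1) ≤ r * f k + g k) (K : ℕ) :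
    (1 - r) * ∑ k ∈ range K, f k ≤ f 0 + ∑ k ∈ range K, g k := by
  cases K with
  | zero => simpa using hf 0
  | succ K =>
    have h1 : ∑ k ∈ range (K + 1), f k ≤ f 0 + (r * ∑ k ∈ range K, f k + ∑ k ∈ range K, g k) := by
      rw [sum_range_succ', mul_sum, ← sum_add_distrib, add_comm]
      exact add_le_add le_rfl (sum_le_sum fun k _ => h k)
    have h2 : ∑ k ∈ range K, f k ≤ ∑ k ∈ range (K + 1), f k := by
      rw [sum_range_succ]; linarith [hf K]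
    have h3 : ∑ k ∈ range K, g k ≤ ∑ k ∈ range (K + 1), g k := by
      rw [sum_range_succ]; linarith [hg K]
    have h4 := mul_le_mul_of_nonneg_left h2 hr0
    linarith

lemma sum_GB (K : ℕ) : ∑ k ∈ range K, Λ.GB k ≤ 1000 * d / Λ.δ := by
  have hb := sum_Tw Λ.g Λ.δ Λ.δ_pos (K + 1)
  rw [sum_range_succ'] at hb
  have h := sum_rec_le (f := Λ.GB) (g := fun k => Tw Λ.g Λ.δ (k + 1)) (r := 11 / 20) (by norm_num)
    Λ.GB_nonneg (fun _ => Tw_nonneg _ _ _) (fun _ => le_rfl) K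
  have : Λ.GB 0 = Tw Λ.g Λ.δ 0 := rfl
  have := Tw_nonneg Λ.g Λ.δ 0
  have : 0 ≤ (d : ℝ) / Λ.δ := div_nonneg (Nat.cast_nonneg d) Λ.δ_pos.le
  rw [mul_div_assoc] at hb ⊢
  linarith

/-- Whether some coordinate crosses in jump `k`. -/
noncomputable def ne1 (k : ℕ) : ℝ := if (Λ.J k).band.Nonempty then 1 else 0

lemma ne1_nonneg (k : ℕ) : 0 ≤ Λ.ne1 k := by unfold ne1; split <;> norm_num

lemma ne1_le_one (k : ℕ) : Λ.ne1 k ≤ 1 := by unfold ne1; split <;> norm_num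

lemma ne1_le_card (k : ℕ) : Λ.ne1 k ≤ (Λ.J k).band.card := by
  unfold ne1
  split
  · rename_i h; exact_mod_cast h.card_pos
  · exact Nat.cast_nonneg _

lemma sum_ne1_P (K : ℕ) : ∑ k ∈ range K, Λ.ne1 k * Λ.P k ^ 8 ≤ 113 * d / Λ.δ := by
  refine (sum_le_sum fun k _ => show Λ.ne1 k * Λ.P k ^ 8
    ≤ (Λ.J k).band.card + Tw Λ.g Λ.δ k from ?_).trans ?_
  · have := mul_le_mul_of_nonneg_left (Λ.P_pow_le_Tw k) (Λ.ne1_nonneg k)
    have := mul_le_of_le_one_left (Tw_nonneg Λ.g Λ.δ k) (Λ.ne1_le_one k)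
    linarith [Λ.ne1_le_card k]
  · rw [sum_add_distrib]
    have := sum_Tw Λ.g Λ.δ Λ.δ_pos K
    have := Λ.sum_card_band K
    have : (d : ℝ) ≤ d / Λ.δ :=
      le_div_self (Nat.cast_nonneg d) Λ.δ_pos Λ.δ_le
    rw [mul_div_assoc] at *
    linarith

variable (cS : ℝ)

/-- Energy bound of the working vectors. -/
noncomputable def En : ℕ → ℝ
  | 0 => 0
  | k + 1 => 33 / 50 * En k + 11 / 10 * cS * (Λ.ne1 k * Λ.P k ^ 6)

/-- Damped count of crossings. -/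
noncomputable def cnt : ℕ → ℝ
  | 0 => 0
  | k + 1 => 33 / 50 * cnt k + Λ.ne1 k

/-- Damped size of crossings. -/
noncomputable def siz : ℕ → ℝ
  | 0 => 0
  | k + 1 => 33 / 50 * siz k + Λ.ne1 k * Λ.P k ^ 8

lemma En_nonneg (hc : 0 ≤ cS) : ∀ k, 0 ≤ Λ.En cS k
  | 0 => le_rfl
  | k + 1 => by
    have := En_nonneg hc k
    have := Λ.ne1_nonneg k
    have := Λ.P_pos k
    rw [En]; positivity

lemma cnt_mem : ∀ k, 0 ≤ Λ.cnt k ∧ Λ.cnt k ≤ 3
  | 0 => by simp [cnt]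
  | k + 1 => by
    have := cnt_mem k
    have := Λ.ne1_nonneg k
    have := Λ.ne1_le_one k
    rw [cnt]; constructor <;> linarith

lemma siz_nonneg : ∀ k, 0 ≤ Λ.siz k
  | 0 => le_rfl
  | k + 1 => by
    have := siz_nonneg k
    have := Λ.ne1_nonneg k
    have := Λ.P_pos k
    rw [siz]; positivity

lemma sq_mul_En (hc : 0 ≤ cS) {x : ℝ} (hx : 0 ≤ x) :
    ∀ k, x ^ 2 * Λ.En cS k ≤ 11 / 10 * cS * (x ^ 8 * Λ.cnt k + Λ.siz k)
  | 0 => by simp [En, cnt, siz]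
  | k + 1 => by
    have ih := sq_mul_En hc hx k
    have hn := Λ.ne1_nonneg k
    have hy := (Λ.P_pos k).le
    have h : x ^ 2 * Λ.P k ^ 6 ≤ x ^ 8 + Λ.P k ^ 8 := by
      rcases le_total x (Λ.P k) with h | h
      · calc x ^ 2 * Λ.P k ^ 6 ≤ Λ.P k ^ 2 * Λ.P k ^ 6 := by gcongr
          _ ≤ _ := by have : 0 ≤ x ^ 8 := by positivity
                      linarith [show Λ.P k ^ 2 * Λ.P k ^ 6 = Λ.P k ^ 8 by ring]
      · calc x ^ 2 * Λ.P k ^ 6 ≤ x ^ 2 * x ^ 6 := by gcongr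
          _ ≤ _ := by have : 0 ≤ Λ.P k ^ 8 := by positivity
                      linarith [show x ^ 2 * x ^ 6 = x ^ 8 by ring]
    have h2 := mul_le_mul_of_nonneg_left (mul_le_mul_of_nonneg_left h hn)
      (by positivity : 0 ≤ 11 / 10 * cS)
    rw [En, cnt, siz]
    linarith

lemma sum_PE (hc : 0 ≤ cS) (K : ℕ) :
    ∑ k ∈ range K, Λ.P k ^ 2 * Λ.En cS k ≤ 1000 * cS * d / Λ.δ := by
  have h1 := sum_rec_le (f := Λ.cnt) (g := Λ.ne1) (r := 33 / 50) (by norm_num)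
    (fun k => (Λ.cnt_mem k).1) Λ.ne1_nonneg (fun _ => le_rfl) K
  have h2 := sum_rec_le (f := Λ.siz) (g := fun k => Λ.ne1 k * Λ.P k ^ 8) (r := 33 / 50)
    (by norm_num) Λ.siz_nonneg
    (fun k => mul_nonneg (Λ.ne1_nonneg k) (pow_nonneg (Λ.P_pos k).le 8)) (fun _ => le_rfl) K
  have e1 : Λ.cnt 0 = 0 := rfl
  have e2 : Λ.siz 0 = 0 := rfl
  have h3 := (sum_le_sum fun k (_ : k ∈ range K) => Λ.ne1_le_card k).trans (Λ.sum_card_band K)
  have h4 := Λ.sum_ne1_P K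
  have h5 := sum_Tw Λ.g Λ.δ Λ.δ_pos K
  have h6 : (d : ℝ) ≤ d / Λ.δ := le_div_self (Nat.cast_nonneg d) Λ.δ_pos Λ.δ_le
  have hb : ∀ k ∈ range K, Λ.P k ^ 2 * Λ.En cS k
      ≤ 11 / 10 * cS * (Λ.cnt k + 3 * Tw Λ.g Λ.δ k + Λ.siz k) := by
    intro k _
    refine (Λ.sq_mul_En cS hc (Λ.P_pos k).le k).trans (mul_le_mul_of_nonneg_left ?_ (by positivity))
    obtain ⟨a, b⟩ := Λ.cnt_mem k
    have := mul_le_mul_of_nonneg_right (Λ.P_pow_le_Tw k) a
    have := mul_le_mul_of_nonneg_left b (Tw_nonneg Λ.g Λ.δ k)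
    linarith
  refine (sum_le_sum hb).trans ?_
  rw [← mul_sum, sum_add_distrib, sum_add_distrib, ← mul_sum, show 1000 * cS * (d : ℝ) / Λ.δ
    = cS * (1000 * (d / Λ.δ)) by ring, show 11 / 10 * cS = cS * (11 / 10) by ring, mul_assoc]
  refine mul_le_mul_of_nonneg_left ?_ hc
  rw [mul_div_assoc] at h4 h5
  have : 0 ≤ (d : ℝ) / Λ.δ := div_nonneg (Nat.cast_nonneg d) Λ.δ_pos.le
  linarith

lemma sum_En (hc : 0 ≤ cS) (K : ℕ) : ∑ k ∈ range K, Λ.En cS k ≤ 1000 * cS * d / Λ.δ := by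
  refine (sum_le_sum fun k _ => ?_).trans (Λ.sum_PE cS hc K)
  exact le_mul_of_one_le_left (Λ.En_nonneg cS hc k) (one_le_pow₀ (Λ.one_le_P k))

/-- Bound for the deviation in jump `k`. -/
noncomputable def Z (k : ℕ) : ℝ :=
  cS * (Λ.GB k + (Λ.J k).band.card + Λ.ne1 k * Λ.P k ^ 8 + Λ.P k ^ 2 * Λ.En cS k)

lemma Z_nonneg (hc : 0 ≤ cS) (k : ℕ) : 0 ≤ Λ.Z cS k := by
  have := Λ.GB_nonneg k
  have := Λ.ne1_nonneg k
  have := Λ.P_pos k
  have := Λ.En_nonneg cS hc k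
  unfold Z; positivity

lemma sum_Z (hc : 0 ≤ cS) (K : ℕ) :
    ∑ k ∈ range K, Λ.Z cS k ≤ cS * (1200 + 1000 * cS) * d / Λ.δ := by
  simp only [Z]
  rw [← mul_sum, sum_add_distrib, sum_add_distrib, sum_add_distrib, mul_assoc, mul_div_assoc]
  refine mul_le_mul_of_nonneg_left ?_ hc
  have h1 := Λ.sum_GB K
  have h2 := Λ.sum_card_band K
  have h3 := Λ.sum_ne1_P K
  have h4 := Λ.sum_PE cS hc K
  have h5 : (d : ℝ) ≤ d / Λ.δ := le_div_self (Nat.cast_nonneg d) Λ.δ_pos Λ.δ_le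
  have : 0 ≤ (d : ℝ) / Λ.δ := div_nonneg (Nat.cast_nonneg d) Λ.δ_pos.le
  simp only [mul_div_assoc] at *
  linarith

end Levels

end Vale.Agent.P262
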