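import Mathlib
import Vale.Agent.P262.MainData

/-!
The chain of all jumps and the bounds that survive along it.
-/

namespace Vale.Agent.P262

open Finset

variable {d N : ℕ}

/-- All jumps carried out one after another. -/
structure Run (Λ : Levels d) (A cP cS θ₀ : ℝ) (v : Fin N → Fin d → ℝ) where
  pos : ℕ → Fin N → ℕ
  w : ℕ → Fin N → Fin d → ℝ
  pos_zero : pos 0 = fun _ => 0
  w_zero : w 0 = v
  hin : ∀ k, StepIn (Λ.J k) A cP (Λ.En cS k) (Λ.M k) v (pos k) (w k)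
  hout : ∀ k, StepOut (Λ.J k) A cP cS θ₀ (Λ.En cS k) (Λ.M k) v (pos k) (w k)
    (pos (k + 1)) (w (k + 1))
  cS_nonneg : 0 ≤ cS
  θ_pos : 0 < θ₀

namespace Levels

variable (Λ : Levels d)

lemma low_eq (k : ℕ) : (Λ.J k).low = Λ.loS k := rfl

lemma low_succ (k : ℕ) : (Λ.J (k + 1)).low = (Λ.J k).low ∪ (Λ.J k).band := by
  ext j
  simp only [low_eq, Finset.mem_union, mem_loS, mem_band]
  omega

lemma disjoint_low_band (k : ℕ) : Disjoint (Λ.J k).low (Λ.J k).band := by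
  simp only [Finset.disjoint_left, low_eq, mem_loS, mem_band]
  omega

variable {A cP cS θ₀ : ℝ} {v : Fin N → Fin d → ℝ}

lemma stepIn_zero (hcP : 0 ≤ cP) (hn : ∀ i, ∑ j, v i j ^ 2 ≤ 1) (hs : ∀ j, ∑ i, v i j = 0)
    (horth : ∀ θ : Fin d → ℝ, ∑ i, (∑ j, θ j * v i j) ^ 2 = ∑ j, Λ.g j * θ j ^ 2) :
    StepIn (Λ.J 0) A cP (Λ.En cS 0) (Λ.M 0) v (fun _ => 0) v where
  norm_le := hn
  sum_zero := hs
  pos_lt := fun _ => Nat.two_pow_pos _
  w_eq := fun _ _ _ => rfl
  energy := fun p => by simp [low_eq, loS, En]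
  cov := fun p hp θ _ => by
    have hp0 : p = 0 := by simp [M, cut] at hp; omega
    subst hp0
    rw [filter_true_of_mem (fun _ _ => rfl), horth θ]
    simp [J, U0, q_pow_zero]
  corr := fun p => by
    refine le_of_eq_of_le (sum_eq_zero fun j _ => ?_) hcP
    rcases Nat.eq_zero_or_pos p with h | h
    · simp [h, psum_zero]
    · rw [psum_top _ _ (M := 1) (fun _ => Nat.zero_lt_one) h, hs]
      simp

lemma stepIn_succ (hcS : 0 ≤ cS) {k : ℕ} {pos pos' : Fin N → ℕ} {w w' : Fin N → Fin d → ℝ}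
    (hi : StepIn (Λ.J k) A cP (Λ.En cS k) (Λ.M k) v pos w)
    (ho : StepOut (Λ.J k) A cP cS θ₀ (Λ.En cS k) (Λ.M k) v pos w pos' w') :
    StepIn (Λ.J (k + 1)) A cP (Λ.En cS (k + 1)) (Λ.M (k + 1)) v pos' w' where
  norm_le := hi.norm_le
  sum_zero := hi.sum_zero
  pos_lt := fun i => by
    rw [M, cut_succ, pow_add]
    exact ho.pos_lt i
  w_eq := fun i j hj => ho.w_eq i j fun h => hj (by rw [low_succ]; exact mem_union_left _ h)
  energy := fun c => by
    simp only [low_succ, sum_union (Λ.disjoint_low_band k), sum_add_distrib]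
    have hr : (0 : ℝ) ≤ rho := le_trans zero_le_one one_le_rho
    set S := univ.filter (fun i => pos' i = c)
    have h1 : ∑ i ∈ S, ∑ j ∈ (Λ.J k).low, (Λ.J (k + 1)).ω j * w' i j ^ 2
        ≤ rho * (3 / 5 * Λ.En cS k) := by
      refine le_trans ?_ (mul_le_mul_of_nonneg_left (ho.energy c) hr)
      simp only [mul_sum]
      refine sum_le_sum fun i _ => sum_le_sum fun j _ => ?_
      rw [← mul_assoc]
      exact mul_le_mul_of_nonneg_right (Λ.om_succ_le k j) (sq_nonneg _)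
    have h2 : ∑ i ∈ S, ∑ j ∈ (Λ.J k).band, (Λ.J (k + 1)).ω j * w' i j ^ 2
        ≤ rho * (cS * (Λ.ne1 k * Λ.P k ^ 6)) := by
      by_cases hb : (Λ.J k).band.Nonempty
      · rw [ne1, if_pos hb, one_mul]
        refine le_trans ?_ (mul_le_mul_of_nonneg_left (ho.band_energy c) hr)
        simp only [mul_sum]
        refine sum_le_sum fun i _ => sum_le_sum fun j hj => ?_
        rw [ho.w_eq i j fun h => disjoint_left.1 (Λ.disjoint_low_band k) h hj]
        refine mul_le_mul_of_nonneg_right ((Λ.om_succ_le k j).trans (le_of_eq ?_)) (sq_nonneg _)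
        rw [Λ.om_band (Λ.mem_band.1 hj), mul_one]
      · rw [Finset.not_nonempty_iff_eq_empty.1 hb]
        have := Λ.ne1_nonneg k
        have := Λ.P_pos k
        simp only [sum_empty, sum_const_zero]
        positivity
    rw [En]
    have e : rho = 11 / 10 := rfl
    rw [e] at h1 h2
    linarith
  cov := fun c hc θ hθ => by
    rw [M, cut_succ, pow_add] at hc
    have h := ho.cov c hc θ fun j hj => hθ j (Λ.mem_loS.2 (Nat.lt_succ_of_le (Λ.q_le_iff.1 hj)))
    refine le_of_eq_of_le ?_ h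
    congr 2
    exact sum_congr rfl fun j _ => congrArg (· * θ j ^ 2) (Λ.q_pow_succ k j)
  corr := ho.corr

lemma exists_run (hcP : 0 ≤ cP) (hcS : 0 ≤ cS) (hθ : 0 < θ₀)
    (hstep : ∀ k E M (pos : Fin N → ℕ) w, 0 ≤ E → StepIn (Λ.J k) A cP E M v pos w →
      ∃ pos' w', StepOut (Λ.J k) A cP cS θ₀ E M v pos w pos' w')
    (hn : ∀ i, ∑ j, v i j ^ 2 ≤ 1) (hs : ∀ j, ∑ i, v i j = 0)
    (horth : ∀ θ : Fin d → ℝ, ∑ i, (∑ j, θ j * v i j) ^ 2 = ∑ j, Λ.g j * θ j ^ 2) :
    Nonempty (Run Λ A cP cS θ₀ v) := by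
  classical
  let T : ℕ → Type := fun k =>
    {x : (Fin N → ℕ) × (Fin N → Fin d → ℝ) //
      StepIn (Λ.J k) A cP (Λ.En cS k) (Λ.M k) v x.1 x.2}
  have nxt : ∀ k (x : T k), ∃ y : T (k + 1),
      StepOut (Λ.J k) A cP cS θ₀ (Λ.En cS k) (Λ.M k) v x.1.1 x.1.2 y.1.1 y.1.2 := by
    intro k x
    obtain ⟨pos', w', h⟩ := hstep k _ _ _ _ (Λ.En_nonneg cS hcS k) x.2
    exact ⟨⟨(pos', w'), Λ.stepIn_succ hcS x.2 h⟩, h⟩
  choose f hf using nxt
  let seq : ∀ k, T k := fun k => Nat.rec (motive := T)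
    ⟨(fun _ => 0, v), Λ.stepIn_zero hcP hn hs horth⟩ f k
  exact ⟨⟨fun k => (seq k).1.1, fun k => (seq k).1.2, rfl, rfl, fun k => (seq k).2,
    fun k => hf k (seq k), hcS, hθ⟩⟩

/-- Weighted square sum over the coordinates not corrected in jump `k`. -/
noncomputable def Q (k : ℕ) (x : Fin d → ℝ) : ℝ := ∑ j ∈ Λ.act k, Λ.om k j * x j ^ 2

lemma Q_nonneg (k : ℕ) (x : Fin d → ℝ) : 0 ≤ Λ.Q k x :=
  sum_nonneg fun j _ => mul_nonneg (Λ.om_pos k j).le (sq_nonneg _)

lemma Q_le_of {k : ℕ} {x y z : Fin d → ℝ} {a b : ℝ}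
    (h : ∀ j, x j ^ 2 ≤ a * y j ^ 2 + b * z j ^ 2) :
    Λ.Q k x ≤ a * Λ.Q k y + b * Λ.Q k z := by
  simp only [Q, mul_sum, ← sum_add_distrib]
  refine sum_le_sum fun j _ => ?_
  have := mul_le_mul_of_nonneg_left (h j) (Λ.om_pos k j).le
  linarith

lemma Q_zero (k : ℕ) : Λ.Q k 0 = 0 := by simp [Q]

end Levels

namespace Run

variable {Λ : Levels d} {A cP cS θ₀ : ℝ} {v : Fin N → Fin d → ℝ} (R : Run Λ A cP cS θ₀ v)

/-- Number of new nodes per old one. -/
noncomputable def L (_R : Run Λ A cP cS θ₀ v) (k : ℕ) : ℕ := 2 ^ len Λ.g Λ.δ k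

lemma two_le_L (k : ℕ) : 2 ≤ R.L k :=
  le_self_pow (show 1 ≤ 2 by norm_num) (by have := one_le_len Λ.g Λ.δ k; omega)

lemma M_succ (k : ℕ) : Λ.M (k + 1) = Λ.M k * R.L k := by
  rw [Levels.M, cut_succ, pow_add]; rfl

/-- Old node sums of the new working vectors. -/
noncomputable def G (k p : ℕ) : Fin d → ℝ := fun j => nsum (R.pos k) (R.w (k + 1) · j) p

/-- Old node sums of the old working vectors. -/
noncomputable def F (k p : ℕ) : Fin d → ℝ := fun j => nsum (R.pos k) (R.w k · j) p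

/-- Jump of the node sums at an old boundary. -/
noncomputable def Dd (k c : ℕ) : Fin d → ℝ := fun j =>
  if 1 ≤ c ∧ c < Λ.M k * R.L k then R.G k (c / R.L k) j - R.G k ((c - 1) / R.L k) j else 0

/-- Deviation of new boundary sums from interpolated old ones. -/
noncomputable def dev (k c : ℕ) : Fin d → ℝ := fun j =>
  psum (R.pos (k + 1)) (R.w (k + 1) · j) c
    - itp (psum (R.pos k) (R.w (k + 1) · j)) (R.L k) c

/-- The deviation with the kink removed. -/
noncomputable def bd (k c : ℕ) : Fin d → ℝ := fun j =>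
  bdev (R.pos k) (R.pos (k + 1)) (R.w (k + 1) · j) (R.L k) (Λ.M k) c

lemma dev_eq (k c : ℕ) (j : Fin d) :
    R.dev k c j = R.bd k c j + R.Dd k c j / (4 * R.L k) := by
  unfold dev bd bdev kink Dd G
  split <;> simp

include R in
lemma En_nonneg (k : ℕ) : 0 ≤ Λ.En cS k := Λ.En_nonneg cS R.cS_nonneg k

lemma w_of_not_low (k : ℕ) {j : Fin d} (hj : j ∉ (Λ.J k).low) :
    (fun i => R.w (k + 1) i j) = fun i => v i j :=
  funext fun i => (R.hout k).w_eq i j hj

lemma Q_bd (k c : ℕ) : Λ.Q k (R.bd k c) ≤ Λ.Z cS k := by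
  rw [Levels.Q, Levels.sum_act, Levels.Z]
  have hP : 0 < Λ.P k ^ 8 := pow_pos (Λ.P_pos k) 8
  have hc := R.cS_nonneg
  have h1 : ∑ j ∈ (Λ.J k).gr, Λ.om k j * R.bd k c j ^ 2 ≤ cS * Λ.GB k := by
    refine le_of_mul_le_mul_right ?_ hP
    rw [sum_mul]
    calc ∑ j ∈ (Λ.J k).gr, Λ.om k j * R.bd k c j ^ 2 * Λ.P k ^ 8
        ≤ ∑ j ∈ (Λ.J k).gr, Λ.GB k * R.bd k c j ^ 2 := by
          refine sum_le_sum fun j hj => ?_
          rw [mul_right_comm]
          exact mul_le_mul_of_nonneg_right (Λ.gray k hj) (sq_nonneg _)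
      _ ≤ Λ.GB k * (cS * Λ.P k ^ 8) := by
          rw [← mul_sum]
          refine mul_le_mul_of_nonneg_left ?_ (Λ.GB_nonneg k)
          refine le_of_eq_of_le (sum_congr rfl fun j hj => ?_) ((R.hout k).dev_gr c)
          have hl : j ∉ (Λ.J k).low := by
            have := (Λ.mem_gr.1 hj).2
            rw [Levels.low_eq, Levels.mem_loS]; omega
          simp only [bd, R.w_of_not_low k hl]
          rfl
      _ = _ := by ring
  have h2 : ∑ j ∈ (Λ.J k).band, Λ.om k j * R.bd k c j ^ 2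
      ≤ cS * ((Λ.J k).band.card + Λ.ne1 k * Λ.P k ^ 8) := by
    by_cases hb : (Λ.J k).band.Nonempty
    · rw [Levels.ne1, if_pos hb, one_mul]
      refine le_of_eq_of_le (sum_congr rfl fun j hj => ?_) ((R.hout k).dev_band c)
      have hl : j ∉ (Λ.J k).low :=
        fun h => disjoint_left.1 (Λ.disjoint_low_band k) h hj
      rw [Λ.om_band (Λ.mem_band.1 hj), one_mul]
      simp only [bd, R.w_of_not_low k hl]
      rfl
    · rw [Finset.not_nonempty_iff_eq_empty.1 hb]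
      have := Λ.ne1_nonneg k
      simp only [sum_empty]
      positivity
  have h3 : ∑ j ∈ (Λ.J k).low, Λ.om k j * R.bd k c j ^ 2 ≤ cS * Λ.P k ^ 2 * Λ.En cS k :=
    (R.hout k).dev_low c
  linarith

/-- Bound for the jumps of node sums. -/
noncomputable def DB (_R : Run Λ A cP cS θ₀ v) : ℕ → ℝ
  | 0 => 0
  | k + 1 => Levels.rho * ((6 / 5 * DB _R k + 24 * (Λ.En cS k / θ₀)) / 8 + 32 * Λ.Z cS k)
      + 16 * cS * (Λ.J k).out.card

/-- The same after the low coordinates are replaced. -/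
noncomputable def DB' (k : ℕ) : ℝ := 6 / 5 * R.DB k + 24 * (Λ.En cS k / θ₀)

include R in
lemma Edivθ_nonneg (k : ℕ) : 0 ≤ Λ.En cS k / θ₀ := div_nonneg (R.En_nonneg k) R.θ_pos.le

lemma DB_nonneg : ∀ k, 0 ≤ R.DB k
  | 0 => le_rfl
  | k + 1 => by
    have := DB_nonneg k
    have := R.Edivθ_nonneg k
    have := Λ.Z_nonneg cS R.cS_nonneg k
    have := R.cS_nonneg
    have := le_trans zero_le_one Levels.one_le_rho
    rw [DB]; positivity

lemma DB'_nonneg (k : ℕ) : 0 ≤ R.DB' k := by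
  have := R.DB_nonneg k
  have := R.Edivθ_nonneg k
  unfold DB'; linarith

lemma Q_removed (k p : ℕ) : Λ.Q k (R.G k p - R.F k p) ≤ Λ.En cS k / θ₀ := by
  refine le_of_eq_of_le ?_ ((R.hout k).removed p (fun _ => 1) fun _ => by simp)
  rw [Levels.Q, ← Finset.sum_subset (s₁ := (Λ.J k).low)]
  · refine sum_congr rfl fun j _ => congrArg (Λ.om k j * ·) ?_
    simp only [G, F, nsum, Pi.sub_apply, one_mul, sum_sub_distrib]
    ring
  · intro j hj
    rw [Levels.low_eq, Levels.mem_loS] at hj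
    have := Λ.ib_le_bb j
    simp [Levels.act]
    omega
  · intro j _ hj
    simp [G, F, nsum, (R.hout k).w_eq _ j hj, (R.hin k).w_eq _ j hj]

lemma Q_GF {k p : ℕ} (h : Λ.Q k (R.F k (p + 1) - R.F k p) ≤ R.DB k) :
    Λ.Q k (R.G k (p + 1) - R.G k p) ≤ R.DB' k := by
  have e := Λ.Q_le_of (k := k) (x := R.G k (p + 1) - R.G k p) (y := R.F k (p + 1) - R.F k p)
    (z := (R.G k (p + 1) - R.F k (p + 1)) - (R.G k p - R.F k p)) (a := 6 / 5) (b := 6)
    fun j => by
      simp only [Pi.sub_apply]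
      nlinarith [sq_nonneg ((R.F k (p + 1) j - R.F k p j)
        - 5 * ((R.G k (p + 1) j - R.F k (p + 1) j) - (R.G k p j - R.F k p j)))]
  have e2 := Λ.Q_le_of (k := k) (a := 2) (b := 2)
    (x := (R.G k (p + 1) - R.F k (p + 1)) - (R.G k p - R.F k p))
    (y := R.G k (p + 1) - R.F k (p + 1)) (z := R.G k p - R.F k p) fun j => by
      simp only [Pi.sub_apply]
      nlinarith [sq_nonneg ((R.G k (p + 1) j - R.F k (p + 1) j) + (R.G k p j - R.F k p j))]
  have h1 := R.Q_removed k (p + 1)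
  have h2 := R.Q_removed k p
  unfold DB'
  linarith

lemma Dd_eq_zero {k c : ℕ} (h : ¬ R.L k ∣ c) : R.Dd k c = 0 := by
  funext j
  unfold Dd
  split
  · rename_i hc
    obtain ⟨a, rfl⟩ : ∃ a, c = a + 1 := ⟨c - 1, by omega⟩
    rw [Nat.succ_div_of_not_dvd h, Nat.add_sub_cancel]
    simp
  · rfl

lemma Q_Dd {k : ℕ} (IH : ∀ p, p + 1 < Λ.M k → Λ.Q k (R.F k (p + 1) - R.F k p) ≤ R.DB k)
    (c : ℕ) : Λ.Q k (R.Dd k c) ≤ R.DB' k := by
  by_cases h : R.L k ∣ c
  · by_cases hc : 1 ≤ c ∧ c < Λ.M k * R.L k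
    · obtain ⟨a, rfl⟩ : ∃ a, c = a + 1 := ⟨c - 1, by omega⟩
      have e : R.Dd k (a + 1) = R.G k (a / R.L k + 1) - R.G k (a / R.L k) := by
        funext j
        simp only [Dd, if_pos hc, Nat.succ_div_of_dvd h, Nat.add_sub_cancel, Pi.sub_apply]
      rw [e]
      refine R.Q_GF (IH _ ?_)
      rw [← Nat.succ_div_of_dvd h, Nat.div_lt_iff_lt_mul (by have := R.two_le_L k; omega)]
      exact hc.2
    · rw [show R.Dd k c = 0 from funext fun j => if_neg hc, Levels.Q_zero]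
      exact R.DB'_nonneg k
  · rw [R.Dd_eq_zero h, Levels.Q_zero]
    exact R.DB'_nonneg k

/-- Bound for the deviations. -/
noncomputable def XB (k : ℕ) : ℝ := R.DB' k / 8 + 2 * Λ.Z cS k

lemma Q_dev_of {k : ℕ} (IH : ∀ p, p + 1 < Λ.M k → Λ.Q k (R.F k (p + 1) - R.F k p) ≤ R.DB k)
    (c : ℕ) : Λ.Q k (R.dev k c) ≤ R.XB k := by
  have hL : (2 : ℝ) ≤ R.L k := by exact_mod_cast R.two_le_L k
  have e := Λ.Q_le_of (k := k) (x := R.dev k c) (y := R.bd k c) (z := R.Dd k c)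
    (a := 2) (b := 1 / 8) fun j => by
      rw [R.dev_eq]
      have h1 : (R.Dd k c j / (4 * R.L k)) ^ 2 ≤ R.Dd k c j ^ 2 / 64 := by
        rw [div_pow]
        gcongr
        nlinarith
      nlinarith [sq_nonneg (R.bd k c j - R.Dd k c j / (4 * R.L k)), sq_nonneg (R.Dd k c j)]
  have := R.Q_bd k c
  have := R.Q_Dd IH c
  have := Λ.Q_nonneg k (R.Dd k c)
  have := R.DB'_nonneg k
  unfold XB
  linarith

/-- Second difference of the new boundary sums. -/
lemma second_diff {k c : ℕ} (hc : c + 1 < Λ.M k * R.L k) (j : Fin d) :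
    nsum (R.pos (k + 1)) (R.w (k + 1) · j) (c + 1) - nsum (R.pos (k + 1)) (R.w (k + 1) · j) c
      = (R.bd k (c + 2) j - 2 * R.bd k (c + 1) j + R.bd k c j)
        + (R.Dd k (c + 2) j + 2 * R.Dd k (c + 1) j + R.Dd k c j) / (4 * R.L k) := by
  have hL : 0 < R.L k := by have := R.two_le_L k; omega
  have hL' : (R.L k : ℝ) ≠ 0 := Nat.cast_ne_zero.2 hL.ne'
  set S := psum (R.pos k) (R.w (k + 1) · j)
  set S' := psum (R.pos (k + 1)) (R.w (k + 1) · j)
  have hb : ∀ c, R.bd k c j = S' c - itp S (R.L k) c - R.Dd k c j / (4 * R.L k) := by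
    intro c
    have := R.dev_eq k c j
    simp only [dev] at this
    linarith
  have hn : ∀ c, nsum (R.pos (k + 1)) (R.w (k + 1) · j) c = S' (c + 1) - S' c := fun c =>
    eq_sub_of_add_eq' (psum_succ _ _ c).symm
  have hG : ∀ p, S (p + 1) - S p = R.G k p j := fun p =>
    sub_eq_of_eq_add' (psum_succ _ _ p)
  have hDd : R.Dd k (c + 1) j = R.G k ((c + 1) / R.L k) j - R.G k (c / R.L k) j := by
    simp [Dd, hc]
  have h1 := itp_succ S hL (c + 1)
  have h2 := itp_succ S hL c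
  rw [hG] at h1 h2
  rw [hn, hn, hb, hb, hb, show c + 1 + 1 = c + 2 by rfl]
  rw [show c + 1 + 1 = c + 2 by rfl] at h1
  field_simp at h1 h2 ⊢
  linarith

lemma Q_step {k : ℕ} (IH : ∀ p, p + 1 < Λ.M k → Λ.Q k (R.F k (p + 1) - R.F k p) ≤ R.DB k)
    {c : ℕ} (hc : c + 1 < Λ.M k * R.L k) :
    Λ.Q k (R.F (k + 1) (c + 1) - R.F (k + 1) c) ≤ R.DB' k / 8 + 32 * Λ.Z cS k := by
  have hL : (2 : ℝ) ≤ R.L k := by exact_mod_cast R.two_le_L k
  have hL2 := R.two_le_L k
  set u : Fin d → ℝ := fun j => R.bd k (c + 2) j - 2 * R.bd k (c + 1) j + R.bd k c j with hu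
  set t : Fin d → ℝ := fun j => R.Dd k (c + 2) j + 2 * R.Dd k (c + 1) j + R.Dd k c j with ht
  have e : ∀ j, (R.F (k + 1) (c + 1) - R.F (k + 1) c) j = u j + t j / (4 * R.L k) :=
    fun j => R.second_diff hc j
  have hbound : Λ.Q k (R.F (k + 1) (c + 1) - R.F (k + 1) c)
      ≤ 2 * Λ.Q k u + 1 / 32 * Λ.Q k t :=
    Λ.Q_le_of fun j => by
      rw [e]
      have h1 : (t j / (4 * R.L k)) ^ 2 ≤ t j ^ 2 / 64 := by
        rw [div_pow]
        gcongr
        nlinarith
      nlinarith [sq_nonneg (u j - t j / (4 * R.L k))]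
  have hu' : Λ.Q k u ≤ 16 * Λ.Z cS k := by
    have e1 := Λ.Q_le_of (k := k) (x := u) (y := fun j => R.bd k (c + 2) j + R.bd k c j)
      (z := R.bd k (c + 1)) (a := 2) (b := 8) fun j => by
        simp only [hu]
        nlinarith [sq_nonneg (R.bd k (c + 2) j + R.bd k c j + 2 * R.bd k (c + 1) j)]
    have e2 := Λ.Q_le_of (k := k) (x := fun j => R.bd k (c + 2) j + R.bd k c j)
      (y := R.bd k (c + 2)) (z := R.bd k c) (a := 2) (b := 2) fun j => by
        nlinarith [sq_nonneg (R.bd k (c + 2) j - R.bd k c j)]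
    have := R.Q_bd k (c + 2)
    have := R.Q_bd k (c + 1)
    have := R.Q_bd k c
    linarith
  have ht' : Λ.Q k t ≤ 4 * R.DB' k := by
    by_cases h : R.L k ∣ c + 1
    · have h0 : R.Dd k c = 0 := R.Dd_eq_zero fun h' => by
        have := Nat.le_of_dvd one_pos ((Nat.dvd_add_right h').1 h)
        omega
      have h2 : R.Dd k (c + 2) = 0 := R.Dd_eq_zero fun h' => by
        have := Nat.le_of_dvd one_pos ((Nat.dvd_add_right h).1 h')
        omega
      have e1 := Λ.Q_le_of (k := k) (x := t) (y := R.Dd k (c + 1)) (z := R.Dd k (c + 1))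
        (a := 4) (b := 0) fun j => by
          simp only [ht, h0, h2, Pi.zero_apply]
          linarith [show (0 + 2 * R.Dd k (c + 1) j + 0) ^ 2 = 4 * R.Dd k (c + 1) j ^ 2 by ring]
      have := R.Q_Dd IH (c + 1)
      linarith
    · have h1 := R.Dd_eq_zero h
      have e1 := Λ.Q_le_of (k := k) (x := t) (y := R.Dd k (c + 2)) (z := R.Dd k c)
        (a := 2) (b := 2) fun j => by
          simp only [ht, h1, Pi.zero_apply]
          nlinarith [sq_nonneg (R.Dd k (c + 2) j - R.Dd k c j)]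
      have := R.Q_Dd IH (c + 2)
      have := R.Q_Dd IH c
      linarith
  have := R.DB'_nonneg k
  linarith

lemma Q_F : ∀ k p, p + 1 < Λ.M k → Λ.Q k (R.F k (p + 1) - R.F k p) ≤ R.DB k
  | 0, p, h => by simp [Levels.M, cut] at h
  | k + 1, c, hc => by
    rw [R.M_succ] at hc
    have IH := Q_F k
    rw [Levels.Q, Levels.sum_act_succ, DB]
    refine add_le_add ?_ ?_
    · refine le_trans ?_ (mul_le_mul_of_nonneg_left (R.Q_step IH hc)
        (le_trans zero_le_one Levels.one_le_rho))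
      rw [Levels.Q, mul_sum]
      refine sum_le_sum fun j _ => ?_
      rw [← mul_assoc]
      exact mul_le_mul_of_nonneg_right (Λ.om_succ_le k j) (sq_nonneg _)
    · set S : Fin d → ℕ → ℝ := fun j => psum (R.pos (k + 1)) (v · j)
      have hj : ∀ j ∈ (Λ.J k).out, Λ.om (k + 1) j * (R.F (k + 1) (c + 1) - R.F (k + 1) c) j ^ 2
          ≤ 4 * S j (c + 2) ^ 2 + 8 * S j (c + 1) ^ 2 + 4 * S j c ^ 2 := by
        intro j hj
        have hib := Λ.mem_out.1 hj
        have hl : j ∉ (Λ.J k).low := by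
          have := Λ.ib_le_bb j
          rw [Levels.low_eq, Levels.mem_loS]; omega
        rw [Λ.om_new hib, one_mul]
        have e : (R.F (k + 1) (c + 1) - R.F (k + 1) c) j
            = (S j (c + 2) - S j (c + 1)) - (S j (c + 1) - S j c) := by
          have e1 := psum_succ (R.pos (k + 1)) (v · j) (c + 1)
          have e2 := psum_succ (R.pos (k + 1)) (v · j) c
          simp only [F, Pi.sub_apply, R.w_of_not_low k hl, S]
          rw [e1, e2]
          ring
        rw [e]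
        nlinarith [sq_nonneg (S j (c + 2) + S j (c + 1)), sq_nonneg (S j c + S j (c + 1)),
          sq_nonneg (S j (c + 2) - S j c)]
      refine (sum_le_sum hj).trans ?_
      simp only [sum_add_distrib, ← mul_sum]
      have := (R.hout k).left (c + 2)
      have := (R.hout k).left (c + 1)
      have := (R.hout k).left c
      simp only [S]
      linarith

lemma Q_dev (k c : ℕ) : Λ.Q k (R.dev k c) ≤ R.XB k := R.Q_dev_of (R.Q_F k) c

lemma sum_XB (K : ℕ) : ∑ k ∈ range K, R.XB k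
    ≤ (8000 * cS / θ₀ + 10 * (cS * (1200 + 1000 * cS)) + 3 * cS) * d / Λ.δ := by
  have hc := R.cS_nonneg
  have hθ := R.θ_pos
  have hZ := Λ.sum_Z cS hc K
  have hE := Λ.sum_En cS hc K
  have hO := Λ.sum_card_out K
  have hdd : (d : ℝ) ≤ d / Λ.δ := le_div_self (Nat.cast_nonneg d) Λ.δ_pos Λ.δ_le
  have hsum : ∑ k ∈ range K, Λ.En cS k / θ₀ ≤ 1000 * cS / θ₀ * (d / Λ.δ) := by
    rw [← sum_div]
    refine (div_le_div_of_nonneg_right hE hθ.le).trans (le_of_eq ?_)
    ring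
  set g : ℕ → ℝ := fun k => 33 / 10 * (Λ.En cS k / θ₀) + 176 / 5 * Λ.Z cS k
    + 16 * cS * (Λ.J k).out.card with hg
  have hD := Levels.sum_rec_le (f := R.DB) (g := g) (r := 33 / 200) (by norm_num) R.DB_nonneg
    (fun k => by
      have := R.Edivθ_nonneg k
      have := Λ.Z_nonneg cS hc k
      simp only [hg]
      positivity)
    (fun k => le_of_eq (by rw [DB, show Levels.rho = 11 / 10 from rfl, hg]; ring)) K
  rw [show R.DB 0 = 0 from rfl, zero_add] at hD
  simp only [hg, sum_add_distrib, ← mul_sum] at hD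
  simp only [XB, DB', sum_add_distrib, ← mul_sum, ← sum_div]
  simp only [← sum_div] at hD hsum
  have h3 := mul_le_mul_of_nonneg_left (hO.trans hdd) hc
  have : 0 ≤ (d : ℝ) / Λ.δ := div_nonneg (Nat.cast_nonneg d) Λ.δ_pos.le
  have : 0 ≤ cS / θ₀ * ((d : ℝ) / Λ.δ) := by positivity
  have : 0 ≤ cS * ((d : ℝ) / Λ.δ) := by positivity
  have : 0 ≤ cS * cS * ((d : ℝ) / Λ.δ) := by positivity
  rw [mul_div_assoc] at hZ ⊢
  generalize ∑ i ∈ range K, R.DB i = sD at *
  generalize ((∑ i ∈ range K, Λ.En cS i) / θ₀) = sE at *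
  generalize ∑ i ∈ range K, Λ.Z cS i = sZ at *
  generalize ∑ i ∈ range K, ((Λ.J i).out.card : ℝ) = sO at *
  generalize (d : ℝ) / Λ.δ = D at *
  rw [mul_div_assoc] at hsum ⊢
  generalize cS / θ₀ = T at *
  linarith

end Run

end Vale.Agent.P262
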