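import Mathlib
import Vale.Agent.P262.MainChain

/-!
Prefix sums of the final order, followed back through all jumps.
-/

namespace Vale.Agent.P262

open Finset

variable {d N : ℕ}

lemma itp_sub (S T : ℕ → ℝ) (m h : ℕ) :
    itp (fun p => S p - T p) m h = itp S m h - itp T m h := by
  unfold itp; ring

lemma itp_weight (m h : ℕ) : ((h % m : ℕ) : ℝ) / m ≤ 1 := by
  rcases Nat.eq_zero_or_pos m with hm | hm
  · simp [hm]
  · rw [div_le_one (by exact_mod_cast hm)]
    exact_mod_cast (Nat.mod_lt h hm).le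

/-- A weighted square sum of interpolations is below the larger endpoint bound. -/
lemma sum_itp_sq_le {α : Type*} (s : Finset α) (ω : α → ℝ) (hω : ∀ j ∈ s, 0 ≤ ω j)
    (S : α → ℕ → ℝ) {B : ℝ} (hB : ∀ c, ∑ j ∈ s, ω j * S j c ^ 2 ≤ B) (m h : ℕ) :
    ∑ j ∈ s, ω j * itp (S j) m h ^ 2 ≤ B := by
  have ht0 : (0 : ℝ) ≤ ((h % m : ℕ) : ℝ) / m := by positivity
  have ht1 := itp_weight m h
  set t : ℝ := ((h % m : ℕ) : ℝ) / m
  have key : ∀ j ∈ s, ω j * itp (S j) m h ^ 2
      ≤ (1 - t) * (ω j * S j (h / m) ^ 2) + t * (ω j * S j (h / m + 1) ^ 2) := by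
    intro j hj
    have : itp (S j) m h = S j (h / m) + t * (S j (h / m + 1) - S j (h / m)) := rfl
    rw [this]
    have h2 := mul_nonneg (hω j hj) (mul_nonneg (mul_nonneg ht0 (sub_nonneg.2 ht1))
      (sq_nonneg (S j (h / m + 1) - S j (h / m))))
    linarith
  refine (sum_le_sum key).trans ?_
  rw [sum_add_distrib, ← mul_sum, ← mul_sum]
  have := mul_le_mul_of_nonneg_left (hB (h / m)) (sub_nonneg.2 ht1)
  have := mul_le_mul_of_nonneg_left (hB (h / m + 1)) ht0
  linarith

/-- Coefficient of an item in an interpolated prefix sum. -/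
noncomputable def coef (pos : Fin N → ℕ) (m h : ℕ) (x : Fin N) : ℝ :=
  (if pos x < h / m then 1 else 0) + ((h % m : ℕ) : ℝ) / m * (if pos x = h / m then 1 else 0)

lemma itp_psum (pos : Fin N → ℕ) (f : Fin N → ℝ) (m h : ℕ) :
    itp (psum pos f) m h = ∑ x, coef pos m h x * f x := by
  rw [itp, psum_succ, add_sub_cancel_left]
  simp only [psum, nsum, sum_filter, mul_sum, ← sum_add_distrib]
  refine sum_congr rfl fun x _ => ?_
  unfold coef
  split_ifs <;> ring

namespace Run

variable {Λ : Levels d} {A cP cS θ₀ : ℝ} {v : Fin N → Fin d → ℝ} (R : Run Λ A cP cS θ₀ v)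
  (K P : ℕ) (S : Finset (Fin N))

/-- Nodes at the end per node before jump `k`. -/
noncomputable def span (_R : Run Λ A cP cS θ₀ v) (K k : ℕ) : ℕ :=
  2 ^ (cut Λ.g Λ.δ K - cut Λ.g Λ.δ k)

lemma span_pos (k : ℕ) : 0 < R.span K k := Nat.two_pow_pos _

lemma span_succ {k : ℕ} (hk : k < K) : R.span K k = R.L k * R.span K (k + 1) := by
  unfold span L
  rw [← pow_add]
  congr 1
  have := cut_succ Λ.g Λ.δ k
  have := (cut_strictMono Λ.g Λ.δ).monotone (show k + 1 ≤ K from hk)
  omega

lemma span_self : R.span K K = 1 := by simp [span]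

/-- Where an item may end up. -/
lemma reach {k : ℕ} (hk : k ≤ K) (x : Fin N) :
    R.span K k * R.pos k x + 1 ≤ R.pos K x + R.span K k ∧
      R.pos K x + 2 ≤ R.span K k * R.pos k x + 2 * R.span K k := by
  induction hk using Nat.decreasingInduction with
  | self => simp [span_self]
  | of_succ k hk ih =>
    rw [R.span_succ K hk]
    set m := R.span K (k + 1)
    have h2 : 2 * m ≤ R.L k * m := Nat.mul_le_mul_right m (R.two_le_L k)
    obtain ⟨a, b⟩ := (R.hout k).window x
    change R.L k * R.pos k x ≤ _ at a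
    change _ ≤ R.L k * R.pos k x + R.L k at b
    have a' := Nat.mul_le_mul_left m a
    have b' := Nat.mul_le_mul_left m b
    constructor <;> nlinarith

/-- Error of the interpolated prefix sum before jump `k`. -/
noncomputable def err (k : ℕ) (j : Fin d) : ℝ :=
  ∑ x ∈ S, R.w k x j - itp (psum (R.pos k) (R.w k · j)) (R.span K k) P

/-- The part caused by interpolation. -/
noncomputable def X (k : ℕ) (j : Fin d) : ℝ := itp (R.dev k · j) (R.span K (k + 1)) P

/-- Signed indicator of the mismatch. -/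
noncomputable def mis (k : ℕ) (x : Fin N) : ℝ :=
  (if x ∈ S then 1 else 0) - coef (R.pos k) (R.span K k) P x

/-- The part caused by replacing the working vectors. -/
noncomputable def Yp (k : ℕ) (j : Fin d) : ℝ :=
  ∑ x, R.mis K P S k x * (R.w k x j - R.w (k + 1) x j)

lemma err_eq {k : ℕ} (hk : k < K) (j : Fin d) :
    R.err K P S k j = R.err K P S (k + 1) j + (R.X K P k j + R.Yp K P S k j) := by
  have hY : R.Yp K P S k j = (∑ x ∈ S, R.w k x j - ∑ x ∈ S, R.w (k + 1) x j)
      - (itp (psum (R.pos k) (R.w k · j)) (R.span K k) P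
        - itp (psum (R.pos k) (R.w (k + 1) · j)) (R.span K k) P) := by
    simp only [Yp, mis, itp_psum, ← sum_sub_distrib]
    rw [show ∑ x ∈ S, (R.w k x j - R.w (k + 1) x j)
      = ∑ x, (if x ∈ S then 1 else 0) * (R.w k x j - R.w (k + 1) x j) by simp,
      ← sum_sub_distrib]
    exact sum_congr rfl fun x _ => by ring
  have hX : R.X K P k j = itp (psum (R.pos (k + 1)) (R.w (k + 1) · j)) (R.span K (k + 1)) P
      - itp (psum (R.pos k) (R.w (k + 1) · j)) (R.span K k) P := by
    unfold X dev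
    rw [itp_sub, itp_itp _ (by have := R.two_le_L k; omega) (R.span_pos K _), ← R.span_succ K hk]
  rw [hX, hY, err, err]
  ring

lemma Q_X (k : ℕ) : Λ.Q k (R.X K P k) ≤ R.XB k :=
  sum_itp_sq_le _ _ (fun j _ => (Λ.om_pos k j).le) _ (R.Q_dev k) _ _

lemma abs_mis_le (k : ℕ) (x : Fin N) : |R.mis K P S k x| ≤ 1 := by
  have h0 : (0 : ℝ) ≤ ((P % R.span K k : ℕ) : ℝ) / R.span K k := by positivity
  have h1 := itp_weight (R.span K k) P
  rw [mis, coef, abs_le]
  split_ifs <;> first | omega | constructor <;> linarith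

lemma mis_eq_zero (hlt : ∀ x, R.pos K x < P → x ∈ S) (hle : ∀ x ∈ S, R.pos K x ≤ P)
    {k : ℕ} (hk : k ≤ K) {x : Fin N}
    (hx : R.pos k x + 1 < P / R.span K k ∨ P / R.span K k + 1 < R.pos k x) :
    R.mis K P S k x = 0 := by
  obtain ⟨ha, hb⟩ := R.reach K hk x
  have hm := R.span_pos K k
  have h1 := Nat.div_add_mod P (R.span K k)
  have h2 := Nat.mod_lt P hm
  unfold mis coef
  set m := R.span K k
  set p := P / m
  rcases hx with h | h
  · have h3 : m * (R.pos k x + 2) ≤ m * p := Nat.mul_le_mul_left m h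
    have hmem := hlt x (by linarith [Nat.zero_le (P % m)])
    rw [if_pos hmem, if_pos (by omega), if_neg (by omega)]
    ring
  · have h3 : m * (p + 2) ≤ m * R.pos k x := Nat.mul_le_mul_left m h
    have hmem : x ∉ S := fun hc => by have := hle x hc; linarith
    rw [if_neg hmem, if_neg (by omega), if_neg (by omega)]
    ring

lemma Q_Yp (hlt : ∀ x, R.pos K x < P → x ∈ S) (hle : ∀ x ∈ S, R.pos K x ≤ P)
    {k : ℕ} (hk : k ≤ K) : Λ.Q k (R.Yp K P S k) ≤ 9 * (Λ.En cS k / θ₀) := by
  classical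
  have hE := R.Edivθ_nonneg k
  set p := P / R.span K k with hp
  set T : Finset ℕ := {p - 1, p, p + 1}
  have hT : (T.card : ℝ) ≤ 3 := by exact_mod_cast Finset.card_le_three
  set z : ℕ → Fin d → ℝ := fun a j => ∑ x ∈ univ.filter (fun x => R.pos k x = a),
    R.mis K P S k x * (R.w k x j - R.w (k + 1) x j) with hz
  have hY : ∀ j, R.Yp K P S k j = ∑ a ∈ T, z a j := by
    intro j
    simp only [hz]
    rw [sum_fiberwise_eq_sum_filter]
    refine (sum_filter_of_ne fun x _ hx => ?_).symm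
    by_contra hc
    refine hx (mul_eq_zero_of_left (R.mis_eq_zero K P S hlt hle hk ?_) _)
    simp only [T, Finset.mem_insert, Finset.mem_singleton] at hc
    omega
  have hlow : ∀ a, Λ.Q k (z a) ≤ Λ.En cS k / θ₀ := by
    intro a
    refine le_of_eq_of_le ?_ ((R.hout k).removed a _ (R.abs_mis_le K P S k))
    rw [Levels.Q, ← Finset.sum_subset (s₁ := (Λ.J k).low)]
    · rfl
    · intro j hj
      rw [Levels.low_eq, Levels.mem_loS] at hj
      have := Λ.ib_le_bb j
      simp [Levels.act]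
      omega
    · intro j _ hj
      simp [hz, (R.hout k).w_eq _ j hj, (R.hin k).w_eq _ j hj]
  calc Λ.Q k (R.Yp K P S k) ≤ ∑ j ∈ Λ.act k, 3 * (Λ.om k j * ∑ a ∈ T, z a j ^ 2) := by
        refine sum_le_sum fun j _ => ?_
        rw [hY j, mul_left_comm]
        refine mul_le_mul_of_nonneg_left (sq_sum_le_card_mul_sum_sq.trans ?_) (Λ.om_pos k j).le
        exact mul_le_mul_of_nonneg_right hT (sum_nonneg fun a _ => sq_nonneg _)
    _ = 3 * ∑ a ∈ T, Λ.Q k (z a) := by
        simp only [Levels.Q, mul_sum]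
        exact sum_comm
    _ ≤ 3 * ∑ a ∈ T, Λ.En cS k / θ₀ := by gcongr with a _; exact hlow a
    _ ≤ 9 * (Λ.En cS k / θ₀) := by
        rw [sum_const, nsmul_eq_mul]
        have := mul_le_mul_of_nonneg_right hT hE
        linarith

/-- The interpolated prefix sum where a coordinate stops being corrected. -/
noncomputable def start (j : Fin d) : ℝ :=
  itp (psum (R.pos (Λ.ib j)) (v · j)) (R.span K (Λ.ib j)) P

lemma sum_start (hK : ∀ j, Λ.bb j < K) : ∑ j, R.start K P j ^ 2 ≤ cS * d := by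
  classical
  have hc := R.cS_nonneg
  have h0 : ∀ j, Λ.ib j = 0 → R.start K P j = 0 := by
    intro j hj
    have : ∀ p, psum (R.pos 0) (v · j) p = 0 := by
      intro p
      rcases Nat.eq_zero_or_pos p with h | h
      · simp [h, psum_zero]
      · rw [psum_top _ _ (M := 1) (fun x => by simp [R.pos_zero]) h, (R.hin 0).sum_zero]
    simp [start, hj, itp, this]
  have hpart : ∀ k, ∑ j ∈ (Λ.J k).out, R.start K P j ^ 2 ≤ cS * (Λ.J k).out.card := by
    intro k
    have e := sum_itp_sq_le (Λ.J k).out (fun _ => 1) (fun _ _ => zero_le_one)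
      (fun j c => psum (R.pos (k + 1)) (v · j) c) (B := cS * (Λ.J k).out.card)
      (fun c => by simpa using (R.hout k).left c) (R.span K (k + 1)) P
    refine le_of_eq_of_le (sum_congr rfl fun j hj => ?_) e
    simp [start, Λ.mem_out.1 hj]
  have hsplit : ∑ j, R.start K P j ^ 2 = ∑ k ∈ range K, ∑ j ∈ (Λ.J k).out, R.start K P j ^ 2 := by
    rw [← sum_biUnion]
    · refine (sum_subset (subset_univ _) fun j _ hj => ?_).symm
      have hib := Λ.ib_le_bb j
      have := hK j
      have : Λ.ib j = 0 := by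
        by_contra hne
        refine hj (mem_biUnion.2 ⟨Λ.ib j - 1, mem_range.2 (by omega), Λ.mem_out.2 (by omega)⟩)
      simp [h0 j this]
    · intro a _ b _ hab
      simp only [Function.onFun, Finset.disjoint_left, Levels.mem_out]
      omega
  rw [hsplit]
  refine (sum_le_sum fun k _ => hpart k).trans ?_
  rw [← mul_sum]
  exact mul_le_mul_of_nonneg_left (Λ.sum_card_out K) hc

lemma prefix_eq (hK : ∀ j, Λ.bb j < K) (j : Fin d) :
    ∑ x ∈ S, v x j = R.start K P j
      + (∑ k ∈ Ico (Λ.ib j) K, (R.X K P k j + R.Yp K P S k j)) + R.err K P S K j := by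
  have hib : Λ.ib j ≤ K := (Λ.ib_le_bb j).trans (hK j).le
  have tel : ∀ i, i ≤ K →
      R.err K P S i j = R.err K P S K j + ∑ k ∈ Ico i K, (R.X K P k j + R.Yp K P S k j) := by
    intro i hi
    induction hi using Nat.decreasingInduction with
    | self => simp
    | of_succ k hk ih => rw [sum_eq_sum_Ico_succ_bot hk, R.err_eq K P S hk, ih]; ring
  have hl : j ∉ (Λ.J (Λ.ib j)).low := by
    have := Λ.ib_le_bb j
    rw [Levels.low_eq, Levels.mem_loS]
    omega
  have h := tel _ hib
  have e : (fun x => R.w (Λ.ib j) x j) = fun x => v x j :=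
    funext fun x => (R.hin _).w_eq x j hl
  unfold err at h
  rw [e] at h
  simp only at h
  unfold start err
  linarith

lemma sum_err (hlt : ∀ x, R.pos K x < P → x ∈ S) (hle : ∀ x ∈ S, R.pos K x ≤ P)
    (hK : ∀ j, Λ.bb j < K) : ∑ j, R.err K P S K j ^ 2 ≤ N * Λ.En cS K := by
  classical
  set T := S.filter (fun x => R.pos K x = P) with hT
  have he : ∀ j, R.err K P S K j = ∑ x ∈ T, R.w K x j := by
    intro j
    rw [err, span_self, itp, Nat.div_one, Nat.mod_one]
    simp only [Nat.cast_zero, zero_div, zero_mul, add_zero, psum]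
    rw [sub_eq_iff_eq_add', ← sum_filter_add_sum_filter_not S (fun x => R.pos K x < P)]
    congr 1
    · refine sum_congr ?_ fun _ _ => rfl
      ext x
      simp only [mem_filter, mem_univ, true_and]
      exact ⟨And.right, fun h => ⟨hlt x h, h⟩⟩
    · refine sum_congr ?_ fun _ _ => rfl
      ext x
      simp only [hT, mem_filter]
      constructor
      · rintro ⟨h1, h2⟩; have := hle x h1; exact ⟨h1, by omega⟩
      · rintro ⟨h1, h2⟩; exact ⟨h1, by omega⟩
  have hlow : (Λ.J K).low = univ := by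
    ext j; simp [Levels.low_eq, Levels.mem_loS, hK j]
  have h2 := (R.hin K).energy P
  rw [hlow] at h2
  calc ∑ j, R.err K P S K j ^ 2 ≤ ∑ j, (N : ℝ) * ∑ x ∈ T, R.w K x j ^ 2 := by
        refine sum_le_sum fun j _ => ?_
        rw [he j]
        refine sq_sum_le_card_mul_sum_sq.trans ?_
        refine mul_le_mul_of_nonneg_right ?_ (sum_nonneg fun _ _ => sq_nonneg _)
        exact_mod_cast (card_le_univ T).trans (by simp)
    _ = N * ∑ x ∈ T, ∑ j, R.w K x j ^ 2 := by rw [← mul_sum, sum_comm]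
    _ ≤ N * Λ.En cS K := by
        refine mul_le_mul_of_nonneg_left (le_trans ?_ h2) (Nat.cast_nonneg N)
        refine (sum_le_sum fun x _ => sum_le_sum fun j _ =>
          le_mul_of_one_le_left (sq_nonneg _) (Λ.one_le_om K j)).trans ?_
        exact sum_le_sum_of_subset_of_nonneg
          (fun x hx => by simp [hT] at hx ⊢; exact hx.2)
          fun x _ _ => sum_nonneg fun j _ => mul_nonneg (Λ.om_pos K j).le (sq_nonneg _)

lemma sum_prefix (hlt : ∀ x, R.pos K x < P → x ∈ S) (hle : ∀ x ∈ S, R.pos K x ≤ P)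
    (hK : ∀ j, Λ.bb j < K) :
    ∑ j, (∑ x ∈ S, v x j) ^ 2 ≤ 3 * (cS * d) + 132 * ∑ k ∈ range K, R.XB k
      + 1188 * ∑ k ∈ range K, Λ.En cS k / θ₀ + 3 * (N * Λ.En cS K) := by
  classical
  set Z : ℕ → Fin d → ℝ := fun k j => R.X K P k j + R.Yp K P S k j with hZ
  have hmid : ∀ j, (∑ k ∈ Ico (Λ.ib j) K, Z k j) ^ 2
      ≤ 22 * ∑ k ∈ range K, if Λ.ib j ≤ k then Λ.om k j * Z k j ^ 2 else 0 := by
    intro j
    have h1 := sum_sq_le_sum_mul_sum_of_sq_le_mul (R := ℝ) (Ico (Λ.ib j) K)
      (f := fun k => (Λ.om k j)⁻¹) (g := fun k => Λ.om k j * Z k j ^ 2) (r := fun k => Z k j)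
      (fun k _ => (inv_pos.2 (Λ.om_pos k j)).le)
      (fun k _ => mul_nonneg (Λ.om_pos k j).le (sq_nonneg _))
      (fun k _ => by rw [inv_mul_cancel_left₀ (Λ.om_pos k j).ne'])
    refine h1.trans ((mul_le_mul_of_nonneg_right (Λ.sum_inv_om j K)
      (sum_nonneg fun k _ => mul_nonneg (Λ.om_pos k j).le (sq_nonneg _))).trans (le_of_eq ?_))
    rw [← sum_filter]
    congr 2
    ext k
    simp [and_comm]
  have hQ : ∀ k ∈ range K, Λ.Q k (Z k) ≤ 2 * R.XB k + 18 * (Λ.En cS k / θ₀) := by
    intro k hk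
    have e := Λ.Q_le_of (k := k) (x := Z k) (y := R.X K P k) (z := R.Yp K P S k) (a := 2) (b := 2)
      fun j => by
        simp only [hZ]
        nlinarith [sq_nonneg (R.X K P k j - R.Yp K P S k j)]
    have := R.Q_X K P k
    have := R.Q_Yp K P S hlt hle (mem_range.1 hk).le
    linarith
  have hM : ∑ j, (∑ k ∈ Ico (Λ.ib j) K, Z k j) ^ 2
      ≤ 22 * (2 * ∑ k ∈ range K, R.XB k + 18 * ∑ k ∈ range K, Λ.En cS k / θ₀) := by
    refine (sum_le_sum fun j _ => hmid j).trans ?_
    rw [← mul_sum, sum_comm, mul_sum _ _ (2 : ℝ), mul_sum _ _ (18 : ℝ), ← sum_add_distrib]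
    refine mul_le_mul_of_nonneg_left (sum_le_sum fun k hk => ?_) (by norm_num)
    refine le_of_eq_of_le ?_ (hQ k hk)
    rw [Levels.Q, Levels.act, sum_filter]
  have h1 := R.sum_start K P hK
  have h2 := R.sum_err K P S hlt hle hK
  have h3 : ∑ j, (∑ x ∈ S, v x j) ^ 2 ≤ ∑ j, (3 * R.start K P j ^ 2
      + 3 * (∑ k ∈ Ico (Λ.ib j) K, Z k j) ^ 2 + 3 * R.err K P S K j ^ 2) := by
    refine sum_le_sum fun j _ => ?_
    rw [R.prefix_eq K P S hK j]
    simp only [hZ]
    generalize R.start K P j = a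
    generalize ∑ k ∈ Ico (Λ.ib j) K, (R.X K P k j + R.Yp K P S k j) = b
    generalize R.err K P S K j = c
    nlinarith [sq_nonneg (a - b), sq_nonneg (b - c), sq_nonneg (a - c)]
  refine h3.trans ?_
  rw [sum_add_distrib, sum_add_distrib, ← mul_sum, ← mul_sum, ← mul_sum]
  linarith

end Run

end Vale.Agent.P262
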