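import Mathlib
import Vale.Agent.P262.MainWalk

/-!
An order with all prefix sums of Euclidean norm `O(√d)`, given that every jump can be carried out.
-/

namespace Vale.Agent.P262

open Finset

variable {d N : ℕ}

/-- The constant in the squared bound. -/
noncomputable def totalConst (cS θ₀ δ : ℝ) : ℝ :=
  3 * cS + 3 + (132 * (8000 * cS / θ₀ + 10 * (cS * (1200 + 1000 * cS)) + 3 * cS)
    + 1188 * (1000 * cS / θ₀)) / δ

lemma exists_last (Λ : Levels d) (cS : ℝ) (hcS : 0 ≤ cS) (N : ℕ) :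
    ∃ K, (∀ j, Λ.bb j < K) ∧ (N : ℝ) * Λ.En cS K ≤ 1 := by
  set B := univ.sup Λ.bb + 1 with hB
  have hlt : ∀ j, Λ.bb j < B := fun j => Nat.lt_succ_of_le (Finset.le_sup (mem_univ j))
  have hdec : ∀ n, Λ.En cS (B + n) = (33 / 50) ^ n * Λ.En cS B := by
    intro n
    induction n with
    | zero => simp
    | succ n ih =>
      have : (Λ.J (B + n)).band = ∅ := by
        ext j
        have := hlt j
        simp only [Levels.mem_band, Finset.notMem_empty, iff_false]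
        omega
      rw [← add_assoc, Levels.En, Levels.ne1, this, ih, pow_succ]
      simp only [Finset.not_nonempty_empty, if_false]
      ring
  have h0 : 0 ≤ (N : ℝ) * Λ.En cS B := mul_nonneg (Nat.cast_nonneg N) (Λ.En_nonneg cS hcS B)
  obtain ⟨n, hn⟩ := exists_pow_lt_of_lt_one (y := (33 / 50 : ℝ))
    (show (0 : ℝ) < 1 / ((N : ℝ) * Λ.En cS B + 1) by positivity) (by norm_num)
  refine ⟨B + n, fun j => (hlt j).trans_le (Nat.le_add_right _ _), ?_⟩
  rw [hdec, mul_left_comm]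
  rw [lt_div_iff₀ (by linarith)] at hn
  have : (0 : ℝ) ≤ (33 / 50 : ℝ) ^ n := by positivity
  linarith

lemma order_of_run {Λ : Levels d} {A cP cS θ₀ : ℝ} {v : Fin N → Fin d → ℝ}
    (R : Run Λ A cP cS θ₀ v) (hd : 1 ≤ d) :
    ∃ π : Equiv.Perm (Fin N), ∀ t : ℕ,
      ∑ j, (∑ i ∈ univ.filter (fun i : Fin N => (i : ℕ) < t), v (π i) j) ^ 2
        ≤ totalConst cS θ₀ Λ.δ * d := by
  classical
  obtain ⟨K, hK, hE⟩ := exists_last Λ cS R.cS_nonneg N
  refine ⟨Tuple.sort (R.pos K), fun t => ?_⟩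
  set π := Tuple.sort (R.pos K)
  have hmono : Monotone (R.pos K ∘ π) := Tuple.monotone_sort _
  set S := univ.filter (fun x => ((π.symm x : Fin N) : ℕ) < t) with hS
  set P := S.sup (R.pos K)
  have hle : ∀ x ∈ S, R.pos K x ≤ P := fun x hx => Finset.le_sup hx
  have hlt : ∀ x, R.pos K x < P → x ∈ S := by
    intro x hx
    obtain ⟨y, hy, hxy⟩ := Finset.lt_sup_iff.1 hx
    by_contra hc
    simp only [hS, mem_filter, mem_univ, true_and] at hy hc
    have h := hmono (show π.symm y ≤ π.symm x from Fin.le_iff_val_le_val.2 (by omega))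
    simp at h
    omega
  have hsum : ∀ j, ∑ i ∈ univ.filter (fun i : Fin N => (i : ℕ) < t), v (π i) j = ∑ x ∈ S, v x j :=
    fun j => Finset.sum_equiv π (fun i => by simp [hS]) fun i _ => rfl
  simp only [hsum]
  refine (R.sum_prefix K P S hlt hle hK).trans ?_
  have hX := R.sum_XB K
  have hEn := Λ.sum_En cS R.cS_nonneg K
  have hEn' : ∑ k ∈ range K, Λ.En cS k / θ₀ ≤ 1000 * cS / θ₀ * (d / Λ.δ) := by
    rw [← sum_div]
    refine (div_le_div_of_nonneg_right hEn R.θ_pos.le).trans (le_of_eq ?_)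
    ring
  have hd' : (1 : ℝ) ≤ d := by exact_mod_cast hd
  unfold totalConst
  rw [add_mul, add_mul, div_mul_eq_mul_div, mul_div_assoc _ (d : ℝ)]
  rw [mul_div_assoc] at hX
  linarith

/-- The order in coordinates diagonalising the second moments. -/
lemma order_diag {A cP cS θ₀ δ : ℝ} (hcP : 0 ≤ cP) (hcS : 0 ≤ cS) (hθ : 0 < θ₀) (hδ : 0 < δ)
    (hδ1 : δ ≤ 1)
    (hstep : ∀ (d N : ℕ) (J : Jump d), J.δ ≤ δ → ∀ (E : ℝ) (M : ℕ) (v : Fin N → Fin d → ℝ)
      (pos : Fin N → ℕ) (w : Fin N → Fin d → ℝ), 0 ≤ E → StepIn J A cP E M v pos w →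
      ∃ pos' w', StepOut J A cP cS θ₀ E M v pos w pos' w')
    (hd : 1 ≤ d) (v : Fin N → Fin d → ℝ) (g : Fin d → ℝ) (hg : ∀ j, 0 ≤ g j)
    (hn : ∀ i, ∑ j, v i j ^ 2 ≤ 1) (hs : ∀ j, ∑ i, v i j = 0)
    (horth : ∀ θ : Fin d → ℝ, ∑ i, (∑ j, θ j * v i j) ^ 2 = ∑ j, g j * θ j ^ 2) :
    ∃ π : Equiv.Perm (Fin N), ∀ t : ℕ,
      ∑ j, (∑ i ∈ univ.filter (fun i : Fin N => (i : ℕ) < t), v (π i) j) ^ 2
        ≤ totalConst cS θ₀ δ * d := by
  obtain ⟨R⟩ := (⟨g, δ, hg, hδ, hδ1⟩ : Levels d).exists_run (A := A) hcP hcS hθ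
    (fun k E M pos w => hstep d N _ le_rfl E M v pos w) hn hs horth
  exact order_of_run R hd

lemma order_euclid {A cP cS θ₀ δ : ℝ} (hcP : 0 ≤ cP) (hcS : 0 ≤ cS) (hθ : 0 < θ₀) (hδ : 0 < δ)
    (hδ1 : δ ≤ 1)
    (hstep : ∀ (d N : ℕ) (J : Jump d), J.δ ≤ δ → ∀ (E : ℝ) (M : ℕ) (v : Fin N → Fin d → ℝ)
      (pos : Fin N → ℕ) (w : Fin N → Fin d → ℝ), 0 ≤ E → StepIn J A cP E M v pos w →
      ∃ pos' w', StepOut J A cP cS θ₀ E M v pos w pos' w')
    (hd : 1 ≤ d) (v : Fin N → EuclideanSpace ℝ (Fin d)) (hn : ∀ i, ‖v i‖ ≤ 1)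
    (hs : ∑ i, v i = 0) :
    ∃ π : Equiv.Perm (Fin N), ∀ t : ℕ,
      ‖∑ i ∈ univ.filter (fun i : Fin N => (i : ℕ) < t), v (π i)‖ ^ 2 ≤ totalConst cS θ₀ δ * d := by
  classical
  set T : EuclideanSpace ℝ (Fin d) →ₗ[ℝ] EuclideanSpace ℝ (Fin d) :=
    ∑ i, (innerₛₗ ℝ (v i)).smulRight (v i) with hTdef
  have hT : ∀ x y, inner ℝ (T x) y = ∑ i, inner ℝ (v i) x * inner ℝ (v i) y := by
    intro x y
    simp [hTdef, sum_inner, real_inner_smul_left]
  have hsym : T.IsSymmetric := fun x y => by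
    rw [hT, real_inner_comm, hT]
    exact sum_congr rfl fun i _ => mul_comm _ _
  have hfr := finrank_euclideanSpace_fin (𝕜 := ℝ) (n := d)
  set b := hsym.eigenvectorBasis hfr with hb
  set u : Fin N → Fin d → ℝ := fun i j => inner ℝ (b j) (v i) with hu
  have horth0 : ∀ j l, j ≠ l → ∑ i, u i j * u i l = 0 := by
    intro j l hne
    have h := hT (b j) (b l)
    rw [hb, hsym.apply_eigenvectorBasis, real_inner_smul_left, ← hb, b.inner_eq_zero hne,
      mul_zero] at h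
    rw [h]
    exact sum_congr rfl fun i _ => by simp only [hu]; rw [real_inner_comm (b j), real_inner_comm (b l)]
  have horth : ∀ θ : Fin d → ℝ,
      ∑ i, (∑ j, θ j * u i j) ^ 2 = ∑ j, (∑ i, u i j ^ 2) * θ j ^ 2 := by
    intro θ
    calc ∑ i, (∑ j, θ j * u i j) ^ 2
        = ∑ i, ∑ j, ∑ l, θ j * θ l * (u i j * u i l) := by
          refine sum_congr rfl fun i _ => ?_
          rw [sq, sum_mul_sum]
          exact sum_congr rfl fun j _ => sum_congr rfl fun l _ => by ring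
      _ = ∑ j, ∑ l, θ j * θ l * ∑ i, u i j * u i l := by
          rw [sum_comm]
          refine sum_congr rfl fun j _ => ?_
          rw [sum_comm]
          simp only [mul_sum]
      _ = _ := by
          refine sum_congr rfl fun j _ => ?_
          rw [sum_eq_single j (fun l _ hl => by rw [horth0 j l (Ne.symm hl), mul_zero])
            (fun h => absurd (mem_univ j) h)]
          simp only [← sq]
          ring
  have hnorm : ∀ x, ∑ j, inner ℝ (b j) x ^ 2 = ‖x‖ ^ 2 := fun x => by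
    rw [← real_inner_self_eq_norm_sq, ← b.sum_inner_mul_inner x x]
    exact sum_congr rfl fun j _ => by rw [sq, real_inner_comm (b j) x]
  obtain ⟨π, hπ⟩ := order_diag hcP hcS hθ hδ hδ1 hstep hd u (fun j => ∑ i, u i j ^ 2)
    (fun j => sum_nonneg fun i _ => sq_nonneg _)
    (fun i => (hnorm (v i)).trans_le (pow_le_one₀ (norm_nonneg _) (hn i)))
    (fun j => by simp only [hu]; rw [← inner_sum, hs, inner_zero_right]) horth
  refine ⟨π, fun t => le_of_eq_of_le ?_ (hπ t)⟩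
  rw [← hnorm]
  simp only [hu, inner_sum]

/-- Every jump being possible, the Steinitz constant in Euclidean space is `O(√d)`. -/
theorem steinitz_of_step (h : StepThm) : ∃ C : ℝ, ∀ d N (v : Fin N → EuclideanSpace ℝ (Fin d)),
    (∀ i, ‖v i‖ ≤ 1) → ∑ i, v i = 0 →
    ∃ π : Equiv.Perm (Fin N), ∀ k : ℕ,
      ‖∑ i ∈ univ.filter (fun i : Fin N => (i : ℕ) < k), v (π i)‖ ≤ C * √d := by
  obtain ⟨A, cP, cS, θ₀, δ, -, hcP, hcS, hθ, hδ, hδ1, hstep⟩ := h
  refine ⟨√(totalConst cS θ₀ δ), fun d N v hn hs => ?_⟩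
  rcases Nat.eq_zero_or_pos d with rfl | hd
  · refine ⟨1, fun k => ?_⟩
    rw [Subsingleton.elim (∑ i ∈ univ.filter (fun i : Fin N => (i : ℕ) < k), v ((1 : Equiv.Perm (Fin N)) i)) 0]
    simp
  · obtain ⟨π, hπ⟩ := order_euclid hcP hcS hθ hδ hδ1 hstep hd v hn hs
    refine ⟨π, fun k => ?_⟩
    have hC : 0 ≤ totalConst cS θ₀ δ := by unfold totalConst; positivity
    rw [← Real.sqrt_mul hC]
    exact Real.le_sqrt_of_sq_le (hπ k)

end Vale.Agent.P262
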