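import Vale.Agent.P262.SigOp

/-!
Basic operations: a test point, a single vector, a leaf node, and the change of base shifts.
-/

namespace Vale.Agent.P262.Sig

open MeasureTheory ProbabilityTheory Set Module
open scoped RealInnerProductSpace

set_option linter.unusedSectionVars false

variable {E : Type*} [NormedAddCommGroup E] [InnerProductSpace ℝ E] [FiniteDimensional ℝ E]
  [MeasurableSpace E] [BorelSpace E]
variable {v : ℕ → E} {N : ℕ} {X R P : Submodule ℝ E} {σ bd rb : ℝ} {B : Bd} {C : ZB}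

/-- Adding the linear shift `U` to the base shifts. -/
noncomputable def shiftSeed (U : E →ₗ[ℝ] (ℕ → ℝ)) : Seed E N →L[ℝ] Seed E N :=
  LinearMap.toContinuousLinearMap
    { toFun := fun s => (s.1, s.2.1, s.2.2.1, s.2.2.2 + res (U s.2.2.1))
      map_add' := fun s t => by
        simp only [Prod.fst_add, Prod.snd_add, map_add, Prod.mk_add_mk, Prod.mk.injEq, true_and]
        abel
      map_smul' := fun r s => by
        simp only [Prod.smul_fst, Prod.smul_snd, map_smul, RingHom.id_apply, Prod.smul_mk, smul_add] }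

lemma shiftSeed_apply (U : E →ₗ[ℝ] (ℕ → ℝ)) (s : Seed E N) :
    shiftSeed U s = (s.1, s.2.1, s.2.2.1, s.2.2.2 + res (U s.2.2.1)) := rfl

/-- An operation with shifted base. -/
noncomputable def Op.shift {a b : ℕ} {B' : Bd} {C' : ZB} (o : Op v N X R P σ bd rb B' C' a b)
    (U : E →ₗ[ℝ] (ℕ → ℝ)) (hU : ∀ c, U c = U (Pᗮ.starProjection c))
    (hs : ∀ c i, i ∉ Finset.Ico a b → U c i = 0)
    (hcoef : ∀ c i, |o.Z c i + U c i| ≤ C.z * ‖Pᗮ.starProjection c‖)
    (hpref : ∀ c, ∀ k ∈ Finset.Icc a b,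
      ‖Pᗮ.starProjection (c + seg v (o.Z c + U c) a k)‖ ≤ C.p * ‖Pᗮ.starProjection c‖)
    (hcontr : ∀ c, ‖Pᗮ.starProjection (c + seg v (o.Z c + U c) a b)‖ ≤ ‖Pᗮ.starProjection c‖)
    (hB : ∀ s : Seed E N, Bdd v P a b B s → Bdd v P a b B' (shiftSeed U s)) :
    Op v N X R P σ bd rb B C a b where
  Z := o.Z + U
  G s := o.G (shiftSeed U s)
  le := o.le
  leN := o.leN
  dep c := by simp only [LinearMap.add_apply]; rw [← o.dep c, ← hU c]
  supp c i hi := by simp [o.supp c i hi, hs c i hi]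
  coef := hcoef
  pref := hpref
  contr := hcontr
  tame := by simpa using o.tame.comp (shiftSeed U) 0
  nonneg _ := o.nonneg _
  act s hs' φ hφ μ hμ := by
    obtain ⟨F, hF, hx, hg⟩ := o.act _ (hB s hs') φ hφ μ hμ
    refine ⟨F, hF, hx, ?_⟩
    have e : seg v (o.Z s.2.2.1 + ext (s.2.2.2 + res (U s.2.2.1))) a b
        = seg v ((o.Z + U) s.2.2.1 + ext s.2.2.2) a b := by
      rw [map_add, LinearMap.add_apply, seg_add, seg_add, seg_add, seg_add, seg_ext_res v _ o.leN]
      abel
    simp only [shiftSeed_apply] at hg ⊢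
    rwa [e] at hg

lemma Nice.comp_affine {F : E → ℝ} (hF : Nice F) (A : E →L[ℝ] E) (b : E) :
    Nice (fun x => F (A x + b)) := tame_iff_nice.1 ((tame_iff_nice.2 hF).comp A b)

lemma nice_stat_test (X R : Submodule ℝ E) {Γ : ℝ} (hΓ : 0 ≤ Γ) (k : ℕ) (q : E) :
    Nice (fun x => test Xᗮ Γ k (stat R q x)) := by
  have := Nice.comp_affine (nice_test Xᗮ hΓ k) Rᗮ.starProjection (R.starProjection q)
  simpa only [stat, add_comm] using this

/-- The expected test at the start of a seed. -/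
noncomputable def ptG (N : ℕ) (X R : Submodule ℝ E) (σ Γ : ℝ) (k : ℕ) (s : Seed E N) : ℝ :=
  ∫ g, test Xᗮ Γ k (stat R s.1 (s.2.1 + s.2.2.1 + σ • g)) ∂stdGaussian E

lemma ptG_nonneg {Γ : ℝ} (hΓ : 0 ≤ Γ) (k : ℕ) (s : Seed E N) : 0 ≤ ptG N X R σ Γ k s :=
  integral_nonneg fun _ => test_nonneg _ hΓ _ _

lemma tame_ptG {Γ : ℝ} (hΓ : 0 ≤ Γ) (k : ℕ) : Tame (ptG (E := E) N X R σ Γ k) := by
  let A : Seed E N →L[ℝ] E := LinearMap.toContinuousLinearMap
    (R.starProjection.toLinearMap ∘ₗ LinearMap.fst ℝ _ _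
      + Rᗮ.starProjection.toLinearMap ∘ₗ (LinearMap.fst ℝ _ _ + LinearMap.fst ℝ _ _ ∘ₗ
          LinearMap.snd ℝ _ _) ∘ₗ LinearMap.snd ℝ _ _)
  have := (tame_iff_nice.2 (nice_test Xᗮ hΓ k)).average A (σ • Rᗮ.starProjection)
  convert this using 2 with s
  unfold ptG
  congr 1
  ext g
  congr 1
  simp [A, stat, map_add, add_assoc]

lemma gavg_add {φ ψ : E → ℝ} (hφ : Nice φ) (hψ : Nice ψ) (c : E) (σ : ℝ) :
    gavg (fun x => φ x + ψ x) c σ = gavg φ c σ + gavg ψ c σ :=
  integral_add (hφ.integrable c σ) (hψ.integrable c σ)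

lemma gavg_const_mul (φ : E → ℝ) (μ : ℝ) (c : E) (σ : ℝ) :
    gavg (fun x => μ * φ x) c σ = μ * gavg φ c σ := integral_const_mul μ _

/-- A single test point. -/
noncomputable def Op.point (v : ℕ → E) (a : ℕ) (ha : a ≤ N) {Γ : ℝ} (hΓ : 0 < Γ) {k : ℕ}
    (hk : 0 < k) (hp : 1 ≤ C.p) (hz : 0 ≤ C.z) (hbd : Real.sqrt (12 * Γ * k) ≤ bd) (hrb : bd ≤ rb) :
    Op v N X R P σ bd rb B C a a where
  Z := 0
  G := ptG N X R σ Γ k
  le := le_rfl
  leN := ha
  dep _ := rfl
  supp _ _ _ := rfl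
  coef c i := by simpa using mul_nonneg hz (norm_nonneg (Pᗮ.starProjection c))
  pref c j hj := by
    obtain rfl : j = a := le_antisymm (Finset.mem_Icc.1 hj).2 (Finset.mem_Icc.1 hj).1
    simpa using le_mul_of_one_le_left (norm_nonneg (Pᗮ.starProjection c)) hp
  contr c := by simp
  tame := tame_ptG hΓ.le k
  nonneg := ptG_nonneg hΓ.le k
  act s _ φ hφ μ hμ := by
    have hh := nice_stat_test X R hΓ.le k s.1
    refine ⟨fun x => μ * test Xᗮ Γ k (stat R s.1 x) + φ x, (hh.const_mul hμ).add hφ, fun x => ?_, ?_⟩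
    · refine ⟨fun _ => 1, test Xᗮ Γ k (stat R s.1 x),
        ⟨test_nonneg _ hΓ.le _ _, fun i hi => by simp at hi, fun _ i hi => by simp at hi,
          fun j hj => ?_, fun hw j hj => ?_⟩, by rw [seg_self, add_zero]; linarith⟩
      all_goals
        obtain rfl : j = a := le_antisymm (Finset.mem_Icc.1 hj).2 (Finset.mem_Icc.1 hj).1
        rw [seg_self, add_zero]
      · refine (norm_le_test _ hΓ hk _).trans (mul_le_mul_of_nonneg_right (hbd.trans hrb) ?_)
        linarith [test_nonneg Xᗮ hΓ.le k (stat R s.1 x)]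
      · exact (le_of_test_lt_one hΓ hk hw).trans hbd
    · rw [gavg_add (hh.const_mul hμ) hφ, gavg_const_mul, seg_self, add_zero]
      exact le_rfl

/-- A single vector with tests at both ends. -/
noncomputable def Op.atom (v : ℕ → E) (a : ℕ) (ha : a + 1 ≤ N) (hv : ‖v a‖ ≤ 1) (hσ : 12 ≤ σ)
    (hα : B.α ≤ 1 / 2) {Γ : ℝ} (hΓ : 0 < Γ) {k : ℕ} (hk : 0 < k) (hp : 1 ≤ C.p) (hz : 0 ≤ C.z)
    (hbd : Real.sqrt (12 * Γ * k) ≤ bd) (hrb : bd ≤ rb) (hrb1 : 1 ≤ rb) :
    Op v N X R P σ bd rb B C a (a + 1) where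
  Z := 0
  G s := ptG N X R σ Γ k s + ptG N X R σ Γ k (advance v 0 a (a + 1) s)
  le := by omega
  leN := ha
  dep _ := rfl
  supp _ _ _ := rfl
  coef c i := by simpa using mul_nonneg hz (norm_nonneg (Pᗮ.starProjection c))
  pref c j _ := by
    simpa [seg] using le_mul_of_one_le_left (norm_nonneg (Pᗮ.starProjection c)) hp
  contr c := by simp [seg]
  tame := by
    have h := tame_ptG (E := E) (N := N) (X := X) (R := R) (σ := σ) hΓ.le k
    have h' := h.comp (advance v 0 a (a + 1)) 0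
    simp only [add_zero] at h'
    exact h.add h'
  nonneg s := add_nonneg (ptG_nonneg hΓ.le k _) (ptG_nonneg hΓ.le k _)
  act s hs φ hφ μ hμ := by
    set h := fun x => test Xᗮ Γ k (stat R s.1 x)
    have hh : Nice h := nice_stat_test X R hΓ.le k s.1
    have hh0 : ∀ x, 0 ≤ h x := fun x => test_nonneg _ hΓ.le _ _
    have hi : Nice (fun x => μ * h x + φ x) := (hh.const_mul hμ).add hφ
    refine ⟨fun x => μ * h x + lop (v a) (fun y => μ * h y + φ y) x,
      (hh.const_mul hμ).add (nice_lop hi _), fun x => ?_, ?_⟩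
    · obtain ⟨e, he, hle⟩ := lop_sign hi (v a) x
      have hseg : seg v (fun _ => e) a (a + 1) = e • v a := by simp [seg]
      refine ⟨fun _ => e, h x + h (x + e • v a),
        ⟨add_nonneg (hh0 _) (hh0 _), fun i _ => ?_, fun _ _ _ => he, fun j hj => ?_,
          fun hw j hj => ?_⟩, by rw [hseg]; linarith⟩
      · refine le_trans ?_ (le_mul_of_one_le_right (zero_le_one.trans hrb1)
          (by linarith [hh0 x, hh0 (x + e • v a)]))
        rcases he with rfl | rfl <;> simpa using hrb1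
      all_goals
        rcases (show j = a ∨ j = a + 1 by simp only [Finset.mem_Icc] at hj; omega) with h' | h' <;>
          rw [h']
      · rw [seg_self, add_zero]
        refine (norm_le_test _ hΓ hk _).trans (mul_le_mul (hbd.trans hrb) ?_ ?_ (by linarith))
        · linarith [hh0 (x + e • v a)]
        · linarith [hh0 x]
      · rw [hseg]
        refine (norm_le_test _ hΓ hk _).trans (mul_le_mul (hbd.trans hrb) ?_ ?_ (by linarith))
        · linarith [hh0 x]
        · linarith [hh0 (x + e • v a)]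
      · rw [seg_self, add_zero]
        exact (le_of_test_lt_one hΓ hk (by linarith [hh0 (x + e • v a)])).trans hbd
      · rw [hseg]
        exact (le_of_test_lt_one hΓ hk (by linarith [hh0 x])).trans hbd
    · rw [gavg_add (hh.const_mul hμ) (nice_lop hi _), gavg_const_mul]
      have hz' : |ext s.2.2.2 a| ≤ 1 / 2 := (hs.shift a (by simp)).trans hα
      have := lop_gavg hi hv hz' hσ (s.2.1 + s.2.2.1)
      rw [gavg_add (hh.const_mul hμ) hφ, gavg_const_mul] at this
      have e1 : s.2.1 + s.2.2.1 + ext s.2.2.2 a • v a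
          = s.2.1 + seg v (ext s.2.2.2) a (a + 1) + (s.2.2.1 + seg v ((0 : E →ₗ[ℝ] (ℕ → ℝ)) s.2.2.1) a (a + 1)) := by
        simp [seg]; abel
      have e2 : s.2.1 + s.2.2.1 + seg v ((0 : E →ₗ[ℝ] (ℕ → ℝ)) s.2.2.1 + ext s.2.2.2) a (a + 1)
          = s.2.1 + s.2.2.1 + ext s.2.2.2 a • v a := by simp [seg]
      rw [e2, mul_add]
      nth_rewrite 1 [e1] at this
      simp only [ptG, advance_apply]
      simp only [gavg, h] at this ⊢
      linarith

/-- Signing a block of vectors with the functional lemma. -/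
lemma exists_chain {v : ℕ → E} (hv : ∀ i, ‖v i‖ ≤ 1) {σ : ℝ} (hσ : 12 ≤ σ) (α : ℕ → ℝ)
    (b : ℕ) : ∀ {a : ℕ}, a ≤ b → (∀ i ∈ Finset.Ico a b, |α i| ≤ 1 / 2) → ∀ {φ : E → ℝ}, Nice φ →
      ∃ F : E → ℝ, Nice F ∧
        (∀ x, ∃ ε : ℕ → ℝ, (∀ i, ε i = 1 ∨ ε i = -1) ∧ φ (x + seg v ε a b) ≤ F x) ∧
        ∀ c, gavg F c σ ≤ gavg φ (c + seg v α a b) σ := by
  intro a hab
  induction hk : b - a generalizing a with
  | zero =>
    obtain rfl : a = b := by omega
    intro _ φ hφ
    exact ⟨φ, hφ, fun x => ⟨fun _ => 1, fun _ => Or.inl rfl, by simp⟩, fun c => by simp⟩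
  | succ n ih =>
    intro hα φ hφ
    obtain ⟨G, hG, hx, hg⟩ := ih (a := a + 1) (by omega) (by omega)
      (fun i hi => hα i (by simp only [Finset.mem_Ico] at hi ⊢; omega)) hφ
    have first : ∀ z : ℕ → ℝ, seg v z a b = z a • v a + seg v z (a + 1) b := fun z => by
      rw [seg_append' v z (Nat.le_succ a) (by omega)]
      simp [seg]
    refine ⟨lop (v a) G, nice_lop hG _, fun x => ?_, fun c => ?_⟩
    · obtain ⟨e, he, hle⟩ := lop_sign hG (v a) x
      obtain ⟨ε, hε, hle'⟩ := hx (x + e • v a)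
      refine ⟨fun i => if i = a then e else ε i, fun i => ?_, ?_⟩
      · by_cases h : i = a <;> simp [h, he, hε i]
      · rw [first, if_pos rfl, seg_congr (z' := ε) (fun i hi => if_neg (by
          simp only [Finset.mem_Ico] at hi; omega)), ← add_assoc]
        exact hle'.trans hle
    · have hza : |α a| ≤ 1 / 2 := hα a (by simp only [Finset.mem_Ico]; omega)
      rw [first α, ← add_assoc]
      exact (lop_gavg hG (hv a) hza hσ c).trans (hg _)

/-- A node whose frame is the whole space: every signing stays put. -/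
noncomputable def Op.leaf {R₀ T : ℝ} {a b : ℕ} {L : Submodule ℝ E} (hL : L = ⊤)
    (hn : Node v R₀ T a b L) (hab : a ≤ b) (hb : b ≤ N) (hv : ∀ i, ‖v i‖ ≤ 1) (hT : 0 ≤ T)
    (hR : 2 * (finrank ℝ E * T + 1) ≤ R₀) (hσ : 12 ≤ σ) (hα : B.α ≤ 1 / 2) {Γ : ℝ} (hΓ : 0 < Γ)
    {k : ℕ} (hk : 0 < k) (hp : 1 + 2 * (finrank ℝ E * T) ≤ C.p) (hz : 0 ≤ C.z)
    (hbd : Real.sqrt (12 * Γ * k) + 2 * (finrank ℝ E * T) ≤ bd) (hrb : bd ≤ rb) (hrb1 : 1 ≤ rb) :
    Op v N X R P σ bd rb B C a b where
  Z := 0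
  G := ptG N X R σ Γ k
  le := hab
  leN := hb
  dep _ := rfl
  supp _ _ _ := rfl
  coef c i := by simpa using mul_nonneg hz (norm_nonneg (Pᗮ.starProjection c))
  pref c j _ := by
    have h1 : 1 ≤ C.p := le_trans (le_add_of_nonneg_right (by positivity)) hp
    simpa [seg] using le_mul_of_one_le_left (norm_nonneg (Pᗮ.starProjection c)) h1
  contr c := by simp [seg]
  tame := tame_ptG hΓ.le k
  nonneg := ptG_nonneg hΓ.le k
  act s hs φ hφ μ hμ := by
    set h := fun x => test Xᗮ Γ k (stat R s.1 x)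
    have hh : Nice h := nice_stat_test X R hΓ.le k s.1
    have hh0 : ∀ x, 0 ≤ h x := fun x => test_nonneg _ hΓ.le _ _
    obtain ⟨F, hF, hx, hg⟩ := exists_chain hv hσ (ext s.2.2.2) b hab
      (fun i hi => (hs.shift i hi).trans hα) hφ
    refine ⟨fun x => μ * h x + F x, (hh.const_mul hμ).add hF, fun x => ?_, ?_⟩
    · obtain ⟨ε, hε, hle⟩ := hx x
      have hsmall : ∀ j ∈ Finset.Icc a b, ‖seg v ε a j‖ ≤ 2 * (finrank ℝ E * T) := by
        intro j hj
        have := slow_scale hv hn hT hR (z := ε) (M := 2) zero_le_two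
          (fun i _ => by rcases hε i with e | e <;> norm_num [e]) (fun k' _ => by
            subst hL
            simp
            nlinarith [show (0 : ℝ) ≤ finrank ℝ E * T by positivity]) j hj
        subst hL
        simpa [Submodule.starProjection_top', finrank_top] using this
      have key : ∀ j ∈ Finset.Icc a b, ‖Xᗮ.starProjection (stat R s.1 (x + seg v ε a j))‖
          ≤ ‖Xᗮ.starProjection (stat R s.1 x)‖ + 2 * (finrank ℝ E * T) := by
        intro j hj
        have e : stat R s.1 (x + seg v ε a j) = stat R s.1 x + Rᗮ.starProjection (seg v ε a j) := by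
          simp only [stat, map_add, add_assoc]
        rw [e, map_add]
        exact (norm_add_le _ _).trans (add_le_add_right (((Submodule.norm_starProjection_apply_le _ _).trans
          (Submodule.norm_starProjection_apply_le _ _)).trans (hsmall j hj)) _)
      refine ⟨ε, h x, ⟨hh0 x, fun i _ => ?_, fun _ i _ => hε i, fun j hj => ?_, fun hw j hj => ?_⟩,
        by linarith⟩
      · refine le_trans ?_ (le_mul_of_one_le_right (zero_le_one.trans hrb1) (by linarith [hh0 x]))
        rcases hε i with e | e <;> simpa [e] using hrb1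
      · refine (key j hj).trans ?_
        have h1 := norm_le_test Xᗮ hΓ hk (stat R s.1 x)
        have h0 : 0 ≤ h x := hh0 x
        simp only [h] at h0 ⊢
        nlinarith [show (0 : ℝ) ≤ finrank ℝ E * T by positivity]
      · refine (key j hj).trans (le_trans ?_ hbd)
        linarith [le_of_test_lt_one hΓ hk (show test Xᗮ Γ k (stat R s.1 x) < 1 from hw)]
    · rw [gavg_add (hh.const_mul hμ) hF, gavg_const_mul]
      have := hg (s.2.1 + s.2.2.1)
      simp only [ptG, LinearMap.zero_apply, zero_add, h] at this ⊢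
      unfold gavg at this ⊢
      linarith

end Vale.Agent.P262.Sig
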