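import Vale.Agent.P262.SigSelect

/-!
Chaining the conditioned windows of a node: exact slow drift through a telescoping bias.
-/

namespace Vale.Agent.P262.Sig

open MeasureTheory ProbabilityTheory Set Module
open scoped RealInnerProductSpace

set_option linter.unusedSectionVars false

variable {E : Type*} [NormedAddCommGroup E] [InnerProductSpace ℝ E] [FiniteDimensional ℝ E]
  [MeasurableSpace E] [BorelSpace E]

/-- The state relative to the drift of the base shifts. -/
def relAt (v : ℕ → E) (o₁ : E) (β : ℕ → ℝ) (k₁ k : ℕ) (x : E) : E := x - o₁ - seg v β k₁ k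

/-- The signs of a block, given by a step from a good start. -/
def StepHyp (v : ℕ → E) (o₁ : E) (β : ℕ → ℝ) (k : ℕ → ℕ) (J : ℕ) (ℓ : ℕ → E →L[ℝ] E)
    (L : Submodule ℝ E) (Ok Pr : ℕ → E → Prop) (s : ℝ) : Prop :=
  ∀ j, 1 ≤ j → j ≤ J → ∀ x, Ok j x → ∀ ψ : E → ℝ, Nice ψ → ψ 0 = 0 → (∀ y, 0 ≤ ψ y) → ∀ p : E,
    ∃ ε : ℕ → ℝ, (∀ i ∈ Finset.Ico (k j) (k (j + 1)), ε i = 1 ∨ ε i = -1) ∧
      (∀ i ∈ Finset.Icc (k j) (k (j + 1)), Pr j (x + seg v ε (k j) i)) ∧
      (j < J → Ok (j + 1) (x + seg v ε (k j) (k (j + 1)))) ∧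
      (let e := relAt v o₁ β (k 1) (k (j + 1)) (x + seg v ε (k j) (k (j + 1)))
          - L.starProjection (relAt v o₁ β (k 1) (k j) x) - ℓ j (relAt v o₁ β (k 1) (k j) x)
       ψ e + ⟪p, e⟫ ≤ gavg ψ 0 s)

lemma nice_zero : Nice (fun _ : E => (0 : ℝ)) :=
  ⟨convexOn_const 0 convex_univ, 0, 0, le_rfl, le_rfl, fun x => by simp⟩

/-- Signs through all blocks after the first one, with the drift functional `pb` exact. -/
theorem exists_rest {v : ℕ → E} {o₁ : E} {β : ℕ → ℝ} {k : ℕ → ℕ} {J : ℕ} {ℓ : ℕ → E →L[ℝ] E}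
    {L : Submodule ℝ E} {Ok Pr : ℕ → E → Prop} {s : ℝ} (hJ : 1 ≤ J)
    (hk : ∀ j, 1 ≤ j → j ≤ J → k j ≤ k (j + 1)) (hs : StepHyp v o₁ β k J ℓ L Ok Pr s)
    (hℓL : ∀ j w, ℓ j w ∈ L) (hℓd : ∀ j w, ℓ j w = ℓ j (Lᗮ.starProjection w))
    {x₁ : E} (hx : Ok 1 x₁) {H : E → ℝ} (hH : Nice H)
    (hHd : ∀ w, H w = H (Lᗮ.starProjection w)) {pb : E} (hpb : pb ∈ L) :
    ∃ ε : ℕ → ℝ, (∀ i ∈ Finset.Ico (k 1) (k (J + 1)), ε i = 1 ∨ ε i = -1) ∧
      (∀ j, 1 ≤ j → j ≤ J → ∀ i ∈ Finset.Icc (k j) (k (j + 1)), Pr j (x₁ + seg v ε (k 1) i)) ∧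
      (let e := relAt v o₁ β (k 1) (k (J + 1)) (x₁ + seg v ε (k 1) (k (J + 1)))
       let r₁ := x₁ - o₁
       H e + ⟪pb, L.starProjection (e - r₁) - ℓ 1 r₁ + ℓ J e⟫ ≤ gavg H 0 s) := by
  classical
  have kmono : ∀ j, 1 ≤ j → j ≤ J + 1 → k 1 ≤ k j := by
    intro j hj1
    induction j, hj1 using Nat.le_induction with
    | base => exact fun _ => le_rfl
    | succ n hn ih => exact fun h => (ih (by omega)).trans (hk n hn (by omega))
  -- the states of the blocks before the last one
  have main : ∀ j, 1 ≤ j → j ≤ J → ∃ ε : ℕ → ℝ,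
      (∀ i ∈ Finset.Ico (k 1) (k j), ε i = 1 ∨ ε i = -1) ∧
      (∀ l, 1 ≤ l → l < j → ∀ i ∈ Finset.Icc (k l) (k (l + 1)), Pr l (x₁ + seg v ε (k 1) i)) ∧
      Ok j (x₁ + seg v ε (k 1) (k j)) ∧
      (let e := relAt v o₁ β (k 1) (k j) (x₁ + seg v ε (k 1) (k j))
       ⟪pb, L.starProjection (e - (x₁ - o₁)) - ℓ 1 (x₁ - o₁) + ℓ j e⟫ ≤ 0) := by
    intro j hj1
    induction j, hj1 using Nat.le_induction with
    | base =>
      intro _
      refine ⟨fun _ => 1, fun i hi => by simp at hi, fun l h1 h2 => absurd h2 (by omega), ?_, ?_⟩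
      · simpa [seg] using hx
      · simp [relAt, seg]
    | succ j hj ih =>
      intro hjJ
      obtain ⟨ε, hsg, hpr, hg, hv⟩ := ih (by omega)
      set x := x₁ + seg v ε (k 1) (k j) with hxdef
      set p := pb + ContinuousLinearMap.adjoint (ℓ (j + 1)) pb with hp
      obtain ⟨δ, hsg', hpr', hg', hval⟩ := hs j hj (by omega) x hg _ nice_zero rfl (fun _ => le_rfl) p
      have hkj := hk j hj (by omega)
      have hk1 := kmono j hj (by omega)
      set η : ℕ → ℝ := fun i => if i < k j then ε i else δ i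
      have elo : ∀ i ≤ k j, seg v η (k 1) i = seg v ε (k 1) i := fun i hi =>
        seg_congr fun l hl => if_pos ((Finset.mem_Ico.1 hl).2.trans_le hi)
      have ehi : ∀ i, k j ≤ i → seg v η (k 1) i = seg v ε (k 1) (k j) + seg v δ (k j) i := by
        intro i hi
        rw [seg_append' v η hk1 hi, elo _ le_rfl]
        congr 1
        exact seg_congr fun l hl => if_neg (not_lt.2 (Finset.mem_Ico.1 hl).1)
      refine ⟨η, fun i hi => ?_, fun l h1 h2 i hi => ?_, ?_, ?_⟩
      · rw [Finset.mem_Ico] at hi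
        by_cases h : i < k j <;> simp only [η, h, if_true, if_false]
        · exact hsg i (Finset.mem_Ico.2 ⟨hi.1, h⟩)
        · exact hsg' i (Finset.mem_Ico.2 ⟨not_lt.1 h, hi.2⟩)
      · rcases Nat.lt_succ_iff_lt_or_eq.1 h2 with h2 | rfl
        · have hle : k (l + 1) ≤ k j := by
            clear hval hpr' hsg' hg' elo ehi
            have : ∀ m, l + 1 ≤ m → m ≤ J → k (l + 1) ≤ k m := by
              intro m hm
              induction m, hm using Nat.le_induction with
              | base => exact fun _ => le_rfl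
              | succ n hn ih' => exact fun h => (ih' (by omega)).trans (hk n (by omega) (by omega))
            exact this j h2 (by omega)
          rw [elo i ((Finset.mem_Icc.1 hi).2.trans hle)]
          exact hpr l h1 h2 i hi
        · rw [ehi i (Finset.mem_Icc.1 hi).1, ← add_assoc]
          exact hpr' i hi
      · rw [ehi _ hkj, ← add_assoc]
        exact hg' (by omega)
      · simp only at hv hval ⊢
        rw [ehi _ hkj, ← add_assoc]
        have hz : gavg (fun _ : E => (0 : ℝ)) 0 s = 0 := by simp [gavg]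
        set r := relAt v o₁ β (k 1) (k j) x
        set r' := relAt v o₁ β (k 1) (k (j + 1)) (x + seg v δ (k j) (k (j + 1)))
        rw [hz, zero_add, hp, inner_add_left, ContinuousLinearMap.adjoint_inner_left,
          ← inner_add_right] at hval
        have hl : ℓ (j + 1) (r' - L.starProjection r - ℓ j r) = ℓ (j + 1) r' := by
          have hoff : Lᗮ.starProjection (r' - L.starProjection r - ℓ j r) = Lᗮ.starProjection r' := by
            rw [map_sub, map_sub,
              (Submodule.starProjection_apply_eq_zero_iff _).2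
                (L.le_orthogonal_orthogonal (L.starProjection_apply_mem r)),
              (Submodule.starProjection_apply_eq_zero_iff _).2
                (L.le_orthogonal_orthogonal (hℓL j r)), sub_zero, sub_zero]
          rw [hℓd (j + 1) r', hℓd (j + 1) (r' - L.starProjection r - ℓ j r), hoff]
        rw [hl] at hval
        have hP : ∀ y, ⟪pb, L.starProjection y⟫ = ⟪pb, y⟫ := fun y => by
          rw [← Submodule.inner_starProjection_left_eq_right,
            Submodule.starProjection_eq_self_iff.2 hpb]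
        simp only [inner_add_right, inner_sub_right, map_sub, hP] at hv hval ⊢
        linarith
  obtain ⟨ε, hsg, hpr, hg, hv⟩ := main J hJ le_rfl
  set x := x₁ + seg v ε (k 1) (k J) with hxdef
  obtain ⟨pH, hpH⟩ := exists_subgradient hH 0
  set ψ : E → ℝ := fun y => H y - H 0 - ⟪pH, y - 0⟫
  have hψ : Nice ψ := by
    have h1 : Nice fun y : E => -H 0 + ⟪-pH, y - 0⟫ :=
      (⟨convexOn_const _ convex_univ, |H 0|, 0, abs_nonneg _, le_rfl, fun y => by simp⟩ :
        Nice fun _ : E => -H 0).add (nice_affine (-pH) 0)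
    have := hH.add h1
    simpa [ψ, sub_eq_add_neg, add_assoc] using this
  obtain ⟨δ, hsg', hpr', -, hval⟩ := hs J hJ le_rfl x hg ψ hψ (by simp [ψ])
    (fun y => by have := hpH y; simp only [ψ, sub_zero] at this ⊢; linarith)
    (pH + (pb + ContinuousLinearMap.adjoint (ℓ J) pb))
  have hkj := hk J hJ le_rfl
  have hk1 := kmono J hJ (by omega)
  set η : ℕ → ℝ := fun i => if i < k J then ε i else δ i
  have elo : ∀ i ≤ k J, seg v η (k 1) i = seg v ε (k 1) i := fun i hi =>
    seg_congr fun l hl => if_pos ((Finset.mem_Ico.1 hl).2.trans_le hi)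
  have ehi : ∀ i, k J ≤ i → seg v η (k 1) i = seg v ε (k 1) (k J) + seg v δ (k J) i := by
    intro i hi
    rw [seg_append' v η hk1 hi, elo _ le_rfl]
    congr 1
    exact seg_congr fun l hl => if_neg (not_lt.2 (Finset.mem_Ico.1 hl).1)
  refine ⟨η, fun i hi => ?_, fun l h1 h2 i hi => ?_, ?_⟩
  · rw [Finset.mem_Ico] at hi
    by_cases h : i < k J <;> simp only [η, h, if_true, if_false]
    · exact hsg i (Finset.mem_Ico.2 ⟨hi.1, h⟩)
    · exact hsg' i (Finset.mem_Ico.2 ⟨not_lt.1 h, hi.2⟩)
  · rcases Nat.lt_or_ge l J with h2' | h2'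
    · have hle : k (l + 1) ≤ k J := by
        have : ∀ m, l + 1 ≤ m → m ≤ J → k (l + 1) ≤ k m := by
          intro m hm
          induction m, hm using Nat.le_induction with
          | base => exact fun _ => le_rfl
          | succ n hn ih' => exact fun h => (ih' (by omega)).trans (hk n (by omega) (by omega))
        exact this J h2' le_rfl
      rw [elo i ((Finset.mem_Icc.1 hi).2.trans hle)]
      exact hpr l h1 h2' i hi
    · obtain rfl : l = J := le_antisymm h2 h2'
      rw [ehi i (Finset.mem_Icc.1 hi).1, ← add_assoc]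
      exact hpr' i hi
  · simp only at hv hval ⊢
    rw [ehi _ hkj, ← add_assoc]
    set r := relAt v o₁ β (k 1) (k J) x
    set r' := relAt v o₁ β (k 1) (k (J + 1)) (x + seg v δ (k J) (k (J + 1)))
    set u := r' - L.starProjection r - ℓ J r with hu
    have hoff : Lᗮ.starProjection u = Lᗮ.starProjection r' := by
      rw [hu, map_sub, map_sub,
        (Submodule.starProjection_apply_eq_zero_iff _).2
          (L.le_orthogonal_orthogonal (L.starProjection_apply_mem r)),
        (Submodule.starProjection_apply_eq_zero_iff _).2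
          (L.le_orthogonal_orthogonal (hℓL J r)), sub_zero, sub_zero]
    have hHu : H u = H r' := by rw [hHd u, hoff, ← hHd]
    have hl : ℓ J u = ℓ J r' := by rw [hℓd J u, hoff, ← hℓd]
    have hg2 : gavg ψ 0 s = gavg H 0 s - H 0 := by
      have h1 : gavg ψ 0 s + gavg (fun y => H 0 + ⟪pH, y - 0⟫) 0 s = gavg H 0 s := by
        rw [← gavg_add hψ ((⟨convexOn_const _ convex_univ, |H 0|, 0, abs_nonneg _, le_rfl,
          fun y => by simp⟩ : Nice fun _ : E => H 0).add (nice_affine pH 0))]
        congr 1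
        ext y
        simp [ψ]
      rw [gavg_add (⟨convexOn_const _ convex_univ, |H 0|, 0, abs_nonneg _, le_rfl,
          fun y => by simp⟩ : Nice fun _ : E => H 0) (nice_affine pH 0), gavg_affine] at h1
      simp [gavg] at h1 ⊢
      linarith
    rw [hg2] at hval
    simp only [ψ, sub_zero, inner_add_left, ContinuousLinearMap.adjoint_inner_left] at hval
    rw [hl, hHu] at hval
    have hP : ∀ y, ⟪pb, L.starProjection y⟫ = ⟪pb, y⟫ := fun y => by
      rw [← Submodule.inner_starProjection_left_eq_right,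
        Submodule.starProjection_eq_self_iff.2 hpb]
    simp only [inner_add_right, inner_sub_right, map_sub, hP, u] at hv hval ⊢
    linarith

end Vale.Agent.P262.Sig
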