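import Mathlib
import Vale.Agent.P262.Core

/-!
Definitions for signed prefix sums in a ball: admissible fractional signings, weak frames,
steering maps, Gaussian averages, tests and exponential moment bounds.
-/

namespace Vale.Agent.P262.Sig

open MeasureTheory ProbabilityTheory Set
open scoped RealInnerProductSpace

variable {E : Type*} [NormedAddCommGroup E] [InnerProductSpace ℝ E] [FiniteDimensional ℝ E]

/-- Weighted partial sum over `[a, b)`. -/
def seg (v : ℕ → E) (z : ℕ → ℝ) (a b : ℕ) : E := ∑ i ∈ Finset.Ico a b, z i • v i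

/-- Fractional signings of `[a, b)` with bounded prefix sums. -/
def Adm (v : ℕ → E) (R₀ : ℝ) (a b : ℕ) (z : ℕ → ℝ) : Prop :=
  (∀ i ∈ Finset.Ico a b, |z i| ≤ 1 / 2) ∧ ∀ k ∈ Finset.Icc a b, ‖seg v z a k‖ ≤ R₀

/-- The frame `L` is slow on `[a, b)`: no admissible signing moves it by more than `dim L * T`. -/
def Node (v : ℕ → E) (R₀ T : ℝ) (a b : ℕ) (L : Submodule ℝ E) : Prop :=
  ∀ z, Adm v R₀ a b z → ‖L.starProjection (seg v z a b)‖ ≤ Module.finrank ℝ L * T

/-- The unit vector `θ` is weak on `[a, b)`. -/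
def WeakDir (v : ℕ → E) (R₀ T : ℝ) (a b : ℕ) (θ : E) : Prop :=
  ∀ z, Adm v R₀ a b z → |⟪θ, seg v z a b⟫| ≤ T

/-- A linear choice of signings of `[a, b)` realising every displacement orthogonal to `L`. -/
structure Steer (v : ℕ → E) (R₀ T : ℝ) (a b : ℕ) (L : Submodule ℝ E) where
  Z : E →ₗ[ℝ] (ℕ → ℝ)
  supp : ∀ x i, i ∉ Finset.Ico a b → Z x i = 0
  coef : ∀ x i, |Z x i| ≤ Module.finrank ℝ E * ‖x‖ / T
  pref : ∀ x, ∀ k ∈ Finset.Icc a b, ‖seg v (Z x) a k‖ ≤ Module.finrank ℝ E * R₀ * ‖x‖ / T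
  hit : ∀ x, Lᗮ.starProjection (seg v (Z x) a b) = Lᗮ.starProjection x

/-- Decomposition of `[a, b)` into weak children separated by single vectors: child `i ≤ n` is
`[cut i, mid i)`, and for `i < n` the piece `[cut i, cut (i+1))` can be steered. -/
structure Split (v : ℕ → E) (R₀ T : ℝ) (a b : ℕ) (L : Submodule ℝ E) where
  n : ℕ
  cut : ℕ → ℕ
  mid : ℕ → ℕ
  frame : ℕ → Submodule ℝ E
  cut_zero : cut 0 = a
  cut_le : ∀ i, i ≤ n → cut i ≤ mid i
  cut_succ : ∀ i, i < n → cut (i + 1) = mid i + 1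
  mid_last : mid n = b
  frame_le : ∀ i, i ≤ n → L ≤ frame i
  frame_rank : ∀ i, i ≤ n → Module.finrank ℝ (frame i) = Module.finrank ℝ L + 1
  child : ∀ i, i ≤ n → Node v R₀ T (cut i) (mid i) (frame i)
  steer : ∀ i, i < n → Nonempty (Steer v R₀ T (cut i) (cut (i + 1)) L)

/-- Convex functions of at most exponential growth on a normed space. -/
structure Tame {V : Type*} [NormedAddCommGroup V] [NormedSpace ℝ V] (F : V → ℝ) : Prop where
  cvx : ConvexOn ℝ univ F
  grow : ∃ A B : ℝ, 0 ≤ A ∧ 0 ≤ B ∧ ∀ x, |F x| ≤ A * Real.exp (B * ‖x‖)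

variable [MeasurableSpace E] [BorelSpace E]

/-- Gaussian average of `φ` around `c` with standard deviation `σ`. -/
noncomputable def gavg (φ : E → ℝ) (c : E) (σ : ℝ) : ℝ := ∫ g, φ (c + σ • g) ∂stdGaussian E

/-- Test function: a high power of the squared length of a projection. -/
noncomputable def test (V : Submodule ℝ E) (Γ : ℝ) (q : ℕ) (x : E) : ℝ :=
  (‖V.starProjection x‖ ^ 2 / (12 * Γ * q)) ^ q

/-- Exponential moments of the random vector `X` are bounded by those of a Gaussian. -/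
def SubG {Ω : Type*} [MeasurableSpace Ω] (μ : Measure Ω) (X : Ω → E) (C : ℝ) (Q : E → ℝ) : Prop :=
  ∀ l, ∫⁻ ω, ENNReal.ofReal (Real.exp ⟪l, X ω⟫) ∂μ ≤ ENNReal.ofReal (C * Real.exp (Q l / 2))

end Vale.Agent.P262.Sig
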