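import Vale.Agent.P262.SigSeq

/-!
Random seeds and the expected badness exported by operations.
-/

namespace Vale.Agent.P262.Sig

open MeasureTheory ProbabilityTheory Set Module
open scoped RealInnerProductSpace

set_option linter.unusedSectionVars false

variable {E : Type} [NormedAddCommGroup E] [InnerProductSpace ℝ E] [FiniteDimensional ℝ E]
  [MeasurableSpace E] [BorelSpace E]
variable {v : ℕ → E} {N : ℕ}

/-- Covariance bound of a seed mean: single variance off the frozen frame, double on it. -/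
noncomputable def Q₀ (R : Submodule ℝ E) (l : E) : ℝ :=
  576 * ‖Rᗮ.starProjection l‖ ^ 2 + 1152 * ‖R.starProjection l‖ ^ 2

/-- Hypotheses on random seeds of `[a, b)`. -/
structure Hyp (v : ℕ → E) (R : Submodule ℝ E) (a b : ℕ) (f ρ : ℝ) {Ω : Type} [MeasurableSpace Ω]
    (μ : Measure Ω) (S : Ω → Seed E N) : Prop where
  meas : Measurable S
  mean : SubG μ (fun ω => stat R (S ω).1 (S ω).2.2.1) 2 (fun l => f * Q₀ R l)
  drift : ∀ k ∈ Finset.Icc a b,
    SubG μ (fun ω => (S ω).2.1 + seg v (ext (S ω).2.2.2) a k) 2 (fun l => ρ * ‖l‖ ^ 2)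

/-- The expectation of `G` over all seeds within `Hyp` is at most `e`. -/
def Small (v : ℕ → E) (R : Submodule ℝ E) (a b : ℕ) (f ρ : ℝ) (G : Seed E N → ℝ) (e : ℝ) : Prop :=
  ∀ {Ω : Type} [MeasurableSpace Ω] (μ : Measure Ω) [IsProbabilityMeasure μ] (S : Ω → Seed E N),
    Hyp v R a b f ρ μ S → ∫⁻ ω, ENNReal.ofReal (G (S ω)) ∂μ ≤ ENNReal.ofReal e

lemma Q₀_nonneg (R : Submodule ℝ E) (l : E) : 0 ≤ Q₀ R l := by unfold Q₀; positivity

lemma Q₀_le (R : Submodule ℝ E) (l : E) : Q₀ R l ≤ 1152 * ‖l‖ ^ 2 := by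
  have := Submodule.norm_sq_eq_add_norm_sq_starProjection l R
  unfold Q₀
  nlinarith [sq_nonneg ‖Rᗮ.starProjection l‖]

lemma SubG.mono {Ω : Type*} [MeasurableSpace Ω] {μ : Measure Ω} {X : Ω → E} {C : ℝ}
    {Q Q' : E → ℝ} (h : SubG μ X C Q) (hC : 0 ≤ C) (hQ : ∀ l, Q l ≤ Q' l) : SubG μ X C Q' :=
  fun l => (h l).trans (ENNReal.ofReal_le_ofReal (by
    have := hQ l
    gcongr))

lemma Small.mono {R : Submodule ℝ E} {a b : ℕ} {f ρ e f' ρ' e' : ℝ} {G : Seed E N → ℝ}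
    (h : Small v R a b f ρ G e) (hf : f' ≤ f) (hρ : ρ' ≤ ρ) (he : e ≤ e') :
    Small v R a b f' ρ' G e' := by
  intro Ω _ μ _ S hS
  refine (h μ S ⟨hS.meas, hS.mean.mono zero_le_two fun l => ?_, fun k hk =>
    (hS.drift k hk).mono zero_le_two fun l => ?_⟩).trans (ENNReal.ofReal_le_ofReal he)
  · exact mul_le_mul_of_nonneg_right hf (Q₀_nonneg R l)
  · exact mul_le_mul_of_nonneg_right hρ (sq_nonneg _)

lemma Small.add {R : Submodule ℝ E} {a b : ℕ} {f ρ e e' : ℝ} {G G' : Seed E N → ℝ}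
    (hG : Tame G) (h0 : ∀ s, 0 ≤ G s) (h0' : ∀ s, 0 ≤ G' s) (h : Small v R a b f ρ G e)
    (h' : Small v R a b f ρ G' e') (he : 0 ≤ e) (he' : 0 ≤ e') :
    Small v R a b f ρ (fun s => G s + G' s) (e + e') := by
  intro Ω _ μ _ S hS
  rw [ENNReal.ofReal_add he he']
  refine le_trans (le_of_eq ?_) (add_le_add (h μ S hS) (h' μ S hS))
  simp only [ENNReal.ofReal_add (h0 _) (h0' _)]
  exact lintegral_add_left
    (ENNReal.measurable_ofReal.comp ((hG.continuous.measurable).comp hS.meas) :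
      Measurable fun ω => ENNReal.ofReal (G (S ω))) _

lemma measurable_stat {Ω : Type*} [MeasurableSpace Ω] {R : Submodule ℝ E} {S : Ω → Seed E N}
    (hS : Measurable S) : Measurable fun ω => stat R (S ω).1 (S ω).2.2.1 :=
  (Continuous.measurable (by unfold stat; fun_prop : Continuous fun s : Seed E N =>
    stat R s.1 s.2.2.1)).comp hS

lemma subG_stat_point {R : Submodule ℝ E} {a b : ℕ} {f ρ : ℝ} (hab : a ≤ b) (hf : f ≤ 2)
    (hρ : ρ ≤ 10) {Ω : Type} [MeasurableSpace Ω] {μ : Measure Ω} [SFinite μ] {S : Ω → Seed E N}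
    (hS : Hyp v R a b f ρ μ S) {σ : ℝ} (hσ0 : 0 ≤ σ) (hσ : σ ≤ 24) :
    SubG (μ.prod (stdGaussian E))
      (fun p => stat R (S p.1).1 ((S p.1).2.1 + (S p.1).2.2.1 + σ • p.2)) 2
      (fun l => 4000 * ‖l‖ ^ 2) := by
  have ho : SubG μ (fun ω => (S ω).2.1) 2 (fun l => ρ * ‖l‖ ^ 2) := by
    have := hS.drift a (Finset.mem_Icc.2 ⟨le_rfl, hab⟩)
    simpa using this
  have hmo : Measurable fun ω => Rᗮ.starProjection (S ω).2.1 :=
    (Continuous.measurable (by fun_prop : Continuous fun s : Seed E N =>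
      Rᗮ.starProjection s.2.1)).comp hS.meas
  have h1 := SubG.add (measurable_stat hS.meas) hmo hS.mean (ho.map Rᗮ.starProjection) zero_le_two
    (t := 1 / 4) (by norm_num) (by norm_num)
  have h2 := SubG.indep ((measurable_stat hS.meas).add hmo) h1 zero_le_two (σ • Rᗮ.starProjection)
  intro l
  have := (h2.mono zero_le_two (Q' := fun l => 4000 * ‖l‖ ^ 2) fun l => ?_) l
  · convert this using 4 with p
    congr 1
    simp [stat, map_add]
    abel_nf
  ·
    have hn : ∀ x : E, ‖ContinuousLinearMap.adjoint Rᗮ.starProjection x‖ ≤ ‖x‖ := fun x => by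
      rw [(isSelfAdjoint_starProjection Rᗮ).adjoint_eq]
      exact Submodule.norm_starProjection_apply_le _ _
    have e1 := Q₀_le R ((1 - 1 / 4 : ℝ)⁻¹ • l)
    have e2 := hn ((1 / 4 : ℝ)⁻¹ • l)
    have e3 : ‖σ • ContinuousLinearMap.adjoint Rᗮ.starProjection l‖ ≤ σ * ‖l‖ := by
      rw [norm_smul, Real.norm_eq_abs, abs_of_nonneg hσ0]
      exact mul_le_mul_of_nonneg_left (hn l) hσ0
    rw [norm_smul, Real.norm_eq_abs] at e1 e2
    norm_num at e1 e2 ⊢
    have q1 := pow_le_pow_left₀ (norm_nonneg _) e2 2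
    have q2 := pow_le_pow_left₀ (norm_nonneg _) e3 2
    have q3 := mul_le_mul_of_nonneg_right hf (Q₀_nonneg R ((4 / 3 : ℝ) • l))
    have q4 := mul_le_mul_of_nonneg_right hρ
      (sq_nonneg ‖(4 : ℝ) • ContinuousLinearMap.adjoint Rᗮ.starProjection l‖)
    nlinarith [sq_nonneg ‖l‖, mul_le_mul_of_nonneg_right (mul_le_mul hσ hσ hσ0 (by norm_num))
      (sq_nonneg ‖l‖)]

lemma small_ptG {X R : Submodule ℝ E} {a b : ℕ} {f ρ : ℝ} (hab : a ≤ b) (hf : f ≤ 2)
    (hρ : ρ ≤ 10) {σ : ℝ} (hσ0 : 0 ≤ σ) (hσ : σ ≤ 24) {k : ℕ} (hk : 0 < k) :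
    Small v R a b f ρ (ptG N X R σ 4000 k) (2 * Real.exp ((finrank ℝ Xᗮ : ℝ) - k)) := by
  intro Ω _ μ _ S hS
  have h := subG_stat_point hab hf hρ hS hσ0 hσ
  have hm : Measurable fun p : Ω × E =>
      stat R (S p.1).1 ((S p.1).2.1 + (S p.1).2.2.1 + σ • p.2) :=
    (Continuous.measurable (by unfold stat; fun_prop : Continuous fun p : Seed E N × E =>
      stat R p.1.1 (p.1.2.1 + p.1.2.2.1 + σ • p.2))).comp
      ((hS.meas.comp measurable_fst).prodMk measurable_snd)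
  refine le_trans (le_of_eq ?_) (subG_test hm h zero_le_two (V := Xᗮ) (by norm_num)
    (fun l _ => le_rfl) hk)
  have hnice := nice_test Xᗮ (show (0 : ℝ) ≤ 4000 by norm_num) k
  rw [lintegral_prod]
  · refine lintegral_congr fun ω => ?_
    rw [ptG, ofReal_integral_eq_lintegral_ofReal ((nice_stat_test X R (by norm_num) k _).integrable _ σ)
      (Filter.Eventually.of_forall fun g => test_nonneg _ (by norm_num) _ _)]
  · exact (ENNReal.measurable_ofReal.comp (hnice.continuous.measurable.comp hm)).aemeasurable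

end Vale.Agent.P262.Sig
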