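import Vale.Agent.P262.SigDefs

/-!
Convex functions of exponential growth: supporting hyperplanes, Gaussian averages and comparison of
Gaussian averages (domination of covariances, replacing a random sign by a Gaussian).
-/

namespace Vale.Agent.P262.Sig

open MeasureTheory ProbabilityTheory Set Module
open scoped RealInnerProductSpace

variable {E : Type*} [NormedAddCommGroup E] [InnerProductSpace ℝ E] [FiniteDimensional ℝ E]

/-- Convex functions on finite-dimensional spaces are continuous. -/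
theorem Tame.continuous {V : Type*} [NormedAddCommGroup V] [NormedSpace ℝ V]
    [FiniteDimensional ℝ V] {F : V → ℝ} (h : Tame F) : Continuous F := by
  have := h.cvx.continuousOn isOpen_univ
  rwa [continuousOn_univ] at this

/-- Sums of tame functions are tame. -/
theorem Tame.add {V : Type*} [NormedAddCommGroup V] [NormedSpace ℝ V] {F G : V → ℝ} (hF : Tame F)
    (hG : Tame G) : Tame (fun x => F x + G x) := by
  obtain ⟨A, B, hA, hB, h1⟩ := hF.grow
  obtain ⟨A', B', hA', hB', h2⟩ := hG.grow
  refine ⟨hF.cvx.add hG.cvx, A + A', B + B', by linarith, by linarith, fun x => ?_⟩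
  have e1 : Real.exp (B * ‖x‖) ≤ Real.exp ((B + B') * ‖x‖) :=
    Real.exp_le_exp.2 (by nlinarith [norm_nonneg x])
  have e2 : Real.exp (B' * ‖x‖) ≤ Real.exp ((B + B') * ‖x‖) :=
    Real.exp_le_exp.2 (by nlinarith [norm_nonneg x])
  have := abs_add_le (F x) (G x)
  nlinarith [h1 x, h2 x, mul_le_mul_of_nonneg_left e1 hA, mul_le_mul_of_nonneg_left e2 hA']

/-- Tame functions are preserved by affine maps. -/
theorem Tame.comp {V W : Type*} [NormedAddCommGroup V] [NormedSpace ℝ V] [NormedAddCommGroup W]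
    [NormedSpace ℝ W] {F : V → ℝ} (hF : Tame F) (A : W →L[ℝ] V) (b : V) :
    Tame (fun x => F (A x + b)) := by
  obtain ⟨C, D, hC, hD, h⟩ := hF.grow
  refine ⟨?_, C * Real.exp (D * ‖b‖), D * ‖A‖, by positivity, by positivity, fun x => ?_⟩
  · simpa [Function.comp_def, add_comm] using
      (hF.cvx.translate_right b).comp_linearMap A.toLinearMap
  · refine (h _).trans ?_
    rw [mul_assoc C, ← Real.exp_add]
    refine mul_le_mul_of_nonneg_left (Real.exp_le_exp.2 ?_) hC
    nlinarith [norm_add_le (A x) b, A.le_opNorm x]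

omit [FiniteDimensional ℝ E] in
/-- On an inner product space tame and nice functions coincide. -/
theorem tame_iff_nice {F : E → ℝ} : Tame F ↔ Nice F :=
  ⟨fun h => ⟨h.cvx, h.grow⟩, fun h => ⟨h.cvx, h.grow⟩⟩

/-- Existence of subgradients. -/
theorem exists_subgradient {F : E → ℝ} (hF : Nice F) (x : E) :
    ∃ p : E, ∀ y, F x + ⟪p, y - x⟫ ≤ F y := by
  have hc : Continuous F := (tame_iff_nice.2 hF).continuous
  have hcv : Convex ℝ {p : E × ℝ | F p.1 < p.2} := by simpa using hF.cvx.convex_strict_epigraph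
  obtain ⟨f, hf⟩ := geometric_hahn_banach_open_point hcv
    (isOpen_lt (hc.comp continuous_fst) continuous_snd) (x := (x, F x)) (lt_irrefl (F x))
  set g : StrongDual ℝ E := f.comp (ContinuousLinearMap.inl ℝ E ℝ)
  set a : ℝ := f (0, 1)
  have hd : ∀ (y : E) (t : ℝ), f (y, t) = g y + t * a := by
    intro y t
    rw [show (y, t) = (y, (0 : ℝ)) + t • ((0 : E), (1 : ℝ)) by simp, map_add, map_smul]
    rfl
  have key : ∀ y t, F y < t → g y + t * a < g x + F x * a := fun y t h => by
    simpa only [hd] using hf (y, t) h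
  have ha : a < 0 := by nlinarith [key x (F x + 1) (by linarith)]
  refine ⟨(-a)⁻¹ • (InnerProductSpace.toDual ℝ E).symm g, fun y => ?_⟩
  rw [real_inner_smul_left, InnerProductSpace.toDual_symm_apply, map_sub]
  refine le_of_forall_pos_le_add fun ε hε => ?_
  have h1 := key y (F y + ε) (by linarith)
  have h2 : (-a)⁻¹ * (g y - g x) ≤ F y + ε - F x := by
    rw [inv_mul_le_iff₀ (by linarith)]
    nlinarith
  linarith

variable [MeasurableSpace E] [BorelSpace E]

/-- Gaussian averaging preserves tameness. -/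
theorem Tame.average {V : Type*} [NormedAddCommGroup V] [NormedSpace ℝ V] [FiniteDimensional ℝ V]
    {F : V → ℝ} (hF : Tame F) {W : Type*} [NormedAddCommGroup W] [NormedSpace ℝ W]
    [FiniteDimensional ℝ W] (A : W →L[ℝ] V) (B : E →L[ℝ] V) :
    Tame (fun w => ∫ g, F (A w + B g) ∂stdGaussian E) := by
  obtain ⟨C, D, hC, hD, h⟩ := hF.grow
  have hb : ∀ w g, |F (A w + B g)| ≤
      C * Real.exp (D * ‖A‖ * ‖w‖) * Real.exp (D * ‖B‖ * ‖g‖) := by
    refine fun w g => (h _).trans ?_
    rw [mul_assoc C, ← Real.exp_add]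
    refine mul_le_mul_of_nonneg_left (Real.exp_le_exp.2 ?_) hC
    nlinarith [norm_add_le (A w) (B g), A.le_opNorm w, B.le_opNorm g]
  have hi : ∀ w, Integrable (fun g => F (A w + B g)) (stdGaussian E) := fun w =>
    ((integrable_exp_norm (D * ‖B‖)).const_mul _).mono'
      (hF.continuous.comp (by fun_prop)).aestronglyMeasurable
      (Filter.Eventually.of_forall (hb w))
  refine ⟨⟨convex_univ, fun u _ w _ a b ha hb' hab => ?_⟩,
    C * ∫ g, Real.exp (D * ‖B‖ * ‖g‖) ∂stdGaussian E, D * ‖A‖,
    mul_nonneg hC (integral_nonneg fun g => (Real.exp_pos _).le), by positivity, fun w => ?_⟩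
  · simp only [smul_eq_mul]
    rw [← integral_const_mul, ← integral_const_mul,
      ← integral_add ((hi u).const_mul a) ((hi w).const_mul b)]
    refine integral_mono (hi _) (((hi u).const_mul a).add ((hi w).const_mul b)) fun g => ?_
    have := hF.cvx.2 (mem_univ (A u + B g)) (mem_univ (A w + B g)) ha hb' hab
    simp only [smul_eq_mul] at this ⊢
    convert this using 2
    rw [map_add, map_smul, map_smul]
    obtain rfl : b = 1 - a := by linarith
    module
  · rw [mul_right_comm, ← integral_const_mul]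
    exact abs_integral_le_integral_abs.trans
      (integral_mono (hi w).abs ((integrable_exp_norm (D * ‖B‖)).const_mul _) (hb w))

omit [MeasurableSpace E] [BorelSpace E] in
private lemma exists_factor (Q : E →ₗ[ℝ] E) (hs : Q.IsSymmetric) (hp : ∀ l, 0 ≤ ⟪Q l, l⟫) :
    ∃ C : E →L[ℝ] E, ∀ l, ‖ContinuousLinearMap.adjoint C l‖ ^ 2 = ⟪Q l, l⟫ := by
  set b := hs.eigenvectorBasis rfl
  set ev := hs.eigenvalues rfl
  have hb : ∀ i, Q (b i) = ev i • b i := hs.apply_eigenvectorBasis rfl
  have h0 : ∀ i, 0 ≤ ev i := fun i => by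
    have := hp (b i)
    rwa [hb, real_inner_smul_left, real_inner_self_eq_norm_sq, b.orthonormal.1 i, one_pow,
      mul_one] at this
  refine ⟨ContinuousLinearMap.adjoint
    (∑ i, √(ev i) • (innerSL ℝ (b i)).smulRight (b i)), fun l => ?_⟩
  rw [ContinuousLinearMap.adjoint_adjoint, ← real_inner_self_eq_norm_sq,
    ← b.sum_inner_mul_inner (Q l) l]
  simp only [FunLike.coe_sum, Finset.sum_apply, FunLike.coe_smul,
    Pi.smul_apply, ContinuousLinearMap.smulRight_apply, innerSL_apply_apply, smul_smul]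
  rw [b.orthonormal.inner_sum]
  refine Finset.sum_congr rfl fun i _ => ?_
  rw [hs l (b i), hb, real_inner_smul_right, real_inner_comm l (b i), conj_trivial]
  linear_combination ⟪l, b i⟫ ^ 2 * Real.mul_self_sqrt (h0 i)

private lemma integrable_pair {φ : E → ℝ} (hφ : Nice φ) (c : E) (A B : E →L[ℝ] E) :
    Integrable (fun p : E × E => φ (c + A p.1 + B p.2))
      ((stdGaussian E).prod (stdGaussian E)) := by
  obtain ⟨C, D, hC, hD, h⟩ := hφ.grow
  refine (((integrable_exp_norm (D * ‖A‖)).mul_prod (integrable_exp_norm (D * ‖B‖))).const_mul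
    (C * Real.exp (D * ‖c‖))).mono' (hφ.continuous.comp (by fun_prop)).aestronglyMeasurable
    (Filter.Eventually.of_forall fun p => (h _).trans ?_)
  rw [mul_assoc C, ← Real.exp_add, ← Real.exp_add]
  refine mul_le_mul_of_nonneg_left (Real.exp_le_exp.2 ?_) hC
  nlinarith [norm_add_le (c + A p.1) (B p.2), norm_add_le c (A p.1), A.le_opNorm p.1,
    B.le_opNorm p.2]

/-- The sum of two independent Gaussian vectors is Gaussian with the sum of the covariances. -/
private lemma gauss_sum {φ : E → ℝ} (hφ : Nice φ) (c : E) (A B D : E →L[ℝ] E)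
    (h : ∀ l, ‖ContinuousLinearMap.adjoint A l‖ ^ 2 + ‖ContinuousLinearMap.adjoint B l‖ ^ 2
      = ‖ContinuousLinearMap.adjoint D l‖ ^ 2) :
    ∫ g, ∫ g', φ (c + A g + B g') ∂stdGaussian E ∂stdGaussian E
      = ∫ g, φ (c + D g) ∂stdGaussian E := by
  have hm : ((stdGaussian E).prod (stdGaussian E)).map (fun p => A p.1 + B p.2)
      = (stdGaussian E).map D := by
    apply Measure.ext_of_charFun
    ext t
    rw [charFun_apply, charFun_apply, integral_map (by fun_prop) (by fun_prop),
      integral_map (by fun_prop) (by fun_prop)]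
    simp only [inner_add_left, Complex.ofReal_add, add_mul, Complex.exp_add,
      ← ContinuousLinearMap.adjoint_inner_right]
    rw [integral_prod_mul
      (fun g : E => Complex.exp (⟪g, ContinuousLinearMap.adjoint A t⟫ * Complex.I))
      (fun g : E => Complex.exp (⟪g, ContinuousLinearMap.adjoint B t⟫ * Complex.I))]
    simp only [← charFun_apply, charFun_stdGaussian, ← Complex.exp_add]
    congr 1
    have := congrArg (fun r : ℝ => (r : ℂ)) (h t)
    push_cast at this
    linear_combination (-1 / 2 : ℂ) * this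
  have hc : Continuous fun y : E => φ (c + y) := hφ.continuous.comp (by fun_prop)
  rw [← integral_prod _ (integrable_pair hφ c A B)]
  simp only [add_assoc]
  rw [← integral_map (φ := fun p : E × E => A p.1 + B p.2) (by fun_prop) hc.aestronglyMeasurable,
    hm, integral_map (by fun_prop) hc.aestronglyMeasurable]

/-- A Gaussian vector with covariance at most `σ ^ 2` is dominated by `σ` times a standard one. -/
theorem gauss_dom {φ : E → ℝ} (hφ : Nice φ) (c : E) (A B : E →L[ℝ] E) {σ : ℝ}
    (h : ∀ l, ‖ContinuousLinearMap.adjoint A l‖ ^ 2 + ‖ContinuousLinearMap.adjoint B l‖ ^ 2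
      ≤ σ ^ 2 * ‖l‖ ^ 2) :
    ∫ g, ∫ g', φ (c + A g + B g') ∂stdGaussian E ∂stdGaussian E ≤ gavg φ c σ := by
  set Q : E →L[ℝ] E := A ∘L ContinuousLinearMap.adjoint A + B ∘L ContinuousLinearMap.adjoint B
  have hQ : ∀ l m, ⟪Q l, m⟫ = ⟪ContinuousLinearMap.adjoint A l, ContinuousLinearMap.adjoint A m⟫
      + ⟪ContinuousLinearMap.adjoint B l, ContinuousLinearMap.adjoint B m⟫ := fun l m => by
    simp only [Q, ContinuousLinearMap.adjoint_inner_right, inner_add_left,
      add_apply, ContinuousLinearMap.comp_apply]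
  have hsym : ∀ l m, ⟪Q l, m⟫ = ⟪l, Q m⟫ := fun l m => by
    rw [real_inner_comm (Q m) l, hQ, hQ, real_inner_comm (ContinuousLinearMap.adjoint A l),
      real_inner_comm (ContinuousLinearMap.adjoint B l)]
  obtain ⟨D, hD⟩ := exists_factor Q.toLinearMap hsym fun l => by
    show 0 ≤ ⟪Q l, l⟫
    simp only [hQ, real_inner_self_eq_norm_sq]
    positivity
  obtain ⟨C, hC⟩ := exists_factor (σ ^ 2 • LinearMap.id - Q.toLinearMap)
    (fun l m => by
      simp [inner_sub_left, inner_sub_right, real_inner_smul_left, real_inner_smul_right, hsym])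
    (fun l => by
      show 0 ≤ ⟪σ ^ 2 • l - Q l, l⟫
      rw [inner_sub_left, real_inner_smul_left, hQ]
      simp only [real_inner_self_eq_norm_sq]
      linarith [h l])
  have hDQ : ∀ l, ‖ContinuousLinearMap.adjoint A l‖ ^ 2 + ‖ContinuousLinearMap.adjoint B l‖ ^ 2
      = ‖ContinuousLinearMap.adjoint D l‖ ^ 2 := fun l => by
    rw [hD, show ⟪Q.toLinearMap l, l⟫ = ⟪Q l, l⟫ from rfl, hQ]
    simp only [real_inner_self_eq_norm_sq]
  have hI : ∀ l : E, ContinuousLinearMap.adjoint (σ • ContinuousLinearMap.id ℝ E) l = σ • l := by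
    intro l
    refine ext_inner_right ℝ fun w => ?_
    rw [ContinuousLinearMap.adjoint_inner_left]
    simp [real_inner_smul_left, real_inner_smul_right]
  have hsum : ∀ l, ‖ContinuousLinearMap.adjoint D l‖ ^ 2 + ‖ContinuousLinearMap.adjoint C l‖ ^ 2
      = ‖ContinuousLinearMap.adjoint (σ • ContinuousLinearMap.id ℝ E) l‖ ^ 2 := fun l => by
    rw [hI, norm_smul, mul_pow, Real.norm_eq_abs, sq_abs, hC, LinearMap.sub_apply, inner_sub_left,
      ← hD]
    simp [real_inner_smul_left]
  rw [gauss_sum hφ c A B D hDQ]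
  calc ∫ g, φ (c + D g) ∂stdGaussian E
      ≤ ∫ g, ∫ g', φ (c + D g + C g') ∂stdGaussian E ∂stdGaussian E := by
        refine integral_mono ?_ (integrable_pair hφ c D C).integral_prod_left fun g => ?_
        · have := (tame_iff_nice.1 ((tame_iff_nice.2 hφ).comp D c)).integrable 0 1
          simpa [add_comm] using this
        · have := (tame_iff_nice.1 ((tame_iff_nice.2 hφ).comp C (c + D g))).le_integral 0 1
          simpa [add_comm, add_left_comm] using this
    _ = gavg φ c σ := by rw [gauss_sum hφ c D C _ hsum]; rfl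

private lemma two_le_three_abs_integral : (2 : ℝ) ≤ 3 * ∫ s, |s| ∂gaussianReal 0 1 := by
  have h1 : ∫ s : ℝ in Ioi 0, s * Real.exp (-s ^ 2 / 2) = 0 - -Real.exp (-(0 : ℝ) ^ 2 / 2) := by
    refine integral_Ioi_of_hasDerivAt_of_nonneg' (g := fun s : ℝ => -Real.exp (-s ^ 2 / 2))
      (fun s _ => ?_) (fun s hs => mul_nonneg (le_of_lt hs) (Real.exp_pos _).le) ?_
    · refine (((hasDerivAt_pow 2 s).fun_neg).div_const 2).exp.fun_neg.congr_deriv ?_
      norm_num
      ring
    · rw [← neg_zero]
      refine (Real.tendsto_exp_atBot.comp ?_).neg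
      exact (Filter.tendsto_neg_atTop_atBot.comp
        (Filter.tendsto_pow_atTop two_ne_zero)).atBot_div_const two_pos
  have h2 : ∫ s, |s| ∂gaussianReal 0 1 = (√(2 * Real.pi))⁻¹ * 2 := by
    rw [integral_gaussianReal_eq_integral_smul one_ne_zero]
    calc ∫ s : ℝ, gaussianPDFReal 0 1 s • |s|
        = ∫ s : ℝ, (√(2 * Real.pi))⁻¹ * (|s| * Real.exp (-|s| ^ 2 / 2)) := by
          congr 1
          funext s
          simp [gaussianPDFReal]
          ring
      _ = _ := by
          rw [integral_const_mul, integral_comp_abs (f := fun s => s * Real.exp (-s ^ 2 / 2)), h1]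
          norm_num
  have h3 : √(2 * Real.pi) ≤ 3 := Real.sqrt_le_iff.2 ⟨by norm_num, by linarith [Real.pi_le_four]⟩
  rw [h2, inv_mul_eq_div, mul_div_assoc', le_div_iff₀ (by positivity)]
  linarith

/-- A random sign is dominated by three times a standard Gaussian variable. -/
theorem two_point {φ : E → ℝ} (hφ : Nice φ) (c a : E) {e : E} (he : ‖e‖ = 1) :
    (φ (c + a) + φ (c - a)) / 2 ≤ ∫ g, φ (c + (3 * ⟪e, g⟫) • a) ∂stdGaussian E := by
  have hl : (stdGaussian E).map (fun g => ⟪e, g⟫) = gaussianReal 0 1 := by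
    show (stdGaussian E).map (innerSL ℝ e) = _
    rw [IsGaussian.map_eq_gaussianReal, integral_strongDual_stdGaussian,
      variance_dual_stdGaussian, innerSL_apply_norm, he, one_pow, Real.toNNReal_one]
  set q : ℝ → ℝ := fun s => φ (c + (3 * s) • a) with hq
  have hqc : Continuous q := hφ.continuous.comp (by fun_prop)
  have hint : Integrable q (gaussianReal 0 1) := integrable_line hφ c a 3
  have hint' : Integrable (fun s => q (-s)) (gaussianReal 0 1) := by
    simpa [hq, neg_mul] using integrable_line hφ c (-a) 3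
  have hneg : ∫ s, q (-s) ∂gaussianReal 0 1 = ∫ s, q s ∂gaussianReal 0 1 := by
    have hm : (gaussianReal 0 1).map (fun s => -s) = gaussianReal 0 1 := by
      rw [gaussianReal_map_neg, neg_zero]
    conv_rhs => rw [← hm, integral_map (by fun_prop) hqc.aestronglyMeasurable]
  have hgoal : ∫ g, φ (c + (3 * ⟪e, g⟫) • a) ∂stdGaussian E = ∫ s, q s ∂gaussianReal 0 1 := by
    rw [← hl, integral_map (by fun_prop) hqc.aestronglyMeasurable]
  rw [hgoal]
  set d := φ (c + a) + φ (c - a) - 2 * φ c with hd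
  have hcvx : ∀ x y : E, ∀ r : ℝ, 0 ≤ r → r ≤ 1 →
      φ ((1 - r) • x + r • y) ≤ (1 - r) * φ x + r * φ y := fun x y r h0 h1 =>
    hφ.cvx.2 (mem_univ x) (mem_univ y) (by linarith) h0 (by ring)
  have hmid : ∀ u : E, 2 * φ c ≤ φ (c + u) + φ (c - u) := fun u => by
    have := hcvx (c + u) (c - u) (1 / 2) (by norm_num) (by norm_num)
    rw [show (1 - 1 / 2 : ℝ) • (c + u) + (1 / 2 : ℝ) • (c - u) = c by module] at this
    linarith
  have habs : ∀ s, 2 * φ c + (3 * |s| - 1) * d ≤ q s + q (-s) := by
    intro s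
    have hs : q s + q (-s) = φ (c + (3 * |s|) • a) + φ (c - (3 * |s|) • a) := by
      rcases abs_choice s with h | h <;> simp [hq, h, sub_eq_add_neg, add_comm]
    rw [hs]
    have h2 := hmid ((3 * |s|) • a)
    have hd0 : 0 ≤ d := by linarith [hmid a]
    set u := 3 * |s|
    by_cases hu : u < 1
    · nlinarith
    have hu0 : 0 < u := by linarith
    have e1 := hcvx c (c + u • a) u⁻¹ (by positivity) (inv_le_one_of_one_le₀ (by linarith))
    have e2 := hcvx c (c - u • a) u⁻¹ (by positivity) (inv_le_one_of_one_le₀ (by linarith))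
    rw [show (1 - u⁻¹) • c + u⁻¹ • (c + u • a) = c + a by
      rw [smul_add, inv_smul_smul₀ hu0.ne']; module] at e1
    rw [show (1 - u⁻¹) • c + u⁻¹ • (c - u • a) = c - a by
      rw [smul_sub, inv_smul_smul₀ hu0.ne']; module] at e2
    have h3 := mul_le_mul_of_nonneg_left (add_le_add e1 e2) hu0.le
    field_simp at h3
    linarith
  have hi : Integrable (fun s : ℝ => |s|) (gaussianReal 0 1) := IsGaussian.integrable_id.abs
  have hl1 : Integrable (fun s : ℝ => 3 * |s| - 1) (gaussianReal 0 1) :=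
    (hi.const_mul 3).sub (integrable_const 1)
  have key : ∫ s, (2 * φ c + (3 * |s| - 1) * d) ∂gaussianReal 0 1
      ≤ ∫ s, (q s + q (-s)) ∂gaussianReal 0 1 :=
    integral_mono ((integrable_const _).add (hl1.mul_const d)) (hint.add hint') habs
  rw [integral_add (integrable_const _) (hl1.mul_const d),
    integral_const (2 * φ c), integral_mul_const, integral_sub (hi.const_mul 3) (integrable_const 1),
    integral_const_mul, integral_add hint hint', hneg, integral_const, probReal_univ, one_smul,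
    one_smul] at key
  nlinarith [hmid a, two_le_three_abs_integral]

/-- Gaussian averages increase with the standard deviation. -/
theorem gavg_mono {φ : E → ℝ} (hφ : Nice φ) (c : E) {s t : ℝ} (hs : 0 ≤ s) (h : s ≤ t) :
    gavg φ c s ≤ gavg φ c t := by
  have := gauss_dom hφ c (s • ContinuousLinearMap.id ℝ E) 0 (σ := t) fun l => by
    rw [map_smulₛₗ, ContinuousLinearMap.adjoint_id]
    simp [norm_smul, mul_pow]
    gcongr
  simpa [gavg] using this

/-- Gaussian averages of convex functions vanishing at the origin grow at least linearly. -/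
theorem psi_inflate {ψ : E → ℝ} (hψ : Nice ψ) (h0 : ψ 0 = 0) (_hn : ∀ x, 0 ≤ ψ x) {s t : ℝ}
    (hs : 0 < s) (h : s ≤ t) : t / s * gavg ψ 0 s ≤ gavg ψ 0 t := by
  have ht : 0 < t := hs.trans_le h
  rw [gavg, gavg, ← integral_const_mul]
  refine integral_mono ((hψ.integrable 0 s).const_mul _) (hψ.integrable 0 t) fun g => ?_
  have := hψ.cvx.2 (mem_univ (t • g)) (mem_univ (0 : E)) (div_pos hs ht).le
    (sub_nonneg.2 ((div_le_one ht).2 h)) (by ring)
  rw [smul_zero, add_zero, smul_smul, div_mul_cancel₀ _ ht.ne', h0, smul_zero, add_zero,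
    smul_eq_mul, div_mul_eq_mul_div, le_div_iff₀ ht] at this
  simp only [zero_add]
  rw [div_mul_eq_mul_div, div_le_iff₀ hs]
  linarith

/-- Values near the origin are controlled by Gaussian averages. -/
theorem psi_point {ψ : E → ℝ} (hψ : Nice ψ) (hn : ∀ x, 0 ≤ ψ x) {s : ℝ} {x : E}
    (h : 3 * ‖x‖ ≤ s) : ψ x ≤ 2 * gavg ψ 0 s := by
  rcases eq_or_ne x 0 with rfl | hx
  · have h1 : ψ 0 ≤ gavg ψ 0 s := hψ.le_integral 0 s
    linarith [hn 0]
  set e := ‖x‖⁻¹ • x
  have he : ‖e‖ = 1 := norm_smul_inv_norm hx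
  have h1 := two_point hψ 0 x he
  have h2 := gauss_dom hψ 0 ((innerSL ℝ e).smulRight ((3 : ℝ) • x)) 0 (σ := s) fun l => by
    have := ContinuousLinearMap.le_opNorm
      (ContinuousLinearMap.adjoint ((innerSL ℝ e).smulRight ((3 : ℝ) • x))) l
    rw [LinearIsometryEquiv.norm_map, ContinuousLinearMap.norm_smulRight_apply,
      innerSL_apply_norm, he, one_mul, norm_smul, Real.norm_ofNat] at this
    simp only [map_zero, zero_apply, norm_zero, ne_eq, OfNat.ofNat_ne_zero,
      not_false_eq_true, zero_pow, add_zero, ← mul_pow]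
    exact pow_le_pow_left₀ (norm_nonneg _)
      (this.trans (mul_le_mul_of_nonneg_right h (norm_nonneg _))) 2
  simp [smul_smul, mul_comm _ (3 : ℝ)] at h2
  simp at h1
  linarith [hn (-x)]

/-- The one-step operator does not increase Gaussian averages of large variance. -/
theorem lop_gavg {F : E → ℝ} (hF : Nice F) {u : E} (hu : ‖u‖ ≤ 1) {z σ : ℝ} (hz : |z| ≤ 1 / 2)
    (hσ : 12 ≤ σ) (c : E) : gavg (lop u F) c σ ≤ gavg F (c + z • u) σ := by
  set κ := σ / 12 with hκ
  have hκ1 : 1 ≤ κ := by rw [hκ]; linarith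
  have hκ0 : κ ≠ 0 := by linarith
  have hG : Nice (fun y => F (κ • y)) := by
    simpa using tame_iff_nice.1 ((tame_iff_nice.2 hF).comp (κ • ContinuousLinearMap.id ℝ E) 0)
  have hu' : ‖κ⁻¹ • u‖ ≤ 1 := by
    rw [norm_smul, Real.norm_eq_abs, abs_of_pos (by positivity)]
    nlinarith [inv_le_one_of_one_le₀ hκ1, norm_nonneg u, inv_pos.2 (one_pos.trans_le hκ1)]
  have hl : ∀ y, lop (κ⁻¹ • u) (fun y => F (κ • y)) y = lop u F (κ • y) := fun y => by
    simp [lop, smul_smul, mul_left_comm κ, mul_inv_cancel₀ hκ0]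
  have hσ' : κ * 12 = σ := div_mul_cancel₀ _ (by norm_num)
  have := lop_integral_le hG hu' hz (κ⁻¹ • c)
  simp only [hl, smul_add, smul_smul, mul_left_comm κ, mul_inv_cancel₀ hκ0, hσ', mul_one,
    one_smul] at this
  exact this

end Vale.Agent.P262.Sig
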