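import Vale.Agent.P262.SigDefs

/-!
Splitting an interval into weak children, steering maps, and bases for bounded displacement sets.
-/

namespace Vale.Agent.P262.Sig

open MeasureTheory ProbabilityTheory Set Module
open scoped RealInnerProductSpace

variable {E : Type*} [NormedAddCommGroup E] [InnerProductSpace ℝ E] [FiniteDimensional ℝ E]

omit [FiniteDimensional ℝ E] in
theorem seg_append (v : ℕ → E) (z : ℕ → ℝ) {a b c : ℕ} (h1 : a ≤ b) (h2 : b ≤ c) :
    seg v z a b + seg v z b c = seg v z a c :=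
  Finset.sum_Ico_consecutive _ h1 h2

omit [FiniteDimensional ℝ E] in
lemma seg_self (v : ℕ → E) (z : ℕ → ℝ) (a : ℕ) : seg v z a a = 0 := by simp [seg]

/-- `seg` as a linear function of the signing. -/
def segLin (v : ℕ → E) (a b : ℕ) : (ℕ → ℝ) →ₗ[ℝ] E where
  toFun z := seg v z a b
  map_add' z z' := by simp [seg, add_smul, Finset.sum_add_distrib]
  map_smul' t z := by simp [seg, Finset.smul_sum, smul_smul]

omit [FiniteDimensional ℝ E] in
lemma seg_smul (v : ℕ → E) (t : ℝ) (z : ℕ → ℝ) (a b : ℕ) :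
    seg v (t • z) a b = t • seg v z a b :=
  map_smul (segLin v a b) t z

omit [FiniteDimensional ℝ E] in
lemma seg_cutoff (v : ℕ → E) (z : ℕ → ℝ) {a a' b' : ℕ} (h1 : a ≤ a') (h2 : a' ≤ b') (k : ℕ) :
    seg v (fun i => if i ∈ Finset.Ico a' b' then z i else 0) a k =
      seg v z a' (max a' (min k b')) := by
  simp only [seg, ite_smul, zero_smul, ← Finset.sum_filter]
  refine Finset.sum_congr ?_ fun _ _ => rfl
  ext i
  simp only [Finset.mem_filter, Finset.mem_Ico]
  omega

theorem slow_scale {v : ℕ → E} {R₀ T : ℝ} {a b : ℕ} {L : Submodule ℝ E} (hv : ∀ i, ‖v i‖ ≤ 1)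
    (hn : Node v R₀ T a b L) (hT : 0 ≤ T) (hR : 2 * (finrank ℝ E * T + 1) ≤ R₀) {z : ℕ → ℝ} {M : ℝ}
    (hM : 0 ≤ M) (hz : ∀ i ∈ Finset.Ico a b, |z i| ≤ M / 2)
    (hp : ∀ k ∈ Finset.Icc a b, ‖Lᗮ.starProjection (seg v z a k)‖ ≤ M * R₀ / 2) :
    ∀ k ∈ Finset.Icc a b, ‖L.starProjection (seg v z a k)‖ ≤ M * (finrank ℝ L * T) := by
  rcases hM.eq_or_lt with rfl | hM0
  · intro k hk
    have : seg v z a k = 0 := Finset.sum_eq_zero fun i hi => by
      rw [Finset.mem_Icc] at hk
      rw [Finset.mem_Ico] at hi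
      have := hz i (Finset.mem_Ico.2 ⟨hi.1, by omega⟩)
      rw [zero_div, abs_nonpos_iff] at this
      rw [this, zero_smul]
    simp [this]
  have hd : (finrank ℝ L : ℝ) * T ≤ finrank ℝ E * T :=
    mul_le_mul_of_nonneg_right (Nat.cast_le.2 L.finrank_le) hT
  suffices h : ∀ k, ∀ l ∈ Finset.Icc a b, l ≤ k →
      ‖L.starProjection (seg v z a l)‖ ≤ M * (finrank ℝ L * T) from fun k hk => h k k hk le_rfl
  have hstep : ∀ k, a ≤ k → k + 1 ≤ b → (∀ l ∈ Finset.Icc a b, l ≤ k →
      ‖L.starProjection (seg v z a l)‖ ≤ M * (finrank ℝ L * T)) →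
      ‖L.starProjection (seg v z a (k + 1))‖ ≤ M * (finrank ℝ L * T) := by
    intro k hak hkb ih
    have hfull : ∀ l ∈ Finset.Icc a (k + 1), ‖seg v z a l‖ ≤ M * R₀ := by
      intro l hl
      rw [Finset.mem_Icc] at hl
      have hslow : ‖L.starProjection (seg v z a l)‖ ≤ M * (finrank ℝ L * T) + M / 2 := by
        rcases Nat.eq_or_lt_of_le hl.2 with rfl | hl'
        · rw [show seg v z a (k + 1) = seg v z a k + z k • v k from Finset.sum_Ico_succ_top hak _,
            map_add]
          refine (norm_add_le _ _).trans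
            (add_le_add (ih k (Finset.mem_Icc.2 ⟨hak, by omega⟩) le_rfl) ?_)
          refine (L.norm_starProjection_apply_le _).trans ?_
          rw [norm_smul, Real.norm_eq_abs]
          exact (mul_le_of_le_one_right (abs_nonneg _) (hv k)).trans
            (hz k (Finset.mem_Ico.2 ⟨hak, hkb⟩))
        · linarith [ih l (Finset.mem_Icc.2 ⟨hl.1, by omega⟩) (by omega)]
      rw [← L.starProjection_add_starProjection_orthogonal (seg v z a l)]
      refine (norm_add_le _ _).trans ?_
      have := hp l (Finset.mem_Icc.2 ⟨hl.1, by omega⟩)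
      have := mul_le_mul_of_nonneg_left hd hM
      have := mul_le_mul_of_nonneg_left hR hM
      linarith
    set y : ℕ → ℝ := fun i => if i ∈ Finset.Ico a (k + 1) then z i else 0 with hy
    have hseg : ∀ l, seg v (M⁻¹ • y) a l = M⁻¹ • seg v z a (max a (min l (k + 1))) := fun l => by
      rw [seg_smul, seg_cutoff v z le_rfl (by omega)]
    have hadm : Adm v R₀ a b (M⁻¹ • y) := by
      refine ⟨fun i hi => ?_, fun l _ => ?_⟩
      · simp only [hy, Pi.smul_apply, smul_eq_mul]
        rw [abs_mul, abs_inv, abs_of_pos hM0, inv_mul_le_iff₀ hM0]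
        split_ifs
        · linarith [hz i hi]
        · simp only [abs_zero]; linarith
      · rw [hseg, norm_smul, norm_inv, Real.norm_of_nonneg hM, inv_mul_le_iff₀ hM0]
        exact hfull _ (Finset.mem_Icc.2 ⟨le_max_left _ _, by omega⟩)
    have h := hn _ hadm
    rw [hseg, map_smul, norm_smul, norm_inv, Real.norm_of_nonneg hM, inv_mul_le_iff₀ hM0,
      max_eq_right (by omega), min_eq_right hkb] at h
    exact h
  intro k
  induction k with
  | zero =>
    intro l hl hl0
    rw [Finset.mem_Icc] at hl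
    obtain rfl : l = a := by omega
    rw [seg_self, map_zero, norm_zero]
    positivity
  | succ k ih =>
    intro l hl hlk
    rw [Finset.mem_Icc] at hl
    rcases Nat.eq_or_lt_of_le hlk with rfl | h
    · rcases Nat.eq_or_lt_of_le hl.1 with e | e
      · rw [← e, seg_self, map_zero, norm_zero]
        positivity
      · exact hstep k (by omega) hl.2 ih
    · exact ih l (Finset.mem_Icc.2 hl) (by omega)

theorem Node.bot (v : ℕ → E) (R₀ T : ℝ) (a b : ℕ) : Node v R₀ T a b ⊥ := fun z _ => by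
  simp [Submodule.starProjection_bot]

theorem Node.mono {v : ℕ → E} {R₀ T : ℝ} {a b a' b' : ℕ} {L : Submodule ℝ E}
    (hn : Node v R₀ T a b L) (hR : 0 ≤ R₀) (h1 : a ≤ a') (h2 : b' ≤ b) (h3 : a' ≤ b') :
    Node v R₀ T a' b' L := by
  intro z hz
  have h := hn (fun i => if i ∈ Finset.Ico a' b' then z i else 0) ⟨fun i _ => ?_, fun k _ => ?_⟩
  · rwa [seg_cutoff v z h1 h3, min_eq_right h2, max_eq_right h3] at h
  · beta_reduce
    split_ifs with hi
    · exact hz.1 i hi
    · norm_num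
  · rw [seg_cutoff v z h1 h3]
    rcases le_total a' (min k b') with h | h
    · exact hz.2 _ (Finset.mem_Icc.2 ⟨le_max_left _ _, by omega⟩)
    · rw [max_eq_left h, seg_self, norm_zero]
      exact hR

/-- Admissible signings supported on the interval. -/
def box (v : ℕ → E) (R₀ : ℝ) (a b : ℕ) : Set (ℕ → ℝ) :=
  {z | Adm v R₀ a b z ∧ ∀ i, i ∉ Finset.Ico a b → z i = 0}

omit [FiniteDimensional ℝ E] in
lemma continuous_seg (v : ℕ → E) (a b : ℕ) : Continuous fun z : ℕ → ℝ => seg v z a b :=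
  continuous_finsetSum _ fun i _ => (continuous_apply i).smul continuous_const

omit [FiniteDimensional ℝ E] in
lemma isCompact_box (v : ℕ → E) (R₀ : ℝ) (a b : ℕ) : IsCompact (box v R₀ a b) := by
  refine (isCompact_univ_pi fun _ => isCompact_Icc (a := (-(1 / 2) : ℝ)) (b := 1 / 2)).of_isClosed_subset
    ?_ fun z hz i _ => ?_
  · rw [show box v R₀ a b = (⋂ i ∈ Finset.Ico a b, {z : ℕ → ℝ | |z i| ≤ 1 / 2}) ∩
      ((⋂ k ∈ Finset.Icc a b, {z | ‖seg v z a k‖ ≤ R₀}) ∩
        ⋂ i, ⋂ (_ : i ∉ Finset.Ico a b), {z : ℕ → ℝ | z i = 0}) by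
      ext z; simp [box, Adm, and_assoc]]
    refine (isClosed_biInter fun i _ => ?_).inter ((isClosed_biInter fun k _ => ?_).inter
      (isClosed_iInter fun i => isClosed_iInter fun _ => ?_))
    · exact isClosed_le (continuous_apply i).abs continuous_const
    · exact isClosed_le (continuous_seg v a k).norm continuous_const
    · exact isClosed_eq (continuous_apply i) continuous_const
  · by_cases hi : i ∈ Finset.Ico a b
    · exact abs_le.1 (hz.1.1 i hi)
    · rw [hz.2 i hi]; norm_num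

omit [FiniteDimensional ℝ E] in
lemma zero_mem_box (v : ℕ → E) {R₀ : ℝ} (hR : 0 ≤ R₀) (a b : ℕ) : (0 : ℕ → ℝ) ∈ box v R₀ a b :=
  ⟨⟨fun _ _ => by norm_num, fun _ _ => by simpa [seg]⟩, fun _ _ => rfl⟩

omit [FiniteDimensional ℝ E] in
lemma exists_box (v : ℕ → E) {R₀ : ℝ} {a b : ℕ} {z : ℕ → ℝ} (hz : Adm v R₀ a b z) :
    ∃ y ∈ box v R₀ a b, seg v y a b = seg v z a b := by
  have e : ∀ k ∈ Finset.Icc a b,
      seg v (fun i => if i ∈ Finset.Ico a b then z i else 0) a k = seg v z a k := by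
    intro k hk
    rw [Finset.mem_Icc] at hk
    rw [seg_cutoff v z le_rfl (hk.1.trans hk.2), min_eq_left hk.2, max_eq_right hk.1]
  refine ⟨fun i => if i ∈ Finset.Ico a b then z i else 0,
    ⟨⟨fun i hi => ?_, fun k hk => ?_⟩, fun i hi => if_neg hi⟩, ?_⟩
  · simp only [if_pos hi]; exact hz.1 i hi
  · rw [e k hk]; exact hz.2 k hk
  · rcases le_total a b with h | h
    · exact e b (Finset.right_mem_Icc.2 h)
    · simp [seg, Finset.Ico_eq_empty_of_le h]

omit [FiniteDimensional ℝ E] in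
lemma convex_box (v : ℕ → E) (R₀ : ℝ) (a b : ℕ) : Convex ℝ (box v R₀ a b) := by
  intro y hy z hz s t hs ht hst
  refine ⟨⟨fun i hi => ?_, fun k hk => ?_⟩, fun i hi => ?_⟩
  · calc |(s • y + t • z) i| ≤ |s * y i| + |t * z i| := abs_add_le _ _
      _ ≤ s * (1 / 2) + t * (1 / 2) := by
          rw [abs_mul, abs_mul, abs_of_nonneg hs, abs_of_nonneg ht]
          gcongr
          · exact hy.1.1 i hi
          · exact hz.1.1 i hi
      _ = 1 / 2 := by rw [← add_mul, hst, one_mul]
  · calc ‖seg v (s • y + t • z) a k‖ = ‖s • seg v y a k + t • seg v z a k‖ := by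
          rw [show seg v (s • y + t • z) a k = segLin v a k (s • y + t • z) from rfl, map_add,
            map_smul, map_smul]
          rfl
      _ ≤ s * R₀ + t * R₀ := by
          refine (norm_add_le _ _).trans ?_
          rw [norm_smul, norm_smul, Real.norm_of_nonneg hs, Real.norm_of_nonneg ht]
          gcongr
          · exact hy.1.2 k hk
          · exact hz.1.2 k hk
      _ = R₀ := by rw [← add_mul, hst, one_mul]
  · simp [hy.2 i hi, hz.2 i hi]

/-- If no unit direction orthogonal to `L` is weak, all displacements orthogonal to `L` are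
realised. -/
lemma exists_steer {v : ℕ → E} {R₀ T : ℝ} {a b : ℕ} {L : Submodule ℝ E} (hR : 0 ≤ R₀) (hT : 0 < T)
    (h : ∀ θ ∈ Lᗮ, ‖θ‖ = 1 → ¬ WeakDir v R₀ T a b θ) : Nonempty (Steer v R₀ T a b L) := by
  set f : (ℕ → ℝ) →ₗ[ℝ] E := (Lᗮ.starProjection : E →ₗ[ℝ] E) ∘ₗ segLin v a b with hf
  set K : Set E := f '' box v R₀ a b
  have hK : IsCompact K :=
    (isCompact_box v R₀ a b).image (Lᗮ.starProjection.continuous.comp (continuous_seg v a b))
  have key : ∀ x ∈ Lᗮ, ‖x‖ ≤ T → x ∈ K := by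
    intro x hx hxT
    by_contra hxK
    obtain ⟨φ, r, hlt, hr⟩ := geometric_hahn_banach_closed_point
      ((convex_box v R₀ a b).linear_image f) hK.isClosed hxK
    set y := Lᗮ.starProjection ((InnerProductSpace.toDual ℝ E).symm φ) with hy
    have hφ : ∀ u ∈ Lᗮ, φ u = ⟪y, u⟫ := fun u hu => by
      rw [hy, Submodule.inner_starProjection_left_eq_right, Submodule.starProjection_eq_self_iff.2 hu,
        InnerProductSpace.toDual_symm_apply]
    have h0 : φ 0 < r := hlt 0 ⟨0, zero_mem_box v hR a b, map_zero f⟩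
    rw [map_zero] at h0
    rw [hφ x hx] at hr
    have hyne : y ≠ 0 := fun e => by rw [e, inner_zero_left] at hr; linarith
    have hny := norm_pos_iff.2 hyne
    have hnot := h (‖y‖⁻¹ • y) (Lᗮ.smul_mem _ (Submodule.starProjection_apply_mem _ _))
      (norm_smul_inv_norm hyne)
    simp only [WeakDir, not_forall, not_le, exists_prop] at hnot
    obtain ⟨z, hz, hbig⟩ := hnot
    obtain ⟨w, hw, hwz⟩ := exists_box v hz
    have hval : ∀ t ∈ box v R₀ a b, ⟪y, seg v t a b⟫ < r := fun t ht => by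
      have h2 := hlt _ ⟨t, ht, rfl⟩
      rw [show f t = Lᗮ.starProjection (seg v t a b) from rfl,
        hφ _ (Submodule.starProjection_apply_mem _ _),
        ← Submodule.inner_starProjection_left_eq_right,
        Submodule.starProjection_eq_self_iff.2 (Submodule.starProjection_apply_mem _ _)] at h2
      exact h2
    have hneg : -w ∈ box v R₀ a b := by
      refine ⟨⟨fun i hi => by simpa using hw.1.1 i hi, fun k hk => ?_⟩, fun i hi => by simp [hw.2 i hi]⟩
      rw [show seg v (-w) a k = segLin v a k (-w) from rfl, map_neg, norm_neg]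
      exact hw.1.2 k hk
    have h1 := hval w hw
    have h2 := hval (-w) hneg
    rw [show seg v (-w) a b = segLin v a b (-w) from rfl, map_neg, inner_neg_right,
      show segLin v a b w = seg v w a b from rfl, hwz] at h2
    rw [hwz] at h1
    rw [real_inner_smul_left, abs_mul, abs_inv, abs_norm, lt_inv_mul_iff₀ hny] at hbig
    have h3 : |⟪y, seg v z a b⟫| < r := abs_lt.2 ⟨by linarith, h1⟩
    have h4 := (real_inner_le_norm y x).trans (mul_le_mul_of_nonneg_left hxT (norm_nonneg y))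
    linarith
  set B := stdOrthonormalBasis ℝ Lᗮ
  have hB : ∀ j, ‖(B j : E)‖ = 1 := fun j => by rw [Submodule.norm_coe]; exact B.norm_eq_one j
  have hz : ∀ j, ∃ z ∈ box v R₀ a b, f z = T • (B j : E) := fun j =>
    key _ (Lᗮ.smul_mem _ (B j).2) (by rw [norm_smul, hB, mul_one, Real.norm_of_nonneg hT.le])
  choose z hzb hzf using hz
  set Z : E →ₗ[ℝ] (ℕ → ℝ) := ∑ j, (T⁻¹ • innerₛₗ ℝ (B j : E)).smulRight (z j) with hZ
  have hZx : ∀ x, Z x = ∑ j, (T⁻¹ * ⟪(B j : E), x⟫) • z j := fun x => by simp [hZ]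
  have hcj : ∀ x j, |T⁻¹ * ⟪(B j : E), x⟫| ≤ ‖x‖ / T := by
    intro x j
    rw [abs_mul, abs_inv, abs_of_pos hT, div_eq_inv_mul]
    refine mul_le_mul_of_nonneg_left ?_ (inv_nonneg.2 hT.le)
    simpa [hB] using abs_real_inner_le_norm (B j : E) x
  have hcard : ((finrank ℝ Lᗮ : ℕ) : ℝ) ≤ finrank ℝ E := Nat.cast_le.2 Lᗮ.finrank_le
  refine ⟨⟨Z, fun x i hi => ?_, fun x i => ?_, fun x k hk => ?_, fun x => ?_⟩⟩
  · simp [hZx, fun j => (hzb j).2 i hi]
  · rw [hZx, Finset.sum_apply]
    refine (Finset.abs_sum_le_sum_abs _ _).trans ?_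
    refine (Finset.sum_le_card_nsmul _ _ (‖x‖ / T) fun j _ => ?_).trans ?_
    · rw [Pi.smul_apply, smul_eq_mul, abs_mul]
      refine (mul_le_of_le_one_right (abs_nonneg _) ?_).trans (hcj x j)
      by_cases hi : i ∈ Finset.Ico a b
      · linarith [(hzb j).1.1 i hi]
      · simp [(hzb j).2 i hi]
    · rw [Finset.card_univ, Fintype.card_fin, nsmul_eq_mul, mul_div_assoc']
      gcongr
  · rw [hZx, show ∀ w, seg v w a k = segLin v a k w from fun _ => rfl, map_sum]
    refine (norm_sum_le _ _).trans ?_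
    refine (Finset.sum_le_card_nsmul _ _ (‖x‖ / T * R₀) fun j _ => ?_).trans ?_
    · rw [map_smul, norm_smul, Real.norm_eq_abs]
      exact mul_le_mul (hcj x j) ((hzb j).1.2 k hk) (norm_nonneg _) (by positivity)
    · rw [Finset.card_univ, Fintype.card_fin, nsmul_eq_mul]
      refine (mul_le_mul_of_nonneg_right hcard (by positivity)).trans (le_of_eq ?_)
      ring
  · change f (Z x) = _
    rw [hZx, map_sum]
    conv_rhs => rw [Submodule.starProjection_apply, ← B.sum_repr' (Lᗮ.orthogonalProjectionOnto x),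
      Submodule.coe_sum]
    refine Finset.sum_congr rfl fun j _ => ?_
    rw [map_smul, hzf, smul_smul, Submodule.coe_smul]
    congr 1
    rw [Submodule.coe_inner, ← Submodule.starProjection_apply,
      ← Submodule.inner_starProjection_left_eq_right,
      Submodule.starProjection_eq_self_iff.2 (B j).2]
    field_simp

lemma exists_unit_orth {L : Submodule ℝ E} (hL : L ≠ ⊤) : ∃ θ ∈ Lᗮ, ‖θ‖ = 1 := by
  obtain ⟨x, hx, hne⟩ := Submodule.exists_mem_ne_zero_of_ne_bot
    (fun h => hL (Submodule.orthogonal_eq_bot_iff.1 h))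
  exact ⟨‖x‖⁻¹ • x, Lᗮ.smul_mem _ hx, norm_smul_inv_norm hne⟩

lemma node_sup {v : ℕ → E} {R₀ T : ℝ} {a b : ℕ} {L : Submodule ℝ E} {θ : E} (hθ : θ ∈ Lᗮ)
    (h1 : ‖θ‖ = 1) (hn : Node v R₀ T a b L) (hw : WeakDir v R₀ T a b θ) :
    Node v R₀ T a b (L ⊔ ℝ ∙ θ) ∧ finrank ℝ ↥(L ⊔ ℝ ∙ θ) = finrank ℝ L + 1 := by
  have hne : θ ≠ 0 := fun h => by simp [h] at h1
  have hsub : ℝ ∙ θ ≤ Lᗮ := (Submodule.span_singleton_le_iff_mem _ _).2 hθ
  have hdis : L ⊓ (ℝ ∙ θ) = ⊥ :=
    le_bot_iff.1 ((inf_le_inf_left L hsub).trans_eq L.inf_orthogonal_eq_bot)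
  have hrank : finrank ℝ ↥(L ⊔ ℝ ∙ θ) = finrank ℝ L + 1 := by
    have := Submodule.finrank_sup_add_finrank_inf_eq L (ℝ ∙ θ)
    rwa [hdis, finrank_bot, add_zero, finrank_span_singleton hne] at this
  refine ⟨fun z hz => ?_, hrank⟩
  set s := seg v z a b
  have e : (L ⊔ ℝ ∙ θ).starProjection s = L.starProjection s + ⟪θ, s⟫ • θ := by
    refine Submodule.eq_starProjection_of_mem_orthogonal (Submodule.add_mem _
      (Submodule.mem_sup_left (Submodule.starProjection_apply_mem _ _))
      (Submodule.mem_sup_right (Submodule.smul_mem _ _ (Submodule.mem_span_singleton_self θ)))) ?_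
    rw [← Submodule.inf_orthogonal, Submodule.mem_inf, ← sub_sub]
    refine ⟨Lᗮ.sub_mem (L.sub_starProjection_mem_orthogonal s) (Lᗮ.smul_mem _ hθ), ?_⟩
    rw [Submodule.mem_orthogonal_singleton_iff_inner_right, inner_sub_right, inner_sub_right,
      Submodule.inner_left_of_mem_orthogonal (Submodule.starProjection_apply_mem _ _) hθ,
      real_inner_smul_right, real_inner_self_eq_norm_sq, h1]
    ring
  rw [e, hrank]
  refine (norm_add_le _ _).trans ?_
  rw [norm_smul, h1, mul_one, Real.norm_eq_abs]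
  have := hn z hz
  have := hw z hz
  push_cast
  linarith

theorem exists_split {v : ℕ → E} {R₀ T : ℝ} {a b : ℕ} {L : Submodule ℝ E} (hab : a ≤ b)
    (hn : Node v R₀ T a b L) (hR : 0 ≤ R₀) (hT : 0 < T) (hL : L ≠ ⊤) :
    Nonempty (Split v R₀ T a b L) := by
  classical
  obtain ⟨m, hm⟩ : ∃ m, m = b - a := ⟨_, rfl⟩
  induction m using Nat.strong_induction_on generalizing a with
  | _ m ih =>
  subst hm
  set P : ℕ → Prop := fun e => ∃ θ ∈ Lᗮ, ‖θ‖ = 1 ∧ WeakDir v R₀ T a e θ
  have hPa : P a := by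
    obtain ⟨θ, hθ, h1⟩ := exists_unit_orth hL
    exact ⟨θ, hθ, h1, fun z _ => by simpa [seg_self] using hT.le⟩
  set e := Nat.findGreatest P b with he
  have hae : a ≤ e := Nat.le_findGreatest hab hPa
  have heb : e ≤ b := Nat.findGreatest_le b
  obtain ⟨θ, hθ, h1, hw⟩ : P e := Nat.findGreatest_spec hab hPa
  obtain ⟨hnode, hrank⟩ := node_sup hθ h1 (hn.mono hR le_rfl heb hae) hw
  rcases heb.eq_or_lt with heq | hlt
  · exact ⟨⟨0, fun _ => a, fun _ => b, fun _ => L ⊔ ℝ ∙ θ, rfl, fun _ _ => hab,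
      fun i hi => absurd hi (Nat.not_lt_zero i), rfl, fun _ _ => le_sup_left, fun _ _ => hrank,
      fun _ _ => heq ▸ hnode, fun i hi => absurd hi (Nat.not_lt_zero i)⟩⟩
  have hst : Nonempty (Steer v R₀ T a (e + 1) L) := exists_steer hR hT fun x hx h hwx =>
    Nat.findGreatest_is_greatest (Nat.lt_succ_self e) hlt ⟨x, hx, h, hwx⟩
  obtain ⟨S⟩ := ih (b - (e + 1)) (by omega) (a := e + 1) hlt (hn.mono hR (by omega) le_rfl hlt) rfl
  refine ⟨⟨S.n + 1, fun i => if i = 0 then a else S.cut (i - 1),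
    fun i => if i = 0 then e else S.mid (i - 1),
    fun i => if i = 0 then L ⊔ ℝ ∙ θ else S.frame (i - 1), rfl, ?_, ?_, S.mid_last, ?_, ?_, ?_, ?_⟩⟩
  · rintro (_ | i) hi
    exacts [hae, S.cut_le i (by omega)]
  · rintro (_ | i) hi
    exacts [S.cut_zero, S.cut_succ i (by omega)]
  · rintro (_ | i) hi
    exacts [le_sup_left, S.frame_le i (by omega)]
  · rintro (_ | i) hi
    exacts [hrank, S.frame_rank i (by omega)]
  · rintro (_ | i) hi
    exacts [hnode, S.child i (by omega)]
  · rintro (_ | i) hi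
    · simp only [Nat.zero_add, if_true, Nat.one_ne_zero, if_false, Nat.sub_self, S.cut_zero]
      exact hst
    · exact S.steer i (by omega)

theorem exists_span_coeff {K : Set E} (hc : IsCompact K) (hne : (0 : E) ∈ K) :
    ∃ u : Fin (finrank ℝ (Submodule.span ℝ K)) → E, (∀ i, u i ∈ K) ∧ LinearIndependent ℝ u ∧
      ∀ x ∈ K, ∃ c : Fin (finrank ℝ (Submodule.span ℝ K)) → ℝ, (∀ i, |c i| ≤ 1) ∧
        x = ∑ i, c i • u i := by
  classical
  set S := Submodule.span ℝ K
  set B := Module.finBasis ℝ S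
  set K' : Set S := Subtype.val ⁻¹' K
  have hK' : IsCompact K' :=
    (IsClosed.isClosedEmbedding_subtypeVal S.closed_of_finiteDimensional).isCompact_preimage hc
  have hcont : Continuous fun u : Fin (finrank ℝ S) → S => |B.det u| := by
    refine Continuous.abs ?_
    rw [show ⇑B.det = fun u => (B.toMatrix u).det from funext fun u => B.det_apply u]
    refine Continuous.matrix_det (continuous_matrix fun i j => ?_)
    exact (B.coord i).continuous_of_finiteDimensional.comp (continuous_apply j)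
  obtain ⟨u, hu, hmax⟩ := (isCompact_univ_pi fun _ : Fin (finrank ℝ S) => hK').exists_isMaxOn
    ⟨fun _ => 0, fun _ _ => by simpa [K'] using hne⟩ hcont.continuousOn
  obtain ⟨w, hwK, hwspan, hwli⟩ := Submodule.exists_fun_fin_finrank_span_eq ℝ K
  set w' : Fin (finrank ℝ S) → S := fun i => ⟨w i, Submodule.subset_span (hwK i)⟩
  have hw'li : LinearIndependent ℝ w' := LinearIndependent.of_comp S.subtype hwli
  have hw' : IsUnit (B.det w') := (Module.Basis.is_basis_iff_det B).1
    ⟨hw'li, hw'li.span_eq_top_of_card_eq_finrank' (Fintype.card_fin _)⟩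
  have hle : |B.det w'| ≤ |B.det u| := hmax (fun i _ => hwK i)
  have hu0 : B.det u ≠ 0 := fun h => by
    rw [h, abs_zero] at hle
    exact hw'.ne_zero (abs_nonpos_iff.1 hle)
  obtain ⟨huli, huspan⟩ := (Module.Basis.is_basis_iff_det B).2 (isUnit_iff_ne_zero.2 hu0)
  set U := Module.Basis.mk huli huspan.ge
  refine ⟨fun i => (u i : E), fun i => hu i trivial, huli.map' S.subtype S.ker_subtype,
    fun x hx => ?_⟩
  set x' : S := ⟨x, Submodule.subset_span hx⟩
  have hsum : x' = ∑ i, U.repr x' i • u i := by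
    simpa [U, Module.Basis.coe_mk] using (U.sum_repr x').symm
  refine ⟨fun i => U.repr x' i, fun i => ?_, ?_⟩
  · have hdet : B.det (Function.update u i x') = U.repr x' i * B.det u := by
      conv_lhs => rw [hsum]
      rw [AlternatingMap.map_update_sum, Finset.sum_eq_single i]
      · rw [AlternatingMap.map_update_smul, Function.update_eq_self, smul_eq_mul]
      · intro j _ hj
        rw [AlternatingMap.map_update_smul, B.det.map_update_self u (Ne.symm hj), smul_zero]
      · exact fun h => absurd (Finset.mem_univ i) h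
    have h : |B.det (Function.update u i x')| ≤ |B.det u| := hmax fun j _ => by
      by_cases hj : j = i
      · subst hj; simpa [K'] using hx
      · simpa [Function.update_of_ne hj] using hu j trivial
    rw [hdet, abs_mul] at h
    exact le_of_mul_le_mul_right (by simpa using h) (abs_pos.2 hu0)
  · simpa [x'] using congrArg Subtype.val hsum

theorem exists_killed_basis (v : ℕ → E) {R₀ : ℝ} (hR : 0 ≤ R₀) (a b : ℕ) (L : Submodule ℝ E) :
    ∃ (r : ℕ) (w : Fin r → ℕ → ℝ), r ≤ finrank ℝ E ∧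
      (∀ j, Adm v R₀ a b (w j) ∧ Lᗮ.starProjection (seg v (w j) a b) = 0 ∧
        ∀ i, i ∉ Finset.Ico a b → w j i = 0) ∧
      LinearIndependent ℝ (fun j => seg v (w j) a b) ∧
      ∀ z, Adm v R₀ a b z → Lᗮ.starProjection (seg v z a b) = 0 →
        ∃ c : Fin r → ℝ, (∀ j, |c j| ≤ 1) ∧ seg v z a b = ∑ j, c j • seg v (w j) a b := by
  set D := box v R₀ a b ∩ {z | Lᗮ.starProjection (seg v z a b) = 0}
  set K := (fun z => seg v z a b) '' D
  have hK : IsCompact K := ((isCompact_box v R₀ a b).inter_right (isClosed_eq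
    (Lᗮ.starProjection.continuous.comp (continuous_seg v a b)) continuous_const)).image
      (continuous_seg v a b)
  obtain ⟨u, huK, hli, hu⟩ := exists_span_coeff hK
    ⟨0, ⟨zero_mem_box v hR a b, by simp [seg]⟩, by simp [seg]⟩
  choose w hwD hwu using huK
  refine ⟨_, w, Submodule.finrank_le _,
    fun j => ⟨(hwD j).1.1, (hwD j).2, (hwD j).1.2⟩, by simpa only [hwu] using hli,
    fun z hz hzL => ?_⟩
  obtain ⟨y, hy, hye⟩ := exists_box v hz
  obtain ⟨c, hc, he⟩ := hu (seg v z a b) ⟨y, ⟨hy, by simpa [hye] using hzL⟩, hye⟩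
  exact ⟨c, hc, by simpa only [hwu] using he⟩

end Vale.Agent.P262.Sig
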