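import Vale.Agent.P262.SigGauss

/-!
Bounding a convex function on a parallelepiped by extreme points plus a linear term, and removing
the fast component of a graph.
-/

namespace Vale.Agent.P262.Sig

open MeasureTheory ProbabilityTheory Set Module
open scoped RealInnerProductSpace

variable {E : Type*} [NormedAddCommGroup E] [InnerProductSpace ℝ E] [FiniteDimensional ℝ E]

omit [FiniteDimensional ℝ E] in
lemma segment_bound {φ : E → ℝ} (hφ : Nice φ) (c a : E) {t : ℝ} (ht : |t| ≤ 1) :
    φ (c + t • a) ≤ (φ (c + a) + φ (c - a)) / 2 + t * ((φ (c + a) - φ (c - a)) / 2) := by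
  obtain ⟨h1, h2⟩ := abs_le.1 ht
  have h := hφ.cvx.2 (mem_univ (c + a)) (mem_univ (c - a))
    (show 0 ≤ (1 + t) / 2 by linarith) (show 0 ≤ (1 - t) / 2 by linarith) (by ring)
  rw [show ((1 + t) / 2) • (c + a) + ((1 - t) / 2) • (c - a) = c + t • a by module] at h
  simp only [smul_eq_mul] at h
  linarith

omit [FiniteDimensional ℝ E] in
lemma exists_dual_vec {ι : Type*} [Fintype ι] {u : ι → E} (hu : LinearIndependent ℝ u) (s : ι → ℝ) :
    ∃ p ∈ Submodule.span ℝ (range u), ∀ j, ⟪p, u j⟫ = s j := by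
  set B := Module.Basis.span hu
  have : FiniteDimensional ℝ (Submodule.span ℝ (range u)) := Module.Finite.of_basis B
  set g := LinearMap.toContinuousLinearMap (B.constr ℝ s)
  set p := (InnerProductSpace.toDual ℝ (Submodule.span ℝ (range u))).symm g
  refine ⟨(p : E), p.2, fun j => ?_⟩
  have h : ⟪p, B j⟫ = s j := InnerProductSpace.toDual_symm_apply.trans (B.constr_basis ℝ s j)
  rw [Submodule.coe_inner, Module.Basis.span_apply] at h
  exact h

omit [FiniteDimensional ℝ E] in
theorem exists_interp {φ : E → ℝ} (hφ : Nice φ) (c : E) {r : ℕ} {u : Fin r → E}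
    (hu : LinearIndependent ℝ u) {L : Submodule ℝ E} (hL : ∀ j, u j ∈ L) {Cr : ℝ} (hC : 0 < Cr)
    (hr : 0 < r) :
    ∃ p ∈ L, ∀ x : Fin r → ℝ, (∀ j, |x j| ≤ Cr) →
      φ (c + ∑ j, x j • u j) ≤ (∑ j, (φ (c + (r * Cr) • u j) + φ (c - (r * Cr) • u j)) / 2) / r
        + ⟪p, ∑ j, x j • u j⟫ := by
  set D : ℝ := r * Cr with hD
  have hr' : (0 : ℝ) < r := Nat.cast_pos.2 hr
  obtain ⟨p, hp, hpu⟩ := exists_dual_vec hu fun j => (φ (c + D • u j) - φ (c - D • u j)) / (2 * D)
  refine ⟨p, (Submodule.span_le.2 (Set.range_subset_iff.2 hL)) hp, fun x hx => ?_⟩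
  have e : c + ∑ j, x j • u j = ∑ j : Fin r, (1 / r : ℝ) • (c + (x j / Cr) • (D • u j)) := by
    simp only [smul_add, Finset.sum_add_distrib, Finset.sum_const, Finset.card_univ,
      Fintype.card_fin, ← Nat.cast_smul_eq_nsmul ℝ, smul_smul]
    rw [mul_one_div_cancel hr'.ne', one_smul]
    congr 1
    refine Finset.sum_congr rfl fun j _ => ?_
    congr 1
    rw [hD]; field_simp
  rw [e]
  refine (hφ.cvx.map_sum_le (fun j _ => by positivity)
    (by rw [Finset.sum_const, Finset.card_univ, Fintype.card_fin, nsmul_eq_mul,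
      mul_one_div_cancel hr'.ne']) fun j _ => mem_univ _).trans ?_
  simp only [inner_sum, real_inner_smul_right, hpu, Finset.sum_div, smul_eq_mul,
    ← Finset.sum_add_distrib]
  refine Finset.sum_le_sum fun j _ => ?_
  have ht : |x j / Cr| ≤ 1 := by
    rw [abs_div, abs_of_pos hC, div_le_one hC]; exact hx j
  refine (mul_le_mul_of_nonneg_left (segment_bound hφ c (D • u j) ht) (by positivity)).trans
    (le_of_eq ?_)
  rw [hD]
  field_simp

theorem exists_graph_kill {L P : Submodule ℝ E} (hPL : P ≤ L) (ℓ : E →ₗ[ℝ] E)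
    (hdep : ∀ x, ℓ x = ℓ (Lᗮ.starProjection x))
    (hrange : ∀ x, ℓ x ∈ L) {l₀ : ℝ} (hl : ∀ x, ‖ℓ x‖ ≤ l₀ * ‖x‖) :
    ∃ ρ : E →ₗ[ℝ] E, (∀ c, ρ c ∈ Lᗮ) ∧ (∀ c, ρ c = ρ (Pᗮ.starProjection c)) ∧
      (∀ c, ‖ρ c‖ ≤ l₀ * ‖Pᗮ.starProjection c‖) ∧
      ∀ c, ‖Pᗮ.starProjection (L.starProjection c + ℓ c - ℓ (ρ c) + ρ c)‖
        ≤ ‖Pᗮ.starProjection c‖ := by
  set A : E →ₗ[ℝ] E := (Pᗮ.starProjection : E →ₗ[ℝ] E) ∘ₗ ℓ with hA
  set At : E →ₗ[ℝ] E := LinearMap.adjoint A
  set S : Submodule ℝ E := L ⊓ Pᗮ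
  set Gr : Submodule ℝ E := S.map (LinearMap.id + At)
  set ρ : E →ₗ[ℝ] E := (Lᗮ.starProjection : E →ₗ[ℝ] E) ∘ₗ (Gr.starProjection : E →ₗ[ℝ] E) ∘ₗ
    (Pᗮ.starProjection : E →ₗ[ℝ] E) with hρdef
  have hℓL : ∀ w ∈ L, ℓ w = 0 := fun w hw => by
    rw [hdep, (Lᗮ.starProjection_apply_eq_zero_iff).2
      (by rwa [Submodule.orthogonal_orthogonal]), map_zero]
  have hAL : ∀ w ∈ L, A w = 0 := fun w hw => by simp [hA, hℓL w hw]
  have hAt : ∀ y, At y ∈ Lᗮ := fun y => by
    rw [Submodule.mem_orthogonal]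
    intro w hw
    rw [LinearMap.adjoint_inner_right, hAL w hw, inner_zero_left]
  have hproj : ∀ w ∈ L, Pᗮ.starProjection w ∈ S := fun w hw => by
    refine ⟨?_, Submodule.starProjection_apply_mem _ _⟩
    have e := P.starProjection_add_starProjection_orthogonal w
    rw [show Pᗮ.starProjection w = w - P.starProjection w from eq_sub_of_add_eq' e]
    exact L.sub_mem hw (hPL (Submodule.starProjection_apply_mem _ _))
  have hl₀ : ∀ w : E, w ≠ 0 → 0 ≤ l₀ := fun w hw =>
    nonneg_of_mul_nonneg_left ((norm_nonneg _).trans (hl w)) (norm_pos_iff.2 hw)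
  have key : ∀ c, ∃ y ∈ S, ρ c = At y ∧
      Gr.starProjection (Pᗮ.starProjection c) = y + At y ∧
      Pᗮ.starProjection (L.starProjection c + ℓ c - ℓ (ρ c) + ρ c) = y + At y := by
    intro c
    obtain ⟨y, hy, hx⟩ := Submodule.mem_map.1
      (Submodule.starProjection_apply_mem Gr (Pᗮ.starProjection c))
    change y + At y = _ at hx
    have hρc : ρ c = At y := by
      change Lᗮ.starProjection (Gr.starProjection (Pᗮ.starProjection c)) = _
      rw [← hx, map_add, (Lᗮ.starProjection_apply_eq_zero_iff).2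
        (by rw [Submodule.orthogonal_orthogonal]; exact hy.1), zero_add,
        Submodule.starProjection_eq_self_iff.2 (hAt y)]
    refine ⟨y, hy, hρc, hx.symm, ?_⟩
    rw [hρc]
    have hPt : Pᗮ.starProjection (At y) = At y :=
      Submodule.starProjection_eq_self_iff.2 (Submodule.orthogonal_le hPL (hAt y))
    have hsplit : Pᗮ.starProjection (L.starProjection c + ℓ c - ℓ (At y) + At y)
        = Pᗮ.starProjection (L.starProjection c + ℓ (c - At y)) + At y := by
      rw [map_sub ℓ, map_add, hPt, add_sub_assoc]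
    rw [hsplit]
    congr 1
    have hcomb : L.starProjection c + ℓ (c - At y) ∈ L :=
      L.add_mem (Submodule.starProjection_apply_mem _ _) (hrange _)
    set z := Pᗮ.starProjection (L.starProjection c + ℓ (c - At y)) - y with hz
    have hzS : z ∈ S := S.sub_mem (hproj _ hcomb) hy
    have hz0 : ⟪z, z⟫ = 0 := by
      have hperp := Gr.starProjection_inner_eq_zero (Pᗮ.starProjection c) (z + At z)
        (Submodule.mem_map.2 ⟨z, hzS, rfl⟩)
      have hcz : ⟪Pᗮ.starProjection c, z⟫ = ⟪L.starProjection c, z⟫ := by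
        rw [Submodule.inner_starProjection_left_eq_right,
          Submodule.starProjection_eq_self_iff.2 hzS.2, Submodule.inner_starProjection_left_eq_right,
          Submodule.starProjection_eq_self_iff.2 hzS.1]
      have hyAt : ⟪At y, z⟫ = 0 := Submodule.inner_left_of_mem_orthogonal hzS.1 (hAt y)
      have hAP : A (Pᗮ.starProjection c) = A c := by
        conv_rhs => rw [← P.starProjection_add_starProjection_orthogonal c, map_add,
          hAL _ (hPL (Submodule.starProjection_apply_mem _ _)), zero_add]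
      rw [← hx, inner_add_right, inner_sub_left, inner_add_left, hcz, hyAt,
        LinearMap.adjoint_inner_right, map_sub, map_add, hAP, hAL y hy.1, zero_add] at hperp
      rw [show ⟪z, z⟫ = ⟪Pᗮ.starProjection (L.starProjection c + ℓ (c - At y)) - y, z⟫ from rfl,
        inner_sub_left, Submodule.inner_starProjection_left_eq_right,
        Submodule.starProjection_eq_self_iff.2 hzS.2, inner_add_left]
      have h2 : ⟪ℓ (c - At y), z⟫ = ⟪A (c - At y), z⟫ := by
        rw [show A (c - At y) = Pᗮ.starProjection (ℓ (c - At y)) from rfl,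
          Submodule.inner_starProjection_left_eq_right, Submodule.starProjection_eq_self_iff.2 hzS.2]
      rw [h2, map_sub, inner_sub_left]
      rw [inner_sub_left] at hperp
      linarith
    exact sub_eq_zero.1 (inner_self_eq_zero.1 hz0)
  refine ⟨ρ, fun c => Submodule.starProjection_apply_mem _ _, fun c => ?_, fun c => ?_, fun c => ?_⟩
  · simp only [hρdef, LinearMap.comp_apply, ContinuousLinearMap.coe_coe]
    rw [Submodule.starProjection_eq_self_iff.2 (Pᗮ.starProjection_apply_mem c)]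
  · obtain ⟨y, hy, hρc, hx, -⟩ := key c
    rw [hρc]
    rcases eq_or_ne (Pᗮ.starProjection c) 0 with h | h
    · have h0 : y + At y = 0 := by rw [← hx, h, map_zero]
      have hmem : At y ∈ L := by rw [eq_neg_of_add_eq_zero_right h0]; exact L.neg_mem hy.1
      rw [(L.orthogonal_disjoint.le_bot ⟨hmem, hAt y⟩ : At y = 0), norm_zero, h, norm_zero, mul_zero]
    · have hl' := hl₀ _ h
      have h1 : ‖At y‖ ≤ l₀ * ‖y‖ := by
        rcases eq_or_ne (At y) 0 with h0 | h0
        · rw [h0, norm_zero]; positivity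
        refine le_of_mul_le_mul_right ?_ (norm_pos_iff.2 h0)
        calc ‖At y‖ * ‖At y‖ = ⟪y, A (At y)⟫ := by
              rw [← real_inner_self_eq_norm_mul_norm, LinearMap.adjoint_inner_left]
          _ ≤ ‖y‖ * (l₀ * ‖At y‖) := (real_inner_le_norm _ _).trans (mul_le_mul_of_nonneg_left
              ((Pᗮ.norm_starProjection_apply_le _).trans (hl _)) (norm_nonneg _))
          _ = _ := by ring
      have horth : ⟪y, At y⟫ = 0 := Submodule.inner_right_of_mem_orthogonal hy.1 (hAt y)
      have h2 : ‖y‖ ≤ ‖y + At y‖ := by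
        have := norm_add_sq_eq_norm_sq_add_norm_sq_of_inner_eq_zero y (At y) horth
        nlinarith [norm_nonneg (y + At y), norm_nonneg y, mul_self_nonneg ‖At y‖]
      refine h1.trans (mul_le_mul_of_nonneg_left (h2.trans ?_) hl')
      rw [← hx]
      exact Gr.norm_starProjection_apply_le _
  · obtain ⟨y, hy, -, hx, hc'⟩ := key c
    rw [hc', ← hx]
    exact Gr.norm_starProjection_apply_le _

end Vale.Agent.P262.Sig
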