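import Vale.Agent.P262.SigPar

/-!
Sizes of the numerical parameters.
-/

namespace Vale.Agent.P262.Sig

variable (d : ℕ)

lemma Dn_cast : (Dn d : ℝ) = Dp d := by simp [Dn, Dp]

lemma Dp_ge : 2000 ≤ Dp d := by
  unfold Dp
  have : (0 : ℝ) ≤ d := d.cast_nonneg
  linarith

lemma Dp_pos : 0 < Dp d := lt_of_lt_of_le (by norm_num) (Dp_ge d)

lemma one_le_Dp : 1 ≤ Dp d := le_trans (by norm_num) (Dp_ge d)

lemma nat_le_Dp : ((d : ℝ) + 2) ≤ Dp d / 1000 := by unfold Dp; linarith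

lemma Dp_pow_le {i j : ℕ} (h : i ≤ j) : Dp d ^ i ≤ Dp d ^ j := pow_le_pow_right₀ (one_le_Dp d) h

lemma pW_cast : (pW d : ℝ) = Dp d ^ 64 := by rw [pW, Nat.cast_pow, Dn_cast]

lemma pW_pos : 0 < pW d := Nat.pow_pos (Nat.mul_pos (by norm_num) (Nat.succ_pos _))

lemma pR_pos : 0 < pR d := pow_pos (Dp_pos d) _

lemma pT_pos : 0 < pT d := inv_pos.2 (pow_pos (Dp_pos d) _)

lemma pe_pos : 0 < pe d := inv_pos.2 (pow_pos (Dp_pos d) _)

lemma pcb_pos : 0 < pcb d := inv_pos.2 (pow_pos (Dp_pos d) _)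

lemma pη_pos : 0 < pη d := inv_pos.2 (pow_pos (Dp_pos d) _)

lemma pη_le : pη d ≤ (4000000 : ℝ)⁻¹ := by
  refine inv_anti₀ (by norm_num) ?_
  nlinarith [Dp_ge d]

lemma pu_pos : 0 < pu d := Real.exp_pos _

lemma pLg_pos : 0 < pLg d := Nat.succ_pos _

lemma pLg_le : (pLg d : ℝ) ≤ Dp d ^ 2 := by
  have h : Nat.log 2 (Dn d) ≤ Dn d := Nat.log_le_self _ _
  have h2 : (pLg d : ℝ) ≤ 200 * (Dp d + 1) + 1 := by
    rw [← Dn_cast, pLg]
    push_cast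
    have : (Nat.log 2 (Dn d) : ℝ) ≤ Dn d := by exact_mod_cast h
    linarith
  have h3 := Dp_ge d
  clear h
  revert h2 h3
  generalize (pLg d : ℝ) = y
  generalize Dp d = x
  intro h2 h3
  nlinarith

lemma pu_le : pu d ≤ (Dp d ^ 200)⁻¹ := by
  rw [← Real.exp_log (inv_pos.2 (pow_pos (Dp_pos d) 200)), Real.log_inv, Real.log_pow]
  refine Real.exp_le_exp.2 ?_
  have h : Dp d ≤ (2 : ℝ) ^ (Nat.log 2 (Dn d) + 1) := by
    rw [← Dn_cast]
    exact_mod_cast (Nat.lt_pow_succ_log_self one_lt_two (Dn d)).le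
  have h2 := Real.log_le_log (Dp_pos d) h
  rw [Real.log_pow] at h2
  have h3 : Real.log 2 ≤ 1 := by have := Real.log_two_lt_d9; linarith
  have h4 := mul_le_mul_of_nonneg_left h3 (Nat.cast_nonneg (α := ℝ) (Nat.log 2 (Dn d) + 1))
  rw [pLg]
  push_cast at h2 h4 ⊢
  linarith

lemma pS_le : pS d ≤ Dp d ^ 3 := by
  unfold pS
  rw [Real.sqrt_le_left (pow_nonneg (Dp_pos d).le _)]
  have h1 := pLg_le d
  have h2 := nat_le_Dp d
  have h3 : 48000 * (pLg d : ℝ) * d ≤ 48000 * Dp d ^ 2 * Dp d := by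
    gcongr
    linarith [Dp_pos d]
  have h4 : 48000 * Dp d ^ 2 * Dp d ≤ (Dp d ^ 3) ^ 2 := by
    have : (48000 : ℝ) ≤ Dp d ^ 3 := by nlinarith [Dp_ge d, mul_le_mul (Dp_ge d) (Dp_ge d) (by norm_num) (Dp_pos d).le]
    nlinarith [pow_pos (Dp_pos d) 3]
  linarith

lemma pS_nonneg : 0 ≤ pS d := Real.sqrt_nonneg _

lemma pBc_le : pBc d ≤ Dp d ^ 4 := by
  unfold pBc
  nlinarith [pS_le d, Dp_ge d, pow_pos (Dp_pos d) 3, Dp_pow_le d (show 1 ≤ 3 by norm_num)]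

lemma pBc_ge : 4 ≤ pBc d := by unfold pBc; linarith [pS_nonneg d]

lemma sqrt_tests_le (x : ℕ) : Real.sqrt (48000 * pLg d * ((d : ℝ) - x)) ≤ pS d := by
  refine Real.sqrt_le_sqrt (mul_le_mul_of_nonneg_left ?_ (by positivity))
  linarith [(Nat.cast_nonneg x : (0 : ℝ) ≤ x)]

lemma bdd'_le (r x : ℕ) : bdd' d r x ≤ Dp d ^ 4 := by
  unfold bdd'
  have h1 := (sqrt_tests_le d x).trans (pS_le d)
  have h2 : ((d : ℝ) + 2 - r) * (Dp d ^ 2)⁻¹ ≤ 1 := by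
    rw [← div_eq_mul_inv, div_le_one (pow_pos (Dp_pos d) 2)]
    nlinarith [nat_le_Dp d, Dp_ge d, (Nat.cast_nonneg r : (0 : ℝ) ≤ r)]
  nlinarith [Dp_ge d, pow_pos (Dp_pos d) 3, Dp_pow_le d (show 1 ≤ 3 by norm_num)]

lemma rbd_le (r : ℕ) : rbd d r ≤ Dp d ^ 6 := by
  unfold rbd
  have h2 : ((d : ℝ) + 2 - r) ≤ Dp d := by
    linarith [nat_le_Dp d, Dp_pos d, (Nat.cast_nonneg r : (0 : ℝ) ≤ r)]
  calc ((d : ℝ) + 2 - r) * Dp d ^ 5 ≤ Dp d * Dp d ^ 5 := by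
        exact mul_le_mul_of_nonneg_right h2 (pow_nonneg (Dp_pos d).le _)
    _ = _ := by ring

lemma one_le_growth : 1 ≤ 1 + 10 * pη d := by linarith [pη_pos d]

lemma pσ_ge (r : ℕ) : 12 ≤ pσ d r := by
  unfold pσ
  nlinarith [one_le_pow₀ (n := d + 1 - r) (one_le_growth d)]

lemma pσ_anti {r r' : ℕ} (h : r ≤ r') : pσ d r' ≤ pσ d r :=
  mul_le_mul_of_nonneg_left (pow_le_pow_right₀ (one_le_growth d) (by omega)) (by norm_num)

lemma pσ_le (r : ℕ) : pσ d r ≤ 24 := by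
  unfold pσ
  have h0 := pη_pos d
  have h : (1 + 10 * pη d) ^ (d + 1 - r) ≤ Real.exp ((d + 1 - r : ℕ) * (10 * pη d)) := by
    rw [Real.exp_nat_mul]
    exact pow_le_pow_left₀ (by positivity) (by linarith [Real.add_one_le_exp (10 * pη d)]) _
  have h2 : ((d + 1 - r : ℕ) : ℝ) * (10 * pη d) ≤ Real.log 2 := by
    have e : ((d + 1 - r : ℕ) : ℝ) ≤ Dp d := by
      refine le_trans (Nat.cast_le.2 (Nat.sub_le _ _)) ?_
      push_cast
      linarith [nat_le_Dp d, Dp_pos d]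
    refine le_trans (mul_le_mul_of_nonneg_right e (by positivity)) ?_
    have : Dp d * (10 * pη d) = 10 / Dp d := by
      unfold pη
      field_simp
    rw [this, div_le_iff₀ (Dp_pos d)]
    nlinarith [Real.log_two_gt_d9, Dp_ge d]
  have := Real.exp_le_exp.2 h2
  rw [Real.exp_log two_pos] at this
  linarith

lemma pf_one_le (r : ℕ) : 1 ≤ pf d r := one_le_pow₀ (le_add_of_nonneg_right (by positivity))

lemma pf_le {r : ℕ} (hr : r ≤ d) : pf d r ≤ 3 / 2 := by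
  unfold pf
  set h : ℝ := (4 * ((d : ℝ) + 2))⁻¹
  have h0 : 0 ≤ h := by positivity
  have h1 : (1 + h) ^ (r + 1) ≤ Real.exp ((r + 1 : ℕ) * h) := by
    rw [Real.exp_nat_mul]
    exact pow_le_pow_left₀ (by positivity) (by linarith [Real.add_one_le_exp h]) _
  have h2 : ((r + 1 : ℕ) : ℝ) * h ≤ 1 / 4 := by
    rw [← div_eq_mul_inv, div_le_iff₀ (by positivity)]
    have : (r : ℝ) ≤ d := by exact_mod_cast hr
    push_cast
    linarith
  have h3 := (h1.trans (Real.exp_le_exp.2 h2))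
  have h4 := Real.exp_bound_div_one_sub_of_interval (x := (1 : ℝ) / 4) (by norm_num) (by norm_num)
  norm_num at h4
  linarith

lemma pρ_pos (r : ℕ) : 0 < pρ d r :=
  mul_pos (by positivity) (inv_pos.2 (pow_pos (Dp_pos d) _))

lemma pρ_le {r : ℕ} (hr : r ≤ d) : pρ d r ≤ (Dp d ^ 3)⁻¹ := by
  unfold pρ
  have : (r : ℝ) ≤ d := by exact_mod_cast hr
  calc ((r : ℝ) + 1) * (Dp d ^ 4)⁻¹ ≤ Dp d * (Dp d ^ 4)⁻¹ :=
        mul_le_mul_of_nonneg_right (by linarith [nat_le_Dp d, Dp_pos d])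
          (inv_nonneg.2 (pow_nonneg (Dp_pos d).le _))
    _ = _ := by have := Dp_pos d; field_simp

end Vale.Agent.P262.Sig
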