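import Vale.Agent.P262.SigExp
import Vale.Agent.P262.SigNum
import Vale.Agent.P262.SigInterp

/-!
A long node: its windows, their slow effects, the rotation and deflation shifts.
-/

namespace Vale.Agent.P262.Sig

open MeasureTheory ProbabilityTheory Set Module
open scoped RealInnerProductSpace

set_option linter.unusedSectionVars false

variable {E : Type} [NormedAddCommGroup E] [InnerProductSpace ℝ E] [FiniteDimensional ℝ E]
  [MeasurableSpace E] [BorelSpace E]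

/-- Covariance factor of the seeds of a window. -/
noncomputable def fWin (d r : ℕ) : ℝ := (1 + (8 * ((d : ℝ) + 2))⁻¹) * pf d r

/-- Drift variance of the seeds of a window. -/
noncomputable def rWin (d r : ℕ) : ℝ := pρ d r + (2 * Dp d ^ 4)⁻¹

/-- Deflation strength. -/
noncomputable def pz (d : ℕ) : ℝ := Dp d ^ 20

/-- The windows of a long node: the first transparent, the others run from real states. -/
structure Long (v : ℕ → E) (N : ℕ) (X R P L : Submodule ℝ E) (σ : ℝ) (d r x a b : ℕ)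
    (e₀ e₁ e₂ : ℝ) where
  hd : finrank ℝ E = d
  hr : finrank ℝ L = r
  hrd : r < d
  hx : finrank ℝ X = x
  hXR : X ≤ R
  hRP : R ≤ P
  hPL : P ≤ L
  hv : ∀ i, ‖v i‖ ≤ 1
  hσ : pσ d r ≤ σ
  hσ' : σ ≤ 24
  node : Node v (pR d) (pT d) a b L
  hN : b ≤ N
  J : ℕ
  hJ : 2 ≤ J
  k : ℕ → ℕ
  k_zero : k 0 = a
  k_last : k (J + 1) = b
  op₀ : Op v N X R L σ (bdd' d (r + 1) x) (rbd d (r + 1)) (Bdn d r 1) (Cdn d r 1) (k 0) (k 1)
  kill₀ : ∀ c, Lᗮ.starProjection (c + seg v (op₀.Z c) (k 0) (k 1)) = 0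
  small₀ : Small v R (k 0) (k 1) (fWin d r) (rWin d r) op₀.G e₀
  op₁ : Op v N X L L (pσ d (r + 1)) (bdd' d (r + 1) x) (rbd d (r + 1)) (Bdn d r 1) (Cdn d r 1)
    (k 1) (k 2)
  kill₁ : ∀ c, Lᗮ.starProjection (c + seg v (op₁.Z c) (k 1) (k 2)) = 0
  small₁ : Small v L (k 1) (k 2) (fWin d r) (rWin d r) op₁.G e₁
  ops : ∀ j, 2 ≤ j → j ≤ J → Op v N L L L (pσ d (r + 1)) (bdd' d (r + 1) r) (rbd d (r + 1))
    (Bdn d r 1) (Cdn d r 1) (k j) (k (j + 1))
  kill : ∀ j h1 h2 c, Lᗮ.starProjection (c + seg v ((ops j h1 h2).Z c) (k j) (k (j + 1))) = 0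
  small : ∀ j h1 h2, Small v L (k j) (k (j + 1)) (fWin d r) (rWin d r) (ops j h1 h2).G e₂

namespace Long

variable {v : ℕ → E} {N : ℕ} {X R P L : Submodule ℝ E} {σ : ℝ} {d r x a b : ℕ} {e₀ e₁ e₂ : ℝ}
  (D : Long v N X R P L σ d r x a b e₀ e₁ e₂)

/-- The shift map of block `j`. -/
noncomputable def Zb (j : ℕ) : E →ₗ[ℝ] (ℕ → ℝ) :=
  if j = 0 then D.op₀.Z else if j = 1 then D.op₁.Z else
    if h : 2 ≤ j ∧ j ≤ D.J then (D.ops j h.1 h.2).Z else 0

lemma block {p : (E →ₗ[ℝ] (ℕ → ℝ)) → ℕ → ℕ → Prop} (h0 : p D.op₀.Z (D.k 0) (D.k 1))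
    (h1 : p D.op₁.Z (D.k 1) (D.k 2))
    (h2 : ∀ j h1 h2, p (D.ops j h1 h2).Z (D.k j) (D.k (j + 1))) (j : ℕ) (hj : j ≤ D.J) :
    p (D.Zb j) (D.k j) (D.k (j + 1)) := by
  unfold Zb
  by_cases hj0 : j = 0
  · subst hj0; simpa using h0
  by_cases hj1 : j = 1
  · subst hj1; simpa using h1
  rw [if_neg hj0, if_neg hj1, dif_pos ⟨by omega, hj⟩]
  exact h2 j _ _

lemma k_le {j : ℕ} (hj : j ≤ D.J) : D.k j ≤ D.k (j + 1) :=
  D.block (p := fun _ s t => s ≤ t) D.op₀.le D.op₁.le (fun j h1 h2 => (D.ops j h1 h2).le) j hj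

lemma k_mono {i j : ℕ} (hij : i ≤ j) (hj : j ≤ D.J + 1) : D.k i ≤ D.k j := by
  induction j, hij using Nat.le_induction with
  | base => exact le_rfl
  | succ n hn ih => exact (ih (by omega)).trans (D.k_le (by omega))

lemma le_k {j : ℕ} (hj : j ≤ D.J + 1) : a ≤ D.k j :=
  le_of_eq_of_le D.k_zero.symm (D.k_mono (Nat.zero_le j) hj)

lemma k_le_b {j : ℕ} (hj : j ≤ D.J + 1) : D.k j ≤ b :=
  le_of_le_of_eq (D.k_mono hj le_rfl) D.k_last

include D in
lemma hab : a ≤ b := le_of_le_of_eq (D.le_k le_rfl) D.k_last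

lemma Zb_dep {j : ℕ} (hj : j ≤ D.J) (c : E) : D.Zb j c = D.Zb j (Lᗮ.starProjection c) :=
  D.block (p := fun Z _ _ => Z c = Z (Lᗮ.starProjection c)) (D.op₀.dep c) (D.op₁.dep c)
    (fun j h1 h2 => (D.ops j h1 h2).dep c) j hj

lemma Zb_supp {j : ℕ} (hj : j ≤ D.J) (c : E) {i : ℕ} (hi : i ∉ Finset.Ico (D.k j) (D.k (j + 1))) :
    D.Zb j c i = 0 :=
  D.block (p := fun Z s t => i ∉ Finset.Ico s t → Z c i = 0) (D.op₀.supp c i) (D.op₁.supp c i)
    (fun j h1 h2 => (D.ops j h1 h2).supp c i) j hj hi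

lemma Zb_coef {j : ℕ} (hj : j ≤ D.J) (c : E) (i : ℕ) :
    |D.Zb j c i| ≤ (Cdn d r 1).z * ‖Lᗮ.starProjection c‖ :=
  D.block (p := fun Z _ _ => |Z c i| ≤ (Cdn d r 1).z * ‖Lᗮ.starProjection c‖) (D.op₀.coef c i)
    (D.op₁.coef c i) (fun j h1 h2 => (D.ops j h1 h2).coef c i) j hj

lemma Zb_pref {j : ℕ} (hj : j ≤ D.J) (c : E) {i : ℕ}
    (hi : i ∈ Finset.Icc (D.k j) (D.k (j + 1))) :
    ‖Lᗮ.starProjection (c + seg v (D.Zb j c) (D.k j) i)‖
      ≤ (Cdn d r 1).p * ‖Lᗮ.starProjection c‖ :=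
  D.block (p := fun Z s t => i ∈ Finset.Icc s t →
    ‖Lᗮ.starProjection (c + seg v (Z c) s i)‖ ≤ (Cdn d r 1).p * ‖Lᗮ.starProjection c‖)
    (D.op₀.pref c i) (D.op₁.pref c i) (fun j h1 h2 => (D.ops j h1 h2).pref c i) j hj hi

lemma Zb_kill {j : ℕ} (hj : j ≤ D.J) (c : E) :
    Lᗮ.starProjection (c + seg v (D.Zb j c) (D.k j) (D.k (j + 1))) = 0 :=
  D.block (p := fun Z s t => Lᗮ.starProjection (c + seg v (Z c) s t) = 0) (D.kill₀ c) (D.kill₁ c)
    (fun j h1 h2 => D.kill j h1 h2 c) j hj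

/-- The slow effect of block `j`. -/
noncomputable def ell (j : ℕ) : E →L[ℝ] E :=
  LinearMap.toContinuousLinearMap
    (L.starProjection.toLinearMap ∘ₗ segLin v (D.k j) (D.k (j + 1)) ∘ₗ D.Zb j ∘ₗ
      Lᗮ.starProjection.toLinearMap)

lemma ell_apply {j : ℕ} (hj : j ≤ D.J) (c : E) :
    D.ell j c = L.starProjection (seg v (D.Zb j c) (D.k j) (D.k (j + 1))) := by
  simp only [ell, LinearMap.coe_toContinuousLinearMap', LinearMap.comp_apply,
    ContinuousLinearMap.coe_coe]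
  rw [← D.Zb_dep hj c]
  rfl

lemma ell_dep (j : ℕ) (c : E) : D.ell j c = D.ell j (Lᗮ.starProjection c) := by
  simp only [ell, LinearMap.coe_toContinuousLinearMap', LinearMap.comp_apply,
    ContinuousLinearMap.coe_coe]
  rw [Submodule.starProjection_eq_self_iff.2 (Lᗮ.starProjection_apply_mem c)]

lemma ell_mem (j : ℕ) (c : E) : D.ell j c ∈ L := by
  simp only [ell, LinearMap.coe_toContinuousLinearMap', LinearMap.comp_apply,
    ContinuousLinearMap.coe_coe]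
  exact L.starProjection_apply_mem _

lemma seg_Zb {j : ℕ} (hj : j ≤ D.J) (c : E) :
    seg v (D.Zb j c) (D.k j) (D.k (j + 1)) = D.ell j c - Lᗮ.starProjection c := by
  have h := D.Zb_kill hj c
  rw [map_add] at h
  have e := Submodule.starProjection_add_starProjection_orthogonal (K := L)
    (seg v (D.Zb j c) (D.k j) (D.k (j + 1)))
  rw [← D.ell_apply hj, eq_neg_of_add_eq_zero_right h] at e
  rw [sub_eq_add_neg]
  exact e.symm

include D in
lemma sizes : 0 ≤ (Cdn d r 1).z ∧ 2 * (Cdn d r 1).z ≤ 1 ∧ 1 ≤ (Cdn d r 1).p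
    ∧ 2 * ((Cdn d r 1).p + 1) ≤ pR d ∧ 2 * ((finrank ℝ E : ℝ) * pT d + 1) ≤ pR d := by
  have hr' : (r : ℝ) + 1 ≤ d := by exact_mod_cast D.hrd
  have h0 := (Nat.cast_nonneg r : (0 : ℝ) ≤ r)
  have h1 := nat_le_Dp d
  have h2 := Dp_ge d
  have h3 : Dp d ≤ pR d := le_self_pow₀ (one_le_Dp d) (by norm_num)
  have h4 : pT d ≤ (Dp d)⁻¹ := inv_anti₀ (Dp_pos d) (le_self_pow₀ (one_le_Dp d) (by norm_num))
  refine ⟨mul_nonneg (by push_cast; linarith) (inv_nonneg.2 (pow_nonneg (Dp_pos d).le _)), ?_, ?_, ?_, ?_⟩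
  · simp only [Cdn]
    push_cast
    rw [← mul_assoc, ← div_eq_mul_inv, div_le_one (pow_pos (Dp_pos d) 2)]
    nlinarith
  · simp only [Cdn]; push_cast; linarith
  · simp only [Cdn]; push_cast; linarith
  · rw [D.hd]
    have : (d : ℝ) * pT d ≤ 1 := by
      refine le_trans (mul_le_mul_of_nonneg_left h4 d.cast_nonneg) ?_
      rw [← div_eq_mul_inv, div_le_one (Dp_pos d)]
      linarith
    linarith

lemma ell_norm {j : ℕ} (hj : j ≤ D.J) (c : E) :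
    ‖D.ell j c‖ ≤ (d : ℝ) * pT d * ‖Lᗮ.starProjection c‖ := by
  obtain ⟨hz0, hz, hp1, hp, hR⟩ := D.sizes
  have hd : (finrank ℝ E : ℝ) = d := by exact_mod_cast D.hd
  rw [D.ell_apply hj]
  set M := ‖Lᗮ.starProjection c‖
  have hM : 0 ≤ M := norm_nonneg _
  have hn := D.node.mono (pR_pos d).le (D.le_k (hj.trans (Nat.le_succ _)))
    (D.k_le_b (Nat.succ_le_succ hj)) (D.k_le hj)
  refine (slow_scale D.hv hn (pT_pos d).le hR (M := M) hM (fun i _ => (D.Zb_coef hj c i).trans ?_)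
    (fun i hi => ?_) (D.k (j + 1)) (Finset.mem_Icc.2 ⟨D.k_le hj, le_rfl⟩)).trans ?_
  · nlinarith
  · have h := D.Zb_pref hj c hi
    rw [map_add] at h
    have := norm_le_add_norm_add (Lᗮ.starProjection (seg v (D.Zb j c) (D.k j) i))
      (Lᗮ.starProjection c)
    rw [add_comm] at h
    nlinarith
  · have : (finrank ℝ L : ℝ) ≤ finrank ℝ E := by exact_mod_cast L.finrank_le
    rw [hd] at this
    nlinarith [mul_nonneg hM (pT_pos d).le]

lemma exists_fix : ∃ ρ : E →ₗ[ℝ] E, (∀ c, ρ c ∈ Lᗮ) ∧ (∀ c, ρ c = ρ (Pᗮ.starProjection c)) ∧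
    (∀ c, ‖ρ c‖ ≤ (d : ℝ) * pT d * ‖Pᗮ.starProjection c‖) ∧
    ∀ c, ‖Pᗮ.starProjection (L.starProjection c + D.ell 0 c - D.ell 0 (ρ c) + ρ c)‖
      ≤ ‖Pᗮ.starProjection c‖ :=
  exists_graph_kill D.hPL (D.ell 0).toLinearMap (D.ell_dep 0) (D.ell_mem 0) fun c =>
    (D.ell_norm (Nat.zero_le _) c).trans (mul_le_mul_of_nonneg_left
      (Submodule.norm_starProjection_apply_le _ _) (mul_nonneg d.cast_nonneg (pT_pos d).le))

/-- The fast offset that makes the mean map a contraction. -/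
noncomputable def fix : E →ₗ[ℝ] E := D.exists_fix.choose

/-- Its shift. -/
noncomputable def U₀ : E →ₗ[ℝ] (ℕ → ℝ) := -(D.op₀.Z ∘ₗ D.fix)

lemma exists_basis : ∃ r' : ℕ, ∃ w : Fin r' → ℕ → ℝ, r' ≤ finrank ℝ E ∧
    (∀ j, Adm v (pR d) (D.k 1) b (w j) ∧ Lᗮ.starProjection (seg v (w j) (D.k 1) b) = 0 ∧
      ∀ i, i ∉ Finset.Ico (D.k 1) b → w j i = 0) ∧
    LinearIndependent ℝ (fun j => seg v (w j) (D.k 1) b) ∧
    ∀ z, Adm v (pR d) (D.k 1) b z → Lᗮ.starProjection (seg v z (D.k 1) b) = 0 →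
      ∃ c : Fin r' → ℝ, (∀ j, |c j| ≤ 1) ∧
        seg v z (D.k 1) b = ∑ j, c j • seg v (w j) (D.k 1) b :=
  exists_killed_basis v (pR_pos d).le (D.k 1) b L

/-- The number of killed basis signings. -/
noncomputable def r' : ℕ := D.exists_basis.choose

/-- The killed basis signings. -/
noncomputable def w : Fin D.r' → ℕ → ℝ := D.exists_basis.choose_spec.choose

/-- Their slow displacements. -/
noncomputable def u (j : Fin D.r') : E := seg v (D.w j) (D.k 1) b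

lemma w_spec : D.r' ≤ finrank ℝ E ∧
    (∀ j, Adm v (pR d) (D.k 1) b (D.w j) ∧ Lᗮ.starProjection (D.u j) = 0 ∧
      ∀ i, i ∉ Finset.Ico (D.k 1) b → D.w j i = 0) ∧
    LinearIndependent ℝ D.u ∧
    ∀ z, Adm v (pR d) (D.k 1) b z → Lᗮ.starProjection (seg v z (D.k 1) b) = 0 →
      ∃ c : Fin D.r' → ℝ, (∀ j, |c j| ≤ 1) ∧ seg v z (D.k 1) b = ∑ j, c j • D.u j :=
  D.exists_basis.choose_spec.choose_spec

lemma u_mem (j : Fin D.r') : D.u j ∈ L := by
  have h := (D.w_spec.2.1 j).2.1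
  rw [← Submodule.starProjection_add_starProjection_orthogonal (K := L) (D.u j), h, add_zero]
  exact L.starProjection_apply_mem _

/-- The shift applied from the state after the first window: rotation and deflation. -/
noncomputable def W₁ : E →ₗ[ℝ] (ℕ → ℝ) :=
  -(D.Zb 1 ∘ₗ (ContinuousLinearMap.adjoint (D.ell D.J)).toLinearMap ∘ₗ L.starProjection.toLinearMap)
    - (pη d * pz d) • ∑ j, ((innerSL ℝ (D.u j)).toLinearMap).smulRight (D.w j)

end Long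

end Vale.Agent.P262.Sig
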