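import Vale.Agent.P262.Gauss
import Vale.Agent.P262.SigGauss

/-!
One rotation step: a Gaussian vector pushed towards a frame, sheared, contracted along the vectors
`u j`, perturbed by a random sign and with refreshed orthogonal part is dominated by the original
one.
-/

namespace Vale.Agent.P262.Sig

open MeasureTheory ProbabilityTheory Set Module ContinuousLinearMap
open scoped RealInnerProductSpace

variable {E : Type*} [NormedAddCommGroup E] [InnerProductSpace ℝ E] [FiniteDimensional ℝ E]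

/-- `∑ j, ⟪u j, ·⟫ • u j`. -/
private noncomputable def rankOp {r : ℕ} (u : Fin r → E) : E →L[ℝ] E :=
  ∑ j, (innerSL ℝ (u j)).smulRight (u j)

omit [FiniteDimensional ℝ E] in
private lemma rankOp_apply {r : ℕ} (u : Fin r → E) (g : E) :
    rankOp u g = ∑ j, ⟪u j, g⟫ • u j := by
  simp [rankOp]

/-- The map acting on the old Gaussian vector. -/
private noncomputable def rotA (L : Submodule ℝ E) (ℓ M : E →L[ℝ] E) {r : ℕ} (u : Fin r → E)
    (z : ℝ) : E →L[ℝ] E :=
  L.starProjection + ℓ.comp (Lᗮ.starProjection - (adjoint ℓ).comp L.starProjection)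
    + (adjoint ℓ).comp L.starProjection
    + M.comp (Lᗮ.starProjection - (adjoint ℓ).comp L.starProjection) - z • rankOp u

/-- The map acting on the new Gaussian vector. -/
private noncomputable def rotB (L : Submodule ℝ E) (ℓ : E →L[ℝ] E) : E →L[ℝ] E :=
  Lᗮ.starProjection - ℓ

section cov

variable {L : Submodule ℝ E} {ℓ M : E →L[ℝ] E} {r : ℕ} {u : Fin r → E} {z : ℝ}
  (hℓd : ∀ x, ℓ x = ℓ (Lᗮ.starProjection x)) (hℓr : ∀ x, ℓ x ∈ L)
  (hMd : ∀ x, M x = M (Lᗮ.starProjection x)) (hMr : ∀ x, M x ∈ L) (hu : ∀ j, u j ∈ L)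

omit [FiniteDimensional ℝ E] in
private lemma inner_of_mem {T : E →L[ℝ] E} [CompleteSpace E] [L.HasOrthogonalProjection]
    (hr : ∀ x, T x ∈ L) (x y : E) : ⟪T x, y⟫ = ⟪T x, L.starProjection y⟫ := by
  conv_lhs => rw [← Submodule.starProjection_eq_self_iff.2 (hr x)]
  exact Submodule.inner_starProjection_left_eq_right _ _ _

private lemma adjoint_proj {T : E →L[ℝ] E} (hr : ∀ x, T x ∈ L) (y : E) :
    adjoint T (L.starProjection y) = adjoint T y := by
  refine ext_inner_left ℝ fun x => ?_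
  rw [adjoint_inner_right, adjoint_inner_right, ← inner_of_mem hr]

private lemma proj_adjoint {T : E →L[ℝ] E} (hd : ∀ x, T x = T (Lᗮ.starProjection x)) (y : E) :
    Lᗮ.starProjection (adjoint T y) = adjoint T y := by
  refine ext_inner_left ℝ fun x => ?_
  rw [← Submodule.inner_starProjection_left_eq_right, adjoint_inner_right, adjoint_inner_right,
    ← hd]

include hℓr in
private lemma adjoint_rotB (l : E) :
    adjoint (rotB L ℓ) l = Lᗮ.starProjection l - adjoint ℓ (L.starProjection l) := by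
  refine ext_inner_left ℝ fun x => ?_
  rw [adjoint_inner_right, inner_sub_right, adjoint_inner_right, ← inner_of_mem hℓr,
    ← Submodule.inner_starProjection_left_eq_right, rotB, sub_apply, inner_sub_left]

include hℓd hℓr hMd hMr hu in
private lemma adjoint_rotA (l : E) :
    adjoint (rotA L ℓ M u z) l =
      (L.starProjection l + ℓ (adjoint (rotB L ℓ) l) - ℓ (adjoint M (L.starProjection l))
        - z • rankOp u (L.starProjection l))
      + (adjoint ℓ (L.starProjection l) + adjoint M (L.starProjection l)) := by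
  rw [adjoint_rotB hℓr]
  refine ext_inner_left ℝ fun x => ?_
  have hU : ⟪rankOp u x, l⟫ = ⟪x, rankOp u (L.starProjection l)⟫ := by
    rw [rankOp_apply, rankOp_apply, sum_inner, inner_sum]
    refine Finset.sum_congr rfl fun j _ => ?_
    rw [real_inner_smul_left, real_inner_smul_right, ← Submodule.inner_starProjection_left_eq_right,
      Submodule.starProjection_eq_self_iff.2 (hu j), real_inner_comm x (u j), mul_comm]
  have hT : ∀ T : E →L[ℝ] E, (∀ y, T y ∈ L) → (∀ y, T y = T (Lᗮ.starProjection y)) →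
      ⟪T (Lᗮ.starProjection x - adjoint ℓ (L.starProjection x)), l⟫ =
        ⟪x, adjoint T (L.starProjection l) - ℓ (adjoint T (L.starProjection l))⟫ := by
    intro T hr hd
    rw [← adjoint_inner_right T, adjoint_proj hr, inner_sub_left, inner_sub_right,
      Submodule.inner_starProjection_left_eq_right, proj_adjoint hd, adjoint_inner_left,
      Submodule.inner_starProjection_left_eq_right,
      Submodule.starProjection_eq_self_iff.2 (hℓr _)]
  have h4 : ⟪adjoint ℓ (L.starProjection x), l⟫ = ⟪x, ℓ (Lᗮ.starProjection l)⟫ := by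
    rw [adjoint_inner_left, Submodule.inner_starProjection_left_eq_right,
      Submodule.starProjection_eq_self_iff.2 (hℓr _), ← hℓd]
  rw [adjoint_inner_right]
  simp only [rotA, sub_apply, add_apply, comp_apply, FunLike.coe_smul, Pi.smul_apply,
    inner_sub_left, inner_add_left, real_inner_smul_left]
  rw [hT ℓ hℓr hℓd, hT M hMr hMd, h4, hU]
  simp only [Submodule.inner_starProjection_left_eq_right, map_sub, inner_add_right,
    inner_sub_right, real_inner_smul_right]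
  ring

include hℓd hℓr hMd hMr hu in
private lemma rot_cov {l₀ Cl κ σ s : ℝ} (hl : ∀ x, ‖ℓ x‖ ≤ l₀ * ‖x‖)
    (hM : ∀ x y, |⟪M x, y⟫| ≤ Cl * ‖x‖ * Real.sqrt (∑ j, ⟪u j, y⟫ ^ 2))
    (hσ : 0 < σ) (hz0 : 0 ≤ z) (hl0 : 0 ≤ l₀) (hl1 : l₀ ≤ 1 / 4) (hCl : 0 ≤ Cl)
    (hz : 2 * Cl ^ 2 + 9 * κ ^ 2 / σ ^ 2 ≤ z) (hzu : z * ∑ j, ‖u j‖ ^ 2 ≤ 1 / 4)
    (hs : s ^ 2 + 3 * l₀ ^ 2 * σ ^ 2 ≤ σ ^ 2) (l : E) {T : ℝ}
    (hT : T ≤ κ ^ 2 * ∑ j, ⟪u j, L.starProjection l⟫ ^ 2) :
    σ ^ 2 * ‖adjoint (rotA L ℓ M u z) l‖ ^ 2 + (s ^ 2 * ‖adjoint (rotB L ℓ) l‖ ^ 2 + 9 * T)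
      ≤ σ ^ 2 * ‖l‖ ^ 2 := by
  have hf := adjoint_rotB hℓr l
  rw [adjoint_rotA hℓd hℓr hMd hMr hu]
  set w := adjoint (rotB L ℓ) l
  set y := L.starProjection l
  set p := adjoint ℓ y
  set e := adjoint M y
  set S := ∑ j, ⟪u j, y⟫ ^ 2 with hS
  have hS0 : 0 ≤ S := Finset.sum_nonneg fun j _ => sq_nonneg _
  have hy : y ∈ L := L.starProjection_apply_mem l
  have hp : p ∈ Lᗮ := Submodule.starProjection_eq_self_iff.1 (proj_adjoint hℓd y)
  have he : e ∈ Lᗮ := Submodule.starProjection_eq_self_iff.1 (proj_adjoint hMd y)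
  have hU : rankOp u y ∈ L := by
    rw [rankOp_apply]
    exact L.sum_mem fun j _ => L.smul_mem _ (hu j)
  set Y := y + ℓ w - ℓ e - z • rankOp u y with hY
  have hYm : Y ∈ L := L.sub_mem (L.sub_mem (L.add_mem hy (hℓr _)) (hℓr _)) (L.smul_mem _ hU)
  have pyth : ∀ a ∈ L, ∀ b ∈ Lᗮ, ‖a + b‖ ^ 2 = ‖a‖ ^ 2 + ‖b‖ ^ 2 := fun a ha b hb => by
    rw [norm_add_sq_real, Submodule.inner_right_of_mem_orthogonal ha hb]; ring
  have hl2 : ‖l‖ ^ 2 = ‖y‖ ^ 2 + ‖w + p‖ ^ 2 := by
    rw [hf, sub_add_cancel, ← pyth _ hy _ (Lᗮ.starProjection_apply_mem l),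
      L.starProjection_add_starProjection_orthogonal]
  have hyU : ⟪y, rankOp u y⟫ = S := by
    rw [rankOp_apply, inner_sum, hS]
    exact Finset.sum_congr rfl fun j _ => by
      rw [real_inner_smul_right, real_inner_comm (u j) y]; ring
  have hUn : ‖rankOp u y‖ ^ 2 ≤ (∑ j, ‖u j‖ ^ 2) * S := by
    rw [rankOp_apply]
    refine le_trans (pow_le_pow_left₀ (norm_nonneg _) (norm_sum_le _ _) 2) ?_
    refine le_trans (le_of_eq ?_) (Finset.sum_mul_sq_le_sq_mul_sq Finset.univ (fun j => ‖u j‖) fun j => |⟪u j, y⟫|)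
      |>.trans (le_of_eq (by simp [hS]))
    simp [norm_smul, mul_comm]
  have hen : ‖e‖ ^ 2 ≤ Cl ^ 2 * S := by
    have h := hM e y
    rw [← adjoint_inner_right, real_inner_self_eq_norm_sq,
      abs_of_nonneg (sq_nonneg _), sq, mul_right_comm] at h
    have h1 : ‖e‖ ≤ Cl * Real.sqrt S := by
      rcases (norm_nonneg e).eq_or_lt with h0 | h0
      · rw [← h0]; positivity
      · exact le_of_mul_le_mul_right h h0
    calc ‖e‖ ^ 2 ≤ (Cl * Real.sqrt S) ^ 2 := pow_le_pow_left₀ (norm_nonneg _) h1 2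
      _ = _ := by rw [mul_pow, Real.sq_sqrt hS0]
  have hR : ‖ℓ w - ℓ e - z • rankOp u y‖ ^ 2 ≤
      3 * (l₀ ^ 2 * ‖w‖ ^ 2 + l₀ ^ 2 * ‖e‖ ^ 2 + z ^ 2 * ‖rankOp u y‖ ^ 2) := by
    have h1 := norm_sub_le (ℓ w - ℓ e) (z • rankOp u y)
    have h2 := norm_sub_le (ℓ w) (ℓ e)
    rw [norm_smul, Real.norm_of_nonneg hz0] at h1
    have h3 : ‖ℓ w - ℓ e - z • rankOp u y‖ ≤ l₀ * ‖w‖ + l₀ * ‖e‖ + z * ‖rankOp u y‖ := by
      linarith [hl w, hl e]
    refine (pow_le_pow_left₀ (norm_nonneg _) h3 2).trans ?_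
    nlinarith [sq_nonneg (l₀ * ‖w‖ - l₀ * ‖e‖), sq_nonneg (l₀ * ‖w‖ - z * ‖rankOp u y‖),
      sq_nonneg (l₀ * ‖e‖ - z * ‖rankOp u y‖)]
  have hYn : ‖Y‖ ^ 2 = ‖y‖ ^ 2 + 2 * ⟪p, w⟫ - 2 * ⟪p, e⟫ - 2 * z * S
      + ‖ℓ w - ℓ e - z • rankOp u y‖ ^ 2 := by
    rw [show Y = y + (ℓ w - ℓ e - z • rankOp u y) by rw [hY]; abel, norm_add_sq_real,
      inner_sub_right, inner_sub_right, real_inner_smul_right, hyU,
      show ⟪y, ℓ w⟫ = ⟪p, w⟫ from (adjoint_inner_left ℓ w y).symm,
      show ⟪y, ℓ e⟫ = ⟪p, e⟫ from (adjoint_inner_left ℓ e y).symm]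
    ring
  rw [pyth _ hYm _ (Lᗮ.add_mem hp he), hYn, hl2, norm_add_sq_real p e, norm_add_sq_real w p,
    real_inner_comm w p]
  have hz' : 9 * κ ^ 2 + 2 * Cl ^ 2 * σ ^ 2 ≤ z * σ ^ 2 := by
    have := mul_le_mul_of_nonneg_right hz (sq_nonneg σ)
    rwa [add_mul, div_mul_cancel₀ _ (by positivity), add_comm] at this
  have a1 : σ ^ 2 * (z ^ 2 * ‖rankOp u y‖ ^ 2) ≤ σ ^ 2 * (z * (1 / 4) * S) := by
    refine mul_le_mul_of_nonneg_left ?_ (sq_nonneg σ)
    calc z ^ 2 * ‖rankOp u y‖ ^ 2 ≤ z ^ 2 * ((∑ j, ‖u j‖ ^ 2) * S) :=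
          mul_le_mul_of_nonneg_left hUn (sq_nonneg z)
      _ = z * (z * ∑ j, ‖u j‖ ^ 2) * S := by ring
      _ ≤ _ := by gcongr
  have a2 : σ ^ 2 * ((1 + 3 * l₀ ^ 2) * ‖e‖ ^ 2) ≤ σ ^ 2 * (2 * Cl ^ 2 * S) := by
    refine mul_le_mul_of_nonneg_left ?_ (sq_nonneg σ)
    nlinarith [sq_nonneg ‖e‖, mul_le_mul_of_nonneg_left hl1 hl0]
  have a3 := mul_le_mul_of_nonneg_right hs (sq_nonneg ‖w‖)
  have a4 := mul_le_mul_of_nonneg_right hz' hS0
  have a5 := mul_le_mul_of_nonneg_left hR (sq_nonneg σ)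
  have a6 : 0 ≤ σ ^ 2 * (z * S) := by positivity
  linarith

end cov

variable [MeasurableSpace E] [BorelSpace E]

private lemma integrable_affine {F : E → ℝ} (hF : Nice F) (c : E) (T : E →L[ℝ] E) :
    Integrable (fun g => F (c + T g)) (stdGaussian E) := by
  simpa [add_comm] using
    (tame_iff_nice.1 ((tame_iff_nice.2 hF).comp T c)).integrable 0 1

private lemma nice_average {F : E → ℝ} (hF : Nice F) (B : E →L[ℝ] E) :
    Nice (fun x => ∫ g, F (x + B g) ∂stdGaussian E) :=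
  tame_iff_nice.1 (by simpa using (tame_iff_nice.2 hF).average (ContinuousLinearMap.id ℝ E) B)

/-- Two independent Gaussian vectors with orthogonal adjoints merge into one. -/
private lemma gauss_merge {φ : E → ℝ} (hφ : Nice φ) (c : E) (A B : E →L[ℝ] E)
    (h : ∀ l, ⟪adjoint A l, adjoint B l⟫ = 0) :
    ∫ g, ∫ g', φ (c + A g + B g') ∂stdGaussian E ∂stdGaussian E
      = ∫ g, φ (c + (A + B) g) ∂stdGaussian E := by
  have hm : ((stdGaussian E).prod (stdGaussian E)).map (fun p => A p.1 + B p.2)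
      = (stdGaussian E).map (A + B) := by
    apply Measure.ext_of_charFun
    ext t
    rw [charFun_apply, charFun_apply, integral_map (by fun_prop) (by fun_prop),
      integral_map (by fun_prop) (by fun_prop)]
    simp only [inner_add_left, Complex.ofReal_add, add_mul, Complex.exp_add,
      ← adjoint_inner_right]
    rw [integral_prod_mul (fun g : E => Complex.exp (⟪g, adjoint A t⟫ * Complex.I))
      (fun g : E => Complex.exp (⟪g, adjoint B t⟫ * Complex.I))]
    simp only [← charFun_apply, charFun_stdGaussian, ← Complex.exp_add]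
    congr 1
    have := congrArg (fun r : ℝ => (r : ℂ)) (norm_add_sq_real (adjoint A t) (adjoint B t))
    rw [h t, ← add_apply, ← map_add] at this
    push_cast at this
    linear_combination (1 / 2 : ℂ) * this
  have hc : Continuous fun y : E => φ (c + y) := hφ.continuous.comp (by fun_prop)
  have hi : Integrable (fun p : E × E => φ (c + A p.1 + B p.2))
      ((stdGaussian E).prod (stdGaussian E)) := by
    have h' : Integrable (fun g => φ (c + (A + B) g)) (stdGaussian E) := integrable_affine hφ c _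
    have h'' : Integrable (fun y => φ (c + y)) ((stdGaussian E).map (A + B)) :=
      (integrable_map_measure hc.aestronglyMeasurable (by fun_prop)).2 h'
    rw [← hm, integrable_map_measure hc.aestronglyMeasurable (by fun_prop)] at h''
    simpa [Function.comp_def, add_assoc] using h''
  rw [← integral_prod _ hi]
  simp only [add_assoc]
  rw [← integral_map (φ := fun p : E × E => A p.1 + B p.2) (by fun_prop) hc.aestronglyMeasurable,
    hm, integral_map (by fun_prop) hc.aestronglyMeasurable]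

theorem rot_dom {φ : E → ℝ} (hφ : Nice φ) (c : E) {L : Submodule ℝ E} (ℓ M : E →L[ℝ] E)
    (hℓd : ∀ x, ℓ x = ℓ (Lᗮ.starProjection x)) (hℓr : ∀ x, ℓ x ∈ L)
    (hMd : ∀ x, M x = M (Lᗮ.starProjection x)) (hMr : ∀ x, M x ∈ L)
    {r : ℕ} (u : Fin r → E) (hu : ∀ j, u j ∈ L) {l₀ Cl z κ σ s : ℝ}
    (hl : ∀ x, ‖ℓ x‖ ≤ l₀ * ‖x‖)
    (hM : ∀ x y, |⟪M x, y⟫| ≤ Cl * ‖x‖ * Real.sqrt (∑ j, ⟪u j, y⟫ ^ 2))
    (hσ : 0 < σ) (hz0 : 0 ≤ z) (hl0 : 0 ≤ l₀) (hl1 : l₀ ≤ 1 / 4) (hCl : 0 ≤ Cl)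
    (hz : 2 * Cl ^ 2 + 9 * κ ^ 2 / σ ^ 2 ≤ z) (hzu : z * ∑ j, ‖u j‖ ^ 2 ≤ 1 / 4)
    (hs : s ^ 2 + 3 * l₀ ^ 2 * σ ^ 2 ≤ σ ^ 2) (e : Option (Fin r)) :
    let a : E := e.elim 0 (fun j => κ • u j)
    let A : E → E := fun g => L.starProjection g
      + ℓ (Lᗮ.starProjection g - ContinuousLinearMap.adjoint ℓ (L.starProjection g))
      + ContinuousLinearMap.adjoint ℓ (L.starProjection g)
      + M (Lᗮ.starProjection g - ContinuousLinearMap.adjoint ℓ (L.starProjection g))
      - z • ∑ j, ⟪u j, g⟫ • u j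
    let B : E → E := fun g => Lᗮ.starProjection g - ℓ g
    ∫ g, ∫ g', (φ (c + a + A (σ • g) + s • B g') + φ (c - a + A (σ • g) + s • B g')) / 2
      ∂stdGaussian E ∂stdGaussian E ≤ gavg φ c σ := by
  intro a A B
  set A' := σ • rotA L ℓ M u z
  set B' := s • rotB L ℓ
  have hA : ∀ g, A (σ • g) = A' g := fun g => by
    rw [show A' g = rotA L ℓ M u z (σ • g) from (map_smul _ σ g).symm]
    simp only [A, rotA, sub_apply, add_apply, comp_apply, FunLike.coe_smul, Pi.smul_apply,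
      rankOp_apply]
  have hB : ∀ g, s • B g = B' g := fun g => rfl
  have cov : ∀ {T : ℝ} (l : E), T ≤ κ ^ 2 * ∑ j, ⟪u j, L.starProjection l⟫ ^ 2 →
      ‖adjoint A' l‖ ^ 2 + (‖adjoint B' l‖ ^ 2 + 9 * T) ≤ σ ^ 2 * ‖l‖ ^ 2 := fun l hT => by
    simpa [A', B', map_smulₛₗ, norm_smul, mul_pow] using
      rot_cov hℓd hℓr hMd hMr hu hl hM hσ hz0 hl0 hl1 hCl hz hzu hs l hT
  simp only [hA, hB]
  by_cases ha : a = 0
  · simp only [ha, add_zero, sub_zero, add_self_div_two]
    refine gauss_dom hφ c A' B' fun l => ?_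
    simpa using cov (T := 0) l (by positivity)
  obtain ⟨j, rfl⟩ : ∃ j, e = some j := Option.ne_none_iff_exists'.1 fun h => ha (by simp [a, h])
  have haj : a = κ • u j := rfl
  set n := ‖a‖⁻¹ • a
  have hn : ‖n‖ = 1 := norm_smul_inv_norm ha
  set N : E →L[ℝ] E := (innerSL ℝ n).smulRight ((3 : ℝ) • a)
  have hN : ∀ l, adjoint N l = (3 * ⟪a, l⟫) • n := fun l => by
    refine ext_inner_left ℝ fun x => ?_
    rw [adjoint_inner_right]
    simp [N, real_inner_smul_left, real_inner_smul_right, real_inner_comm x n]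
    ring
  have haL : a ∈ L := L.smul_mem κ (hu j)
  have horth : ∀ l, ⟪adjoint B' l, adjoint N l⟫ = 0 := fun l => by
    have h0 : B' n = 0 := by
      have hPn : Lᗮ.starProjection n = 0 := by
        rw [Submodule.starProjection_orthogonal_val,
          Submodule.starProjection_eq_self_iff.2 (L.smul_mem _ haL), sub_self]
      show s • (Lᗮ.starProjection n - ℓ n) = 0
      rw [hℓd n, hPn, map_zero, sub_zero, smul_zero]
    rw [hN, real_inner_smul_right, adjoint_inner_left, h0, inner_zero_right, mul_zero]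
  have hdom : ∀ l, ‖adjoint A' l‖ ^ 2 + ‖adjoint (B' + N) l‖ ^ 2 ≤ σ ^ 2 * ‖l‖ ^ 2 := fun l => by
    rw [map_add, add_apply, norm_add_sq_real, horth l, hN, norm_smul, hn, mul_one, Real.norm_eq_abs,
      sq_abs]
    have := cov (T := ⟪a, l⟫ ^ 2) l (by
      rw [haj, real_inner_smul_left, mul_pow,
        ← Submodule.starProjection_eq_self_iff.2 (hu j), Submodule.inner_starProjection_left_eq_right]
      exact mul_le_mul_of_nonneg_left
        (Finset.single_le_sum (f := fun j => ⟪u j, L.starProjection l⟫ ^ 2)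
          (fun j _ => sq_nonneg _) (Finset.mem_univ j)) (sq_nonneg κ))
    linarith
  have hψ : Nice fun x => ∫ g', φ (x + (B' + N) g') ∂stdGaussian E := nice_average hφ _
  have hL : Nice fun x => ∫ g', (φ (x + a + B' g') + φ (x - a + B' g')) / 2 ∂stdGaussian E := by
    have h1 := (hφ.comp_add a).add (hφ.comp_add (-a))
    have h2 := nice_average (h1.const_mul (show (0 : ℝ) ≤ 1 / 2 by norm_num)) B'
    simpa [sub_eq_add_neg, add_right_comm, add_div, mul_add, div_eq_inv_mul] using h2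
  have hstep : ∀ x, ∫ g', (φ (x + a + B' g') + φ (x - a + B' g')) / 2 ∂stdGaussian E
      ≤ ∫ g', φ (x + (B' + N) g') ∂stdGaussian E := fun x => by
    rw [← gauss_merge hφ x B' N horth]
    refine integral_mono ?_ (integrable_affine (nice_average hφ N) x B') fun g' => ?_
    · exact (((integrable_affine hφ (x + a) B').add (integrable_affine hφ (x - a) B')).div_const 2)
    · have := two_point hφ (x + B' g') a hn
      rw [show x + a + B' g' = x + B' g' + a by abel, show x - a + B' g' = x + B' g' - a by abel]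
      simpa [N, smul_smul, mul_comm _ (3 : ℝ)] using this
  refine le_trans ?_ (gauss_dom hφ c A' (B' + N) hdom)
  refine integral_mono ?_ (integrable_affine hψ c A') fun g => ?_
  · have := integrable_affine hL c A'
    simpa [add_right_comm _ (A' _) a, sub_add_eq_add_sub] using this
  · have := hstep (c + A' g)
    simpa [add_right_comm _ (A' g) a, sub_add_eq_add_sub] using this

end Vale.Agent.P262.Sig
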