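import Vale.Agent.P262.SigSeq

/-!
Choosing real signs in a window from a real start, at no loss in the objective.
-/

namespace Vale.Agent.P262.Sig

open MeasureTheory ProbabilityTheory Set Module
open scoped RealInnerProductSpace

set_option linter.unusedSectionVars false

variable {E : Type*} [NormedAddCommGroup E] [InnerProductSpace ℝ E] [FiniteDimensional ℝ E]
  [MeasurableSpace E] [BorelSpace E]
variable {v : ℕ → E} {N : ℕ} {X R P : Submodule ℝ E} {σ bd rb : ℝ} {B : Bd} {C : ZB}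

lemma nice_affine (p c : E) : Nice fun x => ⟪p, x - c⟫ := by
  refine Nice.of_poly ?_ (A := ‖p‖ * (1 + ‖c‖)) (by positivity) (m := 1) fun x => ?_
  · refine ⟨convex_univ, fun x _ y _ a b _ _ hab => le_of_eq ?_⟩
    have hc : ⟪p, c⟫ = (a + b) * ⟪p, c⟫ := by rw [hab, one_mul]
    simp only [inner_sub_right, inner_add_right, real_inner_smul_right, smul_eq_mul]
    linarith
  · rw [pow_one]
    refine (abs_real_inner_le_norm _ _).trans ?_
    have := norm_sub_le x c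
    nlinarith [norm_nonneg p, norm_nonneg c, norm_nonneg x, mul_nonneg (norm_nonneg c) (norm_nonneg x)]

lemma gavg_affine (p c x : E) (σ : ℝ) : gavg (fun y => ⟪p, y - c⟫) x σ = ⟪p, x - c⟫ := by
  have e : (fun g : E => ⟪p, x + σ • g - c⟫) = fun g => ⟪p, x - c⟫ + σ * (innerSL ℝ p) g := by
    ext g
    rw [innerSL_apply_apply, ← real_inner_smul_right, ← inner_add_right]
    congr 1
    abel
  have hint : Integrable (fun g => σ * (innerSL ℝ p) g) (stdGaussian E) :=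
    by simpa [real_inner_smul_right] using (nice_affine p 0).integrable 0 σ
  rw [gavg, e, integral_add (integrable_const _) hint, integral_const, integral_const_mul,
    probReal_univ, one_smul, integral_strongDual_stdGaussian, mul_zero, add_zero]

lemma gavg_shift_le {ψ : E → ℝ} (hψ : Nice ψ) (h0 : ∀ x, 0 ≤ ψ x) {u : E} {σ t : ℝ}
    (ht : 0 < t) (ht1 : t < 1) (hσ : 3 ≤ σ) (hu : ‖u‖ ≤ t) :
    gavg ψ u σ ≤ (1 + t) * gavg ψ 0 (σ / (1 - t)) := by
  have h1 : 0 < 1 - t := by linarith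
  have hi := hψ.integrable (0 : E) (σ / (1 - t))
  have hD : 0 ≤ gavg ψ 0 (σ / (1 - t)) := integral_nonneg fun g => h0 _
  have hpt : ψ (t⁻¹ • u) ≤ 2 * gavg ψ 0 (σ / (1 - t)) := by
    refine psi_point hψ h0 ?_
    rw [norm_smul, norm_inv, Real.norm_eq_abs, abs_of_pos ht, le_div_iff₀ h1]
    have h2 : t⁻¹ * ‖u‖ ≤ 1 := by rw [inv_mul_le_iff₀ ht, mul_one]; exact hu
    nlinarith [mul_nonneg (inv_nonneg.2 ht.le) (norm_nonneg u)]
  have key : gavg ψ u σ ≤ (1 - t) * gavg ψ 0 (σ / (1 - t)) + t * ψ (t⁻¹ • u) := by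
    have e : ∫ g, (1 - t) * ψ (0 + (σ / (1 - t)) • g) + t * ψ (t⁻¹ • u) ∂stdGaussian E
        = (1 - t) * gavg ψ 0 (σ / (1 - t)) + t * ψ (t⁻¹ • u) := by
      rw [integral_add (hi.const_mul _) (integrable_const _), integral_const_mul, integral_const,
        probReal_univ, one_smul, gavg]
    rw [← e]
    refine integral_mono (hψ.integrable u σ) ((hi.const_mul _).add (integrable_const _)) fun g => ?_
    have := hψ.cvx.2 (mem_univ (0 + (σ / (1 - t)) • g)) (mem_univ (t⁻¹ • u)) h1.le ht.le (by ring)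
    simp only [smul_eq_mul] at this
    refine le_of_eq_of_le (congrArg ψ ?_) this
    rw [zero_add, smul_smul, smul_smul, mul_div_cancel₀ _ h1.ne', mul_inv_cancel₀ ht.ne', one_smul,
      add_comm]
  nlinarith [mul_le_mul_of_nonneg_left hpt ht.le]

/-- The outcome relative to the mean path is admissible after scaling. -/
lemma rel_bound {R₀ T : ℝ} {a b : ℕ} {L : Submodule ℝ E} (o : Op v N X L L σ bd rb B C a b)
    (hXL : X ≤ L) (hv : ∀ i, ‖v i‖ ≤ 1) (hn : Node v R₀ T a b L) (hT : 0 ≤ T)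
    (hR : 2 * (finrank ℝ E * T + 1) ≤ R₀) (s : Seed E N) {Ms : ℝ} (hMs0 : 0 ≤ Ms)
    (hMs : 2 * (rb + B.α + C.z * B.c) ≤ Ms) (hMsR : rb + B.o + C.p * B.c ≤ Ms * R₀ / 2)
    (hC : 0 ≤ C.z ∧ 0 ≤ C.p) (hbs : Bdd v L a b B s) {ε : ℕ → ℝ} {w : ℝ}
    (hout : Out v X L a b bd rb s.1 (s.2.1 + s.2.2.1) ε w) (p : E) {h : ℝ}
    (hh : ∀ z, Adm v R₀ a b z → ⟪p, seg v z a b⟫ ≤ h) :
    -(Ms * (1 + w) * h) ≤ ⟪p, seg v ε a b - seg v (o.Z s.2.2.1 + ext s.2.2.2) a b⟫ := by
  set x := s.2.1 + s.2.2.1 with hx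
  have hw : 0 ≤ w := hout.nonneg
  set M := Ms * (1 + w)
  set z := ε - (o.Z s.2.2.1 + ext s.2.2.2)
  have hzseg : ∀ k, seg v z a k = seg v ε a k - seg v (o.Z s.2.2.1 + ext s.2.2.2) a k := fun k =>
    (segLin v a k).map_sub _ _
  have hzi : ∀ i ∈ Finset.Ico a b, |z i| ≤ M / 2 := fun i hi => by
    have h1 := hout.size i hi
    have h2 := (o.coef s.2.2.1 i).trans (mul_le_mul_of_nonneg_left hbs.mean hC.1)
    have h3 := hbs.shift i hi
    simp only [z, Pi.sub_apply, Pi.add_apply]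
    calc |ε i - (o.Z s.2.2.1 i + ext s.2.2.2 i)|
        ≤ |ε i| + (|o.Z s.2.2.1 i| + |ext s.2.2.2 i|) :=
          (abs_sub _ _).trans (add_le_add le_rfl (abs_add_le _ _))
      _ ≤ M / 2 := by
        have : (rb + B.α + C.z * B.c) * (1 + w) ≤ M / 2 := by
          rw [mul_div_right_comm]
          exact mul_le_mul_of_nonneg_right (by linarith) (by linarith)
        nlinarith [le_trans (abs_nonneg _) h2, le_trans (abs_nonneg _) h3]
  have hzp : ∀ k ∈ Finset.Icc a b, ‖Lᗮ.starProjection (seg v z a k)‖ ≤ M * R₀ / 2 := fun k hk => by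
    have h1 : ‖Lᗮ.starProjection (x + seg v ε a k)‖ ≤ rb * (1 + w) := by
      refine le_trans (le_of_eq ?_) ((Submodule.norm_starProjection_apply_le Lᗮ _).trans
        (hout.scale k hk))
      have hle : Lᗮ ≤ Xᗮ := Submodule.orthogonal_le hXL
      rw [← ContinuousLinearMap.comp_apply Lᗮ.starProjection,
        Submodule.starProjection_comp_starProjection_of_le hle, stat,
        map_add Lᗮ.starProjection (L.starProjection _),
        (Submodule.starProjection_apply_eq_zero_iff _).2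
          (L.le_orthogonal_orthogonal (L.starProjection_apply_mem s.1)), zero_add,
        Submodule.starProjection_eq_self_iff.2 (Lᗮ.starProjection_apply_mem _)]
    have h2 : ‖Lᗮ.starProjection (s.2.2.1 + seg v (o.Z s.2.2.1) a k)‖ ≤ C.p * B.c :=
      (o.pref _ k hk).trans (mul_le_mul_of_nonneg_left hbs.mean hC.2)
    have h3 : ‖Lᗮ.starProjection (s.2.1 + seg v (ext s.2.2.2) a k)‖ ≤ B.o :=
      (Submodule.norm_starProjection_apply_le _ _).trans (hbs.drift k hk)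
    rw [hzseg, seg_add, show seg v ε a k - (seg v (o.Z s.2.2.1) a k + seg v (ext s.2.2.2) a k)
      = x + seg v ε a k - (s.2.2.1 + seg v (o.Z s.2.2.1) a k)
        - (s.2.1 + seg v (ext s.2.2.2) a k) by rw [hx]; abel, map_sub, map_sub]
    refine (norm_sub_le _ _).trans ((add_le_add (norm_sub_le _ _) le_rfl).trans ?_)
    have : (rb + B.o + C.p * B.c) * (1 + w) ≤ M * R₀ / 2 := by
      rw [show M * R₀ / 2 = Ms * R₀ / 2 * (1 + w) by ring]
      exact mul_le_mul_of_nonneg_right hMsR (by linarith)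
    nlinarith [le_trans (norm_nonneg _) h2, le_trans (norm_nonneg _) h3]
  have hM : 0 ≤ M := by positivity
  rcases eq_or_lt_of_le hM with hM0 | hMp
  · have : seg v z a b = 0 := seg_zero_of fun i hi => abs_eq_zero.1
      (le_antisymm ((hzi i hi).trans (by simp [← hM0])) (abs_nonneg _))
    rw [← hzseg, this, inner_zero_right, ← hM0]
    simp
  · have hsl := slow_scale hv hn hT hR hM hzi hzp
    have hadm : Adm v R₀ a b (-(M⁻¹ • z)) := by
      refine ⟨fun i hi => ?_, fun k hk => ?_⟩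
      · rw [Pi.neg_apply, Pi.smul_apply, smul_eq_mul, abs_neg, abs_mul, abs_inv,
          abs_of_pos hMp, inv_mul_le_iff₀ hMp]
        linarith [hzi i hi]
      · rw [show -(M⁻¹ • z) = (-M⁻¹) • z by simp, seg_smul, norm_smul, norm_neg, norm_inv,
          Real.norm_eq_abs, abs_of_pos hMp, inv_mul_le_iff₀ hMp]
        have h1 := hzp k hk
        have h2 := hsl k hk
        have h3 : (finrank ℝ L : ℝ) ≤ finrank ℝ E := by exact_mod_cast L.finrank_le
        rw [← Submodule.starProjection_add_starProjection_orthogonal (K := L) (seg v z a k)]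
        refine (norm_add_le _ _).trans ?_
        nlinarith [mul_le_mul_of_nonneg_left (mul_le_mul_of_nonneg_right h3 hT) hM]
    have hle' : ⟪p, seg v (-(M⁻¹ • z)) a b⟫ ≤ h := hh _ hadm
    rw [show -(M⁻¹ • z) = (-M⁻¹) • z by simp, seg_smul, real_inner_smul_right, hzseg,
      neg_mul, neg_le, inv_mul_eq_div, le_div_iff₀ hMp] at hle'
    linarith

/-- In a nearly minimal outcome nothing is bad. -/
lemma select_arith {μ e₁ D Mh cb h w g val : ℝ} (hμ : 8 * (D + Mh) < μ) (hD : 0 ≤ D) (hMh : 0 ≤ Mh)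
    (he1 : e₁ ≤ 1 / 8) (hw : 0 ≤ w) (hg : 0 ≤ g) (hcb : 0 ≤ cb * h)
    (hle : μ * g + val + μ * w ≤ 2 * μ * e₁ + D - cb * h / 2) (hval : -(Mh * (1 + w)) ≤ val) :
    w + g < 1 ∧ val ≤ 2 * μ * e₁ + D - cb * h / 2 := by
  have hμ0 : 0 < μ := by linarith
  refine ⟨?_, by nlinarith [mul_nonneg hμ0.le hg, mul_nonneg hμ0.le hw]⟩
  by_contra hc
  push Not at hc
  have h1 : Mh * w ≤ Mh * (w + g) := mul_le_mul_of_nonneg_left (by linarith) hMh
  nlinarith [mul_le_mul_of_nonneg_left hc (show 0 ≤ μ - Mh by linarith),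
    mul_le_mul_of_nonneg_left he1 hμ0.le]

lemma select_end {μ e₁ D t Ms h cb δ G : ℝ} (hμ : μ = 8 * ((1 + t) * D + Ms * h) + δ)
    (hfin : (1 + t) * (1 + 16 * e₁) * D ≤ G) (h0 : 0 ≤ h) (hδ : 0 ≤ δ) (_he : 0 ≤ e₁)
    (he1 : e₁ ≤ 1 / 8) (hMse : 32 * e₁ * Ms ≤ cb) :
    2 * μ * e₁ + (1 + t) * D - cb * h / 2 ≤ G + δ := by
  subst hμ
  nlinarith [mul_le_mul_of_nonneg_right hMse h0, mul_le_mul_of_nonneg_left he1 hδ]

/-- Real signs for the window of `o`, from the real start of the seed `s`. -/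
theorem exists_select {R₀ T : ℝ} {a b : ℕ} {L : Submodule ℝ E} (o : Op v N X L L σ bd rb B C a b)
    (hXL : X ≤ L) (hv : ∀ i, ‖v i‖ ≤ 1) (hn : Node v R₀ T a b L) (hT : 0 ≤ T)
    (hR : 2 * (finrank ℝ E * T + 1) ≤ R₀) (s : Seed E N) {cb η e₁ κ Ms : ℝ} (hcb : 0 < cb)
    (hη : 0 < η) (hη1 : η < 1) (he : 0 < e₁) (he1 : e₁ ≤ 1 / 8) (hσ : 3 ≤ σ) (ht : cb * R₀ < 1)
    (hκ : (1 + cb * R₀) * (1 + 16 * e₁) ≤ (1 + κ) * (1 - cb * R₀))
    (hMs0 : 0 ≤ Ms) (hMs : 2 * (rb + B.α + C.z * B.c) ≤ Ms)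
    (hMsR : rb + B.o + C.p * B.c ≤ Ms * R₀ / 2) (hC : 0 ≤ C.z ∧ 0 ≤ C.p)
    (hMse : 32 * e₁ * Ms ≤ cb)
    (hB : ∀ z, Adm v R₀ a b z →
      Bdd v L a b B (s.1, s.2.1, s.2.2.1, s.2.2.2 - cb • res z))
    (hG : o.G ((1 - η)⁻¹ • s) ≤ e₁)
    (hGb : ∀ z, Adm v R₀ a b z → o.G ((0, 0, 0, -(η⁻¹ * cb) • res z) : Seed E N) ≤ e₁)
    {Gn : E → ℝ} (hn' : Nice Gn) (hn0 : ∀ x, 0 ≤ Gn x)
    (hGn : ∀ z, Adm v R₀ a b z →
      gavg Gn (s.2.1 + s.2.2.1 + seg v (o.Z s.2.2.1 + ext s.2.2.2) a b - cb • seg v z a b) σ ≤ e₁ * e₁)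
    {ψ : E → ℝ} (hψ : Nice ψ) (hψ0 : ψ 0 = 0) (hψn : ∀ x, 0 ≤ ψ x) (p : E) :
    ∃ ε : ℕ → ℝ, (∀ i ∈ Finset.Ico a b, ε i = 1 ∨ ε i = -1) ∧
      (∀ k ∈ Finset.Icc a b,
        ‖Xᗮ.starProjection (stat L s.1 (s.2.1 + s.2.2.1 + seg v ε a k))‖ ≤ bd) ∧
      Gn (s.2.1 + s.2.2.1 + seg v ε a b) ≤ e₁ ∧
      ψ (seg v ε a b - seg v (o.Z s.2.2.1 + ext s.2.2.2) a b)
          + ⟪p, seg v ε a b - seg v (o.Z s.2.2.1 + ext s.2.2.2) a b⟫
        ≤ gavg ψ 0 (σ * (1 + κ)) := by
  classical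
  set x := s.2.1 + s.2.2.1 with hx
  set m := seg v (o.Z s.2.2.1 + ext s.2.2.2) a b with hm
  set t := cb * R₀
  have hR0 : 0 < R₀ := lt_of_lt_of_le (by positivity) hR
  have ht0 : 0 < t := mul_pos hcb hR0
  have h0adm : Adm v R₀ a b 0 := by
    refine ⟨fun i _ => by simp, fun k _ => ?_⟩
    simpa [seg] using hR0.le
  set S : Set ℝ := (fun z => ⟪p, seg v z a b⟫) '' {z | Adm v R₀ a b z}
  have hbdd : BddAbove S := by
    refine ⟨‖p‖ * R₀, ?_⟩
    rintro _ ⟨z, hz, rfl⟩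
    exact (real_inner_le_norm _ _).trans (mul_le_mul_of_nonneg_left
      (hz.2 b (Finset.mem_Icc.2 ⟨o.le, le_rfl⟩)) (norm_nonneg _))
  set h := sSup S
  have h0 : 0 ≤ h := le_csSup hbdd ⟨0, h0adm, by simp [seg]⟩
  obtain ⟨zs, hzs, hzh⟩ : ∃ z, Adm v R₀ a b z ∧ h / 2 ≤ ⟪p, seg v z a b⟫ := by
    rcases eq_or_lt_of_le h0 with e | e
    · exact ⟨0, h0adm, by simp [seg, ← e]⟩
    · obtain ⟨_, ⟨z, hz, rfl⟩, hlt⟩ := exists_lt_of_lt_csSup
        (s := S) ⟨_, ⟨0, h0adm, rfl⟩⟩ (show h / 2 < h by linarith)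
      exact ⟨z, hz, hlt.le⟩
  set s' : Seed E N := (s.1, s.2.1, s.2.2.1, s.2.2.2 - cb • res zs)
  have hGs' : o.G s' ≤ e₁ := by
    have h1 : 0 ≤ 1 - η := by linarith
    have := o.tame.cvx.2 (mem_univ ((1 - η)⁻¹ • s))
      (mem_univ ((0, 0, 0, -(η⁻¹ * cb) • res zs) : Seed E N)) h1 hη.le (by ring)
    rw [smul_smul, mul_inv_cancel₀ (by linarith : (1 - η) ≠ 0), one_smul] at this
    have e : s + η • ((0, 0, 0, -(η⁻¹ * cb) • res zs) : Seed E N) = s' := by
      simp only [Prod.ext_iff, Prod.fst_add, Prod.snd_add, Prod.smul_mk, smul_zero, add_zero, s',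
        true_and, smul_smul]
      rw [mul_neg, ← mul_assoc, mul_inv_cancel₀ hη.ne', one_mul, neg_smul, sub_eq_add_neg]
    rw [e] at this
    refine this.trans ?_
    simp only [smul_eq_mul]
    nlinarith [mul_le_mul_of_nonneg_left hG h1, mul_le_mul_of_nonneg_left (hGb zs hzs) hη.le]
  set D := gavg ψ 0 (σ / (1 - t))
  have hD : 0 ≤ D := integral_nonneg fun g => hψn _
  have hfin : (1 + t) * (1 + 16 * e₁) * D ≤ gavg ψ 0 (σ * (1 + κ)) := by
    have h1 : 0 < 1 - t := by linarith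
    have h2 : σ / (1 - t) ≤ σ * (1 + κ) := by
      rw [div_le_iff₀ h1, mul_assoc]
      exact le_mul_of_one_le_right (by linarith) (le_trans (by nlinarith) hκ)
    have := psi_inflate hψ hψ0 hψn (s := σ / (1 - t)) (t := σ * (1 + κ)) (div_pos (by linarith) h1) h2
    refine le_trans (mul_le_mul_of_nonneg_right ?_ hD) this
    rw [div_div_eq_mul_div, le_div_iff₀ (by linarith : (0 : ℝ) < σ), mul_comm _ σ, mul_assoc]
    exact mul_le_mul_of_nonneg_left hκ (by linarith)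
  let good : Finset ℕ → Prop := fun A =>
    let ε : ℕ → ℝ := fun i => if i ∈ A then 1 else -1
    (∀ k ∈ Finset.Icc a b, ‖Xᗮ.starProjection (stat L s.1 (x + seg v ε a k))‖ ≤ bd) ∧
      Gn (x + seg v ε a b) ≤ e₁
  let val : Finset ℕ → ℝ := fun A =>
    let y := seg v (fun i => if i ∈ A then 1 else -1) a b - m
    ψ y + ⟪p, y⟫
  have step : ∀ δ : ℝ, 0 < δ → ∃ A ∈ (Finset.Ico a b).powerset, good A ∧
      val A ≤ gavg ψ 0 (σ * (1 + κ)) + δ := by
    intro δ hδ
    set μ := 8 * ((1 + t) * D + Ms * h) + δ with hμ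
    have hμ0 : 0 < μ := by positivity
    have hQ : Nice fun y => μ / e₁ * Gn y + (ψ (y - (x + m)) + ⟪p, y - (x + m)⟫) :=
      (hn'.const_mul (by positivity)).add ((by simpa [sub_eq_add_neg] using hψ.comp_add (-(x + m)) :
        Nice fun y => ψ (y - (x + m))).add (nice_affine _ _))
    obtain ⟨F, hF, hFx, hFg⟩ := o.act s' (hB zs hzs) _ hQ μ hμ0.le
    obtain ⟨ε, w, hout, hle⟩ := hFx x
    have hctr : s'.2.1 + s'.2.2.1 + seg v (o.Z s'.2.2.1 + ext s'.2.2.2) a b
        = x + m - cb • seg v zs a b := by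
      simp only [s', hm, hx, map_sub, map_smul, seg_add]
      rw [show ext s.2.2.2 - cb • ext (res (N := N) zs)
          = ext s.2.2.2 + (-cb) • ext (res (N := N) zs) by rw [neg_smul, sub_eq_add_neg], seg_add,
        seg_smul, seg_ext_res v _ o.leN, neg_smul]
      abel
    rw [hctr] at hFg
    have hψc : Nice fun y => ψ (y - (x + m)) := by simpa [sub_eq_add_neg] using hψ.comp_add (-(x + m))
    rw [gavg_add (hn'.const_mul (by positivity)) (hψc.add (nice_affine _ _)), gavg_const_mul,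
      gavg_add hψc (nice_affine _ _), gavg_affine] at hFg
    have hψg : gavg (fun y => ψ (y - (x + m))) (x + m - cb • seg v zs a b) σ ≤ (1 + t) * D := by
      have e : gavg (fun y => ψ (y - (x + m))) (x + m - cb • seg v zs a b) σ
          = gavg ψ (-(cb • seg v zs a b)) σ := by
        simp only [gavg]
        congr 1
        ext g
        congr 1
        abel
      rw [e]
      refine gavg_shift_le hψ hψn ht0 ht hσ ?_
      rw [norm_neg, norm_smul, Real.norm_eq_abs, abs_of_pos hcb]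
      exact mul_le_mul_of_nonneg_left (hzs.2 b (Finset.mem_Icc.2 ⟨o.le, le_rfl⟩)) hcb.le
    have hp' : ⟪p, x + m - cb • seg v zs a b - (x + m)⟫ ≤ -(cb * h / 2) := by
      rw [show x + m - cb • seg v zs a b - (x + m) = -(cb • seg v zs a b) by abel, inner_neg_right,
        real_inner_smul_right]
      nlinarith
    have hJ : F x ≤ gavg F (s'.2.1 + s'.2.2.1) σ := hF.le_integral x σ
    have hGn' : μ / e₁ * gavg Gn (x + m - cb • seg v zs a b) σ ≤ μ * e₁ := by
      refine (mul_le_mul_of_nonneg_left (hGn zs hzs) (by positivity)).trans (le_of_eq ?_)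
      field_simp
    have hup : μ / e₁ * Gn (x + seg v ε a b) + (ψ (x + seg v ε a b - (x + m))
        + ⟪p, x + seg v ε a b - (x + m)⟫) + μ * w ≤ 2 * μ * e₁ + (1 + t) * D - cb * h / 2 := by
      have := mul_le_mul_of_nonneg_left hGs' hμ0.le
      linarith
    rw [show x + seg v ε a b - (x + m) = seg v ε a b - m by abel] at hup
    have hw : 0 ≤ w := hout.nonneg
    have hbs : Bdd v L a b B s := by
      have := hB 0 h0adm
      simpa using this
    have hz := rel_bound o hXL hv hn hT hR s hMs0 hMs hMsR hC hbs hout p (h := h)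
      (fun z hz => le_csSup hbdd ⟨z, hz, rfl⟩)
    rw [← hm] at hz
    have hψ' := hψn (seg v ε a b - m)
    have e : μ / e₁ * Gn (x + seg v ε a b) = μ * (Gn (x + seg v ε a b) / e₁) := by ring
    rw [e] at hup
    obtain ⟨hlt, hval⟩ := select_arith (D := (1 + t) * D) (Mh := Ms * h) (cb := cb) (h := h)
      (g := Gn (x + seg v ε a b) / e₁) (val := ψ (seg v ε a b - m) + ⟪p, seg v ε a b - m⟫)
      (by linarith) (by positivity) (by positivity) he1 hw (div_nonneg (hn0 _) he.le)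
      (by positivity) hup (by linarith)
    have hw1 : w < 1 := lt_of_le_of_lt (le_add_of_nonneg_right (div_nonneg (hn0 _) he.le)) hlt
    have hsg := hout.sign hw1
    refine ⟨(Finset.Ico a b).filter (fun i => ε i = 1), by simp, ?_⟩
    have hc : ∀ i ∈ Finset.Ico a b,
        (if i ∈ (Finset.Ico a b).filter (fun j => ε j = 1) then (1 : ℝ) else -1) = ε i := by
      intro i hi
      rcases hsg i hi with e | e <;> simp [e, hi]
      · norm_num
    have hsk : ∀ k ∈ Finset.Icc a b,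
        seg v (fun i => if i ∈ (Finset.Ico a b).filter (fun j => ε j = 1) then (1 : ℝ) else -1) a k
          = seg v ε a k := fun k hk => seg_congr fun i hi => hc i (by
            simp only [Finset.mem_Ico, Finset.mem_Icc] at hi hk ⊢; omega)
    have hbI : b ∈ Finset.Icc a b := Finset.mem_Icc.2 ⟨o.le, le_rfl⟩
    refine ⟨⟨fun k hk => ?_, ?_⟩, ?_⟩
    · rw [hsk k hk]
      exact hout.good hw1 k hk
    · rw [hsk b hbI]
      have h2 : Gn (x + seg v ε a b) / e₁ ≤ 1 := by linarith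
      rwa [div_le_one he] at h2
    · simp only [val, hsk b hbI]
      exact hval.trans (select_end hμ hfin h0 hδ.le he.le he1 hMse)
  obtain ⟨A₀, hA₀, hgood₀, -⟩ := step 1 one_pos
  obtain ⟨A, hA, hmin⟩ := ((Finset.Ico a b).powerset.filter good).exists_min_image val
    ⟨A₀, Finset.mem_filter.2 ⟨hA₀, hgood₀⟩⟩
  obtain ⟨-, hgA, hGA⟩ := Finset.mem_filter.1 hA
  refine ⟨fun i => if i ∈ A then 1 else -1, fun i _ => ?_, hgA, hGA, ?_⟩
  · by_cases hi : i ∈ A <;> simp [hi]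
  · refine le_of_forall_pos_le_add fun δ hδ => ?_
    obtain ⟨A', hA', hg', hv'⟩ := step δ hδ
    exact (hmin A' (Finset.mem_filter.2 ⟨hA', hg'⟩)).trans hv'

end Vale.Agent.P262.Sig
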