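import Vale.Agent.P262.SigOp

/-!
Numerical parameters of the signing scheme in dimension `d`; everything is a power of
`Dp d = 1000 (d + 2)`.
-/

namespace Vale.Agent.P262.Sig

/-- The base of all parameters. -/
def Dn (d : ℕ) : ℕ := 1000 * (d + 2)

/-- The base of all parameters, as a real number. -/
noncomputable def Dp (d : ℕ) : ℝ := 1000 * ((d : ℝ) + 2)

/-- Prefix bound of admissible signings. -/
noncomputable def pR (d : ℕ) : ℝ := Dp d ^ 10

/-- Weakness threshold. -/
noncomputable def pT (d : ℕ) : ℝ := (Dp d ^ 45)⁻¹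

/-- Pieces in a window. -/
def pW (d : ℕ) : ℕ := Dn d ^ 64

/-- Test exponent per dimension. -/
def pLg (d : ℕ) : ℕ := 200 * (Nat.log 2 (Dn d) + 1) + 1

/-- Failure probability of a test per dimension. -/
noncomputable def pu (d : ℕ) : ℝ := Real.exp (1 - (pLg d : ℝ))

/-- Threshold for conditioning. -/
noncomputable def pe (d : ℕ) : ℝ := (Dp d ^ 30)⁻¹

/-- Bias size. -/
noncomputable def pcb (d : ℕ) : ℝ := (Dp d ^ 20)⁻¹

/-- Small mixing weight. -/
noncomputable def pη (d : ℕ) : ℝ := (Dp d ^ 2)⁻¹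

/-- Bound for the Euclidean size of good states. -/
noncomputable def pS (d : ℕ) : ℝ := Real.sqrt (48000 * pLg d * d)

/-- Bound for relative means. -/
noncomputable def pBc (d : ℕ) : ℝ := 2 * pS d + 4

/-- Guaranteed bound of a node of frame dimension `r` seen from a target of dimension `x`. -/
noncomputable def bdd' (d r x : ℕ) : ℝ :=
  Real.sqrt (48000 * pLg d * ((d : ℝ) - x)) + ((d : ℝ) + 2 - r) * (Dp d ^ 2)⁻¹

/-- Scale bound of a node of frame dimension `r`. -/
noncomputable def rbd (d r : ℕ) : ℝ := ((d : ℝ) + 2 - r) * Dp d ^ 5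

/-- Seed bounds of a node of frame dimension `r`, inflated by `h` half steps. -/
noncomputable def Bdn (d r h : ℕ) : Bd :=
  ⟨pBc d, (2 * (r : ℝ) + 1 + h) * (Dp d ^ 3)⁻¹, (2 * (r : ℝ) + 1 + h) * (Dp d ^ 3)⁻¹⟩

/-- Shift bounds of a node of frame dimension `r`, reduced by `h` half steps. -/
noncomputable def Cdn (d r h : ℕ) : ZB :=
  ⟨(2 * ((d : ℝ) + 1 - r) - h) * (Dp d ^ 2)⁻¹, 1 + 2 * (2 * ((d : ℝ) + 1 - r) - h)⟩

/-- Noise level required by a node of frame dimension `r`. -/
noncomputable def pσ (d r : ℕ) : ℝ := 12 * (1 + 10 * pη d) ^ (d + 1 - r)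

/-- Covariance factor of the seeds of a node of frame dimension `r`. -/
noncomputable def pf (d r : ℕ) : ℝ := (1 + (4 * ((d : ℝ) + 2))⁻¹) ^ (r + 1)

/-- Drift variance of the seeds of a node of frame dimension `r`. -/
noncomputable def pρ (d r : ℕ) : ℝ := ((r : ℝ) + 1) * (Dp d ^ 4)⁻¹

/-- Expected badness of a node at relative depth `j`. -/
noncomputable def pG (d j : ℕ) : ℝ := if j = 0 then pe d else 20 / pe d * pu d ^ j

/-- Weight used when adding drifts. -/
noncomputable def pt (d : ℕ) : ℝ := (16 * ((d : ℝ) + 2))⁻¹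

end Vale.Agent.P262.Sig
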