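import Vale.Agent.P262.SigExp
import Vale.Agent.P262.SigPar

/-!
Transport of the hypotheses on random seeds along advancing, shifting, scaling and restarting.
-/

namespace Vale.Agent.P262.Sig

open MeasureTheory ProbabilityTheory Set Module
open scoped RealInnerProductSpace

variable {E : Type} [NormedAddCommGroup E] [InnerProductSpace ℝ E] [FiniteDimensional ℝ E]

private lemma proj_proj_of_le {R L : Submodule ℝ E} (h : R ≤ L) (x : E) :
    R.starProjection (L.starProjection x) = R.starProjection x := by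
  have h0 : R.starProjection (x - L.starProjection x) = 0 :=
    (Submodule.starProjection_apply_eq_zero_iff R).2
      (Submodule.orthogonal_le h (L.sub_starProjection_mem_orthogonal x))
  rw [map_sub, sub_eq_zero] at h0
  exact h0.symm

private lemma proj_self (R : Submodule ℝ E) (x : E) :
    R.starProjection (R.starProjection x) = R.starProjection x :=
  Submodule.starProjection_eq_self_iff.2 (Submodule.starProjection_apply_mem R x)

private lemma orth_proj_zero (R : Submodule ℝ E) (x : E) :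
    R.starProjection (Rᗮ.starProjection x) = 0 :=
  (Submodule.starProjection_apply_eq_zero_iff R).2 (Submodule.starProjection_apply_mem Rᗮ x)

private lemma orth_proj_zero' (R : Submodule ℝ E) (x : E) :
    Rᗮ.starProjection (R.starProjection x) = 0 :=
  (Submodule.starProjection_apply_eq_zero_iff Rᗮ).2
    (R.le_orthogonal_orthogonal (Submodule.starProjection_apply_mem R x))

private lemma proj_stat (R : Submodule ℝ E) (q s : E) :
    Rᗮ.starProjection (stat R q s) = Rᗮ.starProjection s := by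
  rw [stat, map_add, proj_self, orth_proj_zero', zero_add]

private lemma proj_stat' (R : Submodule ℝ E) (q s : E) :
    R.starProjection (stat R q s) = R.starProjection q := by
  rw [stat, map_add, proj_self, orth_proj_zero, add_zero]

private lemma norm_adjoint_le {A : E →L[ℝ] E} {K : ℝ} (hK : 0 ≤ K) (h : ∀ x, ‖A x‖ ≤ K * ‖x‖)
    (l : E) : ‖ContinuousLinearMap.adjoint A l‖ ≤ K * ‖l‖ := by
  refine ((ContinuousLinearMap.adjoint A).le_opNorm l).trans ?_
  rw [LinearIsometryEquiv.norm_map]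
  exact mul_le_mul_of_nonneg_right (A.opNorm_le_bound hK h) (norm_nonneg l)

private lemma Q₀_smul (R : Submodule ℝ E) (r : ℝ) (l : E) : Q₀ R (r • l) = r ^ 2 * Q₀ R l := by
  simp only [Q₀, map_smul, norm_smul, mul_pow, Real.norm_eq_abs, sq_abs]
  ring

omit [FiniteDimensional ℝ E] in
private lemma SubG.conv {Ω : Type} [MeasurableSpace Ω] {μ : Measure Ω} {X X' : Ω → E} {C : ℝ}
    {Q Q' : E → ℝ} (h : SubG μ X C Q) (hC : 0 ≤ C) (hQ : ∀ l, Q l ≤ Q' l)
    (hX : ∀ ω, X ω = X' ω) : SubG μ X' C Q' := by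
  intro l
  simp only [← hX]
  exact (h l).trans (ENNReal.ofReal_le_ofReal (by have := hQ l; gcongr))

variable [MeasurableSpace E] [BorelSpace E]
variable {v : ℕ → E} {N : ℕ}

private lemma Hyp.meas_comp {R : Submodule ℝ E} {a b : ℕ} {f ρ : ℝ} {Ω : Type}
    [MeasurableSpace Ω] {μ : Measure Ω} {S : Ω → Seed E N} (h : Hyp v R a b f ρ μ S)
    (T : Seed E N →L[ℝ] Seed E N) : Measurable fun ω => T (S ω) :=
  T.continuous.measurable.comp h.meas

private lemma measurable_drift {Ω : Type} [MeasurableSpace Ω] {S : Ω → Seed E N}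
    (hS : Measurable S) (v : ℕ → E) (a k : ℕ) :
    Measurable fun ω => (S ω).2.1 + seg v (ext (S ω).2.2.2) a k := by
  have hc : Continuous fun s : Seed E N => s.2.1 + seg v (ext s.2.2.2) a k :=
    continuous_snd.fst.add ((LinearMap.continuous_of_finiteDimensional
      (segLin v a k ∘ₗ (ext (N := N)))).comp continuous_snd.snd.snd)
  exact hc.measurable.comp hS

omit [MeasurableSpace E] [BorelSpace E] [FiniteDimensional ℝ E] in
private lemma subG_point {Ω : Type} [MeasurableSpace Ω] (μ : Measure Ω) [IsProbabilityMeasure μ]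
    {x : E} {s : ℝ} (hs : 0 < s) (hx : ‖x‖ ^ 2 ≤ s) :
    SubG μ (fun _ => x) 2 (fun l => s * ‖l‖ ^ 2) := by
  intro l
  refine (subG_const μ x hs l).trans (ENNReal.ofReal_le_ofReal ?_)
  refine mul_le_mul_of_nonneg_right ((Real.exp_le_exp.2 (show ‖x‖ ^ 2 / (2 * s) ≤ 1 / 2 by
    rw [div_le_iff₀ (by positivity)]; linarith)).trans ?_) (Real.exp_pos _).le
  have h : Real.exp (1 / 2) ^ 2 ≤ (2 : ℝ) ^ 2 := by
    rw [← Real.exp_nat_mul]
    norm_num
    linarith [Real.exp_one_lt_d9]
  exact le_of_pow_le_pow_left₀ two_ne_zero zero_le_two h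

omit [MeasurableSpace E] [BorelSpace E] in
/-- The covariance bound behind a restart. -/
private lemma restart_quad {R L : Submodule ℝ E} (hRL : R ≤ L) (l : E) {f ρ κ t σ f' : ℝ}
    (hσ : 0 ≤ σ) (hσ' : σ ≤ 24) (ht : 0 < t) (ht1 : t < 1) (hρ : 0 ≤ ρ)
    (hf' : κ ^ 2 * f / (1 - t) + ρ / (576 * t) ≤ f') (hf1 : 1 ≤ f') :
    (1 - t) * (κ ^ 2 * f * Q₀ R (L.starProjection ((1 - t)⁻¹ • l)))
        + t * (ρ * ‖(Rᗮ.starProjection ∘L L.starProjection) (t⁻¹ • l)‖ ^ 2)
        + σ ^ 2 * ‖Rᗮ.starProjection l‖ ^ 2 ≤ f' * Q₀ L l := by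
  have hs : 0 < 1 - t := sub_pos.2 ht1
  have p1 := Submodule.norm_sq_eq_add_norm_sq_starProjection (L.starProjection l) R
  have p2 := Submodule.norm_sq_eq_add_norm_sq_starProjection l R
  have p3 := Submodule.norm_sq_eq_add_norm_sq_starProjection l L
  rw [proj_proj_of_le hRL] at p1
  simp only [map_smul, ContinuousLinearMap.comp_apply, Q₀_smul, norm_smul, mul_pow,
    Real.norm_eq_abs, sq_abs]
  simp only [Q₀, proj_proj_of_le hRL]
  set A := ‖R.starProjection l‖ ^ 2
  set B := ‖Rᗮ.starProjection (L.starProjection l)‖ ^ 2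
  set C := ‖Lᗮ.starProjection l‖ ^ 2
  have hA0 : 0 ≤ A := sq_nonneg _
  have hB0 : 0 ≤ B := sq_nonneg _
  have hC0 : 0 ≤ C := sq_nonneg _
  rw [show ‖Rᗮ.starProjection l‖ ^ 2 = B + C by linarith,
    show ‖L.starProjection l‖ ^ 2 = A + B by linarith]
  have hσ2 : σ ^ 2 ≤ 576 := (pow_le_pow_left₀ hσ hσ' 2).trans_eq (by norm_num)
  have e1 : (1 - t) * (κ ^ 2 * f * ((1 - t)⁻¹ ^ 2 * (576 * B + 1152 * A))) =
      κ ^ 2 * f / (1 - t) * (576 * B + 1152 * A) := by field_simp
  have e2 : t * (ρ * (t⁻¹ ^ 2 * B)) = ρ / (576 * t) * (576 * B) := by field_simp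
  have e3 := mul_le_mul_of_nonneg_right hf' (show 0 ≤ 576 * B + 1152 * A by positivity)
  have e4 : 0 ≤ ρ / (576 * t) * (1152 * A) := by positivity
  have e5 := mul_le_mul_of_nonneg_right hσ2 (add_nonneg hB0 hC0)
  have e6 := mul_le_mul_of_nonneg_right hf1 (show 0 ≤ 576 * (B + C) by positivity)
  linarith

omit [MeasurableSpace E] [BorelSpace E] in
/-- The new frozen statistic after a restart. -/
private lemma restart_mean {R L : Submodule ℝ E} (hRL : R ≤ L) (σ : ℝ) (q o c g : E) :
    stat L (stat R q (o + c + σ • g)) (c + σ • g) = L.starProjection (stat R q c)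
      + L.starProjection (Rᗮ.starProjection o) + σ • Rᗮ.starProjection g
      + Lᗮ.starProjection c := by
  have hg : L.starProjection (Rᗮ.starProjection g) + Lᗮ.starProjection g =
      Rᗮ.starProjection g := by
    conv_lhs => rw [← proj_proj_of_le (Submodule.orthogonal_le hRL) g]
    exact L.starProjection_add_starProjection_orthogonal _
  simp only [stat, map_add, map_smul]
  linear_combination (norm := module) σ • hg

omit [BorelSpace E] in
theorem Hyp.interval {R : Submodule ℝ E} {a b b' : ℕ} {f ρ : ℝ} {Ω : Type} [MeasurableSpace Ω]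
    {μ : Measure Ω} {S : Ω → Seed E N} (h : Hyp v R a b f ρ μ S) (hb : b' ≤ b) :
    Hyp v R a b' f ρ μ S :=
  ⟨h.meas, h.mean, fun k hk => h.drift k (Finset.Icc_subset_Icc le_rfl hb hk)⟩

theorem Hyp.adv {R P : Submodule ℝ E} {a m b : ℕ} {f ρ κ : ℝ} {Ω : Type} [MeasurableSpace Ω]
    {μ : Measure Ω} {S : Ω → Seed E N} (h : Hyp v R a b f ρ μ S) (ham : a ≤ m) (hRP : R ≤ P)
    (Z : E →ₗ[ℝ] (ℕ → ℝ)) (hdep : ∀ c, Z c = Z (Pᗮ.starProjection c)) (hκ1 : 1 ≤ κ) (hf : 0 ≤ f)
    (hκ : ∀ c, ‖Rᗮ.starProjection (c + seg v (Z c) a m)‖ ≤ κ * ‖Rᗮ.starProjection c‖) :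
    Hyp v R m b (κ ^ 2 * f) ρ μ (fun ω => advance v Z a m (S ω)) := by
  refine ⟨h.meas_comp _, ?_, fun k hk => ?_⟩
  · set Φ : E →L[ℝ] E := LinearMap.toContinuousLinearMap (LinearMap.id + segLin v a m ∘ₗ Z)
    have hΦ : ∀ c, Φ c = c + seg v (Z c) a m := fun c => rfl
    set A : E →L[ℝ] E := R.starProjection + Rᗮ.starProjection.comp (Φ.comp Rᗮ.starProjection)
    have hA : ∀ q c, A (stat R q c) = stat R q (c + seg v (Z c) a m) := by
      intro q c
      have hZ : Z (Rᗮ.starProjection c) = Z c := by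
        rw [hdep, proj_proj_of_le (Submodule.orthogonal_le hRP), ← hdep]
      simp only [A, add_apply, ContinuousLinearMap.comp_apply, proj_stat, proj_stat', hΦ, hZ,
        map_add, proj_self]
      rw [stat, map_add]
    have hR : ∀ l, R.starProjection (ContinuousLinearMap.adjoint A l) = R.starProjection l := by
      intro l
      refine ext_inner_left ℝ fun x => ?_
      rw [← Submodule.inner_starProjection_left_eq_right, ContinuousLinearMap.adjoint_inner_right]
      simp only [A, add_apply, ContinuousLinearMap.comp_apply, proj_self, orth_proj_zero', map_zero,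
        add_zero]
      rw [Submodule.inner_starProjection_left_eq_right]
    have hP : ∀ l, ‖Rᗮ.starProjection (ContinuousLinearMap.adjoint A l)‖ ≤
        κ * ‖Rᗮ.starProjection l‖ := by
      intro l
      set y := Rᗮ.starProjection (ContinuousLinearMap.adjoint A l) with hy
      have hAy : A y = Rᗮ.starProjection (Φ y) := by
        simp only [A, add_apply, ContinuousLinearMap.comp_apply, hy, proj_self, orth_proj_zero,
          zero_add]
      have hsq : ‖y‖ ^ 2 = ⟪Rᗮ.starProjection (Φ y), Rᗮ.starProjection l⟫ := by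
        calc ‖y‖ ^ 2 = ⟪y, ContinuousLinearMap.adjoint A l⟫ := by
              rw [hy, ← real_inner_self_eq_norm_sq, ← Submodule.inner_starProjection_left_eq_right,
                proj_self]
          _ = ⟪Rᗮ.starProjection (Φ y), l⟫ := by
              rw [ContinuousLinearMap.adjoint_inner_right, hAy]
          _ = _ := by rw [← Submodule.inner_starProjection_left_eq_right Rᗮ, proj_self]
      have hb : ‖y‖ ^ 2 ≤ κ * ‖y‖ * ‖Rᗮ.starProjection l‖ := by
        rw [hsq]
        refine (real_inner_le_norm _ _).trans (mul_le_mul_of_nonneg_right ?_ (norm_nonneg _))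
        have := hκ y
        rwa [← hΦ, show Rᗮ.starProjection y = y from proj_self _ _] at this
      rcases (norm_nonneg y).eq_or_lt with h0 | h0
      · rw [← h0]; exact mul_nonneg (zero_le_one.trans hκ1) (norm_nonneg _)
      · refine le_of_mul_le_mul_right ?_ h0
        linarith
    refine (h.mean.map A).conv zero_le_two (fun l => ?_)
      fun ω => by simp only [advance_apply, hA]
    have h1 := pow_le_pow_left₀ (norm_nonneg _) (hP l) 2
    have h2 : 1 ≤ κ ^ 2 := one_le_pow₀ hκ1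
    simp only [Q₀, hR]
    nlinarith [mul_le_mul_of_nonneg_left h1 hf,
      mul_nonneg (mul_nonneg hf (sub_nonneg.2 h2)) (sq_nonneg ‖R.starProjection l‖)]
  · rw [Finset.mem_Icc] at hk
    have := h.drift k (Finset.mem_Icc.2 ⟨ham.trans hk.1, hk.2⟩)
    simpa only [advance_apply, seg_append' v _ ham hk.1, ← add_assoc] using this

theorem Hyp.shift {R P : Submodule ℝ E} {a b : ℕ} {f ρ u t : ℝ} {Ω : Type} [MeasurableSpace Ω]
    {μ : Measure Ω} {S : Ω → Seed E N} (h : Hyp v R a b f ρ μ S) (hb : b ≤ N) (hRP : R ≤ P)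
    (U : E →ₗ[ℝ] (ℕ → ℝ)) (hdep : ∀ c, U c = U (Pᗮ.starProjection c)) (hu : 0 ≤ u)
    (hU : ∀ c, ∀ k ∈ Finset.Icc a b, ‖seg v (U c) a k‖ ≤ u * ‖Rᗮ.starProjection c‖)
    (hf : 0 ≤ f) (_hρ : 0 ≤ ρ) (ht : 0 < t) (ht1 : t < 1) :
    Hyp v R a b f (ρ / (1 - t) + f * 1152 * u ^ 2 / t) μ (fun ω => shiftSeed U (S ω)) := by
  refine ⟨h.meas_comp _, by simpa only [shiftSeed_apply] using h.mean, fun k hk => ?_⟩
  set L : E →L[ℝ] E :=
    (LinearMap.toContinuousLinearMap (segLin v a k ∘ₗ U)).comp Rᗮ.starProjection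
  have hL : ∀ q c, L (stat R q c) = seg v (U c) a k := fun q c => by
    simp only [L, ContinuousLinearMap.comp_apply, proj_stat, LinearMap.coe_toContinuousLinearMap',
      LinearMap.comp_apply, segLin_apply]
    rw [hdep, proj_proj_of_le (Submodule.orthogonal_le hRP), ← hdep]
  have hLn : ∀ x, ‖L x‖ ≤ u * ‖x‖ := fun x =>
    (hU (Rᗮ.starProjection x) k hk).trans (mul_le_mul_of_nonneg_left
      ((Submodule.norm_starProjection_apply_le _ _).trans
        (Submodule.norm_starProjection_apply_le _ _)) hu)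
  have hm : Measurable fun ω => L (stat R (S ω).1 (S ω).2.2.1) :=
    L.continuous.measurable.comp (measurable_stat h.meas)
  have := SubG.add (measurable_drift h.meas v a k) hm (h.drift k hk) (h.mean.map L) zero_le_two
    ht ht1
  refine this.conv zero_le_two (fun l => ?_) fun ω => ?_
  · have h1 := norm_adjoint_le hu hLn (t⁻¹ • l)
    have h2 := (Q₀_le R (ContinuousLinearMap.adjoint L (t⁻¹ • l))).trans
      (mul_le_mul_of_nonneg_left (pow_le_pow_left₀ (norm_nonneg _) h1 2)
        (show (0 : ℝ) ≤ 1152 by norm_num))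
    have h3 := mul_le_mul_of_nonneg_left h2 (mul_nonneg ht.le hf)
    have hs : 0 < 1 - t := sub_pos.2 ht1
    simp only [norm_smul, mul_pow, Real.norm_eq_abs, sq_abs] at h3 ⊢
    have e1 : (1 - t) * (ρ * ((1 - t)⁻¹ ^ 2 * ‖l‖ ^ 2)) = ρ / (1 - t) * ‖l‖ ^ 2 := by
      field_simp
    have e2 : t * f * (1152 * (u ^ 2 * (t⁻¹ ^ 2 * ‖l‖ ^ 2))) =
        f * 1152 * u ^ 2 / t * ‖l‖ ^ 2 := by field_simp
    linarith
  · have hk' : k ≤ N := (Finset.mem_Icc.1 hk).2.trans hb
    simp only [shiftSeed_apply, map_add, seg_add, seg_ext_res v _ hk', hL, add_assoc]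

theorem Hyp.scale {R : Submodule ℝ E} {a b : ℕ} {f ρ : ℝ} {Ω : Type} [MeasurableSpace Ω]
    {μ : Measure Ω} {S : Ω → Seed E N} (h : Hyp v R a b f ρ μ S) (r : ℝ) :
    Hyp v R a b (r ^ 2 * f) (r ^ 2 * ρ) μ (fun ω => r • S ω) := by
  have hr : ∀ l : E, ContinuousLinearMap.adjoint (r • ContinuousLinearMap.id ℝ E) l = r • l :=
    fun l => by simp [ContinuousLinearMap.adjoint_id]
  refine ⟨h.meas_comp (r • ContinuousLinearMap.id ℝ _), fun l => ?_, fun k hk l => ?_⟩
  · have := h.mean.map (r • ContinuousLinearMap.id ℝ E) l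
    simp only [hr, Q₀_smul] at this
    simpa [stat, map_smul, mul_left_comm f, mul_assoc] using this
  · have := (h.drift k hk).map (r • ContinuousLinearMap.id ℝ E) l
    simp only [hr, norm_smul, mul_pow, Real.norm_eq_abs, sq_abs] at this
    simpa [seg, Finset.smul_sum, smul_smul, mul_left_comm ρ, mul_assoc] using this

theorem hyp_const {R : Submodule ℝ E} {a b : ℕ} {f ρ : ℝ} (α : Fin N → ℝ) (hf : 0 ≤ f) (hρ : 0 < ρ)
    (hα : ∀ k ∈ Finset.Icc a b, ‖seg v (ext α) a k‖ ^ 2 ≤ ρ) :
    Hyp v R a b f ρ (Measure.dirac (0 : E)) (fun _ => ((0, 0, 0, α) : Seed E N)) := by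
  refine ⟨measurable_const, fun l => ?_, fun k hk => ?_⟩
  · have : 0 ≤ f * Q₀ R l := mul_nonneg hf (Q₀_nonneg R l)
    have := Real.one_le_exp (show 0 ≤ f * Q₀ R l / 2 by linarith)
    simp only [stat, map_zero, add_zero, inner_zero_right, Real.exp_zero, lintegral_const,
      measure_univ, mul_one]
    exact ENNReal.ofReal_le_ofReal (by linarith)
  · simpa using subG_point (Measure.dirac (0 : E)) hρ (hα k hk)

theorem hyp_centre {L : Submodule ℝ E} {a b : ℕ} {f ρ σ : ℝ} (o c : E) (α : Fin N → ℝ)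
    (hρ : 0 < ρ) (hσ : 0 ≤ σ) (hσ' : σ ≤ 24) (hf : 1 < f)
    (hc : ‖Lᗮ.starProjection c‖ ^ 2 ≤ 576 * (f - 1))
    (hd : ∀ k ∈ Finset.Icc a b, ‖o + seg v (ext α) a k‖ ^ 2 ≤ ρ) :
    Hyp v L a b f ρ (stdGaussian E) (fun g => ((0, o, c + σ • g, α) : Seed E N)) := by
  refine ⟨by fun_prop, fun l => ?_, fun k hk => subG_point _ hρ (hd k hk)⟩
  have e : ∀ g, ⟪l, stat L 0 (c + σ • g)⟫ =
      ⟪Lᗮ.starProjection l, Lᗮ.starProjection c⟫ + ⟪σ • Lᗮ.starProjection l, g⟫ := fun g => by
    rw [stat, map_zero, zero_add, map_add, map_smul, inner_add_right, real_inner_smul_right,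
      real_inner_smul_left, ← Submodule.inner_starProjection_left_eq_right,
      ← Submodule.inner_starProjection_left_eq_right, Submodule.inner_starProjection_left_eq_right,
      Submodule.inner_starProjection_left_eq_right Lᗮ _ (Lᗮ.starProjection c), proj_self]
  simp only [e, Real.exp_add, ENNReal.ofReal_mul (Real.exp_pos _).le]
  rw [lintegral_const_mul' _ _ ENNReal.ofReal_ne_top, lintegral_exp_inner_stdGaussian]
  have h1 := subG_point (stdGaussian E) (x := Lᗮ.starProjection c)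
    (show 0 < 576 * (f - 1) by linarith) hc (Lᗮ.starProjection l)
  rw [lintegral_const, measure_univ, mul_one] at h1
  refine (mul_le_mul_left h1 _).trans ?_
  rw [← ENNReal.ofReal_mul (by positivity), mul_assoc, ← Real.exp_add]
  refine ENNReal.ofReal_le_ofReal ?_
  gcongr
  have hσ2 : σ ^ 2 ≤ 576 := (pow_le_pow_left₀ hσ hσ' 2).trans_eq (by norm_num)
  have := mul_le_mul_of_nonneg_right hσ2 (sq_nonneg ‖Lᗮ.starProjection l‖)
  simp only [Q₀, norm_smul, mul_pow, Real.norm_eq_abs, sq_abs]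
  nlinarith [sq_nonneg ‖L.starProjection l‖]

theorem Hyp.restart {R P L : Submodule ℝ E} {a m b : ℕ} {f ρ κ t u σ f' ρ' : ℝ} {Ω : Type}
    [MeasurableSpace Ω] {μ : Measure Ω} [SFinite μ] {S : Ω → Seed E N}
    (h : Hyp v R a b f ρ μ S) (ham : a ≤ m) (hmb : m ≤ b) (hb : b ≤ N) (hRP : R ≤ P) (hPL : P ≤ L)
    (Z : E →ₗ[ℝ] (ℕ → ℝ)) (hdep : ∀ c, Z c = Z (Pᗮ.starProjection c)) (hκ1 : 1 ≤ κ) (hf : 0 ≤ f)
    (hκ : ∀ c, ‖Rᗮ.starProjection (c + seg v (Z c) a m)‖ ≤ κ * ‖Rᗮ.starProjection c‖)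
    (hkill : ∀ c, Lᗮ.starProjection (c + seg v (Z c) a m) = 0) (W : E →ₗ[ℝ] (ℕ → ℝ)) (hu : 0 ≤ u)
    (hW : ∀ g, ∀ k ∈ Finset.Icc m b, ‖seg v (W g) m k‖ ≤ u * ‖g‖) (hσ : 0 ≤ σ) (hσ' : σ ≤ 24)
    (ht : 0 < t) (ht1 : t < 1) (hρ : 0 ≤ ρ) (hf' : κ ^ 2 * f / (1 - t) + ρ / (576 * t) ≤ f')
    (hf1 : 1 ≤ f') (hρ' : ρ + σ ^ 2 * u ^ 2 ≤ ρ') :
    Hyp v L m b f' ρ' (μ.prod (stdGaussian E)) (fun p =>
      ((stat R (S p.1).1
          ((advance v Z a m (S p.1)).2.1 + (advance v Z a m (S p.1)).2.2.1 + σ • p.2),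
        (advance v Z a m (S p.1)).2.1, (advance v Z a m (S p.1)).2.2.1 + σ • p.2,
        (S p.1).2.2.2 + res (W (σ • p.2))) : Seed E N)) := by
  have hA := h.adv ham hRP Z hdep hκ1 hf hκ
  have hRL : R ≤ L := hRP.trans hPL
  have hσn : ∀ (T : E →L[ℝ] E) (l : E),
      ‖ContinuousLinearMap.adjoint (σ • T) l‖ ^ 2 = σ ^ 2 * ‖ContinuousLinearMap.adjoint T l‖ ^ 2 :=
    fun T l => by simp [norm_smul, mul_pow]
  refine ⟨?_, ?_, fun k hk => ?_⟩
  · have hc : Continuous fun p : Seed E N × E =>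
        ((stat R p.1.1 ((advance v Z a m p.1).2.1 + (advance v Z a m p.1).2.2.1 + σ • p.2),
          (advance v Z a m p.1).2.1, (advance v Z a m p.1).2.2.1 + σ • p.2,
          p.1.2.2.2 + res (W (σ • p.2))) : Seed E N) := by
      have h1 : Continuous fun p : Seed E N × E => res (N := N) (W (σ • p.2)) :=
        (LinearMap.continuous_of_finiteDimensional (res (N := N) ∘ₗ W)).comp
          (continuous_snd.const_smul σ)
      have hd : Continuous fun p : Seed E N × E => advance v Z a m p.1 :=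
        (advance v Z a m).continuous.comp continuous_fst
      have hg : Continuous fun p : Seed E N × E => σ • p.2 := continuous_snd.const_smul σ
      exact ((R.starProjection.continuous.comp continuous_fst.fst).add
        (Rᗮ.starProjection.continuous.comp ((hd.snd.fst.add hd.snd.snd.fst).add hg))).prodMk
        (hd.snd.fst.prodMk ((hd.snd.snd.fst.add hg).prodMk
          (continuous_fst.snd.snd.snd.add h1)))
    exact hc.measurable.comp ((h.meas.comp measurable_fst).prodMk measurable_snd)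
  · have ho : SubG μ (fun ω => (advance v Z a m (S ω)).2.1) 2 (fun l => ρ * ‖l‖ ^ 2) := by
      simpa using hA.drift m (Finset.mem_Icc.2 ⟨le_rfl, hmb⟩)
    set K : E →L[ℝ] E := L.starProjection.comp Rᗮ.starProjection
    have hmY := measurable_stat (R := R) hA.meas
    have hmo : Measurable fun ω => (advance v Z a m (S ω)).2.1 :=
      (continuous_snd.fst).measurable.comp hA.meas
    have h1 := SubG.add (L.starProjection.continuous.measurable.comp hmY)
      (K.continuous.measurable.comp hmo) (hA.mean.map L.starProjection) (ho.map K) zero_le_two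
      ht ht1
    have h2 := SubG.indep ((L.starProjection.continuous.measurable.comp hmY).add
      (K.continuous.measurable.comp hmo)) h1 zero_le_two (σ • Rᗮ.starProjection)
    refine h2.conv zero_le_two (fun l => ?_) fun p => ?_
    · rw [hσn, (isSelfAdjoint_starProjection _).adjoint_eq,
        (isSelfAdjoint_starProjection _).adjoint_eq, ContinuousLinearMap.adjoint_comp,
        (isSelfAdjoint_starProjection _).adjoint_eq, (isSelfAdjoint_starProjection _).adjoint_eq]
      exact restart_quad hRL l hσ hσ' ht ht1 hρ hf' hf1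
    · simp only [Pi.add_apply, Function.comp_apply, ContinuousLinearMap.comp_apply, K,
        FunLike.coe_smul, Pi.smul_apply, restart_mean hRL, advance_apply, hkill, add_zero]
  · rw [Finset.mem_Icc] at hk
    set T : E →L[ℝ] E := LinearMap.toContinuousLinearMap (segLin v m k ∘ₗ W)
    have h1 := SubG.indep (measurable_drift hA.meas v m k) (hA.drift k (Finset.mem_Icc.2 hk))
      zero_le_two (σ • T)
    refine h1.conv zero_le_two (fun l => ?_) fun p => ?_
    · have h2 := pow_le_pow_left₀ (norm_nonneg _)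
        (norm_adjoint_le hu (fun x => hW x k (Finset.mem_Icc.2 hk)) (A := T) l) 2
      have h3 := mul_le_mul_of_nonneg_left h2 (sq_nonneg σ)
      have h4 := mul_le_mul_of_nonneg_right hρ' (sq_nonneg ‖l‖)
      simp only [hσn, mul_pow] at h3 ⊢
      linarith
    · have e : ∀ g, seg v (ext (res (N := N) (W (σ • g)))) m k = (σ • T) g := fun g => by
        rw [seg_ext_res v _ (hk.2.trans hb), show (σ • T) g = segLin v m k (W (σ • g)) by simp [T],
          segLin_apply]
      simp only [advance_apply, map_add, seg_add, e, add_assoc]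

end Vale.Agent.P262.Sig
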