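import Vale.Agent.P262.SigLongDef
import Vale.Agent.P262.SigRot
import Vale.Agent.P262.SigTrans
import Vale.Agent.P262.SigSelect

/-!
The exported expectation of a long node: convexity, positivity and smallness on random seeds.
-/

namespace Vale.Agent.P262.Sig

open MeasureTheory ProbabilityTheory Set Module
open scoped RealInnerProductSpace

set_option linter.unusedSectionVars false

private lemma tame_const_mul {V : Type*} [NormedAddCommGroup V] [NormedSpace ℝ V] {F : V → ℝ}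
    (h : Tame F) {c : ℝ} (hc : 0 ≤ c) : Tame (fun x => c * F x) := by
  obtain ⟨A, B, hA, hB, hg⟩ := h.grow
  refine ⟨h.cvx.smul hc, c * A, B, mul_nonneg hc hA, hB, fun x => ?_⟩
  rw [abs_mul, abs_of_nonneg hc, mul_assoc]
  exact mul_le_mul_of_nonneg_left (hg x) hc

private lemma lintegral_add_three {Ω : Type*} [MeasurableSpace Ω] {μ : Measure Ω} {A B C : Ω → ℝ}
    {a b c : ℝ} (hA : Measurable A) (hB : Measurable B) (hA0 : ∀ ω, 0 ≤ A ω) (hB0 : ∀ ω, 0 ≤ B ω)
    (hC0 : ∀ ω, 0 ≤ C ω) (ha : 0 ≤ a) (hb : 0 ≤ b) (hc : 0 ≤ c)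
    (h1 : ∫⁻ ω, ENNReal.ofReal (A ω) ∂μ ≤ ENNReal.ofReal a)
    (h2 : ∫⁻ ω, ENNReal.ofReal (B ω) ∂μ ≤ ENNReal.ofReal b)
    (h3 : ∫⁻ ω, ENNReal.ofReal (C ω) ∂μ ≤ ENNReal.ofReal c) :
    ∫⁻ ω, ENNReal.ofReal (A ω + B ω + C ω) ∂μ ≤ ENNReal.ofReal (a + b + c) := by
  rw [ENNReal.ofReal_add (add_nonneg ha hb) hc, ENNReal.ofReal_add ha hb]
  refine le_trans (le_of_eq ?_) (add_le_add (add_le_add h1 h2) h3)
  simp only [ENNReal.ofReal_add (add_nonneg (hA0 _) (hB0 _)) (hC0 _),
    ENNReal.ofReal_add (hA0 _) (hB0 _)]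
  rw [lintegral_add_left (hA.ennreal_ofReal.fun_add hB.ennreal_ofReal),
    lintegral_add_left hA.ennreal_ofReal]

/-- The drift variance of the seeds shifted at the start of a long node. -/
private noncomputable def rS (d r : ℕ) : ℝ :=
  pρ d r / (1 - pt d) + pf d r * 1152 * ((Dp d ^ 12)⁻¹) ^ 2 / pt d

private lemma small_g (d : ℕ) :
    0 < pt d ∧ pt d ≤ 1 / 32 ∧ pt d = ((d : ℝ) + 2)⁻¹ / 16 ∧
      pη d ≤ ((d : ℝ) + 2)⁻¹ / 1000 ∧ (d : ℝ) * pT d ≤ ((d : ℝ) + 2)⁻¹ / 1000 ∧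
      (Dp d)⁻¹ = ((d : ℝ) + 2)⁻¹ / 1000 := by
  have hd := (Nat.cast_nonneg d : (0 : ℝ) ≤ d)
  have h0 := Dp_pos d
  have e : (Dp d)⁻¹ = ((d : ℝ) + 2)⁻¹ / 1000 := by rw [Dp, mul_inv]; ring
  have et : pt d = ((d : ℝ) + 2)⁻¹ / 16 := by rw [pt, mul_inv]; ring
  refine ⟨inv_pos.2 (by positivity), ?_, et, ?_, ?_, e⟩
  · rw [pt, one_div]
    exact inv_anti₀ (by norm_num) (by linarith)
  · rw [← e]
    exact inv_anti₀ h0 (le_self_pow₀ (one_le_Dp d) (by norm_num))
  · rw [← e]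
    refine (mul_le_mul_of_nonneg_right (show (d : ℝ) ≤ Dp d by linarith [nat_le_Dp d])
      (pT_pos d).le).trans ?_
    calc Dp d * pT d = (Dp d ^ 44)⁻¹ := by unfold pT; field_simp
      _ ≤ _ := inv_anti₀ h0 (le_self_pow₀ (one_le_Dp d) (by norm_num))

private lemma rS_bounds {d r : ℕ} (hr : r ≤ d) :
    0 ≤ rS d r ∧ rS d r ≤ pρ d r + (4 * Dp d ^ 4)⁻¹ ∧ rS d r ≤ 2 * (Dp d ^ 3)⁻¹ := by
  obtain ⟨ht, ht1, et, -, -, -⟩ := small_g d
  have hD := Dp_pos d
  have hd := (Nat.cast_nonneg d : (0 : ℝ) ≤ d)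
  have hf := pf_one_le d r
  have hf' := pf_le d hr
  have hρ := pρ_pos d r
  have hr' : (r : ℝ) ≤ d := by exact_mod_cast hr
  set z := (Dp d ^ 4)⁻¹ with hz
  have hz0 : 0 < z := by positivity
  have h1 : pρ d r / (1 - pt d) ≤ pρ d r + z / 8 := by
    rw [div_le_iff₀ (by linarith)]
    have e : pρ d r * pt d ≤ z / 16 := by
      rw [show pρ d r = ((r : ℝ) + 1) * z from rfl, et,
        show ((r : ℝ) + 1) * z * (((d : ℝ) + 2)⁻¹ / 16) = (((r : ℝ) + 1) / ((d : ℝ) + 2)) * (z / 16)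
          by ring]
      exact mul_le_of_le_one_left (by positivity) ((div_le_one (by positivity)).2 (by linarith))
    nlinarith
  have h2 : pf d r * 1152 * ((Dp d ^ 12)⁻¹) ^ 2 / pt d ≤ z / 8 := by
    have e : pf d r * 1152 * ((Dp d ^ 12)⁻¹) ^ 2 / pt d
        = (pf d r * 1152 * 16 * ((d : ℝ) + 2)) * (Dp d ^ 24)⁻¹ := by
      unfold pt; field_simp
    rw [e]
    have hb : pf d r * 1152 * 16 * ((d : ℝ) + 2) ≤ Dp d * 28 := by unfold Dp; nlinarith
    refine (mul_le_mul_of_nonneg_right hb (by positivity)).trans ?_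
    calc Dp d * 28 * (Dp d ^ 24)⁻¹ = 28 * (Dp d ^ 23)⁻¹ := by field_simp
      _ ≤ 28 * (Dp d ^ 5)⁻¹ := mul_le_mul_of_nonneg_left
          (inv_anti₀ (pow_pos hD _) (Dp_pow_le d (by norm_num))) (by norm_num)
      _ = 28 * (Dp d)⁻¹ * z := by rw [hz]; field_simp
      _ ≤ 1 / 8 * z := by
          refine mul_le_mul_of_nonneg_right ?_ hz0.le
          rw [mul_inv_le_iff₀ hD]
          linarith [Dp_ge d]
      _ = z / 8 := by ring
  have e4 : (4 * Dp d ^ 4)⁻¹ = z / 4 := by rw [hz, mul_inv]; ring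
  refine ⟨add_nonneg (div_nonneg hρ.le (by linarith)) (by positivity), ?_, ?_⟩
  · rw [e4, rS]; linarith
  · have := pρ_le d hr
    have h34 : z ≤ (Dp d ^ 3)⁻¹ := inv_anti₀ (pow_pos hD _) (Dp_pow_le d (by norm_num))
    rw [rS]; linarith

private lemma rS_le_rWin {d r : ℕ} (hr : r ≤ d) : rS d r ≤ rWin d r := by
  refine (rS_bounds hr).2.1.trans ?_
  unfold rWin
  have : (4 * Dp d ^ 4)⁻¹ ≤ (2 * Dp d ^ 4)⁻¹ :=
    inv_anti₀ (by have := Dp_pos d; positivity) (by nlinarith [pow_pos (Dp_pos d) 4])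
  linarith

private lemma cov_step {d r : ℕ} (hr : r ≤ d) :
    (1 + (d : ℝ) * pT d) ^ 2 * pf d r / (1 - pt d) + rS d r / (576 * pt d)
        ≤ (1 - pη d) ^ 2 * fWin d r ∧
      1 ≤ (1 - pη d) ^ 2 * fWin d r ∧ (1 + (d : ℝ) * pT d) ^ 2 * pf d r ≤ 2 := by
  obtain ⟨ht, -, et, hη, hT, ei⟩ := small_g d
  have hD := Dp_pos d
  have hf := pf_one_le d r
  have hf2 := pf_le d hr
  obtain ⟨hS0, -, hS⟩ := rS_bounds hr
  set x := ((d : ℝ) + 2)⁻¹ with hx
  have hx0 : 0 < x := by positivity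
  have hx1 : x ≤ 1 / 2 := by
    rw [hx, one_div]; exact inv_anti₀ two_pos (by linarith [d.cast_nonneg (α := ℝ)])
  have hdT : 0 ≤ (d : ℝ) * pT d := mul_nonneg d.cast_nonneg (pT_pos d).le
  have hη0 := pη_pos d
  have hw : fWin d r = (1 + x / 8) * pf d r := by rw [fWin, hx, mul_inv]; ring
  have hκ : (1 + (d : ℝ) * pT d) ^ 2 ≤ 1 + x / 300 := by nlinarith
  have hm : 1 + x / 10 ≤ (1 - pη d) ^ 2 * (1 + x / 8) := by
    have h1 : 1 - x / 500 ≤ (1 - pη d) ^ 2 := by nlinarith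
    refine le_trans ?_ (mul_le_mul_of_nonneg_right h1 (by positivity))
    nlinarith
  have h2 : (1 + (d : ℝ) * pT d) ^ 2 / (1 - pt d) ≤ 1 + 9 * x / 100 := by
    rw [div_le_iff₀ (by linarith), et]
    nlinarith
  have h3 : rS d r / (576 * pt d) ≤ x / 100 := by
    rw [div_le_iff₀ (by positivity)]
    refine hS.trans ?_
    have h4 : (Dp d ^ 3)⁻¹ ≤ x / 1000 * (x / 1000) := by
      rw [← ei, ← mul_inv, ← sq]
      exact inv_anti₀ (pow_pos hD _) (Dp_pow_le d (by norm_num))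
    rw [et]
    nlinarith [sq_nonneg x]
  rw [hw]
  refine ⟨?_, ?_, ?_⟩
  · have e : (1 + (d : ℝ) * pT d) ^ 2 * pf d r / (1 - pt d)
        = (1 + (d : ℝ) * pT d) ^ 2 / (1 - pt d) * pf d r := by ring
    rw [e, ← mul_assoc]
    have := mul_le_mul_of_nonneg_right hm (zero_le_one.trans hf)
    have := mul_le_mul_of_nonneg_right h2 (zero_le_one.trans hf)
    nlinarith
  · rw [← mul_assoc]
    exact le_trans (by linarith) (le_trans (le_mul_of_one_le_right (by positivity) hf)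
      (mul_le_mul_of_nonneg_right hm (zero_le_one.trans hf)))
  · nlinarith

private lemma drift_step {d r : ℕ} (hr : r ≤ d) {σ : ℝ} (hσ0 : 0 ≤ σ) (hσ : σ ≤ 24) :
    rS d r + σ ^ 2 * (2 * (Dp d ^ 12)⁻¹) ^ 2 ≤ (1 - pη d) ^ 2 * rWin d r := by
  have hD := Dp_pos d
  obtain ⟨-, hS, -⟩ := rS_bounds hr
  set z := (Dp d ^ 4)⁻¹ with hz
  have hz0 : 0 < z := by positivity
  have hW : rWin d r = ((r : ℝ) + 3 / 2) * z := by rw [rWin, pρ, hz, mul_inv]; ring
  have e4 : (4 * Dp d ^ 4)⁻¹ = z / 4 := by rw [hz, mul_inv]; ring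
  have h1 : σ ^ 2 * (2 * (Dp d ^ 12)⁻¹) ^ 2 ≤ z / 16 := by
    have hs2 : σ ^ 2 ≤ 576 := (pow_le_pow_left₀ hσ0 hσ 2).trans_eq (by norm_num)
    refine (mul_le_mul_of_nonneg_right hs2 (sq_nonneg _)).trans ?_
    calc 576 * (2 * (Dp d ^ 12)⁻¹) ^ 2 = 2304 * (Dp d ^ 24)⁻¹ := by field_simp; ring
      _ ≤ 2304 * (Dp d ^ 6)⁻¹ := mul_le_mul_of_nonneg_left
          (inv_anti₀ (pow_pos hD _) (Dp_pow_le d (by norm_num))) (by norm_num)
      _ = 2304 * (Dp d ^ 2)⁻¹ * z := by rw [hz]; field_simp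
      _ ≤ 1 / 16 * z := by
          refine mul_le_mul_of_nonneg_right ?_ hz0.le
          rw [mul_inv_le_iff₀ (pow_pos hD _)]
          nlinarith [Dp_ge d]
      _ = z / 16 := by ring
  have h2 : 2 * pη d * ((r : ℝ) + 3 / 2) ≤ 1 / 16 := by
    have hr' : (r : ℝ) + 3 / 2 ≤ Dp d := by
      linarith [nat_le_Dp d, Dp_pos d, (Nat.cast_le (α := ℝ)).2 hr]
    refine (mul_le_mul_of_nonneg_left hr' (by linarith [pη_pos d])).trans ?_
    rw [show 2 * pη d * Dp d = 2 / Dp d by unfold pη; field_simp, div_le_iff₀ hD]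
    linarith [Dp_ge d]
  have e5 : pρ d r = ((r : ℝ) + 1) * z := rfl
  have h3 := mul_le_mul_of_nonneg_right h2 hz0.le
  have h4 : (1 - 2 * pη d) * rWin d r ≤ (1 - pη d) ^ 2 * rWin d r :=
    mul_le_mul_of_nonneg_right (by nlinarith [sq_nonneg (pη d)]) (by rw [hW]; positivity)
  rw [hW] at h4 ⊢
  linarith

private lemma exp_test_le {d k n : ℕ} (hn : n ≤ k) :
    Real.exp ((n : ℝ) - (k * pLg d : ℕ)) ≤ pu d ^ k := by
  rw [pu, ← Real.exp_nat_mul]
  refine Real.exp_le_exp.2 ?_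
  have : (n : ℝ) ≤ k := by exact_mod_cast hn
  push_cast
  linarith

variable {E : Type} [NormedAddCommGroup E] [InnerProductSpace ℝ E] [FiniteDimensional ℝ E]
  [MeasurableSpace E] [BorelSpace E]

namespace Long

variable {v : ℕ → E} {N : ℕ} {X R P L : Submodule ℝ E} {σ : ℝ} {d r x a b : ℕ} {e₀ e₁ e₂ : ℝ}
  (D : Long v N X R P L σ d r x a b e₀ e₁ e₂)

/-- The seed of the second window as a linear function of seed and deviation. -/
private noncomputable def startL : Seed E N × E →L[ℝ] Seed E N :=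
  LinearMap.toContinuousLinearMap
    { toFun := fun p => D.start p.1 p.2
      map_add' := fun p q => by
        simp only [start, mean₁, seed₁, stat, map_add, Prod.fst_add, Prod.snd_add, Prod.mk_add_mk,
          Prod.mk.injEq]
        exact ⟨by abel, trivial, by abel, by abel⟩
      map_smul' := fun t p => by
        simp only [start, mean₁, seed₁, stat, map_add, map_smul, Prod.smul_fst, Prod.smul_snd,
          RingHom.id_apply, Prod.smul_mk, smul_add] }

private lemma startL_apply (p : Seed E N × E) :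
    ((1 - pη d)⁻¹ • D.startL) p = (1 - pη d)⁻¹ • D.start p.1 p.2 := rfl

/-- The state after the first window as a linear function of seed and deviation. -/
private noncomputable def pointL : Seed E N × E →L[ℝ] E :=
  (ContinuousLinearMap.fst ℝ E (E × E × (Fin N → ℝ))).comp D.startL

private lemma tame_hat : Tame fun p : Seed E N × E => D.hat p.1 p.2 := by
  have h1 := D.op₁.tame.comp ((1 - pη d)⁻¹ • D.startL) 0
  have h2 := (tame_iff_nice.2 (nice_test (L ⊓ Xᗮ) (show (0 : ℝ) ≤ 4000 by norm_num)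
    (max (r - x) 1 * pLg d))).comp D.pointL 0
  have h3 := (tame_iff_nice.2 (nice_test (⊤ : Submodule ℝ E) (show (0 : ℝ) ≤ 4000 by norm_num)
    (d * pLg d))).comp (ContinuousLinearMap.snd ℝ (Seed E N) E) 0
  simpa [hat, startL, pointL, start] using (h1.add h2).add h3

private lemma hat_nonneg (s : Seed E N) (g : E) : 0 ≤ D.hat s g :=
  add_nonneg (add_nonneg (D.op₁.nonneg _) (test_nonneg _ (by norm_num) _ _))
    (test_nonneg _ (by norm_num) _ _)

private lemma integrable_hat (s : Seed E N) :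
    Integrable (fun g => 2 / pe d * D.hat s (σ • g)) (stdGaussian E) := by
  have h : Nice fun g => D.hat s g := tame_iff_nice.1 (by
    simpa using D.tame_hat.comp (ContinuousLinearMap.inr ℝ (Seed E N) E) (s, 0))
  simpa using (h.integrable 0 σ).const_mul (2 / pe d)

theorem tame_G : Tame D.G := by
  have h1 : Tame fun s => D.op₀.G (shiftSeed D.U₀ s) := by
    simpa using D.op₀.tame.comp (shiftSeed D.U₀) 0
  have h2 := (tame_const_mul D.tame_hat (div_nonneg zero_le_two (pe_pos d).le)).average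
    (ContinuousLinearMap.inl ℝ (Seed E N) E)
    (σ • ContinuousLinearMap.inr ℝ (Seed E N) E)
  have e : D.G = fun s => D.op₀.G (shiftSeed D.U₀ s) + ∫ g, 2 / pe d * D.hat s (σ • g)
      ∂stdGaussian E := rfl
  rw [e]
  exact h1.add (by simpa using h2)

theorem G_nonneg (s : Seed E N) : 0 ≤ D.G s :=
  add_nonneg (D.op₀.nonneg _) (integral_nonneg fun _ =>
    mul_nonneg (div_nonneg zero_le_two (pe_pos d).le) (D.hat_nonneg _ _))

include D in
private lemma hRL : R ≤ L := D.hRP.trans D.hPL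

private lemma expand₀ (c : E) :
    ‖Rᗮ.starProjection (c + seg v (D.op₀.Z c) (D.k 0) (D.k 1))‖
      ≤ (1 + (d : ℝ) * pT d) * ‖Rᗮ.starProjection c‖ := by
  have hle : Lᗮ ≤ Rᗮ := Submodule.orthogonal_le D.hRL
  have hc : ‖Lᗮ.starProjection c‖ ≤ ‖Rᗮ.starProjection c‖ := by
    rw [← Submodule.starProjection_comp_starProjection_of_le hle, ContinuousLinearMap.comp_apply]
    exact Submodule.norm_starProjection_apply_le _ _
  have hL : Rᗮ.starProjection (L.starProjection c) = L.starProjection (Rᗮ.starProjection c) := by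
    have e1 : L.starProjection (R.starProjection c) = R.starProjection c :=
      Submodule.starProjection_eq_self_iff.2 (D.hRL (R.starProjection_apply_mem c))
    have e2 : R.starProjection (L.starProjection c) = R.starProjection c := by
      rw [← ContinuousLinearMap.comp_apply,
        Submodule.starProjection_comp_starProjection_of_le D.hRL]
    rw [Submodule.starProjection_orthogonal_val, Submodule.starProjection_orthogonal_val, map_sub,
      e1, e2]
  have e : c + seg v (D.op₀.Z c) (D.k 0) (D.k 1) = L.starProjection c + D.ell 0 c := by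
    have h := D.seg_Zb (j := 0) (Nat.zero_le _) c
    simp only [Zb, if_true, zero_add] at h
    rw [h]
    nth_rewrite 1 [← L.starProjection_add_starProjection_orthogonal c]
    abel
  rw [e, map_add, hL]
  refine (norm_add_le _ _).trans ?_
  rw [add_mul, one_mul]
  exact add_le_add (Submodule.norm_starProjection_apply_le _ _)
    ((Submodule.norm_starProjection_apply_le _ _).trans ((D.ell_norm (Nat.zero_le _) c).trans
      (mul_le_mul_of_nonneg_left hc (mul_nonneg d.cast_nonneg (pT_pos d).le))))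

include D in
private lemma rank_frame (hxd : x ≤ r) : finrank ℝ ↥(L ⊓ Xᗮ) ≤ max (r - x) 1 := by
  have h := Submodule.finrank_add_inf_finrank_orthogonal (D.hXR.trans D.hRL)
  rw [D.hx, D.hr, inf_comm] at h
  omega

include D in
private lemma sigma_nonneg : 0 ≤ σ := le_trans (by linarith [pσ_ge d r]) D.hσ

private lemma hyp_start {Ω : Type} [MeasurableSpace Ω] {μ : Measure Ω} {S : Ω → Seed E N}
    (hS : Hyp v R a b (pf d r) (pρ d r) μ S) :
    Hyp v R (D.k 0) b (pf d r) (rS d r) μ (fun ω => shiftSeed D.U₀ (S ω)) := by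
  obtain ⟨ht, ht1, -⟩ := small_g d
  have hD := Dp_pos d
  rw [D.k_zero]
  exact hS.shift (u := (Dp d ^ 12)⁻¹) (t := pt d) D.hN D.hRP D.U₀
    (fun c => by rw [D.U₀_apply, D.U₀_apply, ← D.fix_spec.2.1])
    (by positivity)
    (fun c k hk => (D.U₀_seg c (Finset.mem_Icc.1 hk).1).trans (mul_le_mul_of_nonneg_left
      (by rw [← Submodule.starProjection_comp_starProjection_of_le (Submodule.orthogonal_le D.hRP),
            ContinuousLinearMap.comp_apply]
          exact Submodule.norm_starProjection_apply_le _ _) (by positivity)))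
    (zero_le_one.trans (pf_one_le d r)) (pρ_pos d r).le ht (by linarith)

private lemma part₀ {Ω : Type} [MeasurableSpace Ω] {μ : Measure Ω} [IsProbabilityMeasure μ]
    {S : Ω → Seed E N} (hS : Hyp v R a b (pf d r) (pρ d r) μ S) :
    ∫⁻ ω, ENNReal.ofReal (D.op₀.G (shiftSeed D.U₀ (S ω))) ∂μ ≤ ENNReal.ofReal e₀ :=
  Small.mono D.small₀ (le_mul_of_one_le_left (zero_le_one.trans (pf_one_le d r))
      (le_add_of_nonneg_right (by positivity)))
    (rS_le_rWin D.hrd.le) le_rfl μ _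
    ((D.hyp_start hS).interval (D.k_le_b (Nat.succ_le_succ (Nat.zero_le _))))

private lemma part₁ {Ω : Type} [MeasurableSpace Ω] {μ : Measure Ω} [IsProbabilityMeasure μ]
    {S : Ω → Seed E N} (hS : Hyp v R a b (pf d r) (pρ d r) μ S) :
    ∫⁻ p, ENNReal.ofReal (D.op₁.G ((1 - pη d)⁻¹ • D.start (S p.1) (σ • p.2)))
      ∂μ.prod (stdGaussian E) ≤ ENNReal.ofReal e₁ := by
  have hJ := D.hJ
  have hD := Dp_pos d
  have hb2 : D.k 2 ≤ b := D.k_le_b (by omega)
  have h12 : D.k 1 ≤ D.k 2 := D.k_le (j := 1) (by omega)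
  obtain ⟨ht, ht1, -⟩ := small_g d
  obtain ⟨hc1, hc2, -⟩ := cov_step D.hrd.le
  have hR := ((D.hyp_start hS).interval hb2).restart (t := pt d) (σ := σ)
    (u := 2 * (Dp d ^ 12)⁻¹)
    (D.k_le (Nat.zero_le _)) h12 (hb2.trans D.hN) D.hRL le_rfl D.op₀.Z D.op₀.dep
    (le_add_of_nonneg_right (mul_nonneg d.cast_nonneg (pT_pos d).le))
    (zero_le_one.trans (pf_one_le d r)) D.expand₀
    D.kill₀ D.W₁ (by positivity)
    (fun g k hk => (D.W₁_bounds g).2.2 k (Finset.Icc_subset_Icc le_rfl hb2 hk))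
    D.sigma_nonneg D.hσ' ht (by linarith) (rS_bounds D.hrd.le).1 hc1 hc2
    (drift_step D.hrd.le D.sigma_nonneg D.hσ')
  have hη1 : 0 < 1 - pη d := by have := pη_le d; norm_num at this; linarith
  have hH := hR.scale (1 - pη d)⁻¹
  have hq : ∀ y : ℝ, ((1 - pη d)⁻¹) ^ 2 * ((1 - pη d) ^ 2 * y) = y := fun y => by
    rw [← mul_assoc, ← mul_pow, inv_mul_cancel₀ hη1.ne', one_pow, one_mul]
  rw [hq, hq] at hH
  exact D.small₁ _ _ hH

private lemma measurable_pair {Ω : Type} [MeasurableSpace Ω] {S : Ω → Seed E N}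
    (hS : Measurable S) (σ : ℝ) : Measurable fun p : Ω × E => ((S p.1, σ • p.2) : Seed E N × E) :=
  (hS.comp measurable_fst).prodMk (measurable_snd.const_smul σ)

private lemma measurable_point {Ω : Type} [MeasurableSpace Ω] {S : Ω → Seed E N}
    (hS : Measurable S) :
    Measurable fun p : Ω × E => stat R (S p.1).1 (D.mean₁ (S p.1) + σ • p.2) :=
  D.pointL.continuous.measurable.comp (measurable_pair hS σ)

private lemma part₂ (hxd : x ≤ r) {Ω : Type} [MeasurableSpace Ω] {μ : Measure Ω}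
    [IsProbabilityMeasure μ] {S : Ω → Seed E N} (hS : Hyp v R a b (pf d r) (pρ d r) μ S) :
    ∫⁻ p, ENNReal.ofReal (test (L ⊓ Xᗮ) 4000 (max (r - x) 1 * pLg d)
      (stat R (S p.1).1 (D.mean₁ (S p.1) + σ • p.2))) ∂μ.prod (stdGaussian E)
      ≤ ENNReal.ofReal (3 * pu d ^ max (r - x) 1) := by
  have hJ := D.hJ
  have hb2 : D.k 2 ≤ b := D.k_le_b (by omega)
  have h12 : D.k 1 ≤ D.k 2 := D.k_le (j := 1) (by omega)
  have hρ := (rS_bounds D.hrd.le).2.2
  have hD3 : (Dp d ^ 3)⁻¹ ≤ 1 := inv_le_one_of_one_le₀ (one_le_pow₀ (one_le_Dp d))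
  have hA := ((D.hyp_start hS).interval hb2).adv (D.k_le (Nat.zero_le _)) D.hRL D.op₀.Z D.op₀.dep
    (le_add_of_nonneg_right (mul_nonneg d.cast_nonneg (pT_pos d).le))
    (zero_le_one.trans (pf_one_le d r)) D.expand₀
  have hst := subG_stat_point h12 (cov_step D.hrd.le).2.2 (by linarith) hA D.sigma_nonneg D.hσ'
  refine (subG_test (D.measurable_point hS.meas) hst zero_le_two (V := L ⊓ Xᗮ) (Γ := 4000)
    (by norm_num) (fun _ _ => le_rfl) (q := max (r - x) 1 * pLg d)
    (Nat.mul_pos (lt_max_of_lt_right one_pos) (pLg_pos d))).trans (ENNReal.ofReal_le_ofReal ?_)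
  have := exp_test_le (d := d) (D.rank_frame hxd)
  have := pow_pos (pu_pos d) (max (r - x) 1)
  linarith

include D in
private lemma part₃ {Ω : Type} [MeasurableSpace Ω] {μ : Measure Ω} [IsProbabilityMeasure μ] :
    ∫⁻ p : Ω × E, ENNReal.ofReal (test ⊤ 4000 (d * pLg d) (σ • p.2)) ∂μ.prod (stdGaussian E)
      ≤ ENNReal.ofReal (3 * pu d ^ d) := by
  have hG : SubG (stdGaussian E) (fun g => σ • g) 1 (fun l => σ ^ 2 * ‖l‖ ^ 2) := fun l => by
    simp only [real_inner_smul_right, ← real_inner_smul_left]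
    rw [lintegral_exp_inner_stdGaussian, norm_smul, mul_pow, Real.norm_eq_abs, sq_abs, one_mul]
  have hmt : Measurable fun g : E => ENNReal.ofReal (test ⊤ 4000 (d * pLg d) (σ • g)) :=
    ENNReal.measurable_ofReal.comp ((nice_test (⊤ : Submodule ℝ E)
      (show (0 : ℝ) ≤ 4000 by norm_num) _).continuous.measurable.comp
      (measurable_id.const_smul σ))
  have hmt' : Measurable fun p : Ω × E =>
      ENNReal.ofReal (test ⊤ 4000 (d * pLg d) (σ • p.2)) := hmt.comp measurable_snd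
  rw [lintegral_prod _ hmt'.aemeasurable]
  simp only [lintegral_const, measure_univ, mul_one]
  refine (subG_test (measurable_id.const_smul σ) hG zero_le_one (V := ⊤) (Γ := 4000)
    (by norm_num) (fun l _ => mul_le_mul_of_nonneg_right
      ((pow_le_pow_left₀ D.sigma_nonneg D.hσ' 2).trans (by norm_num)) (sq_nonneg _))
    (Nat.mul_pos (lt_of_le_of_lt (Nat.zero_le r) D.hrd) (pLg_pos d))).trans
    (ENNReal.ofReal_le_ofReal ?_)
  have := exp_test_le (d := d) (le_of_eq (finrank_top (R := ℝ) (M := E) ▸ D.hd))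
  have := pow_pos (pu_pos d) d
  linarith

private lemma measurable_start {Ω : Type} [MeasurableSpace Ω] {S : Ω → Seed E N}
    (hS : Measurable S) :
    Measurable fun p : Ω × E => D.op₁.G ((1 - pη d)⁻¹ • D.start (S p.1) (σ • p.2)) := by
  have h : Measurable fun y => D.op₁.G (((1 - pη d)⁻¹ • D.startL) y) :=
    (D.op₁.tame.continuous.comp ((1 - pη d)⁻¹ • D.startL).continuous).measurable
  have h' := h.comp (measurable_pair hS σ)
  simpa only [Function.comp_def, startL_apply] using h'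

private lemma measurable_test {Ω : Type} [MeasurableSpace Ω] {S : Ω → Seed E N}
    (hS : Measurable S) (n : ℕ) : Measurable fun p : Ω × E =>
      test (L ⊓ Xᗮ) 4000 n (stat R (S p.1).1 (D.mean₁ (S p.1) + σ • p.2)) :=
  (nice_test (L ⊓ Xᗮ) (show (0 : ℝ) ≤ 4000 by norm_num) n).continuous.measurable.comp
    (D.measurable_point hS)

private lemma part_hat (hxd : x ≤ r) (he1 : 0 ≤ e₁) {Ω : Type} [MeasurableSpace Ω]
    {μ : Measure Ω} [IsProbabilityMeasure μ] {S : Ω → Seed E N}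
    (hS : Hyp v R a b (pf d r) (pρ d r) μ S) :
    ∫⁻ p, ENNReal.ofReal (D.hat (S p.1) (σ • p.2)) ∂μ.prod (stdGaussian E)
      ≤ ENNReal.ofReal (e₁ + 3 * pu d ^ max (r - x) 1 + 3 * pu d ^ d) := by
  have hP : ∀ k : ℕ, 0 ≤ 3 * pu d ^ k := fun k => by have := pu_pos d; positivity
  exact lintegral_add_three
    (A := fun p : Ω × E => D.op₁.G ((1 - pη d)⁻¹ • D.start (S p.1) (σ • p.2)))
    (B := fun p : Ω × E => test (L ⊓ Xᗮ) 4000 (max (r - x) 1 * pLg d)
      (stat R (S p.1).1 (D.mean₁ (S p.1) + σ • p.2)))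
    (C := fun p : Ω × E => test ⊤ 4000 (d * pLg d) (σ • p.2))
    (D.measurable_start hS.meas) (D.measurable_test hS.meas _)
    (fun _ => D.op₁.nonneg _) (fun _ => test_nonneg _ (by norm_num) _ _)
    (fun _ => test_nonneg _ (by norm_num) _ _) he1 (hP _) (hP _) (D.part₁ hS) (D.part₂ hxd hS)
    (D.part₃ (μ := μ))

private lemma ofReal_G (s : Seed E N) :
    ENNReal.ofReal (D.G s) = ENNReal.ofReal (D.op₀.G (shiftSeed D.U₀ s))
      + ENNReal.ofReal (2 / pe d) * ∫⁻ g, ENNReal.ofReal (D.hat s (σ • g)) ∂stdGaussian E := by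
  have hc : 0 ≤ 2 / pe d := div_nonneg zero_le_two (pe_pos d).le
  have e : 0 ≤ ∫ g, 2 / pe d * D.hat s (σ • g) ∂stdGaussian E :=
    integral_nonneg fun _ => mul_nonneg hc (D.hat_nonneg _ _)
  rw [G, ENNReal.ofReal_add (D.op₀.nonneg _) e,
    ofReal_integral_eq_lintegral_ofReal (D.integrable_hat s)
      (Filter.Eventually.of_forall fun _ => mul_nonneg hc (D.hat_nonneg _ _))]
  simp only [ENNReal.ofReal_mul hc]
  rw [lintegral_const_mul' _ _ ENNReal.ofReal_ne_top]

private lemma measurable_hat {Ω : Type} [MeasurableSpace Ω] {S : Ω → Seed E N}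
    (hS : Measurable S) :
    Measurable fun p : Ω × E => ENNReal.ofReal (D.hat (S p.1) (σ • p.2)) := by
  have h : Measurable fun y : Seed E N × E => D.hat y.1 y.2 := D.tame_hat.continuous.measurable
  have h' := (h.comp (measurable_pair hS σ)).ennreal_ofReal
  simpa only [Function.comp_def] using h'

private lemma measurable_first {Ω : Type} [MeasurableSpace Ω] {S : Ω → Seed E N}
    (hS : Measurable S) :
    Measurable fun ω => ENNReal.ofReal (D.op₀.G (shiftSeed D.U₀ (S ω))) := by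
  have h : Measurable fun y => D.op₀.G (shiftSeed D.U₀ y) :=
    (D.op₀.tame.continuous.comp (shiftSeed D.U₀).continuous).measurable
  have h' := (h.comp hS).ennreal_ofReal
  simpa only [Function.comp_def] using h'

theorem small_G (hxd : x ≤ r) (he0 : 0 ≤ e₀) (he1 : 0 ≤ e₁) :
    Small v R a b (pf d r) (pρ d r) D.G
      (e₀ + 2 / pe d * (e₁ + 3 * pu d ^ max (r - x) 1 + 3 * pu d ^ d)) := by
  intro Ω _ μ _ S hS
  have hc : 0 ≤ 2 / pe d := div_nonneg zero_le_two (pe_pos d).le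
  have hP : ∀ k : ℕ, 0 ≤ 3 * pu d ^ k := fun k => by have := pu_pos d; positivity
  simp only [D.ofReal_G]
  have hm0 := D.measurable_first hS.meas
  have hmh := D.measurable_hat hS.meas
  rw [lintegral_add_left hm0, lintegral_const_mul' _ _ ENNReal.ofReal_ne_top,
    ← lintegral_prod _ hmh.aemeasurable, ENNReal.ofReal_add he0
      (mul_nonneg hc (add_nonneg (add_nonneg he1 (hP _)) (hP _))), ENNReal.ofReal_mul hc]
  exact add_le_add (D.part₀ hS) (mul_le_mul_right (D.part_hat hxd he1 hS) _)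

end Long

end Vale.Agent.P262.Sig
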