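import Vale.Agent.P262.SigLongTail
import Vale.Agent.P262.SigLongG

/-!
The operation of a long node.
-/

namespace Vale.Agent.P262.Sig

open MeasureTheory ProbabilityTheory Set Module
open scoped RealInnerProductSpace

set_option linter.unusedSectionVars false

variable {E : Type} [NormedAddCommGroup E] [InnerProductSpace ℝ E] [FiniteDimensional ℝ E]
  [MeasurableSpace E] [BorelSpace E]

namespace Long

variable {v : ℕ → E} {N : ℕ} {X R P L : Submodule ℝ E} {σ : ℝ} {d r x a b : ℕ} {e₀ e₁ e₂ : ℝ}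
  (D : Long v N X R P L σ d r x a b e₀ e₁ e₂)

lemma nice_hat (s : Seed E N) (m : E) : Nice (fun y => D.hat s (y - m)) := by
  have h : Nice (fun g => D.hat s g) := by
    let A : E →L[ℝ] Seed E N := LinearMap.toContinuousLinearMap
      ((1 - pη d)⁻¹ • (Rᗮ.starProjection.toLinearMap.prod
        ((0 : E →ₗ[ℝ] E).prod (LinearMap.id.prod (res ∘ₗ D.W₁)))))
    have h1 : Nice (fun g => D.op₁.G ((1 - pη d)⁻¹ • D.start s g)) := by
      refine tame_iff_nice.1 ?_
      convert D.op₁.tame.comp A ((1 - pη d)⁻¹ •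
        (stat R s.1 (D.mean₁ s), (D.seed₁ s).2.1, (D.seed₁ s).2.2.1, (D.seed₁ s).2.2.2)) using 2 with g
      congr 1
      rw [D.start_apply, stat_add]
      refine Prod.ext ?_ (Prod.ext ?_ (Prod.ext ?_ ?_)) <;> simp [A, smul_add] <;> abel
    have h2 : Nice (fun g => test (L ⊓ Xᗮ) 4000 (max (r - x) 1 * pLg d)
        (stat R s.1 (D.mean₁ s + g))) := by
      have := Nice.comp_affine (nice_test (L ⊓ Xᗮ) (by norm_num : (0 : ℝ) ≤ 4000)
        (max (r - x) 1 * pLg d)) Rᗮ.starProjection (stat R s.1 (D.mean₁ s))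
      refine Eq.subst (motive := fun F => Nice F) (funext fun g => ?_) this
      rw [stat_add, add_comm]
    exact (h1.add h2).add (nice_test ⊤ (by norm_num) _)
  simpa [sub_eq_add_neg] using h.comp_add (-m)

lemma U₀_dep (c : E) : D.U₀ c = D.U₀ (Pᗮ.starProjection c) := by
  rw [D.U₀_apply, D.U₀_apply, ← D.fix_spec.2.1]

lemma bdd₀ {s : Seed E N} (hs : Bdd v P a b (Bdn d r 0) s) :
    Bdd v L (D.k 0) (D.k 1) (Bdn d r 1) (shiftSeed D.U₀ s) := by
  have hJ := D.hJ
  have hD := Dp_pos d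
  obtain ⟨e1, e2, e3⟩ := Bdn_step d r
  have hb := D.k_le_b (j := 1) (by omega)
  have h83 := inv_Dp_le d (show 3 ≤ 8 by norm_num)
  refine ⟨?_, fun i hi => ?_, fun i hi => ?_⟩
  · rw [shiftSeed_apply, e3]
    exact (D.norm_perp_le _).trans hs.mean
  · obtain ⟨i1, i2⟩ := Finset.mem_Ico.1 hi
    rw [shiftSeed_apply, map_add, Pi.add_apply, ext_res _ ((i2.trans_le hb).trans_le D.hN), e1]
    refine (abs_add_le _ _).trans (add_le_add (hs.shift i (Finset.mem_Ico.2
      ⟨(D.le_k (by omega)).trans i1, i2.trans_le hb⟩)) ((D.U₀_coef _ i).trans ?_))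
    refine (mul_le_mul (mul_le_mul (show (Cdn d r 1).z ≤ 1 by linarith [D.sizes.1, D.sizes.2.1])
      (dT_le d) (mul_nonneg d.cast_nonneg (pT_pos d).le) zero_le_one) (hs.mean.trans (pBc_le d))
      (norm_nonneg _) (by positivity)).trans ?_
    rw [one_mul, show (Dp d ^ 44)⁻¹ * Dp d ^ 4 = (Dp d ^ 40)⁻¹ by field_simp]
    exact inv_Dp_le d (by norm_num)
  · obtain ⟨i1, i2⟩ := Finset.mem_Icc.1 hi
    simp only [shiftSeed_apply]
    rw [map_add, seg_add, seg_ext_res v _ ((i2.trans hb).trans D.hN), ← add_assoc, e2]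
    have h1 := hs.drift i (Finset.mem_Icc.2 ⟨(D.le_k (by omega)).trans i1, i2.trans hb⟩)
    rw [← D.seg_a, ← D.seg_a]
    refine (norm_add_le _ _).trans (add_le_add h1 ((D.U₀_seg _ ((D.le_k (j := 0) (by omega)).trans i1)).trans ?_))
    refine (mul_le_mul_of_nonneg_left (hs.mean.trans (pBc_le d)) (by positivity)).trans ?_
    rw [show (Dp d ^ 12)⁻¹ * Dp d ^ 4 = (Dp d ^ 8)⁻¹ by field_simp]
    exact h83

lemma Z_pref (c : E) {i : ℕ} (hi : i ∈ Finset.Icc a b) :
    ‖Pᗮ.starProjection (c + seg v (D.Z c) a i)‖ ≤ (Cdn d r 0).p * ‖Pᗮ.starProjection c‖ := by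
  obtain ⟨i1, i2⟩ := Finset.mem_Icc.1 hi
  set M := ‖Pᗮ.starProjection c‖
  have hM : 0 ≤ M := norm_nonneg _
  have hLM : ‖Lᗮ.starProjection c‖ ≤ M := D.norm_perp_le c
  obtain ⟨hz0, hz, hp1, hp, hR⟩ := D.sizes
  have hD := Dp_pos d
  set y := seg v (D.Zb 0 c) a i with hy
  have e : seg v (D.Z c) a i = y + seg v (D.U₀ c) a i := by
    rw [D.Z_apply, D.U₀_apply, hy, ← seg_add, sub_eq_add_neg]
  have hu := D.U₀_seg c i1
  have hk0 : D.k 0 ≤ i := le_of_eq_of_le D.k_zero i1
  have hfast : ‖Lᗮ.starProjection (c + y)‖ ≤ (Cdn d r 1).p * M := by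
    refine le_trans ?_ (mul_le_mul_of_nonneg_left hLM (by linarith))
    rw [hy, D.seg_a]
    rcases le_total i (D.k 1) with h | h
    · exact D.Zb_pref (Nat.zero_le _) c (Finset.mem_Icc.2 ⟨hk0, h⟩)
    · rw [D.seg_Zb_after (Nat.zero_le _) c h, D.Zb_kill (Nat.zero_le _), norm_zero]
      exact mul_nonneg (by linarith) (norm_nonneg _)
  have hslow : ‖L.starProjection y‖ ≤ (d : ℝ) * pT d * M := by
    refine le_trans ?_ (mul_le_mul_of_nonneg_left hLM (mul_nonneg d.cast_nonneg (pT_pos d).le))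
    have hn := D.node.mono (pR_pos d).le (D.le_k (j := 0) (by omega))
      (D.k_le_b (j := 1) (by have := D.hJ; omega)) (D.k_le (Nat.zero_le _))
    have key : ∀ l ∈ Finset.Icc (D.k 0) (D.k 1),
        ‖L.starProjection (seg v (D.Zb 0 c) (D.k 0) l)‖ ≤ (d : ℝ) * pT d * ‖Lᗮ.starProjection c‖ := by
      intro l hl
      have := D.op₀.slow D.hv hn le_rfl (pT_pos d).le hR hz hp c hl
      rw [D.hd] at this
      simpa [Zb] using this
    rw [hy, D.seg_a]
    rcases le_total i (D.k 1) with h | h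
    · exact key i (Finset.mem_Icc.2 ⟨hk0, h⟩)
    · rw [D.seg_Zb_after (Nat.zero_le _) c h]
      exact key _ (Finset.mem_Icc.2 ⟨D.k_le (Nat.zero_le _), le_rfl⟩)
  have h2 : ‖(L ⊓ Pᗮ).starProjection (c + y)‖ ≤ M + (d : ℝ) * pT d * M := by
    rw [map_add]
    refine (norm_add_le _ _).trans (add_le_add ?_ ?_)
    · rw [← Submodule.starProjection_comp_starProjection_of_le (inf_le_right : L ⊓ Pᗮ ≤ Pᗮ),
        ContinuousLinearMap.comp_apply]
      exact Submodule.norm_starProjection_apply_le _ _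
    · rw [← Submodule.starProjection_comp_starProjection_of_le (inf_le_left : L ⊓ Pᗮ ≤ L),
        ContinuousLinearMap.comp_apply]
      exact (Submodule.norm_starProjection_apply_le _ _).trans hslow
  rw [e, ← add_assoc, map_add]
  refine (norm_add_le _ _).trans ?_
  have h3 := norm_perp_le_add D.hPL (c + y)
  have h4 : ‖Pᗮ.starProjection (seg v (D.U₀ c) a i)‖ ≤ (Dp d ^ 12)⁻¹ * M :=
    (Submodule.norm_starProjection_apply_le _ _).trans hu
  rw [(Cdn_step d r).2]
  have h44 : (d : ℝ) * pT d + (Dp d ^ 12)⁻¹ ≤ 1 := by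
    have := inv_Dp_le d (show 1 ≤ 44 by norm_num)
    have := inv_Dp_le d (show 1 ≤ 12 by norm_num)
    have h1 : (Dp d ^ 1)⁻¹ ≤ 1 / 2 := by
      rw [pow_one, one_div]; exact inv_anti₀ two_pos (by linarith [Dp_ge d])
    linarith [dT_le d]
  nlinarith [mul_le_mul_of_nonneg_right h44 hM]

/-- The operation of a long node and its exported expectation. -/
theorem exists_op (D : Long v N X R P L σ d r x a b e₀ e₁ e₂) (he₀ : 0 ≤ e₀) (he₁ : 0 ≤ e₁) (he₁' : e₁ ≤ pe d) (he₂ : 0 ≤ e₂)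
    (he₂' : e₂ ≤ pe d * pe d) :
    ∃ o : Op v N X R P σ (bdd' d r x) (rbd d r) (Bdn d r 0) (Cdn d r 0) a b,
      Small v R a b (pf d r) (pρ d r) o.G
        (e₀ + 2 / pe d * (e₁ + 3 * pu d ^ max (r - x) 1 + 3 * pu d ^ d)) := by
  have hJ := D.hJ
  have hbd : bdd' d (r + 1) x ≤ bdd' d r x := by
    simp only [bdd']; push_cast
    have : 0 ≤ (Dp d ^ 2)⁻¹ := inv_nonneg.2 (pow_nonneg (Dp_pos d).le _)
    linarith
  have hrb : rbd d (r + 1) ≤ rbd d r ∧ 0 ≤ rbd d r := by
    have h5 := pow_nonneg (Dp_pos d).le 5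
    have : (r : ℝ) ≤ d := by exact_mod_cast D.hrd.le
    simp only [rbd]; push_cast
    exact ⟨by linarith, mul_nonneg (by linarith) h5⟩
  refine ⟨{ Z := D.Z, G := D.G, le := D.hab, leN := D.hN
            dep := fun c => ?_, supp := fun c i hi => ?_, coef := fun c i => ?_
            pref := fun c k hk => D.Z_pref c hk, contr := fun c => ?_
            tame := D.tame_G, nonneg := D.G_nonneg, act := ?_ },
    D.small_G D.hxr he₀ he₁⟩
  · rw [Z, LinearMap.add_apply, LinearMap.add_apply, ← D.U₀_dep]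
    congr 1
    rw [D.op₀.dep, D.op₀.dep (Pᗮ.starProjection c),
      ← ContinuousLinearMap.comp_apply Lᗮ.starProjection Pᗮ.starProjection,
      Submodule.starProjection_comp_starProjection_of_le (Submodule.orthogonal_le D.hPL)]
  · refine D.Z_supp c ?_
    have := D.k_le_b (j := 1) (by omega)
    simp only [Finset.mem_Ico] at hi ⊢; omega
  · rw [D.Z_apply, Pi.sub_apply, (Cdn_step d r).1]
    refine (abs_sub _ _).trans ?_
    have hz0 := D.sizes.1
    have hz1 : (Cdn d r 1).z ≤ 1 := by linarith [D.sizes.1, D.sizes.2.1]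
    rw [add_mul]
    refine add_le_add ((D.Zb_coef (Nat.zero_le _) c i).trans
      (mul_le_mul_of_nonneg_left (D.norm_perp_le c) hz0)) ?_
    refine ((D.Zb_coef (Nat.zero_le _) _ i).trans (mul_le_mul hz1
      ((Submodule.norm_starProjection_apply_le _ _).trans (D.fix_spec.2.2.1 c)) (norm_nonneg _)
      zero_le_one)).trans ?_
    rw [one_mul]
    exact mul_le_mul_of_nonneg_right ((dT_le d).trans (inv_Dp_le d (by norm_num))) (norm_nonneg _)
  · rw [D.Z_end]
    exact D.fix_spec.2.2.2 c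
  · intro s hs φ hφ μ hμ
    have hF₁ : Nice (fun y => μ * (2 / pe d * D.hat s (y - D.mean₁ s))
        + D.U φ s (y - D.mean₁ s)) :=
      (((D.nice_hat s _).const_mul (div_nonneg zero_le_two (pe_pos d).le)).const_mul hμ).add
        (D.nice_U hφ s _)
    obtain ⟨F, hF, hx, hg⟩ := D.op₀.act (shiftSeed D.U₀ s) (D.bdd₀ hs) _ hF₁ μ hμ
    refine ⟨F, hF, fun y => ?_, ?_⟩
    · obtain ⟨ε₀, w₀, ho₀, hle₀⟩ := hx y
      simp only [shiftSeed_apply] at ho₀
      set x₁ := y + seg v ε₀ (D.k 0) (D.k 1)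
      obtain ⟨ε₁, w₁, ho₁, hle₁⟩ :=
        D.exists_tail he₁' he₂ he₂' hs hφ hμ (x₁ - D.mean₁ s)
      rw [add_sub_cancel] at ho₁ hle₁
      obtain ⟨ho, hseg⟩ := Out.append (D.k_le (Nat.zero_le _)) (D.k_le_b (by omega)) hrb.2
        (ho₀.mono hbd hrb.1) ho₁
      rw [D.k_zero] at ho hseg
      refine ⟨_, _, ho, ?_⟩
      rw [hseg, ← add_assoc, mul_add]
      have : seg v ε₀ a (D.k 1) = seg v ε₀ (D.k 0) (D.k 1) := D.seg_a _ _
      rw [this]
      linarith
    · have em : (shiftSeed D.U₀ s).2.1 + (shiftSeed D.U₀ s).2.2.1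
          + seg v (D.op₀.Z (shiftSeed D.U₀ s).2.2.1 + ext (shiftSeed D.U₀ s).2.2.2) (D.k 0) (D.k 1)
          = D.mean₁ s := by
        simp only [mean₁, D.seed₁_apply, shiftSeed_apply, map_add, seg_add,
          seg_ext_res v _ (D.op₀.leN : D.k 1 ≤ N)]
        abel
      rw [em] at hg
      simp only [shiftSeed_apply] at hg
      refine hg.trans ?_
      have e1 : gavg (fun y => μ * (2 / pe d * D.hat s (y - D.mean₁ s))
            + D.U φ s (y - D.mean₁ s)) (D.mean₁ s) σ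
          = μ * (∫ g, 2 / pe d * D.hat s (σ • g) ∂stdGaussian E)
            + ∫ g, D.U φ s (σ • g) ∂stdGaussian E := by
        rw [gavg_add (((D.nice_hat s _).const_mul (div_nonneg zero_le_two (pe_pos d).le)).const_mul hμ)
          (D.nice_U hφ s _), gavg_const_mul]
        simp [gavg]
      rw [e1]
      have := D.U_le hφ s (σ := σ)
      have eG : D.G s = D.op₀.G (shiftSeed D.U₀ s)
          + ∫ g, 2 / pe d * D.hat s (σ • g) ∂stdGaussian E := rfl
      rw [eG, shiftSeed_apply]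
      simp only [ctr] at this
      linarith

end Long

end Vale.Agent.P262.Sig
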