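import Vale.Agent.P262.SigShift

/-!
The exported expectation of a long node and the smoothed objective after its first window.
-/

namespace Vale.Agent.P262.Sig

open MeasureTheory ProbabilityTheory Set Module
open scoped RealInnerProductSpace

set_option linter.unusedSectionVars false

variable {E : Type} [NormedAddCommGroup E] [InnerProductSpace ℝ E] [FiniteDimensional ℝ E]
  [MeasurableSpace E] [BorelSpace E]

namespace Long

variable {v : ℕ → E} {N : ℕ} {X R P L : Submodule ℝ E} {σ : ℝ} {d r x a b : ℕ} {e₀ e₁ e₂ : ℝ}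
  (D : Long v N X R P L σ d r x a b e₀ e₁ e₂)

/-- The seed at the end of the first window. -/
noncomputable def seed₁ (s : Seed E N) : Seed E N :=
  advance v D.op₀.Z (D.k 0) (D.k 1) (shiftSeed D.U₀ s)

/-- The mean state at the end of the first window. -/
noncomputable def mean₁ (s : Seed E N) : E := (D.seed₁ s).2.1 + (D.seed₁ s).2.2.1

/-- The seed of the second window at deviation `g` from the mean. -/
noncomputable def start (s : Seed E N) (g : E) : Seed E N :=
  (stat R s.1 (D.mean₁ s + g), (D.seed₁ s).2.1, (D.seed₁ s).2.2.1 + g,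
    (D.seed₁ s).2.2.2 + res (D.W₁ g))

/-- The badness of the state after the first window. -/
noncomputable def hat (s : Seed E N) (g : E) : ℝ :=
  D.op₁.G ((1 - pη d)⁻¹ • D.start s g)
    + test (L ⊓ Xᗮ) 4000 (max (r - x) 1 * pLg d) (stat R s.1 (D.mean₁ s + g))
    + test ⊤ 4000 (d * pLg d) g

/-- The exported expectation. -/
noncomputable def G (s : Seed E N) : ℝ :=
  D.op₀.G (shiftSeed D.U₀ s) + ∫ g, 2 / pe d * D.hat s (σ • g) ∂stdGaussian E

/-- The mean end state. -/
noncomputable def ctr (s : Seed E N) : E :=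
  s.2.1 + s.2.2.1 + seg v (D.Z s.2.2.1 + ext s.2.2.2) a b

/-- The rotated base part of the end state. -/
noncomputable def Aa (g : E) : E :=
  L.starProjection g
    + D.ell D.J (Lᗮ.starProjection g - ContinuousLinearMap.adjoint (D.ell D.J) (L.starProjection g))
    + ContinuousLinearMap.adjoint (D.ell D.J) (L.starProjection g)

/-- The deflated part of the end state. -/
noncomputable def Ab (g : E) : E :=
  D.Aa g
    + (pη d)⁻¹ • (D.ell 1 - D.ell D.J)
        (Lᗮ.starProjection g - ContinuousLinearMap.adjoint (D.ell D.J) (L.starProjection g))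
    - pz d • ∑ j, ⟪D.u j, g⟫ • D.u j

/-- The fresh part of the end state. -/
noncomputable def Bw (w : E) : E := Lᗮ.starProjection w - D.ell D.J w

/-- Spread of the fresh part. -/
noncomputable def sB (d r : ℕ) : ℝ := pσ d (r + 1) * (1 + pη d) / (1 - pη d)

/-- Spread of the interpolation points. -/
noncomputable def spread : ℝ := D.r' * (Dp d ^ 6 / pη d)

/-- The smoothed objective at deviation `g`. -/
noncomputable def U (φ : E → ℝ) (s : Seed E N) (g : E) : ℝ :=
  (1 - pη d) * ∫ g', φ (D.ctr s + D.Aa g + sB d r • D.Bw g') ∂stdGaussian E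
    + pη d * (if D.r' = 0 then ∫ g', φ (D.ctr s + D.Ab g + sB d r • D.Bw g') ∂stdGaussian E
      else (∑ j, ∫ g', (φ (D.ctr s + D.spread • D.u j + D.Ab g + sB d r • D.Bw g')
        + φ (D.ctr s - D.spread • D.u j + D.Ab g + sB d r • D.Bw g')) / 2 ∂stdGaussian E) / D.r')

end Long

end Vale.Agent.P262.Sig
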