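import Vale.Agent.P262.SigLongDef

/-!
Identities and bounds for the states after the first window of a long node.
-/

namespace Vale.Agent.P262.Sig

open MeasureTheory ProbabilityTheory Set Module
open scoped RealInnerProductSpace

set_option linter.unusedSectionVars false

lemma Cdn_step (d r : ℕ) :
    (Cdn d r 0).z = (Cdn d r 1).z + (Dp d ^ 2)⁻¹ ∧ (Cdn d r 0).p = (Cdn d r 1).p + 2 := by
  simp only [Cdn]; constructor <;> push_cast <;> ring

lemma Bdn_step (d r : ℕ) :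
    (Bdn d r 1).α = (Bdn d r 0).α + (Dp d ^ 3)⁻¹ ∧ (Bdn d r 1).o = (Bdn d r 0).o + (Dp d ^ 3)⁻¹
      ∧ (Bdn d r 1).c = (Bdn d r 0).c := by
  simp only [Bdn]; refine ⟨?_, ?_, trivial⟩ <;> push_cast <;> ring

lemma dT_le (d : ℕ) : (d : ℝ) * pT d ≤ (Dp d ^ 44)⁻¹ := by
  have h0 := Dp_pos d
  refine (mul_le_mul_of_nonneg_right (show (d : ℝ) ≤ Dp d by linarith [nat_le_Dp d])
    (pT_pos d).le).trans (le_of_eq ?_)
  unfold pT; field_simp

lemma inv_Dp_le (d : ℕ) {i j : ℕ} (h : j ≤ i) : (Dp d ^ i)⁻¹ ≤ (Dp d ^ j)⁻¹ :=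
  inv_anti₀ (pow_pos (Dp_pos d) _) (Dp_pow_le d h)

variable {E : Type} [NormedAddCommGroup E] [InnerProductSpace ℝ E] [FiniteDimensional ℝ E]
  [MeasurableSpace E] [BorelSpace E]

lemma stat_add (R : Submodule ℝ E) (q s t : E) :
    stat R q (s + t) = stat R q s + Rᗮ.starProjection t := by
  simp only [stat, map_add, add_assoc]

lemma proj_perp_self (L : Submodule ℝ E) {x : E} (hx : x ∈ L) : Lᗮ.starProjection x = 0 :=
  (Submodule.starProjection_apply_eq_zero_iff _).2 (L.le_orthogonal_orthogonal hx)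

lemma proj_self_perp (L : Submodule ℝ E) {x : E} (hx : x ∈ Lᗮ) : L.starProjection x = 0 :=
  (Submodule.starProjection_apply_eq_zero_iff _).2 hx

namespace Long

variable {v : ℕ → E} {N : ℕ} {X R P L : Submodule ℝ E} {σ : ℝ} {d r x a b : ℕ} {e₀ e₁ e₂ : ℝ}
  (D : Long v N X R P L σ d r x a b e₀ e₁ e₂)

lemma seed₁_apply (s : Seed E N) :
    D.seed₁ s = (s.1, s.2.1 + seg v (ext s.2.2.2 + D.U₀ s.2.2.1) (D.k 0) (D.k 1),
      s.2.2.1 + seg v (D.op₀.Z s.2.2.1) (D.k 0) (D.k 1), s.2.2.2 + res (D.U₀ s.2.2.1)) := by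
  have hN : D.k 1 ≤ N := D.op₀.leN
  rw [seed₁, advance_apply, shiftSeed_apply, seg_add, map_add, seg_add, seg_ext_res v _ hN]

lemma seed₁_perp (s : Seed E N) : Lᗮ.starProjection (D.seed₁ s).2.2.1 = 0 := by
  rw [D.seed₁_apply]
  exact D.kill₀ _

lemma adj_mem (y : E) : ContinuousLinearMap.adjoint (D.ell D.J) y ∈ Lᗮ := by
  rw [Submodule.mem_orthogonal]
  intro w hw
  rw [ContinuousLinearMap.adjoint_inner_right, D.ell_dep, proj_perp_self L hw, map_zero,
    inner_zero_left]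

lemma drift₁ {s : Seed E N} (hs : Bdd v P a b (Bdn d r 0) s) {i : ℕ} (h1 : D.k 1 ≤ i) (h2 : i ≤ b) :
    ‖(D.seed₁ s).2.1 + seg v (ext (D.seed₁ s).2.2.2) (D.k 1) i‖
      ≤ (Bdn d r 0).o + (Dp d ^ 8)⁻¹ := by
  have hN : i ≤ N := h2.trans D.hN
  have ha := D.k_zero
  have e : (D.seed₁ s).2.1 + seg v (ext (D.seed₁ s).2.2.2) (D.k 1) i
      = s.2.1 + seg v (ext s.2.2.2) a i + seg v (D.U₀ s.2.2.1) a i := by
    rw [D.seed₁_apply]
    simp only []
    rw [add_assoc s.2.1, add_assoc s.2.1, D.seg_a, D.seg_a, ← seg_add,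
      seg_append' v (ext s.2.2.2 + D.U₀ s.2.2.1) (D.k_mono (Nat.zero_le 1) (by omega)) h1]
    simp only [map_add, seg_add, seg_ext_res v _ hN]
  rw [e]
  refine (norm_add_le _ _).trans (add_le_add
    (hs.drift i (Finset.mem_Icc.2 ⟨(D.le_k (by omega)).trans h1, h2⟩)) ?_)
  refine (D.U₀_seg _ ((D.le_k (j := 1) (by omega)).trans h1)).trans ?_
  refine (mul_le_mul_of_nonneg_left (hs.mean.trans (pBc_le d))
    (inv_nonneg.2 (pow_nonneg (Dp_pos d).le _))).trans (le_of_eq ?_)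
  have := Dp_pos d
  field_simp

lemma shift₁ {s : Seed E N} (hs : Bdd v P a b (Bdn d r 0) s) {i : ℕ} (hi : i ∈ Finset.Ico a b) :
    |ext (D.seed₁ s).2.2.2 i| ≤ (Bdn d r 0).α + (Dp d ^ 8)⁻¹ := by
  have hN : i < N := (Finset.mem_Ico.1 hi).2.trans_le D.hN
  rw [D.seed₁_apply]
  simp only [map_add, Pi.add_apply, ext_res _ hN]
  refine (abs_add_le _ _).trans (add_le_add (hs.shift i hi) ?_)
  refine (D.U₀_coef _ i).trans ?_
  have hz : (Cdn d r 1).z ≤ 1 := by linarith [D.sizes.1, D.sizes.2.1]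
  refine (mul_le_mul (mul_le_mul hz (dT_le d) (mul_nonneg d.cast_nonneg (pT_pos d).le) zero_le_one)
    (hs.mean.trans (pBc_le d)) (norm_nonneg _) (by have := Dp_pos d; positivity)).trans ?_
  rw [one_mul]
  calc (Dp d ^ 44)⁻¹ * Dp d ^ 4 = (Dp d ^ 40)⁻¹ := by have := Dp_pos d; field_simp
    _ ≤ _ := inv_Dp_le d (by norm_num)

lemma ctr_eq (s : Seed E N) :
    D.ctr s = D.mean₁ s + seg v (ext (D.seed₁ s).2.2.2) (D.k 1) b := by
  have hk : D.k 1 ≤ b := D.k_le_b (by omega)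
  have hk0 : D.k 0 ≤ D.k 1 := D.k_le (Nat.zero_le _)
  have e0 : ∀ z : ℕ → ℝ, seg v z a b = seg v z (D.k 0) (D.k 1) + seg v z (D.k 1) b := fun z => by
    rw [D.seg_a, seg_append' v z hk0 hk]
  have hz : seg v (D.op₀.Z s.2.2.1) (D.k 1) b = 0 :=
    seg_zero_of fun i hi => D.op₀.supp _ i (by simp only [Finset.mem_Ico] at hi ⊢; omega)
  simp only [ctr, mean₁, D.seed₁_apply, Z, LinearMap.add_apply, seg_add, map_add, e0, hz,
    seg_ext_res v _ D.hN]
  abel

lemma core_eq (g : E) : D.Aa g + pη d • (D.Ab g - D.Aa g)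
    = L.starProjection g + D.ell 1 g + seg v (D.W₁ g) (D.k 1) b := by
  have hη := pη_pos d
  set t := ContinuousLinearMap.adjoint (D.ell D.J) (L.starProjection g) with ht
  have hl : ∀ j, D.ell j (Lᗮ.starProjection g) = D.ell j g := fun j => (D.ell_dep j g).symm
  rw [D.W₁_end, ← ht, Submodule.starProjection_eq_self_iff.2 (D.adj_mem _ : t ∈ Lᗮ)]
  simp only [Ab, Aa, ← ht, add_sub_cancel_left, add_sub_assoc]
  rw [smul_sub, smul_smul, mul_inv_cancel₀ hη.ne', one_smul, smul_smul]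
  simp only [sub_apply, map_sub, hl]
  abel

/-- The slow residual of an end state. -/
noncomputable def resid (r₁ e : E) : E := L.starProjection (e - r₁) - D.ell 1 r₁ + D.ell D.J e

lemma end_eq (s : Seed E N) (g : E) (S : E) :
    let x₁ := D.mean₁ s + g
    let β := ext ((D.seed₁ s).2.2.2 + res (D.W₁ g))
    let e := x₁ + S - (D.seed₁ s).2.1 - seg v β (D.k 1) b
    x₁ + S = D.ctr s + D.Aa g + pη d • (D.Ab g - D.Aa g)
      + D.resid (x₁ - (D.seed₁ s).2.1) e + D.Bw e := by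
  intro x₁ β e
  set o₁ := (D.seed₁ s).2.1 with ho
  set c₁ := (D.seed₁ s).2.2.1 with hc
  have hr : x₁ - o₁ = c₁ + g := by simp only [x₁, mean₁, ← ho, ← hc]; abel
  have hl : D.ell 1 (c₁ + g) = D.ell 1 g := by
    rw [map_add, D.ell_dep 1 c₁, hc, D.seed₁_perp, map_zero, zero_add]
  have hcL : L.starProjection c₁ = c₁ := by
    have h := Submodule.starProjection_add_starProjection_orthogonal (K := L) c₁
    rwa [show Lᗮ.starProjection c₁ = 0 from D.seed₁_perp s, add_zero] at h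
  have he : x₁ + S = o₁ + seg v β (D.k 1) b + (L.starProjection e + Lᗮ.starProjection e) := by
    rw [Submodule.starProjection_add_starProjection_orthogonal]
    simp only [e, ← ho]
    abel
  rw [add_assoc (D.ctr s) (D.Aa g), D.core_eq, D.ctr_eq, hr]
  simp only [resid, Bw, hl, map_sub, map_add, hcL]
  rw [he]
  simp only [β, map_add, seg_add, seg_ext_res v _ D.hN, mean₁, ← ho, ← hc]
  abel

lemma virtual_eq (s : Seed E N) (g : E) :
    D.mean₁ s + g + seg v (ext ((D.seed₁ s).2.2.2 + res (D.W₁ g)) + D.Zb 1 g) (D.k 1) b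
      = D.ctr s + D.Aa g + pη d • (D.Ab g - D.Aa g) := by
  have hJ := D.hJ
  have hg := Submodule.starProjection_add_starProjection_orthogonal (K := L) g
  rw [add_assoc (D.ctr s) (D.Aa g), D.core_eq, D.ctr_eq, map_add, seg_add, seg_add,
    seg_ext_res v _ D.hN, D.seg_Zb_after (j := 1) (by omega) g (D.k_le_b (by omega)),
    D.seg_Zb (by omega)]
  nth_rewrite 1 [← hg]
  abel

end Long

end Vale.Agent.P262.Sig
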