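import Vale.Agent.P262.SigLongDef
import Vale.Agent.P262.SigRot
import Vale.Agent.P262.SigTrans
import Vale.Agent.P262.SigSelect

/-!
One step of the selection: the expectation exported to the next window, and real signs for a
window started from a good seed.
-/

namespace Vale.Agent.P262.Sig

open MeasureTheory ProbabilityTheory Set Module
open scoped RealInnerProductSpace

variable {E : Type} [NormedAddCommGroup E] [InnerProductSpace ℝ E] [FiniteDimensional ℝ E]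
  [MeasurableSpace E] [BorelSpace E]

private lemma inv_pow_anti (d : ℕ) {i j : ℕ} (h : i ≤ j) : (Dp d ^ j)⁻¹ ≤ (Dp d ^ i)⁻¹ :=
  inv_anti₀ (pow_pos (Dp_pos d) i) (Dp_pow_le d h)

private lemma one_sub_pη_sq (d : ℕ) : 1 - 2 * pη d ≤ (1 - pη d) ^ 2 := by
  nlinarith [sq_nonneg (pη d)]

private lemma fWin_room (d r : ℕ) :
    1 < (1 - pη d) ^ 2 * fWin d r ∧
      ((Dp d ^ 3)⁻¹) ^ 2 ≤ 576 * ((1 - pη d) ^ 2 * fWin d r - 1) := by
  have hD := Dp_pos d
  have h1 : 1 + 125 / Dp d ≤ fWin d r := by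
    have e : 125 / Dp d = (8 * ((d : ℝ) + 2))⁻¹ := by
      unfold Dp
      field_simp
      norm_num
    rw [e]
    exact le_mul_of_one_le_right (by positivity) (pf_one_le d r)
  have hη : pη d ≤ (2000 * Dp d)⁻¹ :=
    inv_anti₀ (by positivity) (by nlinarith [Dp_ge d])
  have hη2 : pη d ≤ 1 / 4 := (pη_le d).trans (by norm_num)
  have hx : (2000 * Dp d)⁻¹ = (1 / Dp d) / 2000 := by field_simp
  have hy : 125 / Dp d = 125 * (1 / Dp d) := by field_simp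
  have h6 : ((Dp d ^ 3)⁻¹) ^ 2 ≤ 1 / Dp d := by
    rw [inv_pow, ← pow_mul, one_div]
    simpa using inv_pow_anti d (show 1 ≤ 3 * 2 by norm_num)
  rw [hx] at hη
  rw [hy] at h1
  have hx0 : 0 < 1 / Dp d := by positivity
  have h2 : 1 + 50 * (1 / Dp d) ≤ (1 - pη d) ^ 2 * fWin d r := by
    refine le_trans ?_ (mul_le_mul (one_sub_pη_sq d) h1 (by positivity) (sq_nonneg _))
    nlinarith [mul_le_mul_of_nonneg_right hη2 hx0.le]
  exact ⟨by linarith, by linarith⟩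

private lemma rWin_room (d r : ℕ) : (Dp d ^ 4)⁻¹ ≤ (1 - pη d) ^ 2 * rWin d r := by
  have hx : 0 < (Dp d ^ 4)⁻¹ := inv_pos.2 (pow_pos (Dp_pos d) _)
  have h1 : (3 / 2 : ℝ) * (Dp d ^ 4)⁻¹ ≤ rWin d r := by
    unfold rWin pρ
    rw [mul_inv]
    nlinarith [(Nat.cast_nonneg r : (0 : ℝ) ≤ r), mul_nonneg (Nat.cast_nonneg (α := ℝ) r) hx.le]
  have h2 : (2 / 3 : ℝ) ≤ (1 - pη d) ^ 2 :=
    le_trans (by have := pη_le d; norm_num at this; linarith) (one_sub_pη_sq d)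
  have := mul_le_mul h2 h1 (by positivity) (sq_nonneg _)
  linarith

variable {v : ℕ → E} {N : ℕ}

set_option linter.unusedVariables false in
/-- The exported expectation of a window, averaged around a nearby centre. -/
theorem gavg_next {L : Submodule ℝ E} {k₁ k₂ : ℕ} {d r : ℕ} (hd : finrank ℝ E = d) (hr : r < d)
    {G : Seed E N → ℝ} (hG : Tame G) (h0 : ∀ s, 0 ≤ G s) {e : ℝ} (he : 0 ≤ e)
    (hs : Small v L k₁ k₂ (fWin d r) (rWin d r) G e) (o c : E) (β : ℕ → ℝ) (hk : k₂ ≤ N)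
    (hc : ‖Lᗮ.starProjection (c - o)‖ ≤ (Dp d ^ 3)⁻¹)
    (ho : ∀ k ∈ Finset.Icc k₁ k₂, ‖o + seg v β k₁ k‖ ≤ (Dp d ^ 2)⁻¹) :
    Nice (fun y => G ((1 - pη d)⁻¹ • ((0, o, y - o, res β) : Seed E N))) ∧
      gavg (fun y => G ((1 - pη d)⁻¹ • ((0, o, y - o, res β) : Seed E N))) c (pσ d (r + 1)) ≤ e := by
  have hη1 : 0 < 1 - pη d := by have := pη_le d; norm_num at this; linarith
  set q := (1 - pη d)⁻¹
  set A : E →L[ℝ] Seed E N :=
    (0 : E →L[ℝ] E).prod ((0 : E →L[ℝ] E).prod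
      ((q • ContinuousLinearMap.id ℝ E).prod (0 : E →L[ℝ] (Fin N → ℝ))))
  have hN : Nice (fun y => G (q • ((0, o, y - o, res β) : Seed E N))) := by
    refine tame_iff_nice.1 ?_
    have := hG.comp A (q • ((0, o, -o, res β) : Seed E N))
    convert this using 2 with y
    congr 1
    simp [A, sub_eq_add_neg]
  refine ⟨hN, ?_⟩
  obtain ⟨hf1, hf2⟩ := fWin_room d r
  have hρ := rWin_room d r
  have hD := Dp_pos d
  have H := (hyp_centre (v := v) (L := L) (a := k₁) (b := k₂) (σ := pσ d (r + 1)) o (c - o)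
    (res (N := N) β) (lt_of_lt_of_le (by positivity) hρ)
    ((show (0 : ℝ) ≤ 12 by norm_num).trans (pσ_ge d _)) (pσ_le d _) hf1
    ((pow_le_pow_left₀ (norm_nonneg _) hc 2).trans hf2) fun k hk' => by
      rw [seg_ext_res v β ((Finset.mem_Icc.1 hk').2.trans hk)]
      refine (pow_le_pow_left₀ (norm_nonneg _) (ho k hk') 2).trans (le_trans (le_of_eq ?_) hρ)
      rw [inv_pow, ← pow_mul]).scale q
  have hq : ∀ x : ℝ, q ^ 2 * ((1 - pη d) ^ 2 * x) = x := fun x => by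
    rw [← mul_assoc, ← mul_pow, inv_mul_cancel₀ hη1.ne', one_pow, one_mul]
  rw [hq, hq] at H
  have := hs _ _ H
  refine (ENNReal.ofReal_le_ofReal_iff he).1 (le_trans (le_of_eq ?_) this)
  rw [gavg, ofReal_integral_eq_lintegral_ofReal (hN.integrable c _)
    (Filter.Eventually.of_forall fun g => h0 _)]
  simp only [add_sub_right_comm]

omit [MeasurableSpace E] [BorelSpace E] in
private lemma Bdd.sub_res {L : Submodule ℝ E} {k₁ k₂ d : ℕ} {B : Bd} (hk : k₂ ≤ N) {s : Seed E N}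
    (hc : ‖Lᗮ.starProjection s.2.2.1‖ ≤ B.c)
    (hα : ∀ i ∈ Finset.Ico k₁ k₂, |ext s.2.2.2 i| ≤ B.α - (Dp d ^ 8)⁻¹)
    (ho : ∀ k ∈ Finset.Icc k₁ k₂, ‖s.2.1 + seg v (ext s.2.2.2) k₁ k‖ ≤ B.o - (Dp d ^ 8)⁻¹)
    {z : ℕ → ℝ} (hz : Adm v (pR d) k₁ k₂ z) :
    Bdd v L k₁ k₂ B ((s.1, s.2.1, s.2.2.1, s.2.2.2 - pcb d • res z) : Seed E N) := by
  have h0 := pcb_pos d
  refine ⟨hc, fun i hi => ?_, fun k hk' => ?_⟩
  · simp only [map_sub, map_smul, Pi.sub_apply, Pi.smul_apply, smul_eq_mul]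
    rw [ext_res z ((Finset.mem_Ico.1 hi).2.trans_le hk)]
    refine (abs_sub _ _).trans ?_
    rw [abs_mul, abs_of_pos h0]
    have h1 := mul_le_mul_of_nonneg_left (hz.1 i hi) h0.le
    have h2 := hα i hi
    have h3 : pcb d ≤ (Dp d ^ 8)⁻¹ := inv_pow_anti d (by norm_num)
    linarith
  · have e : seg v (ext (s.2.2.2 - pcb d • res z)) k₁ k
        = seg v (ext s.2.2.2) k₁ k - pcb d • seg v z k₁ k := by
      rw [map_sub, map_smul, ← seg_ext_res v z ((Finset.mem_Icc.1 hk').2.trans hk)]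
      simp only [← segLin_apply, map_sub, map_smul]
    simp only [e, ← add_sub_assoc]
    refine (norm_sub_le _ _).trans ?_
    rw [norm_smul, Real.norm_eq_abs, abs_of_pos h0]
    have h1 := mul_le_mul_of_nonneg_left (hz.2 k hk') h0.le
    have h2 := ho k hk'
    have h3 : pcb d * pR d ≤ (Dp d ^ 8)⁻¹ := by
      have := Dp_pos d
      refine le_trans (le_of_eq ?_) (inv_pow_anti d (show 8 ≤ 10 by norm_num))
      unfold pcb pR
      field_simp
    linarith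

private lemma small_bias {L : Submodule ℝ E} {k₁ k₂ d r : ℕ} {G : Seed E N → ℝ} {e : ℝ}
    (hk : k₂ ≤ N) (he : e ≤ pe d) (hs : Small v L k₁ k₂ (fWin d r) (rWin d r) G e)
    {z : ℕ → ℝ} (hz : Adm v (pR d) k₁ k₂ z) :
    G ((0, 0, 0, -((pη d)⁻¹ * pcb d) • res z) : Seed E N) ≤ pe d := by
  have hD := Dp_pos d
  have hf : 0 ≤ fWin d r :=
    mul_nonneg (by positivity) ((zero_le_one.trans (pf_one_le d r)))
  have hρ : (Dp d ^ 4)⁻¹ ≤ rWin d r := by
    refine (rWin_room d r).trans (mul_le_of_le_one_left ?_ ?_)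
    · exact add_nonneg (pρ_pos d r).le (by positivity)
    · have h1 := pη_pos d
      have h2 := pη_le d
      norm_num at h2
      nlinarith
  have hρ0 : 0 < rWin d r := lt_of_lt_of_le (by positivity) hρ
  have H := hyp_const (v := v) (R := L) (a := k₁) (b := k₂)
    (-((pη d)⁻¹ * pcb d) • res (N := N) z) hf hρ0 fun k hk' => by
      rw [map_smul, seg_smul, seg_ext_res v z ((Finset.mem_Icc.1 hk').2.trans hk), norm_smul,
        norm_neg, Real.norm_eq_abs, mul_pow, sq_abs]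
      refine le_trans ?_ hρ
      refine (mul_le_mul_of_nonneg_left (pow_le_pow_left₀ (norm_nonneg _) (hz.2 k hk') 2)
        (sq_nonneg _)).trans (le_trans (le_of_eq ?_) (inv_pow_anti d (show 4 ≤ 16 by norm_num)))
      unfold pη pcb pR
      field_simp
  have := hs _ _ H
  rw [lintegral_const, measure_univ, mul_one] at this
  exact (ENNReal.ofReal_le_ofReal_iff (pe_pos d).le).1 (this.trans (ENNReal.ofReal_le_ofReal he))

set_option linter.unusedVariables false in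
/-- Real signs for a window started from a good seed. -/
theorem exists_step {X L : Submodule ℝ E} {k₁ k₂ d r x' : ℕ} (hd : finrank ℝ E = d) (hr : finrank ℝ L = r)
    (hrd : r < d) (hXL : X ≤ L) (hv : ∀ i, ‖v i‖ ≤ 1)
    (hnode : Node v (pR d) (pT d) k₁ k₂ L)
    (O : Op v N X L L (pσ d (r + 1)) (bdd' d (r + 1) x') (rbd d (r + 1)) (Bdn d r 1) (Cdn d r 1) k₁ k₂)
    {e : ℝ} (he : e ≤ pe d) (hs : Small v L k₁ k₂ (fWin d r) (rWin d r) O.G e) (s : Seed E N)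
    (hc : ‖Lᗮ.starProjection s.2.2.1‖ ≤ pBc d)
    (hα : ∀ i ∈ Finset.Ico k₁ k₂, |ext s.2.2.2 i| ≤ (Bdn d r 1).α - (Dp d ^ 8)⁻¹)
    (ho : ∀ k ∈ Finset.Icc k₁ k₂, ‖s.2.1 + seg v (ext s.2.2.2) k₁ k‖ ≤ (Bdn d r 1).o - (Dp d ^ 8)⁻¹)
    (hG : O.G ((1 - pη d)⁻¹ • s) ≤ pe d)
    {Gn : E → ℝ} (hn : Nice Gn) (hn0 : ∀ x, 0 ≤ Gn x)
    (hGn : ∀ z, Adm v (pR d) k₁ k₂ z → gavg Gn (s.2.1 + s.2.2.1 + seg v (O.Z s.2.2.1 + ext s.2.2.2) k₁ k₂
      - pcb d • seg v z k₁ k₂) (pσ d (r + 1)) ≤ pe d * pe d)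
    {ψ : E → ℝ} (hψ : Nice ψ) (hψ0 : ψ 0 = 0) (hψn : ∀ x, 0 ≤ ψ x) (p : E) :
    ∃ ε : ℕ → ℝ, (∀ i ∈ Finset.Ico k₁ k₂, ε i = 1 ∨ ε i = -1) ∧
      (∀ k ∈ Finset.Icc k₁ k₂,
        ‖Xᗮ.starProjection (stat L s.1 (s.2.1 + s.2.2.1 + seg v ε k₁ k))‖ ≤ bdd' d (r + 1) x') ∧
      Gn (s.2.1 + s.2.2.1 + seg v ε k₁ k₂) ≤ pe d ∧
      ψ (seg v ε k₁ k₂ - seg v (O.Z s.2.2.1 + ext s.2.2.2) k₁ k₂)
          + ⟪p, seg v ε k₁ k₂ - seg v (O.Z s.2.2.1 + ext s.2.2.2) k₁ k₂⟫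
        ≤ gavg ψ 0 (pσ d (r + 1) * (1 + pη d)) := by
  have hD := Dp_pos d
  have hD2 := Dp_ge d
  have hdD := nat_le_Dp d
  have hd0 : (0 : ℝ) ≤ d := d.cast_nonneg
  have hr0 : (0 : ℝ) ≤ r := r.cast_nonneg
  have hrd' : (r : ℝ) + 1 ≤ d := by exact_mod_cast hrd
  -- sizes of the bounds
  have hsmall : ∀ i, 1 ≤ i → ∀ x : ℝ, x ≤ Dp d → x * (Dp d ^ i)⁻¹ ≤ 1 := fun i hi x hx => by
    rw [← div_eq_mul_inv, div_le_one (pow_pos hD i)]
    exact hx.trans (le_self_pow₀ (one_le_Dp d) (by omega))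
  have hBα : (Bdn d r 1).α ≤ 1 := hsmall 3 (by norm_num) _ (by push_cast; linarith)
  have hBo : (Bdn d r 1).o ≤ 1 := hsmall 3 (by norm_num) _ (by push_cast; linarith)
  have hCz : (Cdn d r 1).z ≤ 1 := hsmall 2 (by norm_num) _ (by push_cast; linarith)
  have hCz0 : 0 ≤ (Cdn d r 1).z := mul_nonneg (by push_cast; linarith) (by positivity)
  have hCp : (Cdn d r 1).p ≤ Dp d := by simp only [Cdn]; push_cast; linarith
  have hCp0 : 0 ≤ (Cdn d r 1).p := by simp only [Cdn]; push_cast; linarith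
  have hBc0 : 0 ≤ (Bdn d r 1).c := (show (0 : ℝ) ≤ 4 by norm_num).trans (pBc_ge d)
  have hpc : (Cdn d r 1).z * (Bdn d r 1).c ≤ Dp d ^ 6 :=
    ((mul_le_mul hCz (pBc_le d) hBc0 zero_le_one).trans_eq (one_mul _)).trans
      (Dp_pow_le d (by norm_num))
  have hpp : (Cdn d r 1).p * (Bdn d r 1).c ≤ Dp d ^ 6 := by
    refine (mul_le_mul hCp (pBc_le d) hBc0 hD.le).trans (le_of_eq_of_le ?_ (Dp_pow_le d (show 5 ≤ 6 by norm_num)))
    ring
  have hrb := rbd_le d (r + 1)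
  have h16 : (1 : ℝ) ≤ Dp d ^ 6 := one_le_pow₀ (one_le_Dp d)
  have h67 : 2000 * Dp d ^ 6 ≤ Dp d ^ 7 := by
    rw [pow_succ' (Dp d) 6]
    exact mul_le_mul_of_nonneg_right hD2 (by positivity)
  have hR1 : 4 ≤ pR d := le_trans (by linarith) (le_self_pow₀ (one_le_Dp d) (by norm_num))
  have hT1 : (d : ℝ) * pT d ≤ 1 := hsmall 45 (by norm_num) _ (by linarith)
  -- the numbers of the selection
  have e10 : pcb d * pR d = (Dp d ^ 10)⁻¹ := by unfold pcb pR; field_simp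
  have h10 : (Dp d ^ 10)⁻¹ ≤ pη d / 4 := by
    have h1 := inv_pow_anti d (show 3 ≤ 10 by norm_num)
    have h2 : (Dp d ^ 3)⁻¹ = pη d / Dp d := by unfold pη; field_simp
    have h3 : pη d / Dp d ≤ pη d / 4 :=
      div_le_div_of_nonneg_left (pη_pos d).le (by norm_num) (by linarith)
    linarith
  have h30 : pe d ≤ pη d / 256 := by
    have h1 := inv_pow_anti d (show 3 ≤ 30 by norm_num)
    have h2 : (Dp d ^ 3)⁻¹ = pη d / Dp d := by unfold pη; field_simp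
    have h3 : pη d / Dp d ≤ pη d / 256 :=
      div_le_div_of_nonneg_left (pη_pos d).le (by norm_num) (by linarith)
    unfold pe
    linarith
  have hη := pη_pos d
  have hη' : pη d ≤ 1 / 4000000 := (pη_le d).trans_eq (one_div _).symm
  refine exists_select (η := pη d) (κ := pη d) (Ms := Dp d ^ 7) O hXL hv hnode (pT_pos d).le
    ?_ s (pcb_pos d) hη (by linarith) (pe_pos d) ?_
    ((show (3 : ℝ) ≤ 12 by norm_num).trans (pσ_ge d _)) ?_ ?_ (by positivity) (by linarith) ?_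
    ⟨hCz0, hCp0⟩ ?_ (fun z hz => Bdd.sub_res O.leN hc hα ho hz) hG
    (fun z hz => small_bias O.leN he hs hz) hn hn0 hGn hψ hψ0 hψn p
  · rw [hd]
    linarith
  · linarith
  · rw [e10]
    linarith
  · rw [e10]
    nlinarith [pe_pos d, inv_pos.2 (pow_pos hD 10)]
  · have : Dp d ^ 7 ≤ Dp d ^ 7 * pR d / 2 := by nlinarith [pow_pos hD 7]
    linarith
  · have e1 : 32 * pe d * Dp d ^ 7 = 32 / Dp d ^ 3 * pcb d := by unfold pe pcb; field_simp
    rw [e1]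
    refine mul_le_of_le_one_left (pcb_pos d).le ?_
    rw [div_le_one (by positivity)]
    linarith [le_self_pow₀ (one_le_Dp d) (show 3 ≠ 0 by norm_num)]

end Vale.Agent.P262.Sig
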