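import Vale.Agent.P262.SigLongId
import Vale.Agent.P262.SigStep
import Vale.Agent.P262.SigChain

/-!
Selection of real signs through the later windows of a long node.
-/

namespace Vale.Agent.P262.Sig

open MeasureTheory ProbabilityTheory Set Module
open scoped RealInnerProductSpace

set_option linter.unusedSectionVars false

variable {E : Type} [NormedAddCommGroup E] [InnerProductSpace ℝ E] [FiniteDimensional ℝ E]
  [MeasurableSpace E] [BorelSpace E]

lemma perp_proj_comm {R L : Submodule ℝ E} (h : R ≤ L) (y : E) :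
    L.starProjection (Rᗮ.starProjection y) = Rᗮ.starProjection (L.starProjection y) := by
  simp only [Submodule.starProjection_orthogonal_val, map_sub]
  congr 1
  rw [← ContinuousLinearMap.comp_apply R.starProjection L.starProjection,
    Submodule.starProjection_comp_starProjection_of_le h,
    Submodule.starProjection_eq_self_iff.2 (h (R.starProjection_apply_mem y))]

lemma stat_perp {R L : Submodule ℝ E} (h : R ≤ L) (q y : E) :
    Lᗮ.starProjection (stat R q y) = Lᗮ.starProjection y := by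
  rw [stat, map_add, proj_perp_self L (h (R.starProjection_apply_mem q)), zero_add,
    ← ContinuousLinearMap.comp_apply Lᗮ.starProjection Rᗮ.starProjection,
    Submodule.starProjection_comp_starProjection_of_le (Submodule.orthogonal_le h)]

lemma norm_perp_split {X L : Submodule ℝ E} (h : X ≤ L) (y : E) :
    ‖Xᗮ.starProjection y‖ ^ 2
      = ‖(L ⊓ Xᗮ).starProjection y‖ ^ 2 + ‖Lᗮ.starProjection y‖ ^ 2 := by
  rw [Submodule.norm_sq_eq_add_norm_sq_starProjection (Xᗮ.starProjection y) L]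
  congr 2
  · congr 1
    refine (Submodule.eq_starProjection_of_mem_of_inner_eq_zero (K := L ⊓ Xᗮ) (u := y)
      (v := L.starProjection (Xᗮ.starProjection y))
      (Submodule.mem_inf.2 ⟨L.starProjection_apply_mem _, ?_⟩) fun w hw => ?_).symm
    · rw [perp_proj_comm h]
      exact Submodule.starProjection_apply_mem _ _
    · rw [← sub_add_sub_cancel y (Xᗮ.starProjection y), inner_add_left,
        Submodule.inner_left_of_mem_orthogonal hw.2 (by
          rw [Submodule.starProjection_orthogonal_val, sub_sub_cancel]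
          exact X.le_orthogonal_orthogonal (X.starProjection_apply_mem y)),
        zero_add, Submodule.inner_left_of_mem_orthogonal hw.1
          (Submodule.sub_starProjection_mem_orthogonal _)]
  · rw [← ContinuousLinearMap.comp_apply Lᗮ.starProjection Xᗮ.starProjection,
      Submodule.starProjection_comp_starProjection_of_le (Submodule.orthogonal_le h)]

lemma norm_perp_le_add {X L : Submodule ℝ E} (h : X ≤ L) (y : E) :
    ‖Xᗮ.starProjection y‖ ≤ ‖(L ⊓ Xᗮ).starProjection y‖ + ‖Lᗮ.starProjection y‖ := by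
  have := norm_perp_split h y
  nlinarith [norm_nonneg (Xᗮ.starProjection y), norm_nonneg ((L ⊓ Xᗮ).starProjection y),
    norm_nonneg (Lᗮ.starProjection y)]

lemma norm_perp_le_sqrt {X L : Submodule ℝ E} (h : X ≤ L) {y : E} {A B δ γ : ℝ} (hA : 0 ≤ A)
    (hB : 0 ≤ B) (hδ : 0 ≤ δ) (hγ : 0 ≤ γ)
    (h1 : ‖(L ⊓ Xᗮ).starProjection y‖ ≤ Real.sqrt A + δ)
    (h2 : ‖Lᗮ.starProjection y‖ ≤ Real.sqrt B + γ) :
    ‖Xᗮ.starProjection y‖ ≤ Real.sqrt (A + B) + δ + γ := by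
  have e := norm_perp_split h y
  have q1 := pow_le_pow_left₀ (norm_nonneg _) h1 2
  have q2 := pow_le_pow_left₀ (norm_nonneg _) h2 2
  have s1 : Real.sqrt A ≤ Real.sqrt (A + B) := Real.sqrt_le_sqrt (by linarith)
  have s2 : Real.sqrt B ≤ Real.sqrt (A + B) := Real.sqrt_le_sqrt (by linarith)
  refine le_of_pow_le_pow_left₀ two_ne_zero (by positivity) ?_
  have := Real.sq_sqrt hA
  have := Real.sq_sqrt hB
  have := Real.sq_sqrt (add_nonneg hA hB)
  nlinarith [mul_le_mul_of_nonneg_right s1 hδ, mul_le_mul_of_nonneg_right s2 hγ, mul_nonneg hδ hγ]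

lemma res_ext {N : ℕ} (α : Fin N → ℝ) : res (ext α) = α := by
  funext i
  simp [res, ext, LinearMap.funLeft_apply]

lemma numFast (d : ℕ) : pS d + 4 ≤ Dp d ^ 4 ∧ 2 * (pS d + 4) ≤ pR d := by
  have h1 := pS_le d
  have h2 := Dp_ge d
  have h3 : 1 ≤ Dp d ^ 3 := one_le_pow₀ (one_le_Dp d)
  have h4 : Dp d ^ 4 = Dp d * Dp d ^ 3 := by ring
  have h5 : Dp d ^ 4 * 2 ≤ pR d := by
    refine le_trans (mul_le_mul_of_nonneg_left (show (2 : ℝ) ≤ Dp d by linarith)
      (pow_nonneg (Dp_pos d).le _)) ?_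
    rw [← pow_succ]
    exact Dp_pow_le d (by norm_num)
  constructor <;> nlinarith

lemma bdd'_le_pS {d r : ℕ} (_hr : r ≤ d) (x : ℕ) : bdd' d r x ≤ pS d + 1 := by
  have h := sqrt_tests_le d x
  have h2 : ((d : ℝ) + 2 - r) * (Dp d ^ 2)⁻¹ ≤ 1 := by
    rw [← div_eq_mul_inv, div_le_one (pow_pos (Dp_pos d) 2)]
    have h3 := nat_le_Dp d
    have h4 := Dp_ge d
    nlinarith [(Nat.cast_nonneg r : (0 : ℝ) ≤ r)]
  unfold bdd'
  linarith

lemma Bdn_le_one {d r : ℕ} (hr : r < d) :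
    (Bdn d r 0).o + (Dp d ^ 8)⁻¹ ≤ (Dp d ^ 2)⁻¹ ∧ (Bdn d r 1).o ≤ (Dp d ^ 2)⁻¹
      ∧ (Bdn d r 1).α ≤ (Dp d ^ 2)⁻¹ ∧ (Dp d ^ 2)⁻¹ ≤ 1 / 2 := by
  have hD := Dp_pos d
  have h : (2 * (r : ℝ) + 3) * (Dp d ^ 3)⁻¹ ≤ (Dp d ^ 2)⁻¹ := by
    have : (r : ℝ) + 1 ≤ d := by exact_mod_cast hr
    calc (2 * (r : ℝ) + 3) * (Dp d ^ 3)⁻¹ ≤ Dp d * (Dp d ^ 3)⁻¹ :=
          mul_le_mul_of_nonneg_right (by linarith [nat_le_Dp d]) (by positivity)
      _ = _ := by field_simp
  have h8 := inv_Dp_le d (show 3 ≤ 8 by norm_num)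
  have h0 : 0 ≤ (Dp d ^ 3)⁻¹ := by positivity
  refine ⟨?_, ?_, ?_, ?_⟩
  · simp only [Bdn]; push_cast; linarith
  · simp only [Bdn]; push_cast; linarith
  · simp only [Bdn]; push_cast; linarith
  · rw [one_div]
    exact inv_anti₀ two_pos (by nlinarith [Dp_ge d])

namespace Long

variable {v : ℕ → E} {N : ℕ} {X R P L : Submodule ℝ E} {σ : ℝ} {d r x a b : ℕ} {e₀ e₁ e₂ : ℝ}
  (D : Long v N X R P L σ d r x a b e₀ e₁ e₂)

/-- The base shifts after the first window at deviation `g`. -/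
noncomputable def base (s : Seed E N) (g : E) : ℕ → ℝ := ext (D.start s g).2.2.2

/-- Their drift at the start of block `j`. -/
noncomputable def drift (s : Seed E N) (g : E) (j : ℕ) : E :=
  (D.seed₁ s).2.1 + seg v (D.base s g) (D.k 1) (D.k j)

/-- The seed of block `j` in state `y`. -/
noncomputable def sd (s : Seed E N) (g : E) (j : ℕ) (y : E) : Seed E N :=
  (if j = 1 then (D.start s g).1 else 0, D.drift s g j, y - D.drift s g j, (D.start s g).2.2.2)

/-- States from which block `j` can be signed. -/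
def Ok (s : Seed E N) (g : E) (j : ℕ) (y : E) : Prop :=
  ‖Lᗮ.starProjection (y - D.drift s g j)‖ ≤ pBc d ∧ (j = 1 → y = D.mean₁ s + g) ∧
    ∀ h1 h2, (D.ops j h1 h2).G ((1 - pη d)⁻¹ • D.sd s g j y) ≤ pe d

/-- The bound kept inside block `j`. -/
def Pr (s : Seed E N) (g : E) (j : ℕ) (y : E) : Prop :=
  if j = 1 then ‖Xᗮ.starProjection (stat L (D.start s g).1 y)‖ ≤ bdd' d (r + 1) x
  else ‖Lᗮ.starProjection y‖ ≤ bdd' d (r + 1) r

lemma start_apply (s : Seed E N) (g : E) : D.start s g =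
    (stat R s.1 (D.mean₁ s + g), (D.seed₁ s).2.1, (D.seed₁ s).2.2.1 + g,
      (D.seed₁ s).2.2.2 + res (D.W₁ g)) := rfl

lemma sd_one (s : Seed E N) (g : E) : D.sd s g 1 (D.mean₁ s + g) = D.start s g := by
  simp only [sd, if_true, drift, seg_self, add_zero, D.start_apply, mean₁, Prod.mk.injEq,
    true_and, and_true]
  abel

include D in
lemma hXL : X ≤ L := (D.hXR.trans D.hRP).trans D.hPL

include D in
lemma hRL : R ≤ L := D.hRP.trans D.hPL

lemma Pr.perp {s : Seed E N} {g : E} {j : ℕ} {y : E} (h : D.Pr s g j y) :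
    ‖Lᗮ.starProjection y‖ ≤ pS d + 1 := by
  unfold Pr at h
  split_ifs at h with hj
  · refine le_trans ?_ (h.trans (bdd'_le_pS D.hrd x))
    rw [← stat_perp (le_refl L) (D.start s g).1 y,
      ← Submodule.starProjection_comp_starProjection_of_le (Submodule.orthogonal_le D.hXL),
      ContinuousLinearMap.comp_apply]
    exact Submodule.norm_starProjection_apply_le _ _
  · exact h.trans (bdd'_le_pS D.hrd r)

lemma seed₁_drift {s : Seed E N} (hs : Bdd v P a b (Bdn d r 0) s) :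
    ‖(D.seed₁ s).2.1‖ ≤ (Dp d ^ 2)⁻¹ := by
  have hJ := D.hJ
  have h := D.drift₁ hs (le_refl (D.k 1)) (D.k_le_b (by omega))
  rw [seg_self, add_zero] at h
  exact h.trans (Bdn_le_one D.hrd).1

lemma base_bounds {s : Seed E N} (hs : Bdd v P a b (Bdn d r 0) s) (g : E) :
    (∀ i ∈ Finset.Ico a b,
        |D.base s g i| ≤ (Bdn d r 0).α + (Dp d ^ 8)⁻¹ + 2 * (Dp d ^ 12)⁻¹ * ‖g‖) ∧
      ∀ i ∈ Finset.Icc (D.k 1) b, ‖(D.seed₁ s).2.1 + seg v (D.base s g) (D.k 1) i‖
        ≤ (Bdn d r 0).o + (Dp d ^ 8)⁻¹ + 2 * (Dp d ^ 12)⁻¹ * ‖g‖ := by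
  obtain ⟨hw1, -, hw3⟩ := D.W₁_bounds g
  refine ⟨fun i hi => ?_, fun i hi => ?_⟩
  · have hN : i < N := (Finset.mem_Ico.1 hi).2.trans_le D.hN
    simp only [base, D.start_apply, map_add, Pi.add_apply, ext_res _ hN]
    exact (abs_add_le _ _).trans (add_le_add (D.shift₁ hs hi) (hw1 i))
  · obtain ⟨h1, h2⟩ := Finset.mem_Icc.1 hi
    simp only [base, D.start_apply, map_add, seg_add, seg_ext_res v _ (h2.trans D.hN)]
    rw [← add_assoc]
    exact (norm_add_le _ _).trans (add_le_add (D.drift₁ hs h1 h2) (hw3 i hi))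

lemma base_small {s : Seed E N} (hs : Bdd v P a b (Bdn d r 0) s) {g : E} (hg : ‖g‖ ≤ pS d) :
    (∀ i ∈ Finset.Ico a b, |D.base s g i| ≤ (Bdn d r 1).α - (Dp d ^ 8)⁻¹) ∧
      ∀ i ∈ Finset.Icc (D.k 1) b, ‖(D.seed₁ s).2.1 + seg v (D.base s g) (D.k 1) i‖
        ≤ (Bdn d r 1).o - (Dp d ^ 8)⁻¹ := by
  obtain ⟨h1, h2⟩ := D.base_bounds hs g
  obtain ⟨e1, e2, -⟩ := Bdn_step d r
  have h0 := Dp_pos d
  have hw : 2 * (Dp d ^ 12)⁻¹ * ‖g‖ ≤ 2 * (Dp d ^ 8)⁻¹ := by
    rw [mul_assoc]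
    refine mul_le_mul_of_nonneg_left ?_ zero_le_two
    refine (mul_le_mul_of_nonneg_left (hg.trans (pS_le d)) (by positivity)).trans ?_
    calc (Dp d ^ 12)⁻¹ * Dp d ^ 3 = (Dp d ^ 9)⁻¹ := by field_simp
      _ ≤ _ := inv_Dp_le d (by norm_num)
  have h38 : 4 * (Dp d ^ 8)⁻¹ ≤ (Dp d ^ 3)⁻¹ := by
    rw [← div_eq_mul_inv, div_le_iff₀ (by positivity)]
    have : (Dp d ^ 3)⁻¹ * Dp d ^ 8 = Dp d ^ 5 := by field_simp
    rw [this]
    exact le_trans (by linarith [Dp_ge d]) (le_self_pow₀ (one_le_Dp d) (by norm_num))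
  exact ⟨fun i hi => (h1 i hi).trans (by linarith), fun i hi => (h2 i hi).trans (by linarith)⟩

lemma Zb_one : D.Zb 1 = D.op₁.Z := by simp [Zb]

lemma Zb_ops {j : ℕ} (h1 : 2 ≤ j) (h2 : j ≤ D.J) : D.Zb j = (D.ops j h1 h2).Z := by
  simp [Zb, show j ≠ 0 by omega, show j ≠ 1 by omega, h1, h2]

/-- One window from a good state. -/
lemma step_gen (he₂ : 0 ≤ e₂) (he₂' : e₂ ≤ pe d * pe d) {s : Seed E N}
    (hs : Bdd v P a b (Bdn d r 0) s) {g : E} (hg : ‖g‖ ≤ pS d) {j : ℕ} (h1 : 1 ≤ j) (h2 : j ≤ D.J)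
    {y : E} (hy : ‖Lᗮ.starProjection (y - D.drift s g j)‖ ≤ pBc d) {X' : Submodule ℝ E} {x' : ℕ}
    (hX' : X' ≤ L)
    (O : Op v N X' L L (pσ d (r + 1)) (bdd' d (r + 1) x') (rbd d (r + 1)) (Bdn d r 1) (Cdn d r 1)
      (D.k j) (D.k (j + 1))) (hZ : O.Z = D.Zb j) {e : ℝ} (he : e ≤ pe d)
    (hsm : Small v L (D.k j) (D.k (j + 1)) (fWin d r) (rWin d r) O.G e)
    (hG : O.G ((1 - pη d)⁻¹ • D.sd s g j y) ≤ pe d)
    (hq : ∀ ε : ℕ → ℝ, ∀ i ∈ Finset.Icc (D.k j) (D.k (j + 1)),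
      ‖X'ᗮ.starProjection (stat L (D.sd s g j y).1 (y + seg v ε (D.k j) i))‖ ≤ bdd' d (r + 1) x' →
        D.Pr s g j (y + seg v ε (D.k j) i))
    {ψ : E → ℝ} (hψ : Nice ψ) (hψ0 : ψ 0 = 0) (hψn : ∀ x, 0 ≤ ψ x) (p : E) :
    ∃ ε : ℕ → ℝ, (∀ i ∈ Finset.Ico (D.k j) (D.k (j + 1)), ε i = 1 ∨ ε i = -1) ∧
      (∀ i ∈ Finset.Icc (D.k j) (D.k (j + 1)), D.Pr s g j (y + seg v ε (D.k j) i)) ∧
      (j < D.J → D.Ok s g (j + 1) (y + seg v ε (D.k j) (D.k (j + 1)))) ∧
      (let u := relAt v (D.seed₁ s).2.1 (D.base s g) (D.k 1) (D.k (j + 1))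
            (y + seg v ε (D.k j) (D.k (j + 1)))
          - L.starProjection (relAt v (D.seed₁ s).2.1 (D.base s g) (D.k 1) (D.k j) y)
          - D.ell j (relAt v (D.seed₁ s).2.1 (D.base s g) (D.k 1) (D.k j) y)
       ψ u + ⟪p, u⟫ ≤ gavg ψ 0 (pσ d (r + 1) * (1 + pη d))) := by
  obtain ⟨hbα, hbo⟩ := D.base_small hs hg
  have ha := D.le_k (j := j) (by omega)
  have hb := D.k_le_b (j := j + 1) (by omega)
  have hkj := D.k_le h2
  have hk1 : D.k 1 ≤ D.k j := D.k_mono h1 (by omega)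
  have hdr : ∀ i, D.k j ≤ i →
      D.drift s g j + seg v (D.base s g) (D.k j) i
        = (D.seed₁ s).2.1 + seg v (D.base s g) (D.k 1) i := fun i hi => by
    rw [drift, add_assoc, ← seg_append' v _ hk1 hi]
  set c := y - D.drift s g j
  set y' := fun ε : ℕ → ℝ => y + seg v ε (D.k j) (D.k (j + 1))
  have hsd : (D.sd s g j y).2.1 + (D.sd s g j y).2.2.1 = y := by simp [sd]
  classical
  let Gn : E → ℝ := fun z => if h : j < D.J then
      (D.ops (j + 1) (by omega) (by omega)).G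
        ((1 - pη d)⁻¹ • ((0, D.drift s g (j + 1), z - D.drift s g (j + 1),
          res (D.base s g)) : Seed E N))
    else 0
  have hGn' : ∀ z : ℕ → ℝ, Adm v (pR d) (D.k j) (D.k (j + 1)) z →
      Nice Gn ∧ gavg Gn (y + seg v (O.Z c + D.base s g) (D.k j) (D.k (j + 1))
        - pcb d • seg v z (D.k j) (D.k (j + 1))) (pσ d (r + 1)) ≤ pe d * pe d := by
    intro z hz
    by_cases h : j < D.J
    · simp only [Gn, dif_pos h]
      have hk2 := D.k_le (j := j + 1) (by omega)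
      have hb2 := D.k_le_b (j := j + 1 + 1) (by omega)
      refine (gavg_next D.hd D.hrd (D.ops (j + 1) (by omega) (by omega)).tame
        (D.ops (j + 1) (by omega) (by omega)).nonneg he₂ (D.small (j + 1) _ _) _ _ _
        (hb2.trans D.hN) ?_ fun i hi => ?_).imp_right fun h => h.trans he₂'
      · have e : y + seg v (O.Z c + D.base s g) (D.k j) (D.k (j + 1))
              - pcb d • seg v z (D.k j) (D.k (j + 1)) - D.drift s g (j + 1)
            = (c + seg v (D.Zb j c) (D.k j) (D.k (j + 1)))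
              - pcb d • seg v z (D.k j) (D.k (j + 1)) := by
          simp only [c, hZ, seg_add, drift, seg_append' v (D.base s g) hk1 hkj]
          abel
        rw [e, map_sub, D.Zb_kill h2, zero_sub, norm_neg, map_smul, norm_smul, Real.norm_eq_abs,
          abs_of_pos (pcb_pos d)]
        refine (mul_le_mul_of_nonneg_left ((Submodule.norm_starProjection_apply_le _ _).trans
          (hz.2 _ (Finset.mem_Icc.2 ⟨hkj, le_rfl⟩))) (pcb_pos d).le).trans ?_
        have h0 := Dp_pos d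
        calc pcb d * pR d = (Dp d ^ 10)⁻¹ := by unfold pcb pR; field_simp
          _ ≤ _ := inv_Dp_le d (by norm_num)
      · obtain ⟨i1, i2⟩ := Finset.mem_Icc.1 hi
        rw [drift, add_assoc, ← seg_append' v _ (hk1.trans hkj) i1]
        have := hbo i (Finset.mem_Icc.2 ⟨hk1.trans (hkj.trans i1), i2.trans hb2⟩)
        have h8 : 0 ≤ (Dp d ^ 8)⁻¹ := inv_nonneg.2 (pow_nonneg (Dp_pos d).le _)
        linarith [(Bdn_le_one D.hrd).2.1]
    · have : Gn = fun _ => (0 : ℝ) := funext fun z => by simp [Gn, h]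
      rw [this]
      exact ⟨nice_zero, by simpa [gavg] using mul_nonneg (pe_pos d).le (pe_pos d).le⟩
  have h0adm : Adm v (pR d) (D.k j) (D.k (j + 1)) 0 :=
    ⟨fun i _ => by simp, fun k _ => by simpa [seg] using (pR_pos d).le⟩
  obtain ⟨ε, hε, hpr, hGε, hval⟩ := exists_step D.hd D.hr D.hrd hX' D.hv
    (D.node.mono (pR_pos d).le ha hb hkj) O he hsm (D.sd s g j y) hy
    (fun i hi => hbα i (Finset.mem_Ico.2 ⟨ha.trans (Finset.mem_Ico.1 hi).1,
      (Finset.mem_Ico.1 hi).2.trans_le hb⟩))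
    (fun i hi => by
      show ‖D.drift s g j + seg v (D.base s g) (D.k j) i‖ ≤ _
      obtain ⟨i1, i2⟩ := Finset.mem_Icc.1 hi
      rw [hdr i i1]
      exact hbo i (Finset.mem_Icc.2 ⟨hk1.trans i1, i2.trans hb⟩))
    hG (hGn' 0 h0adm).1
    (fun z => by
      by_cases h : j < D.J
      · simp only [Gn, dif_pos h]; exact (D.ops (j + 1) _ _).nonneg _
      · simp [Gn, h])
    (fun z hz => by rw [hsd]; exact (hGn' z hz).2) hψ hψ0 hψn p
  rw [hsd] at hGε
  simp only [hsd] at hpr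
  have hPr := fun i hi => hq ε i hi (hpr i hi)
  refine ⟨ε, hε, hPr, fun h => ?_, ?_⟩
  · refine ⟨?_, by omega, fun _ _ => ?_⟩
    · rw [map_sub]
      refine (norm_sub_le _ _).trans ?_
      have e1 := Pr.perp D (hPr _ (Finset.mem_Icc.2 ⟨hkj, le_rfl⟩))
      have e2 := hbo (D.k (j + 1)) (Finset.mem_Icc.2 ⟨hk1.trans hkj, hb⟩)
      have e3 : ‖Lᗮ.starProjection (D.drift s g (j + 1))‖ ≤ 1 := by
        refine (Submodule.norm_starProjection_apply_le _ _).trans ?_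
        have h8 : 0 ≤ (Dp d ^ 8)⁻¹ := inv_nonneg.2 (pow_nonneg (Dp_pos d).le _)
        rw [drift]
        linarith [(Bdn_le_one D.hrd).2.1, (Bdn_le_one D.hrd).2.2.2]
      unfold pBc
      linarith [pS_nonneg d]
    · simp only [Gn, dif_pos h] at hGε
      simpa only [sd, if_neg (show j + 1 ≠ 1 by omega), base, res_ext] using hGε
  · intro u
    have er : relAt v (D.seed₁ s).2.1 (D.base s g) (D.k 1) (D.k j) y = c := by
      simp only [relAt, c, drift]; abel
    have e : u = seg v ε (D.k j) (D.k (j + 1))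
        - seg v (O.Z (D.sd s g j y).2.2.1 + ext (D.sd s g j y).2.2.2) (D.k j) (D.k (j + 1)) := by
      show u = seg v ε (D.k j) (D.k (j + 1)) - seg v (O.Z c + D.base s g) (D.k j) (D.k (j + 1))
      simp only [u, er]
      rw [hZ, seg_add, D.seg_Zb h2]
      simp only [relAt, c, drift, seg_append' v (D.base s g) hk1 hkj]
      have := Submodule.starProjection_add_starProjection_orthogonal (K := L)
        (y - ((D.seed₁ s).2.1 + seg v (D.base s g) (D.k 1) (D.k j)))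
      linear_combination (norm := abel) -this
    rw [e]
    exact hval

lemma stepHyp (he₁ : e₁ ≤ pe d) (he₂ : 0 ≤ e₂) (he₂' : e₂ ≤ pe d * pe d) {s : Seed E N}
    (hs : Bdd v P a b (Bdn d r 0) s) {g : E} (hg : ‖g‖ ≤ pS d)
    (hG : D.op₁.G ((1 - pη d)⁻¹ • D.start s g) ≤ pe d) :
    StepHyp v (D.seed₁ s).2.1 (D.base s g) D.k D.J D.ell L (D.Ok s g) (D.Pr s g)
      (pσ d (r + 1) * (1 + pη d)) := by
  intro j h1 h2 y hy ψ hψ hψ0 hψn p
  obtain ⟨hy1, hy2, hy3⟩ := hy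
  rcases eq_or_ne j 1 with rfl | hj
  · refine D.step_gen he₂ he₂' hs hg h1 h2 hy1 D.hXL D.op₁ D.Zb_one.symm he₁ D.small₁ ?_ ?_ hψ hψ0
      hψn p
    · rw [hy2 rfl, D.sd_one]; exact hG
    · intro ε i _ h
      simpa [Pr, sd] using h
  · have hj2 : 2 ≤ j := by omega
    have hle : pe d * pe d ≤ pe d := by
      have : pe d ≤ 1 := inv_le_one_of_one_le₀ (one_le_pow₀ (one_le_Dp d))
      nlinarith [pe_pos d]
    refine D.step_gen he₂ he₂' hs hg h1 h2 hy1 le_rfl (D.ops j hj2 h2) (D.Zb_ops hj2 h2).symm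
      (he₂'.trans hle) (D.small j hj2 h2) (hy3 hj2 h2) ?_ hψ hψ0 hψn p
    intro ε i _ h
    simpa [Pr, hj, stat_perp (le_refl L)] using h

end Long

end Vale.Agent.P262.Sig
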