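import Vale.Agent.P262.SigLongDef
import Vale.Agent.P262.SigRot
import Vale.Agent.P262.SigTrans
import Vale.Agent.P262.SigSelect

/-!
The smoothed objective after the first window of a long node: convexity, its Gaussian average and
the two ways of using it.
-/

namespace Vale.Agent.P262.Sig

open MeasureTheory ProbabilityTheory Set Module
open scoped RealInnerProductSpace

set_option linter.unusedSectionVars false

variable {E : Type} [NormedAddCommGroup E] [InnerProductSpace ℝ E] [FiniteDimensional ℝ E]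
  [MeasurableSpace E] [BorelSpace E]

private lemma nice_avg {ψ : E → ℝ} (hψ : Nice ψ) (T B : E →L[ℝ] E) :
    Nice fun g => ∫ g', ψ (T g + B g') ∂stdGaussian E :=
  tame_iff_nice.1 ((tame_iff_nice.2 hψ).average T B)

private lemma nice_one {φ : E → ℝ} (hφ : Nice φ) (c : E) : Nice fun y => φ (c + y) := by
  simpa [add_comm] using hφ.comp_add c

private lemma nice_pair {φ : E → ℝ} (hφ : Nice φ) (c a : E) :
    Nice fun y => (φ (c + a + y) + φ (c - a + y)) / 2 := by
  simpa [div_eq_inv_mul] using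
    ((nice_one hφ (c + a)).add (nice_one hφ (c - a))).const_mul (inv_nonneg.2 (zero_le_two (α := ℝ)))

private lemma jensen {φ : E → ℝ} (hφ : Nice φ) (c : E) (B : E →L[ℝ] E) :
    φ c ≤ ∫ g, φ (c + B g) ∂stdGaussian E := by
  have h : Nice fun w => φ (B w + c) := tame_iff_nice.1 ((tame_iff_nice.2 hφ).comp B c)
  simpa [add_comm c] using h.le_integral 0 1

private lemma midpoint_le {φ : E → ℝ} (hφ : Nice φ) (c a : E) :
    φ c ≤ (φ (c + a) + φ (c - a)) / 2 := by
  simpa using segment_bound hφ c a (t := 0) (by simp)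

private lemma sB_le (d r : ℕ) (hrd : r < d) {σ : ℝ} (hσ : pσ d r ≤ σ) :
    0 ≤ Long.sB d r ∧ Long.sB d r ≤ (1 - 3 * pη d) * σ := by
  have h0 := pη_pos d
  have h1 := pη_le d
  have hp := pσ_ge d (r + 1)
  have e : pσ d r = (1 + 10 * pη d) * pσ d (r + 1) := by
    unfold pσ
    rw [show d + 1 - r = (d + 1 - (r + 1)) + 1 by omega, pow_succ]
    ring
  have hs : 0 ≤ Long.sB d r := div_nonneg (mul_nonneg (by linarith) (by linarith)) (by linarith)
  refine ⟨hs, ?_⟩
  rw [Long.sB, div_le_iff₀ (by linarith)]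
  calc pσ d (r + 1) * (1 + pη d)
      ≤ pσ d (r + 1) * ((1 + 10 * pη d) * (1 - 4 * pη d)) :=
        mul_le_mul_of_nonneg_left (by nlinarith) (by linarith)
    _ = pσ d r * (1 - 4 * pη d) := by rw [e]; ring
    _ ≤ σ * ((1 - 3 * pη d) * (1 - pη d)) :=
        mul_le_mul hσ (by nlinarith) (by linarith) (le_trans (by linarith [pσ_ge d r]) hσ)
    _ = (1 - 3 * pη d) * σ * (1 - pη d) := by ring

private lemma dT_le (d : ℕ) : (d : ℝ) * pT d ≤ (Dp d ^ 44)⁻¹ := by
  have h0 := Dp_pos d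
  have hd : (d : ℝ) ≤ Dp d := by linarith [nat_le_Dp d]
  refine (mul_le_mul_of_nonneg_right hd (pT_pos d).le).trans (le_of_eq ?_)
  unfold pT
  field_simp

namespace Long

variable {v : ℕ → E} {N : ℕ} {X R P L : Submodule ℝ E} {σ : ℝ} {d r x a b : ℕ} {e₀ e₁ e₂ : ℝ}
  (D : Long v N X R P L σ d r x a b e₀ e₁ e₂)

private noncomputable def BwL : E →L[ℝ] E := Lᗮ.starProjection - D.ell D.J

private noncomputable def AaL : E →L[ℝ] E :=
  L.starProjection
    + (D.ell D.J).comp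
        (Lᗮ.starProjection - (ContinuousLinearMap.adjoint (D.ell D.J)).comp L.starProjection)
    + (ContinuousLinearMap.adjoint (D.ell D.J)).comp L.starProjection

private noncomputable def AbL : E →L[ℝ] E :=
  D.AaL
    + (pη d)⁻¹ • (D.ell 1 - D.ell D.J).comp
        (Lᗮ.starProjection - (ContinuousLinearMap.adjoint (D.ell D.J)).comp L.starProjection)
    - pz d • ∑ j, (innerSL ℝ (D.u j)).smulRight (D.u j)

private lemma Bw_eq (g : E) : D.Bw g = D.BwL g := rfl

private lemma Aa_eq (g : E) : D.Aa g = D.AaL g := by simp [Aa, AaL]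

private lemma Ab_eq (g : E) : D.Ab g = D.AbL g := by
  simp [Ab, AbL, Aa_eq]
  abel_nf

private lemma nice_term0 {φ : E → ℝ} (hφ : Nice φ) (c : E) (T : E →L[ℝ] E) :
    Nice fun g => ∫ g', φ (c + T g + sB d r • D.Bw g') ∂stdGaussian E := by
  simpa [D.Bw_eq, add_assoc] using nice_avg (nice_one hφ c) T (sB d r • D.BwL)

private lemma nice_term {φ : E → ℝ} (hφ : Nice φ) (c a' : E) (T : E →L[ℝ] E) :
    Nice fun g => ∫ g', (φ (c + a' + T g + sB d r • D.Bw g')
      + φ (c - a' + T g + sB d r • D.Bw g')) / 2 ∂stdGaussian E := by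
  simpa [D.Bw_eq, add_assoc] using nice_avg (nice_pair hφ c a') T (sB d r • D.BwL)

theorem nice_U {φ : E → ℝ} (hφ : Nice φ) (s : Seed E N) (m : E) :
    Nice (fun y => D.U φ s (y - m)) := by
  have hη := pη_pos d
  have hη1 : 0 ≤ 1 - pη d := by linarith [pη_le d]
  suffices h : Nice fun g => D.U φ s g by simpa [sub_eq_add_neg] using h.comp_add (-m)
  unfold U
  simp only [Aa_eq, Ab_eq]
  refine ((D.nice_term0 hφ _ _).const_mul hη1).add ?_
  split_ifs with h
  · exact (D.nice_term0 hφ _ _).const_mul hη.le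
  · have hsum := Nice.finsum Finset.univ fun j _ =>
      D.nice_term hφ (D.ctr s) (D.spread • D.u j) D.AbL
    simpa [div_eq_inv_mul, mul_assoc] using
      (hsum.const_mul (inv_nonneg.2 (Nat.cast_nonneg (α := ℝ) D.r'))).const_mul hη.le

private lemma seg_late {j : ℕ} (h1 : 1 ≤ j) (hj : j ≤ D.J) (c : E) (i : ℕ) :
    ‖seg v (D.Zb j c) (D.k 1) i‖ ≤ ((Cdn d r 1).p + 2) * ‖Lᗮ.starProjection c‖ ∧
      (D.k (j + 1) ≤ i → seg v (D.Zb j c) (D.k 1) i = D.ell j c - Lᗮ.starProjection c) := by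
  have hk : D.k 1 ≤ D.k j := D.k_mono h1 (hj.trans (Nat.le_succ _))
  rcases le_or_gt i (D.k j) with h | h
  · have e : seg v (D.Zb j c) (D.k 1) i = 0 :=
      seg_zero_of fun l hl => D.Zb_supp hj c (by simp only [Finset.mem_Ico] at hl ⊢; omega)
    refine ⟨?_, fun hki => ?_⟩
    · rw [e, norm_zero]
      exact mul_nonneg (by linarith [D.sizes.2.2.1]) (norm_nonneg _)
    · have hj' := D.k_le hj
      rw [e, ← D.seg_Zb hj c]
      exact (seg_zero_of fun l hl => absurd hl (by simp only [Finset.mem_Ico]; omega)).symm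
  · rw [seg_append' v _ hk h.le,
      seg_zero_of (a := D.k 1) (fun l hl => D.Zb_supp hj c (by
        simp only [Finset.mem_Ico] at hl ⊢; omega)), zero_add]
    exact ⟨D.seg_Zb_norm hj c h.le, fun hki => by rw [D.seg_Zb_after hj c hki, D.seg_Zb hj c]⟩

private lemma diff_inner (x y : E) :
    |⟪(D.ell 1 - D.ell D.J) x, y⟫|
      ≤ Dp d ^ 3 * ‖x‖ * Real.sqrt (∑ j, ⟪D.u j, y⟫ ^ 2) := by
  have hJ1 : 1 ≤ D.J := (by omega : 1 ≤ 2).trans D.hJ
  have hD := Dp_ge d
  have hD0 := Dp_pos d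
  set M := ‖Lᗮ.starProjection x‖ with hM
  have hM0 : 0 ≤ M := norm_nonneg _
  rcases hM0.eq_or_lt with h0 | hpos
  · have hx : Lᗮ.starProjection x = 0 := norm_eq_zero.1 (hM.symm.trans h0.symm)
    have : (D.ell 1 - D.ell D.J) x = 0 := by
      rw [sub_apply, D.ell_dep 1, D.ell_dep D.J, hx, map_zero, map_zero,
        sub_zero]
    rw [this, inner_zero_left, abs_zero]
    positivity
  set K := Dp d ^ 2 * M with hK
  have hK0 : 0 < K := by positivity
  set z : ℕ → ℝ := K⁻¹ • (D.Zb 1 x - D.Zb D.J x) with hz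
  obtain ⟨hz0, hz1, hp1, -, -⟩ := D.sizes
  have hp : (Cdn d r 1).p + 2 ≤ Dp d := by
    have := nat_le_Dp d
    have hr0 : (0 : ℝ) ≤ r := r.cast_nonneg
    simp only [Cdn]
    push_cast
    linarith
  have hseg : ∀ i, seg v z (D.k 1) i
      = K⁻¹ • (seg v (D.Zb 1 x) (D.k 1) i - seg v (D.Zb D.J x) (D.k 1) i) := fun i => by
    rw [hz, ← segLin_apply, map_smul, map_sub]
    simp only [segLin_apply]
  have hadm : Adm v (pR d) (D.k 1) b z := by
    refine ⟨fun i _ => ?_, fun i _ => ?_⟩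
    · rw [hz, Pi.smul_apply, Pi.sub_apply, smul_eq_mul, abs_mul, abs_inv, abs_of_pos hK0,
        inv_mul_le_iff₀ hK0]
      refine (abs_sub _ _).trans ((add_le_add (D.Zb_coef hJ1 x i) (D.Zb_coef le_rfl x i)).trans ?_)
      rw [← hM, hK]
      nlinarith [pow_le_pow_left₀ (by norm_num) hD 2, mul_le_mul_of_nonneg_right hz1 hM0]
    · rw [hseg, norm_smul, norm_inv, Real.norm_eq_abs, abs_of_pos hK0, inv_mul_le_iff₀ hK0]
      refine (norm_sub_le _ _).trans ((add_le_add (D.seg_late le_rfl hJ1 x i).1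
        (D.seg_late hJ1 le_rfl x i).1).trans ?_)
      rw [← hM, hK]
      calc ((Cdn d r 1).p + 2) * M + ((Cdn d r 1).p + 2) * M ≤ Dp d ^ 2 * M := by
            rw [← add_mul]
            exact mul_le_mul_of_nonneg_right (by nlinarith) hM0
        _ ≤ Dp d ^ 2 * M * pR d :=
            le_mul_of_one_le_right (by positivity) (one_le_pow₀ (one_le_Dp d))
  have hend : seg v z (D.k 1) b = K⁻¹ • (D.ell 1 - D.ell D.J) x := by
    have hb : ∀ j, j ≤ D.J → D.k (j + 1) ≤ b := fun j hj => D.k_le_b (Nat.succ_le_succ hj)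
    rw [hseg, (D.seg_late le_rfl hJ1 x b).2 (hb 1 hJ1),
      (D.seg_late hJ1 le_rfl x b).2 (hb D.J le_rfl), sub_apply]
    congr 1
    abel
  obtain ⟨c, hc, hcz⟩ := D.w_spec.2.2.2 z hadm (by
    rw [hend, map_smul, sub_apply, map_sub,
      (Lᗮ.starProjection_apply_eq_zero_iff).2
        (by rw [Submodule.orthogonal_orthogonal]; exact D.ell_mem _ _),
      (Lᗮ.starProjection_apply_eq_zero_iff).2
        (by rw [Submodule.orthogonal_orthogonal]; exact D.ell_mem _ _), sub_zero, smul_zero])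
  have hx : (D.ell 1 - D.ell D.J) x = K • ∑ j, c j • D.u j := by
    rw [← hcz, hend, smul_smul, mul_inv_cancel₀ hK0.ne', one_smul]
  rw [hx, real_inner_smul_left, sum_inner, abs_mul, abs_of_pos hK0]
  set S := Real.sqrt (∑ j, ⟪D.u j, y⟫ ^ 2)
  have h1 : |∑ j, ⟪c j • D.u j, y⟫| ≤ (D.r' : ℝ) * S := by
    refine (Finset.abs_sum_le_sum_abs _ _).trans ((Finset.sum_le_card_nsmul _ _ S fun j _ => ?_).trans
      (le_of_eq (by simp)))
    rw [real_inner_smul_left, abs_mul]
    refine (mul_le_of_le_one_left (abs_nonneg _) (hc j)).trans ?_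
    rw [← Real.sqrt_sq_eq_abs]
    exact Real.sqrt_le_sqrt (Finset.single_le_sum (f := fun j => ⟪D.u j, y⟫ ^ 2)
      (fun j _ => sq_nonneg _) (Finset.mem_univ j))
  have hr' : (D.r' : ℝ) ≤ Dp d := by
    have : (D.r' : ℝ) ≤ d := by exact_mod_cast D.w_spec.1.trans D.hd.le
    linarith [nat_le_Dp d]
  calc K * |∑ j, ⟪c j • D.u j, y⟫| ≤ K * (Dp d * S) :=
        mul_le_mul_of_nonneg_left (h1.trans (mul_le_mul_of_nonneg_right hr' (Real.sqrt_nonneg _)))
          hK0.le
    _ ≤ Dp d ^ 3 * ‖x‖ * S := by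
      rw [hK]
      have := Submodule.norm_starProjection_apply_le Lᗮ x
      calc Dp d ^ 2 * M * (Dp d * S) = Dp d ^ 3 * M * S := by ring
        _ ≤ _ := by gcongr

private lemma rot_Aa {φ : E → ℝ} (hφ : Nice φ) (c : E) :
    ∫ g, ∫ g', φ (c + D.Aa (σ • g) + sB d r • D.Bw g') ∂stdGaussian E ∂stdGaussian E
      ≤ gavg φ c σ := by
  have hdT : 0 ≤ (d : ℝ) * pT d := mul_nonneg d.cast_nonneg (pT_pos d).le
  obtain ⟨hs0, hs⟩ := sB_le d r D.hrd D.hσ
  have hσ : 0 < σ := lt_of_lt_of_le (by linarith [pσ_ge d r]) D.hσ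
  have hT := dT_le d
  have hT' : (Dp d ^ 44)⁻¹ ≤ pη d := inv_anti₀ (pow_pos (Dp_pos d) _) (Dp_pow_le d (by norm_num))
  have hη := pη_le d
  have h := rot_dom hφ c (L := L) (D.ell D.J) 0 (D.ell_dep D.J) (D.ell_mem D.J) (fun _ => rfl)
    (fun _ => L.zero_mem) (r := 0) Fin.elim0 (fun j => j.elim0) (l₀ := (d : ℝ) * pT d) (Cl := 0)
    (z := 0) (κ := 0) (σ := σ) (s := sB d r)
    (fun x => (D.ell_norm le_rfl x).trans
      (mul_le_mul_of_nonneg_left (Submodule.norm_starProjection_apply_le _ _) hdT))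
    (fun x y => by simp) hσ le_rfl hdT (by linarith) le_rfl (by simp) (by simp)
    (by
      have h1 : sB d r ^ 2 ≤ ((1 - 3 * pη d) * σ) ^ 2 := pow_le_pow_left₀ hs0 hs 2
      have h2 : 3 * ((d : ℝ) * pT d) ^ 2 ≤ 3 * pη d := by nlinarith
      nlinarith [pη_pos d, mul_le_mul_of_nonneg_right h2 (sq_nonneg σ)]) none
  simpa [Aa, Bw] using h

private lemma rot_Ab {φ : E → ℝ} (hφ : Nice φ) (c : E) (e : Option (Fin D.r')) :
    ∫ g, ∫ g', (φ (c + e.elim 0 (fun j => D.spread • D.u j) + D.Ab (σ • g) + sB d r • D.Bw g')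
      + φ (c - e.elim 0 (fun j => D.spread • D.u j) + D.Ab (σ • g) + sB d r • D.Bw g')) / 2
      ∂stdGaussian E ∂stdGaussian E ≤ gavg φ c σ := by
  have hdT : 0 ≤ (d : ℝ) * pT d := mul_nonneg d.cast_nonneg (pT_pos d).le
  obtain ⟨hs0, hs⟩ := sB_le d r D.hrd D.hσ
  have hσ12 : 12 ≤ σ := (pσ_ge d r).trans D.hσ
  have hT := dT_le d
  have hT' : (Dp d ^ 44)⁻¹ ≤ pη d := inv_anti₀ (pow_pos (Dp_pos d) _) (Dp_pow_le d (by norm_num))
  have hη := pη_le d
  have hD := Dp_ge d
  have hD0 := Dp_pos d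
  have hr' : (D.r' : ℝ) ≤ Dp d / 1000 := by
    have : (D.r' : ℝ) ≤ d := by exact_mod_cast D.w_spec.1.trans D.hd.le
    linarith [nat_le_Dp d]
  have hκ : D.spread ≤ Dp d ^ 9 := by
    have e : D.spread = D.r' * Dp d ^ 8 := by
      rw [spread, pη]
      field_simp
    rw [e]
    calc (D.r' : ℝ) * Dp d ^ 8 ≤ Dp d * Dp d ^ 8 :=
          mul_le_mul_of_nonneg_right (by linarith) (pow_nonneg hD0.le _)
      _ = _ := by ring
  have hκ0 : 0 ≤ D.spread := mul_nonneg (Nat.cast_nonneg _)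
    (div_nonneg (pow_nonneg hD0.le _) (pη_pos d).le)
  have h := rot_dom hφ c (L := L) (D.ell D.J) ((pη d)⁻¹ • (D.ell 1 - D.ell D.J)) (D.ell_dep D.J)
    (D.ell_mem D.J)
    (fun x => by
      simp only [FunLike.coe_smul, Pi.smul_apply, sub_apply, ← D.ell_dep])
    (fun x => by
      simp only [FunLike.coe_smul, Pi.smul_apply, sub_apply]
      exact L.smul_mem _ (L.sub_mem (D.ell_mem _ _) (D.ell_mem _ _)))
    D.u D.u_mem (l₀ := (d : ℝ) * pT d) (Cl := Dp d ^ 5)
    (z := pz d) (κ := D.spread) (σ := σ) (s := sB d r)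
    (fun x => (D.ell_norm le_rfl x).trans
      (mul_le_mul_of_nonneg_left (Submodule.norm_starProjection_apply_le _ _) hdT))
    (fun x y => by
      rw [FunLike.coe_smul, Pi.smul_apply, real_inner_smul_left, abs_mul, pη, inv_inv,
        abs_of_pos (pow_pos hD0 2)]
      refine (mul_le_mul_of_nonneg_left (D.diff_inner x y) (pow_nonneg hD0.le 2)).trans (le_of_eq ?_)
      ring)
    (by linarith) (pow_nonneg hD0.le _) hdT (by linarith) (pow_nonneg hD0.le _)
    (by
      have h1 : 9 * D.spread ^ 2 / σ ^ 2 ≤ Dp d ^ 18 := by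
        rw [div_le_iff₀ (by positivity)]
        have h2 : D.spread ^ 2 ≤ Dp d ^ 18 := by
          calc D.spread ^ 2 ≤ (Dp d ^ 9) ^ 2 := pow_le_pow_left₀ hκ0 hκ 2
            _ = _ := by ring
        have h3 : 9 ≤ σ ^ 2 := by nlinarith
        nlinarith [pow_nonneg hD0.le 18]
      have h4 : 3 * Dp d ^ 18 ≤ pz d := by
        rw [pz, show Dp d ^ 20 = Dp d ^ 2 * Dp d ^ 18 by ring]
        exact mul_le_mul_of_nonneg_right (by nlinarith) (pow_nonneg hD0.le _)
      have h5 : (Dp d ^ 5) ^ 2 ≤ Dp d ^ 18 := by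
        rw [← pow_mul]
        exact Dp_pow_le d (by norm_num)
      linarith)
    (by
      have h1 : ∑ j, ‖D.u j‖ ^ 2 ≤ Dp d / 1000 * ((Dp d ^ 44)⁻¹) ^ 2 := by
        refine (Finset.sum_le_card_nsmul _ _ (((Dp d ^ 44)⁻¹) ^ 2) fun j _ =>
          pow_le_pow_left₀ (norm_nonneg _) ((D.u_norm j).trans hT) 2).trans ?_
        rw [Finset.card_univ, Fintype.card_fin, nsmul_eq_mul]
        exact mul_le_mul_of_nonneg_right hr' (by positivity)
      refine (mul_le_mul_of_nonneg_left h1 (pow_nonneg hD0.le _)).trans ?_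
      calc Dp d ^ 20 * (Dp d / 1000 * ((Dp d ^ 44)⁻¹) ^ 2) = (Dp d ^ 67)⁻¹ / 1000 := by
            field_simp
        _ ≤ 1 / 4 := by
            have := inv_le_one_of_one_le₀ (one_le_pow₀ (n := 67) (one_le_Dp d))
            linarith)
    (by
      have h1 : sB d r ^ 2 ≤ ((1 - 3 * pη d) * σ) ^ 2 := pow_le_pow_left₀ hs0 hs 2
      have h2 : 3 * ((d : ℝ) * pT d) ^ 2 ≤ 3 * pη d := by nlinarith
      nlinarith [pη_pos d, mul_le_mul_of_nonneg_right h2 (sq_nonneg σ)]) e
  simpa [Ab, Aa, Bw] using h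

theorem U_le {φ : E → ℝ} (hφ : Nice φ) (s : Seed E N) :
    ∫ g, D.U φ s (σ • g) ∂stdGaussian E ≤ gavg φ (D.ctr s) σ := by
  have hη := pη_pos d
  have hη1 : 0 ≤ 1 - pη d := by linarith [pη_le d]
  have key : ∀ f : E → ℝ, Nice f → Integrable (fun g => f (σ • g)) (stdGaussian E) := fun f hf => by
    simpa using hf.integrable 0 σ
  have i0 := key _ (D.nice_term0 hφ (D.ctr s) D.AaL)
  simp only [← Aa_eq] at i0
  have h0 := D.rot_Aa hφ (D.ctr s)
  unfold U
  by_cases h : D.r' = 0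
  · simp only [if_pos h]
    have i1 := key _ (D.nice_term0 hφ (D.ctr s) D.AbL)
    simp only [← Ab_eq] at i1
    have h1 := D.rot_Ab hφ (D.ctr s) none
    simp only [Option.elim_none, add_zero, sub_zero, add_self_div_two] at h1
    rw [integral_add (i0.const_mul _) (i1.const_mul _), integral_const_mul, integral_const_mul]
    linarith [mul_le_mul_of_nonneg_left h0 hη1, mul_le_mul_of_nonneg_left h1 hη.le]
  · simp only [if_neg h]
    have i1 := fun j => key _ (D.nice_term hφ (D.ctr s) (D.spread • D.u j) D.AbL)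
    simp only [← Ab_eq] at i1
    have h1 : ∀ j, _ ≤ gavg φ (D.ctr s) σ := fun j => D.rot_Ab hφ (D.ctr s) (some j)
    simp only [Option.elim_some] at h1
    have i2 := (integrable_finsetSum Finset.univ fun j _ => i1 j).div_const (D.r' : ℝ)
    rw [integral_add (i0.const_mul _) (i2.const_mul _), integral_const_mul, integral_const_mul,
      integral_div, integral_finsetSum _ fun j _ => i1 j]
    have hr : (0 : ℝ) < D.r' := Nat.cast_pos.2 (Nat.pos_of_ne_zero h)
    have h2 := (Finset.sum_le_card_nsmul (Finset.univ : Finset (Fin D.r')) _ _ fun j _ => h1 j)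
    rw [Finset.card_univ, Fintype.card_fin, nsmul_eq_mul, mul_comm] at h2
    linarith [mul_le_mul_of_nonneg_left h0 hη1,
      mul_le_mul_of_nonneg_left ((div_le_iff₀ hr).2 h2) hη.le]

private lemma pair_jensen {φ : E → ℝ} (hφ : Nice φ) (c a' y : E) :
    (φ (c + a' + y) + φ (c - a' + y)) / 2
      ≤ ∫ g', (φ (c + a' + y + sB d r • D.Bw g') + φ (c - a' + y + sB d r • D.Bw g')) / 2
        ∂stdGaussian E := by
  simpa [D.Bw_eq, add_assoc] using jensen (nice_pair hφ c a') y (sB d r • D.BwL)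

theorem U_virtual {φ : E → ℝ} (hφ : Nice φ) (s : Seed E N) (g : E) :
    φ (D.ctr s + D.Aa g + pη d • (D.Ab g - D.Aa g)) ≤ D.U φ s g := by
  have hη := pη_pos d
  have hη1 : 0 ≤ 1 - pη d := by linarith [pη_le d]
  have hcv := hφ.cvx.2 (mem_univ (D.ctr s + D.Aa g)) (mem_univ (D.ctr s + D.Ab g)) hη1 hη.le
    (by ring)
  rw [show (1 - pη d) • (D.ctr s + D.Aa g) + pη d • (D.ctr s + D.Ab g)
    = D.ctr s + D.Aa g + pη d • (D.Ab g - D.Aa g) by module] at hcv
  refine hcv.trans ?_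
  simp only [smul_eq_mul, U]
  refine add_le_add (mul_le_mul_of_nonneg_left (jensen hφ _ (sB d r • D.BwL)) hη1)
    (mul_le_mul_of_nonneg_left ?_ hη.le)
  split_ifs with h
  · exact jensen hφ _ (sB d r • D.BwL)
  · have hr : (0 : ℝ) < D.r' := Nat.cast_pos.2 (Nat.pos_of_ne_zero h)
    rw [le_div_iff₀ hr, mul_comm]
    refine le_of_eq_of_le (by simp) (Finset.card_nsmul_le_sum Finset.univ _
      (φ (D.ctr s + D.Ab g)) fun j _ => ?_)
    refine le_trans ?_ (D.pair_jensen hφ _ _ _)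
    rw [add_right_comm, sub_add_eq_add_sub]
    exact midpoint_le hφ _ _

theorem U_real {φ : E → ℝ} (hφ : Nice φ) (s : Seed E N) (g : E) :
    ∃ H : E → ℝ, Nice H ∧ (∀ w, H w = H (Lᗮ.starProjection w)) ∧ ∃ pb ∈ L,
      ∀ (e res : E) (c : Fin D.r' → ℝ), (∀ j, |c j| ≤ Dp d ^ 6) → res = ∑ j, c j • D.u j →
        H e + ⟪pb, res⟫ ≤ gavg H 0 (pσ d (r + 1) * (1 + pη d)) →
        φ (D.ctr s + D.Aa g + pη d • (D.Ab g - D.Aa g) + res + D.Bw e) ≤ D.U φ s g := by
  have hη := pη_pos d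
  have hη1 : 0 < 1 - pη d := by linarith [pη_le d]
  set H : E → ℝ := fun w => (1 - pη d) * φ (D.ctr s + D.Aa g + (1 - pη d)⁻¹ • D.Bw w) with hH
  have hHn : Nice H := by
    have h := tame_iff_nice.1 ((tame_iff_nice.2 hφ).comp ((1 - pη d)⁻¹ • D.BwL) (D.ctr s + D.Aa g))
    simpa [hH, D.Bw_eq, add_comm (D.ctr s + D.Aa g)] using h.const_mul hη1.le
  have hHd : ∀ w, H w = H (Lᗮ.starProjection w) := fun w => by
    simp only [hH, Bw]
    rw [Submodule.starProjection_eq_self_iff.2 (Lᗮ.starProjection_apply_mem w), ← D.ell_dep]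
  have hHg : gavg H 0 (pσ d (r + 1) * (1 + pη d))
      = (1 - pη d) * ∫ g', φ (D.ctr s + D.Aa g + sB d r • D.Bw g') ∂stdGaussian E := by
    rw [gavg, ← integral_const_mul]
    refine integral_congr_ae (Filter.Eventually.of_forall fun g' => ?_)
    simp only [hH, zero_add, D.Bw_eq, map_smul, smul_smul, sB]
    rw [inv_mul_eq_div]
  have split : ∀ e res : E, φ (D.ctr s + D.Aa g + pη d • (D.Ab g - D.Aa g) + res + D.Bw e)
      ≤ H e + pη d * φ (D.ctr s + D.Ab g + (pη d)⁻¹ • res) := fun e res => by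
    have hcv := hφ.cvx.2 (mem_univ (D.ctr s + D.Aa g + (1 - pη d)⁻¹ • D.Bw e))
      (mem_univ (D.ctr s + D.Ab g + (pη d)⁻¹ • res)) hη1.le hη.le (by ring)
    refine le_of_eq_of_le (congrArg φ ?_) hcv
    simp only [smul_add, smul_smul, mul_inv_cancel₀ hη1.ne', mul_inv_cancel₀ hη.ne', one_smul]
    module
  by_cases h : D.r' = 0
  · refine ⟨H, hHn, hHd, 0, L.zero_mem, fun e res c _ hres hle => (split e res).trans ?_⟩
    have hres0 : res = 0 := by
      rw [hres]
      exact Finset.sum_eq_zero fun j _ => absurd j.isLt (by omega)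
    rw [hres0, inner_zero_right, add_zero, hHg] at hle
    rw [hres0, smul_zero, add_zero, U, if_pos h]
    exact add_le_add hle (mul_le_mul_of_nonneg_left (jensen hφ _ (sB d r • D.BwL)) hη.le)
  · have hCr : 0 < Dp d ^ 6 / pη d := div_pos (pow_pos (Dp_pos d) _) hη
    obtain ⟨p, hp, hpb⟩ := exists_interp hφ (D.ctr s + D.Ab g) D.w_spec.2.2.1 D.u_mem hCr
      (Nat.pos_of_ne_zero h)
    refine ⟨H, hHn, hHd, p, hp, fun e res c hc hres hle => (split e res).trans ?_⟩
    have hb := hpb (fun j => c j / pη d) fun j => by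
      rw [abs_div, abs_of_pos hη]
      exact div_le_div_of_nonneg_right (hc j) hη.le
    rw [show ∑ j, (c j / pη d) • D.u j = (pη d)⁻¹ • res by
      rw [hres, Finset.smul_sum]
      exact Finset.sum_congr rfl fun j _ => by rw [smul_smul, div_eq_inv_mul]] at hb
    have hsum : (∑ j, (φ (D.ctr s + D.Ab g + D.spread • D.u j)
        + φ (D.ctr s + D.Ab g - D.spread • D.u j)) / 2) / D.r'
        ≤ (∑ j, ∫ g', (φ (D.ctr s + D.spread • D.u j + D.Ab g + sB d r • D.Bw g')
          + φ (D.ctr s - D.spread • D.u j + D.Ab g + sB d r • D.Bw g')) / 2 ∂stdGaussian E)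
          / D.r' := by
      refine div_le_div_of_nonneg_right (Finset.sum_le_sum fun j _ => ?_) (Nat.cast_nonneg _)
      refine le_trans (le_of_eq ?_) (D.pair_jensen hφ _ _ _)
      rw [add_right_comm, sub_add_eq_add_sub]
    rw [U, if_neg h, ← hHg]
    change φ _ ≤ (∑ j, (φ (D.ctr s + D.Ab g + D.spread • D.u j)
        + φ (D.ctr s + D.Ab g - D.spread • D.u j)) / 2) / D.r' + _ at hb
    rw [real_inner_smul_right] at hb
    have h3 := mul_le_mul_of_nonneg_left hb hη.le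
    rw [mul_add, ← mul_assoc, mul_inv_cancel₀ hη.ne', one_mul] at h3
    linarith [mul_le_mul_of_nonneg_left hsum hη.le]

end Long

end Vale.Agent.P262.Sig
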