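import Vale.Agent.P262.SigLongSel
import Vale.Agent.P262.SigLongU

/-!
The part of a long node after its first window: good states get real signs, bad states pay.
-/

namespace Vale.Agent.P262.Sig

open MeasureTheory ProbabilityTheory Set Module
open scoped RealInnerProductSpace

set_option linter.unusedSectionVars false

variable {E : Type} [NormedAddCommGroup E] [InnerProductSpace ℝ E] [FiniteDimensional ℝ E]
  [MeasurableSpace E] [BorelSpace E]

lemma sqrt_tests (d m : ℕ) :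
    Real.sqrt (12 * 4000 * ((m * pLg d : ℕ) : ℝ)) = Real.sqrt (48000 * pLg d * m) := by
  congr 1; push_cast; ring

lemma frame_test (V : Submodule ℝ E) (d : ℕ) {m : ℕ} (hm : 0 < m) {y : E}
    (h : test V 4000 (m * pLg d) y < 1) :
    ‖V.starProjection y‖ ≤ Real.sqrt (48000 * pLg d * m) := by
  rw [← sqrt_tests]
  exact le_of_test_lt_one (by norm_num) (Nat.mul_pos hm (pLg_pos d)) h

lemma frame_test' (V : Submodule ℝ E) (d : ℕ) {m : ℕ} (hm : 0 < m) (hmd : m ≤ d) (y : E) :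
    ‖V.starProjection y‖ ≤ pS d * (1 + test V 4000 (m * pLg d) y) := by
  have h0 := test_nonneg V (show (0 : ℝ) ≤ 4000 by norm_num) (m * pLg d) y
  refine (norm_le_test V (by norm_num) (Nat.mul_pos hm (pLg_pos d)) y).trans
    (mul_le_mul_of_nonneg_right ?_ (by linarith))
  rw [sqrt_tests]
  exact Real.sqrt_le_sqrt (mul_le_mul_of_nonneg_left (by exact_mod_cast hmd) (by positivity))

namespace Long

variable {v : ℕ → E} {N : ℕ} {X R P L : Submodule ℝ E} {σ : ℝ} {d r x a b : ℕ} {e₀ e₁ e₂ : ℝ}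
  (D : Long v N X R P L σ d r x a b e₀ e₁ e₂)

include D in
lemma hxr : x ≤ r := by
  rw [← D.hx, ← D.hr]
  exact Submodule.finrank_mono D.hXL

lemma hat_parts (s : Seed E N) (g : E) :
    0 ≤ D.hat s g ∧ D.op₁.G ((1 - pη d)⁻¹ • D.start s g) ≤ D.hat s g ∧
      test (L ⊓ Xᗮ) 4000 (max (r - x) 1 * pLg d) (stat R s.1 (D.mean₁ s + g)) ≤ D.hat s g ∧
      test ⊤ 4000 (d * pLg d) g ≤ D.hat s g := by
  have h1 := D.op₁.nonneg ((1 - pη d)⁻¹ • D.start s g)
  have h2 := test_nonneg (L ⊓ Xᗮ) (show (0 : ℝ) ≤ 4000 by norm_num) (max (r - x) 1 * pLg d)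
    (stat R s.1 (D.mean₁ s + g))
  have h3 := test_nonneg (⊤ : Submodule ℝ E) (show (0 : ℝ) ≤ 4000 by norm_num) (d * pLg d) g
  simp only [hat]
  refine ⟨?_, ?_, ?_, ?_⟩ <;> linarith

include D in
lemma norm_le_of_test (g : E) : ‖g‖ ≤ pS d * (1 + test ⊤ 4000 (d * pLg d) g) := by
  have h := frame_test' (⊤ : Submodule ℝ E) d (by have := D.hrd; omega) le_rfl g
  simpa [Submodule.starProjection_top'] using h

lemma perp_start {s : Seed E N} (hs : Bdd v P a b (Bdn d r 0) s) (g : E) :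
    ‖Lᗮ.starProjection (stat R s.1 (D.mean₁ s + g))‖ ≤ 1 + ‖g‖ := by
  rw [stat_perp D.hRL, mean₁, map_add, map_add, D.seed₁_perp, add_zero]
  refine (norm_add_le _ _).trans (add_le_add ?_ (Submodule.norm_starProjection_apply_le _ _))
  refine (Submodule.norm_starProjection_apply_le _ _).trans ((D.seed₁_drift hs).trans ?_)
  linarith [(Bdn_le_one D.hrd).2.2.2]

lemma cover {i : ℕ} (hi : i ∈ Finset.Icc (D.k 1) b) :
    ∃ j, 1 ≤ j ∧ j ≤ D.J ∧ i ∈ Finset.Icc (D.k j) (D.k (j + 1)) := by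
  have h : ∀ m, 1 ≤ m → m ≤ D.J → i ∈ Finset.Icc (D.k 1) (D.k (m + 1)) →
      ∃ j, 1 ≤ j ∧ j ≤ D.J ∧ i ∈ Finset.Icc (D.k j) (D.k (j + 1)) := by
    intro m hm
    induction m, hm using Nat.le_induction with
    | base => exact fun h2 hi => ⟨1, le_rfl, h2, hi⟩
    | succ n hn ih =>
      intro h2 hi
      rw [Finset.mem_Icc] at hi
      rcases le_total i (D.k (n + 1)) with h | h
      · exact ih (by omega) (Finset.mem_Icc.2 ⟨hi.1, h⟩)
      · exact ⟨n + 1, by omega, h2, Finset.mem_Icc.2 ⟨h, hi.2⟩⟩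
  exact h D.J (by have := D.hJ; omega) le_rfl (by rwa [D.k_last])

/-- Coefficients of the slow residual. -/
lemma resid_coeff {r₁ e : E} {z : ℕ → ℝ} (hz : ∀ i ∈ Finset.Ico (D.k 1) b, |z i| ≤ 3)
    (hzp : ∀ i ∈ Finset.Icc (D.k 1) b, ‖seg v z (D.k 1) i‖ ≤ Dp d ^ 5)
    (he : seg v z (D.k 1) b = e - r₁) (h1 : ‖Lᗮ.starProjection r₁‖ ≤ Dp d ^ 4)
    (h2 : ‖Lᗮ.starProjection e‖ ≤ Dp d ^ 4) :
    ∃ c : Fin D.r' → ℝ, (∀ j, |c j| ≤ Dp d ^ 6) ∧ D.resid r₁ e = ∑ j, c j • D.u j := by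
  have hJ := D.hJ
  have hD := Dp_pos d
  set y := z - D.Zb 1 r₁ + D.Zb D.J e with hy
  have hp : (Cdn d r 1).p + 2 ≤ Dp d := by
    have hr' : (0 : ℝ) ≤ r := r.cast_nonneg
    simp only [Cdn]; push_cast; linarith [nat_le_Dp d, Dp_ge d]
  have hzero : seg v (D.Zb D.J e) (D.k 1) (D.k D.J) = 0 :=
    seg_zero_of fun i hi => D.Zb_supp le_rfl e (by simp only [Finset.mem_Ico] at hi ⊢; omega)
  have segJ : ∀ i, D.k D.J ≤ i →
      seg v (D.Zb D.J e) (D.k 1) i = seg v (D.Zb D.J e) (D.k D.J) i := fun i hi => by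
    rw [seg_append' v _ (D.k_mono (by omega) (by omega)) hi, hzero, zero_add]
  have hyb : seg v y (D.k 1) b = D.resid r₁ e := by
    rw [hy, sub_eq_add_neg, seg_add, seg_add,
      show seg v (-D.Zb 1 r₁) (D.k 1) b = -seg v (D.Zb 1 r₁) (D.k 1) b from
        (segLin v (D.k 1) b).map_neg _,
      D.seg_Zb_after (j := 1) (by omega) r₁ (D.k_le_b (by omega)), D.seg_Zb (by omega),
      segJ b (D.k_le_b (by omega)),
      D.seg_Zb_after le_rfl e (le_of_eq D.k_last), D.seg_Zb le_rfl, he, resid]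
    have e1 := Submodule.starProjection_add_starProjection_orthogonal (K := L) e
    have e2 := Submodule.starProjection_add_starProjection_orthogonal (K := L) r₁
    rw [map_sub]
    linear_combination (norm := abel) -e1 + e2
  have hperp : Lᗮ.starProjection (seg v y (D.k 1) b) = 0 := by
    rw [hyb, resid, map_add, map_sub, proj_perp_self L (L.starProjection_apply_mem _),
      proj_perp_self L (D.ell_mem _ _), proj_perp_self L (D.ell_mem _ _)]
    simp
  have hq : ∀ w : E, ‖Lᗮ.starProjection w‖ ≤ Dp d ^ 4 → ∀ j ≤ D.J, ∀ i, D.k j ≤ i →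
      ‖seg v (D.Zb j w) (D.k j) i‖ ≤ Dp d ^ 5 := fun w hw j hj i hi =>
    ((D.seg_Zb_norm hj w hi).trans (mul_le_mul hp hw (norm_nonneg _) hD.le)).trans
      (le_of_eq (by ring))
  have hz4 : (Cdn d r 1).z ≤ 1 := by linarith [D.sizes.1, D.sizes.2.1]
  have hc : ∀ w : E, ‖Lᗮ.starProjection w‖ ≤ Dp d ^ 4 → ∀ j ≤ D.J, ∀ i,
      |D.Zb j w i| ≤ Dp d ^ 4 := fun w hw j hj i =>
    (D.Zb_coef hj w i).trans ((mul_le_mul hz4 hw (norm_nonneg _) zero_le_one).trans (by rw [one_mul]))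
  have h6 : 3 * Dp d ^ 5 ≤ Dp d ^ 6 := by
    rw [pow_succ (Dp d) 5, mul_comm (Dp d ^ 5)]
    exact mul_le_mul_of_nonneg_right (by linarith [Dp_ge d]) (pow_nonneg hD.le _)
  have h45 : 2 * Dp d ^ 4 + 3 ≤ Dp d ^ 5 := by
    rw [pow_succ (Dp d) 4]
    nlinarith [Dp_ge d, one_le_pow₀ (one_le_Dp d) (n := 4)]
  have hadm : Adm v (pR d) (D.k 1) b ((Dp d ^ 6)⁻¹ • y) := by
    refine ⟨fun i hi => ?_, fun i hi => ?_⟩
    · rw [Pi.smul_apply, smul_eq_mul, abs_mul, abs_of_pos (inv_pos.2 (pow_pos hD 6)),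
        inv_mul_le_iff₀ (pow_pos hD 6), hy, Pi.add_apply, Pi.sub_apply]
      have := (abs_add_le (z i - D.Zb 1 r₁ i) (D.Zb D.J e i)).trans
        (add_le_add (abs_sub _ _) le_rfl)
      linarith [hz i hi, hc r₁ h1 1 (by omega) i, hc e h2 D.J le_rfl i,
        pow_pos hD 5]
    · rw [seg_smul, norm_smul, Real.norm_eq_abs, abs_of_pos (inv_pos.2 (pow_pos hD 6)),
        inv_mul_le_iff₀ (pow_pos hD 6)]
      obtain ⟨i1, i2⟩ := Finset.mem_Icc.1 hi
      have hA := hzp i hi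
      have hB := hq r₁ h1 1 (by omega) i i1
      have hC : ‖seg v (D.Zb D.J e) (D.k 1) i‖ ≤ Dp d ^ 5 := by
        rcases le_total i (D.k D.J) with h | h
        · rw [seg_zero_of fun l hl => D.Zb_supp le_rfl e (by
            simp only [Finset.mem_Ico] at hl ⊢; omega), norm_zero]
          positivity
        · rw [segJ i h]; exact hq e h2 _ le_rfl i h
      rw [hy, seg_add, show seg v (z - D.Zb 1 r₁) (D.k 1) i
        = seg v z (D.k 1) i - seg v (D.Zb 1 r₁) (D.k 1) i from (segLin v _ _).map_sub _ _]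
      refine ((norm_add_le _ _).trans (add_le_add (norm_sub_le _ _) le_rfl)).trans ?_
      have h1R : (1 : ℝ) ≤ pR d := one_le_pow₀ (one_le_Dp d)
      nlinarith [pow_pos hD 6]
  obtain ⟨c, hc1, hc2⟩ := D.w_spec.2.2.2 _ hadm (by rw [seg_smul, map_smul, hperp, smul_zero])
  refine ⟨fun j => Dp d ^ 6 * c j, fun j => ?_, ?_⟩
  · rw [abs_mul, abs_of_pos (pow_pos hD 6)]
    exact mul_le_of_le_one_right (pow_nonneg hD.le _) (hc1 j)
  · rw [← hyb]
    have : seg v y (D.k 1) b = Dp d ^ 6 • seg v ((Dp d ^ 6)⁻¹ • y) (D.k 1) b := by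
      rw [seg_smul, smul_smul, mul_inv_cancel₀ (pow_pos hD 6).ne', one_smul]
    rw [this, hc2, Finset.smul_sum]
    simp only [smul_smul]

/-- A good state after the first window. -/
lemma good_tail (he₁ : e₁ ≤ pe d) (he₂ : 0 ≤ e₂) (he₂' : e₂ ≤ pe d * pe d) {s : Seed E N}
    (hs : Bdd v P a b (Bdn d r 0) s) {φ : E → ℝ} (hφ : Nice φ) {g : E} (hh : D.hat s g ≤ pe d) :
    ∃ ε : ℕ → ℝ,
      Out v X R (D.k 1) b (bdd' d r x) (rbd d r) s.1 (D.mean₁ s + g) ε 0 ∧
      φ (D.mean₁ s + g + seg v ε (D.k 1) b) ≤ D.U φ s g := by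
  obtain ⟨h0, hG, hA, hB⟩ := D.hat_parts s g
  have hD := Dp_pos d
  have hpe : pe d < 1 := inv_lt_one_of_one_lt₀ (one_lt_pow₀ (by linarith [Dp_ge d]) (by norm_num))
  have hg : ‖g‖ ≤ pS d := by
    have := frame_test (⊤ : Submodule ℝ E) d (m := d) (by have := D.hrd; omega)
      (y := g) (by linarith)
    simpa [Submodule.starProjection_top', pS] using this
  obtain ⟨hn4, hnR⟩ := numFast d
  have hS0 := pS_nonneg d
  set x₁ := D.mean₁ s + g with hx₁
  obtain ⟨hbα, hbo⟩ := D.base_small hs hg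
  obtain ⟨H, hH, hHd, pb, hpb, hU⟩ := D.U_real hφ s g
  have hJ := D.hJ
  have hr₁ : x₁ - (D.seed₁ s).2.1 = (D.seed₁ s).2.2.1 + g := by rw [hx₁, mean₁]; abel
  have hperp1 : Lᗮ.starProjection (x₁ - (D.seed₁ s).2.1) = Lᗮ.starProjection g := by
    rw [hr₁, map_add, D.seed₁_perp, zero_add]
  have hOk : D.Ok s g 1 x₁ := by
    refine ⟨?_, fun _ => rfl, fun h1 _ => absurd h1 (by norm_num)⟩
    rw [drift, seg_self, add_zero, hperp1]
    refine (Submodule.norm_starProjection_apply_le _ _).trans (hg.trans ?_)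
    unfold pBc; linarith
  obtain ⟨ε, hsg, hPr, hval⟩ := exists_rest (le_trans (by norm_num) hJ)
    (fun j _ h2 => D.k_le (j := j) h2) (D.stepHyp he₁ he₂ he₂' hs hg (hG.trans hh))
    D.ell_mem D.ell_dep hOk hH hHd hpb
  rw [D.k_last] at hsg hval
  have habs : ∀ i ∈ Finset.Ico (D.k 1) b, |ε i| = 1 := fun i hi => by
    rcases hsg i hi with e | e <;> simp [e]
  have hx1 : ‖Lᗮ.starProjection x₁‖ ≤ 1 + pS d := by
    have := D.perp_start hs g
    rw [stat_perp D.hRL, ← hx₁] at this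
    linarith
  have hfast : ∀ i ∈ Finset.Icc (D.k 1) b,
      ‖Lᗮ.starProjection (x₁ + seg v ε (D.k 1) i)‖ ≤ pS d + 1 := fun i hi => by
    obtain ⟨j, h1, h2, hij⟩ := D.cover hi
    exact Pr.perp D (hPr j h1 h2 i hij)
  have hfast' : ∀ i ∈ Finset.Icc (D.k 1) b,
      ‖Lᗮ.starProjection (seg v ε (D.k 1) i)‖ ≤ 2 * pS d + 2 := fun i hi => by
    rw [← add_sub_cancel_left x₁ (seg v ε (D.k 1) i), map_sub]
    exact (norm_sub_le _ _).trans (by linarith [hfast i hi])
  have hslow : ∀ i ∈ Finset.Icc (D.k 1) b,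
      ‖L.starProjection (seg v ε (D.k 1) i)‖ ≤ 2 * (Dp d ^ 44)⁻¹ := fun i hi => by
    refine (slow_scale D.hv (D.node.mono (pR_pos d).le (D.le_k (by omega)) le_rfl
      (D.k_le_b (by omega))) (pT_pos d).le D.sizes.2.2.2.2 (M := 2) zero_le_two
      (fun l hl => by rw [habs l hl]; norm_num) (fun l hl => (hfast' l hl).trans (by linarith)) i hi).trans ?_
    refine mul_le_mul_of_nonneg_left (le_trans ?_ (dT_le d)) zero_le_two
    rw [D.hr]
    exact mul_le_mul_of_nonneg_right (by exact_mod_cast D.hrd.le) (pT_pos d).le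
  have h44 : 2 * (Dp d ^ 44)⁻¹ ≤ (Dp d ^ 2)⁻¹ := by
    have h := inv_Dp_le d (show 3 ≤ 44 by norm_num)
    have : 2 * (Dp d ^ 3)⁻¹ ≤ (Dp d ^ 2)⁻¹ := by
      rw [← div_eq_mul_inv, div_le_iff₀ (pow_pos hD 3)]
      calc (2 : ℝ) ≤ Dp d := by linarith [Dp_ge d]
        _ = _ := by field_simp
    linarith
  have hbd : ∀ i ∈ Finset.Icc (D.k 1) b,
      ‖Xᗮ.starProjection (stat R s.1 (x₁ + seg v ε (D.k 1) i))‖ ≤ bdd' d r x := by
    intro i hi
    obtain ⟨j, h1, h2, hij⟩ := D.cover hi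
    have hp := hPr j h1 h2 i hij
    have hLR : ‖L.starProjection (Rᗮ.starProjection (seg v ε (D.k 1) i))‖ ≤ 2 * (Dp d ^ 44)⁻¹ := by
      rw [perp_proj_comm D.hRL]
      exact (Submodule.norm_starProjection_apply_le _ _).trans (hslow i hi)
    have estat : ∀ S : E, stat R s.1 (x₁ + S) = stat R s.1 x₁ + Rᗮ.starProjection S := fun S =>
      stat_add R s.1 x₁ S
    unfold Pr at hp
    split_ifs at hp with hj
    · have e : stat R s.1 (x₁ + seg v ε (D.k 1) i)
          = stat L (D.start s g).1 (x₁ + seg v ε (D.k 1) i)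
            + L.starProjection (Rᗮ.starProjection (seg v ε (D.k 1) i)) := by
        have a1 := Submodule.starProjection_add_starProjection_orthogonal (K := L)
          (stat R s.1 x₁)
        have a2 := Submodule.starProjection_add_starProjection_orthogonal (K := L)
          (Rᗮ.starProjection (seg v ε (D.k 1) i))
        have a3 : Lᗮ.starProjection (Rᗮ.starProjection (seg v ε (D.k 1) i))
            = Lᗮ.starProjection (seg v ε (D.k 1) i) := by
          rw [← ContinuousLinearMap.comp_apply Lᗮ.starProjection Rᗮ.starProjection,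
            Submodule.starProjection_comp_starProjection_of_le (Submodule.orthogonal_le D.hRL)]
        rw [a3] at a2
        rw [stat_perp D.hRL] at a1
        rw [estat, D.start_apply, ← hx₁]
        conv_rhs => simp only [stat, map_add]
        simp only [stat, map_add] at a1 ⊢
        linear_combination (norm := abel) -a1 - a2
      rw [e, map_add]
      refine (norm_add_le _ _).trans ((add_le_add hp
        ((Submodule.norm_starProjection_apply_le _ _).trans hLR)).trans ?_)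
      simp only [bdd']
      push_cast
      linarith
    · have hxr : (x : ℝ) ≤ r := by exact_mod_cast D.hxr
      have hrd' : (r : ℝ) ≤ d := by exact_mod_cast D.hrd.le
      have hA' : ‖(L ⊓ Xᗮ).starProjection (stat R s.1 x₁)‖
          ≤ Real.sqrt (48000 * pLg d * ((r : ℝ) - x)) := by
        rcases D.hxr.lt_or_eq with hlt | heq
        · have := frame_test (L ⊓ Xᗮ) d (m := max (r - x) 1) (by omega)
            (y := stat R s.1 x₁) (by linarith)
          rwa [max_eq_left (show 1 ≤ r - x by omega), Nat.cast_sub hlt.le] at this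
        · have : X = L := Submodule.eq_of_le_of_finrank_eq D.hXL (by rw [D.hx, D.hr, heq])
          subst this
          rw [(Submodule.mem_bot ℝ).1 ((Submodule.inf_orthogonal_eq_bot X).le
            (Submodule.starProjection_apply_mem (X ⊓ Xᗮ) _)), norm_zero]
          exact Real.sqrt_nonneg _
      have hin : ‖(L ⊓ Xᗮ).starProjection (Rᗮ.starProjection (seg v ε (D.k 1) i))‖
          ≤ 2 * (Dp d ^ 44)⁻¹ := by
        rw [← Submodule.starProjection_comp_starProjection_of_le (inf_le_left : L ⊓ Xᗮ ≤ L),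
          ContinuousLinearMap.comp_apply]
        exact (Submodule.norm_starProjection_apply_le _ _).trans hLR
      have h1' : ‖(L ⊓ Xᗮ).starProjection (stat R s.1 (x₁ + seg v ε (D.k 1) i))‖
          ≤ Real.sqrt (48000 * pLg d * ((r : ℝ) - x)) + 2 * (Dp d ^ 44)⁻¹ := by
        rw [estat, map_add]
        exact (norm_add_le _ _).trans (add_le_add hA' hin)
      have h2' : ‖Lᗮ.starProjection (stat R s.1 (x₁ + seg v ε (D.k 1) i))‖
          ≤ Real.sqrt (48000 * pLg d * ((d : ℝ) - r)) + ((d : ℝ) + 1 - r) * (Dp d ^ 2)⁻¹ := by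
        rw [stat_perp D.hRL]
        refine hp.trans (le_of_eq ?_)
        simp only [bdd']; push_cast; ring
      refine (norm_perp_le_sqrt D.hXL (mul_nonneg (by positivity) (by linarith))
        (mul_nonneg (by positivity) (by linarith)) (by positivity)
        (mul_nonneg (by linarith) (by positivity)) h1' h2').trans ?_
      rw [← mul_add, show (r : ℝ) - x + ((d : ℝ) - r) = (d : ℝ) - x by ring]
      simp only [bdd']
      linarith
  have hrb : bdd' d r x ≤ rbd d r ∧ 1 ≤ rbd d r := by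
    have h := bdd'_le d r x
    have h2 : 1 ≤ (d : ℝ) + 2 - r := by
      have : (r : ℝ) ≤ d := by exact_mod_cast D.hrd.le
      linarith
    have h3 : Dp d ^ 5 ≤ rbd d r := le_mul_of_one_le_left (pow_nonneg hD.le _) h2
    exact ⟨h.trans ((Dp_pow_le d (by norm_num)).trans h3),
      le_trans (one_le_pow₀ (one_le_Dp d)) h3⟩
  refine ⟨ε, ⟨le_rfl, fun i hi => ?_, fun _ i hi => hsg i hi, fun i hi => ?_, fun _ i hi => hbd i hi⟩,
    ?_⟩
  · rw [habs i hi]; linarith [hrb.2]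
  · rw [add_zero, mul_one]; exact (hbd i hi).trans hrb.1
  set e := relAt v (D.seed₁ s).2.1 (D.base s g) (D.k 1) b (x₁ + seg v ε (D.k 1) b) with he
  have hkb : D.k 1 ≤ b := D.k_le_b (by omega)
  have hbI : b ∈ Finset.Icc (D.k 1) b := Finset.mem_Icc.2 ⟨hkb, le_rfl⟩
  obtain ⟨c, hc, hres⟩ := D.resid_coeff (r₁ := x₁ - (D.seed₁ s).2.1) (e := e)
    (z := ε - D.base s g)
    (fun i hi => by
      rw [Pi.sub_apply]
      refine (abs_sub _ _).trans ?_
      have := hbα i (Finset.mem_Ico.2 ⟨(D.le_k (by omega)).trans (Finset.mem_Ico.1 hi).1,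
        (Finset.mem_Ico.1 hi).2⟩)
      have h8 : 0 ≤ (Dp d ^ 8)⁻¹ := by positivity
      rw [habs i hi]
      linarith [(Bdn_le_one D.hrd).2.2.1, (Bdn_le_one D.hrd).2.2.2])
    (fun i hi => by
      rw [show seg v (ε - D.base s g) (D.k 1) i
        = seg v ε (D.k 1) i - seg v (D.base s g) (D.k 1) i from (segLin v _ _).map_sub _ _]
      refine (norm_sub_le _ _).trans ?_
      have a1 : ‖seg v ε (D.k 1) i‖ ≤ 2 * pS d + 3 := by
        rw [← Submodule.starProjection_add_starProjection_orthogonal (K := L) (seg v ε (D.k 1) i)]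
        refine (norm_add_le _ _).trans ?_
        linarith [hslow i hi, hfast' i hi, (Bdn_le_one D.hrd).2.2.2]
      have a2 : ‖seg v (D.base s g) (D.k 1) i‖ ≤ 1 := by
        rw [← add_sub_cancel_left (D.seed₁ s).2.1 (seg v (D.base s g) (D.k 1) i)]
        refine (norm_sub_le _ _).trans ?_
        have h8 : 0 ≤ (Dp d ^ 8)⁻¹ := by positivity
        linarith [hbo i hi, D.seed₁_drift hs, (Bdn_le_one D.hrd).2.1, (Bdn_le_one D.hrd).2.2.2]
      have : Dp d ^ 4 * 2 ≤ Dp d ^ 5 := by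
        rw [pow_succ (Dp d) 4]; exact mul_le_mul_of_nonneg_left (by linarith [Dp_ge d]) (by positivity)
      linarith)
    (by
      rw [he, relAt, show seg v (ε - D.base s g) (D.k 1) b
        = seg v ε (D.k 1) b - seg v (D.base s g) (D.k 1) b from (segLin v _ _).map_sub _ _]
      abel)
    (by rw [hperp1]; exact (Submodule.norm_starProjection_apply_le _ _).trans (by linarith))
    (by
      rw [he, relAt, sub_sub, map_sub]
      refine (norm_sub_le _ _).trans ?_
      have h8 : 0 ≤ (Dp d ^ 8)⁻¹ := by positivity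
      linarith [hfast b hbI, hbo b hbI, (Bdn_le_one D.hrd).2.1, (Bdn_le_one D.hrd).2.2.2,
        Submodule.norm_starProjection_apply_le Lᗮ
          ((D.seed₁ s).2.1 + seg v (D.base s g) (D.k 1) b)])
  have key := hU e _ c hc hres hval
  refine le_trans (le_of_eq ?_) key
  exact congrArg φ (D.end_eq s g (seg v ε (D.k 1) b))

/-- A bad state after the first window pays for a fractional continuation. -/
lemma bad_tail {s : Seed E N} (hs : Bdd v P a b (Bdn d r 0) s) {φ : E → ℝ} (hφ : Nice φ) {g : E}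
    (hh : pe d < D.hat s g) :
    ∃ ε : ℕ → ℝ,
      Out v X R (D.k 1) b (bdd' d r x) (rbd d r) s.1 (D.mean₁ s + g) ε (2 / pe d * D.hat s g) ∧
      φ (D.mean₁ s + g + seg v ε (D.k 1) b) ≤ D.U φ s g := by
  obtain ⟨h0, -, hA, hB⟩ := D.hat_parts s g
  have hpe := pe_pos d
  have hpe1 : pe d ≤ 1 := inv_le_one_of_one_le₀ (one_le_pow₀ (one_le_Dp d))
  set w := 2 / pe d * D.hat s g
  have hw : D.hat s g ≤ w := le_mul_of_one_le_left h0 (by rw [le_div_iff₀ hpe]; linarith)
  have hw2 : 2 < w := by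
    have := mul_lt_mul_of_pos_left hh (div_pos two_pos hpe)
    rwa [div_mul_cancel₀ _ hpe.ne'] at this
  have hD := Dp_ge d
  have hS := pS_le d
  have hS0 := pS_nonneg d
  have h3 : (1 : ℝ) ≤ Dp d ^ 3 := one_le_pow₀ (one_le_Dp d)
  have hr1 : 1 ≤ (d : ℝ) + 2 - r := by
    have : (r : ℝ) ≤ d := by exact_mod_cast D.hrd.le
    linarith
  have hrb : Dp d ^ 5 ≤ rbd d r := le_mul_of_one_le_left (pow_nonneg (Dp_pos d).le _) hr1
  have hg : ‖g‖ ≤ pS d * (1 + w) := (D.norm_le_of_test g).trans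
    (mul_le_mul_of_nonneg_left (by linarith) hS0)
  have hg0 := norm_nonneg g
  have hW : 2 * (Dp d ^ 12)⁻¹ * ‖g‖ ≤ ‖g‖ := by
    refine mul_le_of_le_one_left hg0 ?_
    rw [← div_eq_mul_inv, div_le_one (pow_pos (Dp_pos d) 12)]
    exact le_trans (by linarith) (le_self_pow₀ (one_le_Dp d) (by norm_num))
  have hJ1 : 1 ≤ D.J := (by omega : 1 ≤ 2).trans D.hJ
  have hp : (Cdn d r 1).p + 2 ≤ Dp d := by
    have hr' : (0 : ℝ) ≤ r := r.cast_nonneg
    simp only [Cdn]; push_cast; linarith [nat_le_Dp d]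
  obtain ⟨hbα, hbo⟩ := D.base_bounds hs g
  obtain ⟨hh8, hh1, hh2, hh3⟩ := Bdn_le_one D.hrd
  obtain ⟨e1, -, -⟩ := Bdn_step d r
  have h83 := inv_Dp_le d (show 3 ≤ 8 by norm_num)
  have hsum : Dp d * (pS d * (1 + w)) + 3 * (pS d * (1 + w)) + 4 ≤ Dp d ^ 5 * (1 + w) := by
    have : Dp d * pS d + 3 * pS d + 4 ≤ Dp d ^ 5 := by
      rw [show Dp d ^ 5 = Dp d * (Dp d * Dp d ^ 3) by ring]
      nlinarith [mul_le_mul_of_nonneg_left hS (Dp_pos d).le,
        mul_le_mul_of_nonneg_left hD (mul_nonneg (Dp_pos d).le (pow_nonneg (Dp_pos d).le 3))]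
    nlinarith [mul_le_mul_of_nonneg_right this (show 0 ≤ 1 + w by linarith)]
  set ε := D.base s g + D.Zb 1 g
  refine ⟨ε, ⟨by linarith, fun i hi => ?_, fun h => absurd h (by linarith), fun i hi => ?_,
    fun h => absurd h (by linarith)⟩, ?_⟩
  · simp only [ε, Pi.add_apply]
    refine ((abs_add_le _ _).trans ?_).trans (mul_le_mul_of_nonneg_right hrb (by linarith))
    have a1 := hbα i (Finset.mem_Ico.2 ⟨(D.le_k (by omega)).trans (Finset.mem_Ico.1 hi).1,
      (Finset.mem_Ico.1 hi).2⟩)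
    have a2 := (D.Zb_coef hJ1 g i).trans (mul_le_mul
      (show (Cdn d r 1).z ≤ 1 by linarith [D.sizes.1, D.sizes.2.1])
      (Submodule.norm_starProjection_apply_le _ _) (norm_nonneg _) zero_le_one)
    nlinarith [mul_nonneg (Dp_pos d).le (mul_nonneg hS0 (show 0 ≤ 1 + w by linarith))]
  · refine le_trans ?_ (mul_le_mul_of_nonneg_right hrb (by linarith))
    obtain ⟨i1, i2⟩ := Finset.mem_Icc.1 hi
    rw [stat_add, map_add]
    refine (norm_add_le _ _).trans ?_
    have hxd : max (r - x) 1 ≤ d := by have := D.hrd; omega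
    have a1 := (norm_perp_le_add D.hXL (stat R s.1 (D.mean₁ s + g))).trans
      (add_le_add ((frame_test' (L ⊓ Xᗮ) d (m := max (r - x) 1) (by omega) hxd _).trans
        (mul_le_mul_of_nonneg_left (b := 1 + test (L ⊓ Xᗮ) 4000 (max (r - x) 1 * pLg d) _)
          le_rfl hS0)) (D.perp_start hs g))
    have a2 : ‖Xᗮ.starProjection (Rᗮ.starProjection (seg v ε (D.k 1) i))‖
        ≤ 2 + ‖g‖ + Dp d * ‖g‖ := by
      refine ((Submodule.norm_starProjection_apply_le _ _).trans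
        (Submodule.norm_starProjection_apply_le _ _)).trans ?_
      rw [seg_add]
      refine (norm_add_le _ _).trans (add_le_add ?_ ((D.seg_Zb_norm hJ1 g i1).trans
        (mul_le_mul hp (Submodule.norm_starProjection_apply_le _ _) (norm_nonneg _) (Dp_pos d).le)))
      rw [← add_sub_cancel_left (D.seed₁ s).2.1 (seg v (D.base s g) (D.k 1) i)]
      refine (norm_sub_le _ _).trans ?_
      linarith [hbo i hi, D.seed₁_drift hs]
    have a3 := mul_le_mul_of_nonneg_left
      (show 1 + test (L ⊓ Xᗮ) 4000 (max (r - x) 1 * pLg d) (stat R s.1 (D.mean₁ s + g)) ≤ 1 + w by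
        linarith) hS0
    nlinarith [mul_le_mul_of_nonneg_left hg (Dp_pos d).le]
  · refine le_trans (le_of_eq ?_) (D.U_virtual hφ s g)
    congr 1
    exact D.virtual_eq s g

/-- Continuation after the first window. -/
lemma exists_tail (he₁ : e₁ ≤ pe d) (he₂ : 0 ≤ e₂) (he₂' : e₂ ≤ pe d * pe d) {s : Seed E N}
    (hs : Bdd v P a b (Bdn d r 0) s) {φ : E → ℝ} (hφ : Nice φ) {μ : ℝ} (hμ : 0 ≤ μ) (g : E) :
    ∃ ε w, Out v X R (D.k 1) b (bdd' d r x) (rbd d r) s.1 (D.mean₁ s + g) ε w ∧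
      φ (D.mean₁ s + g + seg v ε (D.k 1) b) + μ * w ≤ μ * (2 / pe d * D.hat s g) + D.U φ s g := by
  rcases le_or_gt (D.hat s g) (pe d) with h | h
  · obtain ⟨ε, ho, hle⟩ := D.good_tail he₁ he₂ he₂' hs hφ h
    refine ⟨ε, 0, ho, ?_⟩
    have : 0 ≤ μ * (2 / pe d * D.hat s g) :=
      mul_nonneg hμ (mul_nonneg (div_nonneg zero_le_two (pe_pos d).le) (D.hat_parts s g).1)
    linarith
  · obtain ⟨ε, ho, hle⟩ := D.bad_tail hs hφ h
    exact ⟨ε, _, ho, by linarith⟩

end Long

end Vale.Agent.P262.Sig
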