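import Vale.Agent.P262.SigNode
import Vale.Agent.P262.SigTrans
import Vale.Agent.P262.SigNum

/-!
Signs with prefix sums of length `O(√(d log d))`: the node of the zero frame over all vectors,
evaluated at the zero seed.
-/

namespace Vale.Agent.P262.Sig

open MeasureTheory ProbabilityTheory Set Module
open scoped RealInnerProductSpace

private lemma pLg_le_log (d : ℕ) (hd : 0 < d) : (pLg d : ℝ) ≤ 4000 * Real.log ((d : ℝ) + 1) := by
  have h1 : Dn d ≤ (d + 1) ^ 12 := by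
    rw [Dn]
    calc 1000 * (d + 2) ≤ (d + 1) ^ 10 * (d + 1) ^ 2 := by
          refine Nat.mul_le_mul ?_ (by nlinarith)
          exact le_trans (by norm_num) (Nat.pow_le_pow_left (show 2 ≤ d + 1 by omega) 10)
      _ = _ := by ring
  have h2 : ((2 : ℝ) ^ Nat.log 2 (Dn d)) ≤ ((d : ℝ) + 1) ^ 12 := by
    exact_mod_cast (Nat.pow_log_le_self 2 (show Dn d ≠ 0 by unfold Dn; positivity)).trans h1
  have h3 := Real.log_le_log (by positivity) h2
  rw [Real.log_pow, Real.log_pow] at h3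
  have h4 : (0.6931471803 : ℝ) < Real.log 2 := Real.log_two_gt_d9
  have h5 : Real.log 2 ≤ Real.log ((d : ℝ) + 1) :=
    Real.log_le_log two_pos (by exact_mod_cast (show 2 ≤ d + 1 by omega))
  have h6 : (0 : ℝ) ≤ Nat.log 2 (Dn d) := Nat.cast_nonneg _
  simp only [pLg]
  push_cast at h3 ⊢
  have h7 := mul_le_mul_of_nonneg_left h4.le h6
  generalize (Nat.log 2 (Dn d) : ℝ) = n at *
  generalize Real.log ((d : ℝ) + 1) = L at *
  generalize Real.log 2 = l at *
  linarith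

private lemma bound_arith {d : ℕ} (hd : 0 < d) :
    2 * (Real.sqrt (48000 * pLg d * ((d : ℝ) - (0 : ℕ))) + ((d : ℝ) + 2 - (0 : ℕ)) * (Dp d ^ 2)⁻¹)
      ≤ 28000 * Real.sqrt (d * Real.log (d + 1)) := by
  set s := Real.sqrt (d * Real.log (d + 1))
  have hd1 : (1 : ℝ) ≤ d := by exact_mod_cast hd
  have hl : 0.69 ≤ Real.log ((d : ℝ) + 1) :=
    le_trans (by have := Real.log_two_gt_d9; linarith)
      (Real.log_le_log two_pos (show (2 : ℝ) ≤ (d : ℝ) + 1 by linarith))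
  have h1 : Real.sqrt (48000 * pLg d * ((d : ℝ) - (0 : ℕ))) ≤ 13860 * s := by
    rw [show (13860 : ℝ) = Real.sqrt (13860 ^ 2) by rw [Real.sqrt_sq (by norm_num)],
      ← Real.sqrt_mul (by norm_num)]
    refine Real.sqrt_le_sqrt ?_
    have := mul_le_mul_of_nonneg_right (pLg_le_log d hd) (show (0 : ℝ) ≤ d by linarith)
    push_cast
    nlinarith [mul_nonneg (show (0 : ℝ) ≤ d by linarith) (show (0:ℝ) ≤ Real.log ((d:ℝ) + 1) by linarith)]
  have h2 : ((d : ℝ) + 2 - (0 : ℕ)) * (Dp d ^ 2)⁻¹ ≤ 1 := by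
    rw [← div_eq_mul_inv, div_le_one (pow_pos (Dp_pos d) 2)]
    push_cast
    nlinarith [nat_le_Dp d, Dp_ge d]
  have h3 : (1 / 2 : ℝ) ≤ s := Real.le_sqrt_of_sq_le (by nlinarith [mul_le_mul hd1 hl (by norm_num) (by linarith)])
  generalize Real.sqrt (48000 * pLg d * ((d : ℝ) - (0 : ℕ))) = a at *
  generalize ((d : ℝ) + 2 - (0 : ℕ)) * (Dp d ^ 2)⁻¹ = b at *
  generalize hs : s = y at *
  linarith

/-- Vectors of length at most one have signs with all prefix sums `O(√(d log d))`. -/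
theorem exists_signs_bound (d N : ℕ) (v : Fin N → EuclideanSpace ℝ (Fin d))
    (hv : ∀ i, ‖v i‖ ≤ 1) :
    ∃ ε : Fin N → ℝ, (∀ i, ε i = 1 ∨ ε i = -1) ∧ ∀ k : ℕ, k ≤ N →
      ‖∑ i ∈ Finset.univ.filter (fun i : Fin N => (i : ℕ) < k), ε i • v i‖
        ≤ 28000 * Real.sqrt (d * Real.log (d + 1)) := by
  rcases Nat.eq_zero_or_pos d with rfl | hd
  · refine ⟨fun _ => 1, fun _ => Or.inl rfl, fun k _ => ?_⟩
    rw [Subsingleton.elim (∑ i ∈ _, _) (0 : EuclideanSpace ℝ (Fin 0)), norm_zero]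
    positivity
  set v' : ℕ → EuclideanSpace ℝ (Fin d) := fun i => if h : i < N then v ⟨i, h⟩ else 0 with hv'
  have hvn : ∀ i, ‖v' i‖ ≤ 1 := fun i => by
    simp only [hv']
    split_ifs with h
    · exact hv _
    · simp
  obtain ⟨o, ho⟩ := exists_node (v := v') (N := N) (d := d) (r := 0) (x := 0) (a := 0) (b := N)
    (X := ⊥) (R := ⊥) (P := ⊥) (L := ⊥) (σ := pσ d 0) finrank_euclideanSpace_fin
    (finrank_bot ℝ _) (finrank_bot ℝ _) hd le_rfl le_rfl le_rfl hvn (Node.bot _ _ _ _ _)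
    (Nat.zero_le N) le_rfl le_rfl (pσ_le d 0)
  set s : Seed (EuclideanSpace ℝ (Fin d)) N := (0, 0, 0, 0)
  have hG : o.G s < 1 := by
    have H := hyp_const (v := v') (R := (⊥ : Submodule ℝ (EuclideanSpace ℝ (Fin d)))) (a := 0)
      (b := N) (0 : Fin N → ℝ) (zero_le_one.trans (pf_one_le d 0)) (pρ_pos d 0) fun k _ => by
        rw [map_zero, seg_zero_of (z := (0 : ℕ → ℝ)) fun i _ => rfl, norm_zero, zero_pow two_ne_zero]
        exact (pρ_pos d 0).le
    have h := ho _ _ H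
    rw [lintegral_const, measure_univ, mul_one, show pG d (0 - 0) = pe d by simp [pG]] at h
    have h1 := (ENNReal.ofReal_le_ofReal_iff (pe_pos d).le).1 h
    have h2 : pe d < 1 :=
      inv_lt_one_of_one_lt₀ (one_lt_pow₀ (by linarith [Dp_ge d]) (by norm_num))
    linarith
  have hs : Bdd v' (⊥ : Submodule ℝ (EuclideanSpace ℝ (Fin d))) 0 N (Bdn d 0 0) s := by
    have hD := pow_pos (Dp_pos d) 3
    have hb : 0 ≤ (2 * ((0 : ℕ) : ℝ) + 1 + ((0 : ℕ) : ℝ)) * (Dp d ^ 3)⁻¹ := by positivity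
    refine ⟨?_, fun i _ => ?_, fun k _ => ?_⟩
    · simp only [s, map_zero, norm_zero]
      exact (show (0 : ℝ) ≤ 4 by norm_num).trans (pBc_ge d)
    · simp only [s, map_zero, Pi.zero_apply, abs_zero]
      exact hb
    · simp only [s, map_zero]
      rw [seg_zero_of (z := (0 : ℕ → ℝ)) fun i _ => rfl, add_zero, norm_zero]
      exact hb
  have h0 : Nice (fun _ : EuclideanSpace ℝ (Fin d) => (0 : ℝ)) :=
    ⟨convexOn_const 0 convex_univ, 0, 0, le_rfl, le_rfl, fun x => by simp⟩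
  obtain ⟨F, hF, hFx, hFg⟩ := o.act s hs _ h0 1 zero_le_one
  rw [show gavg (fun _ : EuclideanSpace ℝ (Fin d) => (0 : ℝ)) _ _ = 0 from integral_zero _ _,
    add_zero, one_mul] at hFg
  have hx : F 0 ≤ gavg F (s.2.1 + s.2.2.1) (pσ d 0) := by
    simp only [s, add_zero]
    exact hF.le_integral 0 _
  simp only [s, add_zero] at hx hFg
  obtain ⟨ε, w, hout, hle⟩ := hFx 0
  have hw : w < 1 := by
    simp only [zero_add, one_mul] at hle
    linarith
  refine ⟨fun i => ε i, fun i => hout.sign hw i (Finset.mem_Ico.2 ⟨Nat.zero_le _, i.2⟩),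
    fun k hk => ?_⟩
  have e : ∑ i ∈ Finset.univ.filter (fun i : Fin N => (i : ℕ) < k), ε i • v i = seg v' ε 0 k := by
    refine Finset.sum_nbij (fun i => (i : ℕ)) (fun i hi => ?_) (fun i _ j _ h => Fin.ext h)
      (fun i hi => ?_) fun i _ => ?_
    · simp only [Finset.mem_filter, Finset.mem_univ, true_and] at hi
      exact Finset.mem_Ico.2 ⟨Nat.zero_le _, hi⟩
    · have := (Finset.mem_Ico.1 (Finset.mem_coe.1 hi)).2
      exact ⟨⟨i, by omega⟩, by simp [this], rfl⟩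
    · simp [hv', i.2]
  have hb := hout.good hw k (Finset.mem_Icc.2 ⟨Nat.zero_le _, hk⟩)
  simp only [stat, Submodule.starProjection_bot, Submodule.bot_orthogonal_eq_top,
    Submodule.starProjection_top, zero_apply, ContinuousLinearMap.id_apply, zero_add] at hb
  rw [e]
  refine hb.trans (le_trans ?_ (bound_arith hd))
  simp only [bdd']
  have : 0 ≤ Real.sqrt (48000 * pLg d * ((d : ℝ) - (0 : ℕ))) + ((d : ℝ) + 2 - (0 : ℕ)) * (Dp d ^ 2)⁻¹ :=
    add_nonneg (Real.sqrt_nonneg _) (mul_nonneg (by simp; positivity)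
      (inv_nonneg.2 (pow_nonneg (Dp_pos d).le _)))
  linarith

end Vale.Agent.P262.Sig
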