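import Vale.Agent.P262.SigNum
import Vale.Agent.P262.SigTrans

/-!
A node from its children: a steered window, or plain concatenation.
-/

namespace Vale.Agent.P262.Sig

open MeasureTheory ProbabilityTheory Set Module
open scoped RealInnerProductSpace

private lemma win_Dp_lin (d : ℕ) : 1000 ≤ Dp d ∧ 1000 * ((d : ℝ) + 2) ≤ Dp d :=
  ⟨by linarith [Dp_ge d], by linarith [nat_le_Dp d]⟩

private lemma d_le_Dp (d : ℕ) : (d : ℝ) ≤ Dp d := by
  linarith [(win_Dp_lin d).2, Nat.cast_nonneg (α := ℝ) d]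

attribute [local irreducible] pW

private lemma pη_nonneg (d : ℕ) : 0 ≤ pη d := inv_nonneg.2 (sq_nonneg _)

private lemma win_dT_le (d : ℕ) : (d : ℝ) * pT d ≤ (Dp d)⁻¹ := by
  have := Dp_pos d
  rw [pT, ← div_eq_mul_inv, div_le_iff₀ (by positivity), inv_mul_eq_div,
    le_div_iff₀ this]
  calc (d : ℝ) * Dp d ≤ Dp d * Dp d := by gcongr; exact d_le_Dp d
    _ = Dp d ^ 2 := by ring
    _ ≤ Dp d ^ 45 := pow_le_pow_right₀ (one_le_Dp d) (by norm_num)

private lemma win_pBc_le (d : ℕ) : 0 ≤ pBc d ∧ pBc d ≤ Dp d ^ 5 :=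
  ⟨by linarith [pBc_ge d], (pBc_le d).trans (Dp_pow_le d (by norm_num))⟩

private lemma steer_le (d : ℕ) {ω : ℝ} (hω : ω ≤ (pW d : ℝ)⁻¹) :
    ω * (d * pBc d / pT d) ≤ (Dp d ^ 3)⁻¹ ∧ ω * (d * pR d * pBc d / pT d) ≤ (Dp d ^ 3)⁻¹ ∧
      ω * (d / pT d) ≤ pη d ∧ ω * (d * pR d / pT d) ≤ (Dp d ^ 8)⁻¹ := by
  have hD := Dp_pos d
  have h1 := one_le_Dp d
  obtain ⟨hb0, hb⟩ := win_pBc_le d
  have hd := d_le_Dp d
  have key : ∀ x : ℝ, ∀ j e : ℕ, 0 ≤ x → x ≤ Dp d ^ j → j + 45 + e ≤ 64 →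
      ω * (x / pT d) ≤ (Dp d ^ e)⁻¹ := by
    intro x j e hx hxj hje
    refine (mul_le_mul_of_nonneg_right hω (div_nonneg hx (pT_pos d).le)).trans ?_
    rw [pW_cast, pT, div_inv_eq_mul, inv_mul_eq_div, div_le_iff₀ (by positivity),
      inv_mul_eq_div, le_div_iff₀ (by positivity)]
    calc x * Dp d ^ 45 * Dp d ^ e ≤ Dp d ^ j * Dp d ^ 45 * Dp d ^ e := by gcongr
      _ = Dp d ^ (j + 45 + e) := by rw [pow_add, pow_add]
      _ ≤ _ := pow_le_pow_right₀ h1 hje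
  have hR := pR_pos d
  refine ⟨key _ 6 3 (by positivity) ?_ (by norm_num), key _ 16 3 (by positivity) ?_ (by norm_num),
    key _ 1 2 (Nat.cast_nonneg d) (by rwa [pow_one]) (by norm_num),
    key _ 11 8 (by positivity) ?_ (by norm_num)⟩
  · calc (d : ℝ) * pBc d ≤ Dp d * Dp d ^ 5 := mul_le_mul hd hb hb0 hD.le
      _ = _ := by ring
  · calc (d : ℝ) * pR d * pBc d ≤ Dp d * Dp d ^ 10 * Dp d ^ 5 := by
          unfold pR
          exact mul_le_mul (mul_le_mul_of_nonneg_right hd (by positivity)) hb hb0 (by positivity)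
      _ = _ := by ring
  · calc (d : ℝ) * pR d ≤ Dp d * Dp d ^ 10 := mul_le_mul_of_nonneg_right hd hR.le
      _ = _ := by ring

private lemma dr_le {d r : ℕ} (h : r ≤ d) : (2 * (r : ℝ) + 3) * (Dp d ^ 3)⁻¹ ≤ 1 / 2 ∧
    (2 * ((d : ℝ) + 1 - r)) * pη d ≤ 1 / 2 := by
  have h0 := win_Dp_lin d
  have hr : (r : ℝ) ≤ d := Nat.cast_le.2 h
  have hr0 := Nat.cast_nonneg (α := ℝ) r
  have hD := Dp_pos d
  have h2 : Dp d ≤ Dp d ^ 2 := le_self_pow₀ (one_le_Dp d) (by norm_num)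
  have h3 : Dp d ≤ Dp d ^ 3 := le_self_pow₀ (one_le_Dp d) (by norm_num)
  constructor
  · rw [← div_eq_mul_inv, div_le_iff₀ (by positivity)]; linarith
  · rw [pη, ← div_eq_mul_inv, div_le_iff₀ (by positivity)]; linarith

private lemma num_slow {d r : ℕ} (h : r ≤ d) {h' : ℕ} (hh : h' ≤ 1) :
    2 * ((d : ℝ) * pT d + 1) ≤ pR d ∧ 2 * (Cdn d r h').z ≤ 1 ∧ 2 * ((Cdn d r h').p + 1) ≤ pR d := by
  have h0 := win_Dp_lin d
  have hr0 := Nat.cast_nonneg (α := ℝ) r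
  have hη := pη_nonneg d
  have h1 : (h' : ℝ) ≤ 1 := by exact_mod_cast hh
  have h10 : Dp d ≤ pR d := le_self_pow₀ (one_le_Dp d) (by norm_num)
  have hdT := (win_dT_le d).trans (inv_le_one_of_one_le₀ (one_le_Dp d))
  have h2 := (dr_le h).2
  have h3 : 0 ≤ (h' : ℝ) * pη d := by positivity
  simp only [Cdn, ← pη.eq_1]
  refine ⟨by linarith, by linarith, by linarith [Nat.cast_nonneg (α := ℝ) h']⟩

private lemma kappa_sq_le (d : ℕ) : (1 + (d : ℝ) * pT d) ^ 2 ≤ 1 + (16 * ((d : ℝ) + 2))⁻¹ := by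
  have h := win_dT_le d
  have h0 : 0 ≤ (d : ℝ) * pT d := by have := pT_pos d; positivity
  have h1 := win_Dp_lin d
  have : (Dp d)⁻¹ ≤ (1000 * ((d : ℝ) + 2))⁻¹ := inv_anti₀ (by positivity) h1.2
  have h3 := h.trans this
  rw [mul_inv] at h3 ⊢
  have hx : ((d : ℝ) + 2)⁻¹ ≤ 1 := inv_le_one_of_one_le₀ (by linarith [Nat.cast_nonneg (α := ℝ) d])
  have hx0 : 0 ≤ ((d : ℝ) + 2)⁻¹ := by positivity
  nlinarith

private lemma pf_bounds {d r : ℕ} (h : r ≤ d) : 0 ≤ pf d r ∧ pf d r ≤ 3 / 2 := by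
  refine ⟨by unfold pf; positivity, ?_⟩
  set x := (4 * ((d : ℝ) + 2))⁻¹ with hx
  have hx0 : 0 ≤ x := by positivity
  calc pf d r ≤ Real.exp x ^ (r + 1) := by
        unfold pf; gcongr; linarith [Real.add_one_le_exp x]
    _ = Real.exp ((r + 1 : ℕ) * x) := by rw [← Real.exp_nat_mul]
    _ ≤ Real.exp (1 / 4) := by
        refine Real.exp_le_exp.2 ?_
        rw [hx, ← div_eq_mul_inv, div_le_iff₀ (by positivity)]
        push_cast
        linarith [(Nat.cast_le (α := ℝ)).2 h]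
    _ ≤ 1 / (1 - 1 / 4) := Real.exp_bound_div_one_sub_of_interval (by norm_num) (by norm_num)
    _ ≤ 3 / 2 := by norm_num

private lemma pf_step (d r : ℕ) :
    (1 + (d : ℝ) * pT d) ^ 2 * ((1 + (8 * ((d : ℝ) + 2))⁻¹) * pf d r) ≤ pf d (r + 1) := by
  have h := kappa_sq_le d
  have h0 : 0 ≤ pf d r := by unfold pf; positivity
  rw [show pf d (r + 1) = (1 + (4 * ((d : ℝ) + 2))⁻¹) * pf d r by rw [pf, pf]; ring,
    ← mul_assoc]
  refine mul_le_mul_of_nonneg_right ((mul_le_mul_of_nonneg_right h (by positivity)).trans ?_) h0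
  rw [mul_inv, mul_inv, mul_inv]
  have hx : ((d : ℝ) + 2)⁻¹ ≤ 1 := inv_le_one_of_one_le₀ (by linarith [Nat.cast_nonneg (α := ℝ) d])
  have hx0 : 0 ≤ ((d : ℝ) + 2)⁻¹ := by positivity
  nlinarith

/-- Adding the drift of one steering share keeps the next drift bound. -/
private lemma rho_step {d r : ℕ} (h : r + 1 ≤ d) {u : ℝ} (hu0 : 0 ≤ u) (hu : u ≤ (Dp d ^ 8)⁻¹) {f : ℝ}
    (hf : f ≤ 2) :
    (pρ d r + (2 * Dp d ^ 4)⁻¹) / (1 - pt d) + f * 1152 * u ^ 2 / pt d ≤ pρ d (r + 1) := by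
  have hD := Dp_pos d
  have hr : (r : ℝ) + 1 ≤ d := by exact_mod_cast h
  have hr0 := Nat.cast_nonneg (α := ℝ) r
  set t := pt d with ht
  have ht0 : 0 < t := by rw [ht, pt]; positivity
  have ht1 : t ≤ 1 / 32 := by
    rw [ht, pt, one_div]; exact inv_anti₀ (by norm_num) (by linarith [Nat.cast_nonneg (α := ℝ) d])
  have htd : t * (16 * ((d : ℝ) + 2)) = 1 := inv_mul_cancel₀ (by positivity)
  set a := ((r : ℝ) + 1 + 1 / 2) * (Dp d ^ 4)⁻¹ with ha
  have ea : pρ d r + (2 * Dp d ^ 4)⁻¹ = a := by rw [ha, pρ, mul_inv]; ring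
  have hD4 : 0 < (Dp d ^ 4)⁻¹ := by positivity
  have h1 : a / (1 - t) ≤ a + (Dp d ^ 4)⁻¹ / 4 := by
    rw [div_le_iff₀ (by linarith)]
    have e : ((r : ℝ) + 1 + 1 / 2 + 1 / 4) * t ≤ 1 / 4 := by
      nlinarith [Nat.cast_nonneg (α := ℝ) d]
    rw [ha]
    nlinarith [mul_le_mul_of_nonneg_right e hD4.le]
  have h2 : f * 1152 * u ^ 2 / t ≤ (Dp d ^ 4)⁻¹ / 4 := by
    have hu2 := pow_le_pow_left₀ hu0 hu 2
    have e : f * 1152 * u ^ 2 / t = f * (1152 * 16 * ((d : ℝ) + 2)) * u ^ 2 := by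
      rw [ht, pt]; field_simp
    rw [e]
    have hb : f * (1152 * 16 * ((d : ℝ) + 2)) ≤ 40 * Dp d := by
      unfold Dp
      nlinarith [Nat.cast_nonneg (α := ℝ) d]
    refine (mul_le_mul hb hu2 (sq_nonneg u) (by positivity)).trans ?_
    rw [le_div_iff₀ (by norm_num), ← inv_pow, ← pow_mul, inv_pow]
    rw [show 40 * Dp d * (Dp d ^ (8 * 2))⁻¹ * 4 = 160 * (Dp d ^ 15)⁻¹ by field_simp; ring]
    rw [← div_eq_mul_inv, div_le_iff₀ (by positivity), inv_mul_eq_div, le_div_iff₀ (by positivity)]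
    calc 160 * Dp d ^ 4 ≤ Dp d * Dp d ^ 4 := by gcongr; linarith [(win_Dp_lin d).1]
      _ = Dp d ^ 5 := by ring
      _ ≤ _ := pow_le_pow_right₀ (one_le_Dp d) (by norm_num)
  rw [ea]
  have : pρ d (r + 1) = a + (Dp d ^ 4)⁻¹ / 4 + (Dp d ^ 4)⁻¹ / 4 := by
    rw [ha, pρ]; push_cast; ring
  linarith

private lemma rho_bounds {d r : ℕ} (h : r ≤ d) : 0 ≤ pρ d r ∧ pρ d r + (2 * Dp d ^ 4)⁻¹ ≤ 10 := by
  have hD := Dp_pos d
  have hr : (r : ℝ) ≤ d := Nat.cast_le.2 h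
  refine ⟨by unfold pρ; positivity, ?_⟩
  have hp : Dp d ≤ Dp d ^ 4 := le_self_pow₀ (one_le_Dp d) (by norm_num)
  have h1 : pρ d r ≤ 1 := by
    rw [pρ, ← div_eq_mul_inv, div_le_one (by positivity)]
    linarith [(win_Dp_lin d).2, Nat.cast_nonneg (α := ℝ) d]
  have h2 : (2 * Dp d ^ 4)⁻¹ ≤ 1 := inv_le_one_of_one_le₀ (by linarith [one_le_Dp d])
  linarith

private lemma bdd'_ge {d r x : ℕ} (hx : x ≤ d) (hr : r ≤ d) :
    Real.sqrt (12 * 4000 * ((d - x) * pLg d : ℕ)) ≤ bdd' d r x := by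
  have := Nat.cast_nonneg (α := ℝ) r
  have : (r : ℝ) ≤ d := Nat.cast_le.2 hr
  rw [bdd', Nat.cast_mul, Nat.cast_sub hx]
  refine le_trans (le_of_eq ?_) (le_add_of_nonneg_right (mul_nonneg (by linarith) (pη_nonneg d)))
  congr 1
  ring

private lemma bdd'_le_rbd {d r x : ℕ} (hr : r ≤ d) : bdd' d r x ≤ rbd d r ∧ 1 ≤ rbd d r := by
  have hD := Dp_pos d
  have h1 := one_le_Dp d
  have hr' : (r : ℝ) ≤ d := Nat.cast_le.2 hr
  have hη : (Dp d ^ 2)⁻¹ ≤ 1 := inv_le_one_of_one_le₀ (one_le_pow₀ h1)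
  have h5 : 1 ≤ Dp d ^ 5 := one_le_pow₀ h1
  have hs : Real.sqrt (48000 * pLg d * ((d : ℝ) - x)) ≤ pS d := by
    unfold pS
    exact Real.sqrt_le_sqrt (mul_le_mul_of_nonneg_left
      (by linarith [Nat.cast_nonneg (α := ℝ) x]) (by positivity))
  have hb := (win_pBc_le d).2
  unfold pBc at hb
  unfold bdd' rbd
  constructor
  · nlinarith [Real.sqrt_nonneg (48000 * (pLg d : ℝ) * d),
      show 0 ≤ pS d from Real.sqrt_nonneg _]
  · nlinarith

variable {E : Type} [NormedAddCommGroup E] [InnerProductSpace ℝ E] [FiniteDimensional ℝ E]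
  [MeasurableSpace E] [BorelSpace E]
variable {v : ℕ → E} {N : ℕ}

private lemma mid_mono {n : ℕ} {cut mid : ℕ → ℕ} (hle : ∀ i, i ≤ n → cut i ≤ mid i)
    (hcut : ∀ i, i < n → cut (i + 1) = mid i + 1) {i : ℕ} (hi : i ≤ n) :
    mid i ≤ mid n ∧ cut 0 ≤ cut i := by
  constructor
  · induction hi using Nat.decreasingInduction with
    | self => exact le_rfl
    | of_succ k hk ih => have := hcut k hk; have := hle (k + 1) hk; omega
  · induction i with
    | zero => exact le_rfl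
    | succ i ih =>
      have := ih (by omega)
      have := hcut i hi
      have := hle i (by omega)
      omega

/-- Operations above the frozen frame hardly expand the complement of the frozen frame. -/
private lemma Op.expand {X R P L : Submodule ℝ E} {σ bd rb : ℝ} {B : Bd} {C : ZB} {a b : ℕ}
    (o : Op v N X R P σ bd rb B C a b) {R₀ T : ℝ} (hv : ∀ i, ‖v i‖ ≤ 1)
    (hn : Node v R₀ T a b L) (hRP : R ≤ P) (hPL : P ≤ L) (hT : 0 ≤ T)
    (hR : 2 * (finrank ℝ E * T + 1) ≤ R₀) (hz : 2 * C.z ≤ 1) (hp : 2 * (C.p + 1) ≤ R₀) (c : E) :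
    ‖Rᗮ.starProjection (c + seg v (o.Z c) a b)‖
      ≤ (1 + finrank ℝ E * T) * ‖Rᗮ.starProjection c‖ := by
  set s := seg v (o.Z c) a b
  have hRP' : Pᗮ ≤ Rᗮ := Submodule.orthogonal_le hRP
  have hk : ∀ x : E, Rᗮ.starProjection x = Pᗮ.starProjection x
      + Rᗮ.starProjection (P.starProjection x) := fun x => by
    conv_lhs => rw [← P.starProjection_add_starProjection_orthogonal x, map_add,
      Submodule.starProjection_eq_self_iff.2 (hRP' (Submodule.starProjection_apply_mem _ x))]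
    abel
  have hperp : ∀ x y : E, ⟪Pᗮ.starProjection x, Rᗮ.starProjection (P.starProjection y)⟫ = 0 := by
    intro x y
    rw [← Submodule.inner_starProjection_left_eq_right,
      Submodule.starProjection_eq_self_iff.2 (hRP' (Submodule.starProjection_apply_mem _ x))]
    exact Submodule.inner_left_of_mem_orthogonal (Submodule.starProjection_apply_mem _ y)
      (Submodule.starProjection_apply_mem _ x)
  have hc : ‖Pᗮ.starProjection c‖ ≤ ‖Rᗮ.starProjection c‖ := by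
    have := norm_add_sq_eq_norm_sq_add_norm_sq_of_inner_eq_zero _ _ (hperp c c)
    rw [← hk] at this
    nlinarith [norm_nonneg (Rᗮ.starProjection c), norm_nonneg (Pᗮ.starProjection c),
      mul_self_nonneg ‖Rᗮ.starProjection (P.starProjection c)‖]
  have hw : ‖Pᗮ.starProjection (c + s) + Rᗮ.starProjection (P.starProjection c)‖
      ≤ ‖Rᗮ.starProjection c‖ := by
    have e1 := norm_add_sq_eq_norm_sq_add_norm_sq_of_inner_eq_zero _ _ (hperp (c + s) c)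
    have e2 := norm_add_sq_eq_norm_sq_add_norm_sq_of_inner_eq_zero _ _ (hperp c c)
    rw [← hk] at e2
    have e3 := mul_self_le_mul_self (norm_nonneg _) (o.contr c)
    nlinarith [norm_nonneg (Rᗮ.starProjection c),
      norm_nonneg (Pᗮ.starProjection (c + s) + Rᗮ.starProjection (P.starProjection c))]
  have hs : ‖Rᗮ.starProjection (P.starProjection s)‖
      ≤ finrank ℝ E * T * ‖Rᗮ.starProjection c‖ := by
    refine (Submodule.norm_starProjection_apply_le _ _).trans ?_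
    rw [← Submodule.starProjection_comp_starProjection_of_le hPL, ContinuousLinearMap.comp_apply]
    refine (Submodule.norm_starProjection_apply_le _ _).trans
      ((o.slow hv hn hPL hT hR hz hp c (Finset.right_mem_Icc.2 o.le)).trans ?_)
    exact mul_le_mul_of_nonneg_left hc (by positivity)
  rw [hk, map_add P.starProjection, map_add Rᗮ.starProjection, ← add_assoc]
  refine (norm_add_le _ _).trans ?_
  rw [add_mul, one_mul]
  exact add_le_add hw hs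

private lemma advance_zero (a : ℕ) (s : Seed E N) : advance v (0 : E →ₗ[ℝ] (ℕ → ℝ)) a a s = s := by
  rw [advance_apply, seg_self, seg_self, add_zero, add_zero]

omit [MeasurableSpace E] [BorelSpace E] in
private lemma finrank_orth {X : Submodule ℝ E} {d x : ℕ} (hd : finrank ℝ E = d) (hx : finrank ℝ X = x) :
    x ≤ d ∧ finrank ℝ Xᗮ = d - x := by
  have := X.finrank_add_finrank_orthogonal
  omega

/-- Steering after a prefix, referred back to the seed before the prefix. -/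
private lemma advance_shift (Z U : E →ₗ[ℝ] (ℕ → ℝ)) {a m : ℕ} (hm : m ≤ N)
    (hU : ∀ c i, i < m → U c i = 0) (s : Seed E N) :
    shiftSeed U (advance v Z a m s)
      = advance v Z a m (shiftSeed (U ∘ₗ (LinearMap.id + segLin v a m ∘ₗ Z)) s) := by
  simp only [shiftSeed_apply, advance_apply, LinearMap.comp_apply, LinearMap.add_apply,
    LinearMap.id_apply, segLin_apply, map_add, seg_add]
  refine Prod.ext rfl (Prod.ext ?_ rfl)
  simp only
  rw [seg_ext_res v _ hm, seg_ext_res v _ hm, seg_zero_of (z := U _), seg_zero_of (z := U _)]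
  · simp
  all_goals
    exact fun i hi => hU _ i (Finset.mem_Ico.1 hi).2

private lemma Small.comp_advance {R P : Submodule ℝ E} {a m b : ℕ} {f ρ κ e f' : ℝ} {G : Seed E N → ℝ}
    (ham : a ≤ m) (hRP : R ≤ P) (Z : E →ₗ[ℝ] (ℕ → ℝ))
    (hdep : ∀ c, Z c = Z (Pᗮ.starProjection c)) (hκ1 : 1 ≤ κ) (hf : 0 ≤ f)
    (hκ : ∀ c, ‖Rᗮ.starProjection (c + seg v (Z c) a m)‖ ≤ κ * ‖Rᗮ.starProjection c‖)
    (hf' : κ ^ 2 * f ≤ f') (h : Small v R m b f' ρ G e) :
    Small v R a b f ρ (fun s => G (advance v Z a m s)) e :=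
  fun μ _ _ hS => h.mono hf' le_rfl le_rfl μ _ (hS.adv ham hRP Z hdep hκ1 hf hκ)

omit [BorelSpace E] in
private lemma Small.shorten {R : Submodule ℝ E} {a b b' : ℕ} {f ρ e : ℝ} {G : Seed E N → ℝ}
    (hb : b' ≤ b) (h : Small v R a b' f ρ G e) : Small v R a b f ρ G e :=
  fun μ _ _ hS => h μ _ (hS.interval hb)

omit [BorelSpace E] in
private lemma Small.elim {R : Submodule ℝ E} {a b : ℕ} {f ρ e : ℝ} {G : Seed E N → ℝ}
    (h : Small v R a b f ρ G e) {Ω : Type} [MeasurableSpace Ω] (μ : Measure Ω)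
    [IsProbabilityMeasure μ] (S : Ω → Seed E N) (hS : Hyp v R a b f ρ μ S) :
    ∫⁻ ω, ENNReal.ofReal (G (S ω)) ∂μ ≤ ENNReal.ofReal e := h μ S hS

attribute [local irreducible] Small

private lemma Op.comp_end {X R P : Submodule ℝ E} {σ bd rb : ℝ} {B B₂ : Bd} {C C₂ : ZB} {a m b : ℕ}
    (o₁ : Op v N X R P σ bd rb B C a m) (o₂ : Op v N X R P σ bd rb B₂ C₂ m b) (c : E) :
    c + seg v ((o₁.Z + o₂.Z ∘ₗ (LinearMap.id + segLin v a m ∘ₗ o₁.Z) : E →ₗ[ℝ] (ℕ → ℝ)) c) a b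
      = c + seg v (o₁.Z c) a m
        + seg v (o₂.Z (c + seg v (o₁.Z c) a m)) m b := by
  simp only [LinearMap.add_apply, LinearMap.comp_apply, LinearMap.id_apply, segLin_apply, seg_add,
    seg_append' v (o₁.Z c) o₁.le o₂.le, seg_append' v (o₂.Z _) o₁.le o₂.le]
  rw [seg_zero_of (z := o₁.Z _) (a := m) (fun i hi => o₁.supp _ i (by
      simp only [Finset.mem_Ico] at hi ⊢; omega)),
    seg_zero_of (z := o₂.Z _) (a := a) (fun i hi => o₂.supp _ i (by
      simp only [Finset.mem_Ico] at hi ⊢; omega))]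
  abel

/-- Expected badness of a child followed by a tested vector. -/
private lemma small_block {X R P L : Submodule ℝ E} {σ bd rb : ℝ} {B : Bd} {C : ZB} {a m : ℕ} {R₀ T : ℝ}
    (o : Op v N X R P σ bd rb B C a m) (hv : ∀ i, ‖v i‖ ≤ 1) (hn : Node v R₀ T a m L) (hRP : R ≤ P)
    (hPL : P ≤ L) (hT : 0 ≤ T) (hR : 2 * (finrank ℝ E * T + 1) ≤ R₀) (hz : 2 * C.z ≤ 1)
    (hp : 2 * (C.p + 1) ≤ R₀) {f ρ e : ℝ} (hf : 0 ≤ f) (hf2 : (1 + finrank ℝ E * T) ^ 2 * f ≤ 2)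
    (hρ : ρ ≤ 10) (hσ0 : 0 ≤ σ) (hσ : σ ≤ 24) {k : ℕ} (hk : 0 < k) (he : 0 ≤ e)
    (hG : Small v R a m f ρ o.G e) :
    Small v R a (m + 1) f ρ (fun s => o.G s + (ptG N X R σ 4000 k (advance v o.Z a m s)
      + ptG N X R σ 4000 k (advance v 0 m (m + 1) (advance v o.Z a m s))))
      (e + 4 * Real.exp ((finrank ℝ Xᗮ : ℝ) - k)) := by
  set u := Real.exp ((finrank ℝ Xᗮ : ℝ) - k)
  have hu : 0 ≤ u := (Real.exp_pos _).le
  have hpt := tame_ptG (E := E) (N := N) (X := X) (R := R) (σ := σ) (by norm_num : (0 : ℝ) ≤ 4000) k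
  have hn0 : ∀ s : Seed E N, 0 ≤ ptG N X R σ 4000 k s := ptG_nonneg (by norm_num) k
  have h2 : Small v R m (m + 1) 2 ρ (fun s => ptG N X R σ 4000 k s
      + ptG N X R σ 4000 k (advance v 0 m (m + 1) s)) (2 * u + 2 * u) :=
    Small.add hpt hn0 (fun _ => hn0 _) (small_ptG (Nat.le_succ m) le_rfl hρ hσ0 hσ hk)
      (Small.comp_advance (Nat.le_succ m) hRP 0 (fun _ => rfl) le_rfl zero_le_two
        (fun c => by simp [seg]) (by norm_num)
        (small_ptG le_rfl le_rfl hρ hσ0 hσ hk)) (by positivity) (by positivity)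
  have h3 := Small.comp_advance o.le hRP o.Z o.dep (le_add_of_nonneg_right (by positivity)) hf
    (o.expand hv hn hRP hPL hT hR hz hp) hf2 h2
  have := Small.add o.tame o.nonneg (fun _ => add_nonneg (hn0 _) (hn0 _))
    (hG.shorten (Nat.le_succ m)) h3 he (by positivity)
  rwa [show e + 4 * u = e + (2 * u + 2 * u) by ring]

private lemma exp_eq_pu {d x : ℕ} (hx : x ≤ d) :
    Real.exp (((d - x : ℕ) : ℝ) - ((d - x) * pLg d : ℕ)) = pu d ^ (d - x) := by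
  rw [pu, ← Real.exp_nat_mul]
  congr 1
  push_cast [Nat.cast_sub hx]
  ring

private lemma pt_bounds (d : ℕ) : 0 < pt d ∧ pt d < 1 := by
  unfold pt
  exact ⟨by positivity, inv_lt_one_of_one_lt₀ (by linarith [Nat.cast_nonneg (α := ℝ) d])⟩

omit [MeasurableSpace E] [BorelSpace E] [FiniteDimensional ℝ E] in
private lemma kappa_two {d : ℕ} (hd : finrank ℝ E = d) {f : ℝ} (hf : 0 ≤ f ∧ f ≤ 3 / 2) :
    (1 + (finrank ℝ E : ℝ) * pT d) ^ 2 * f ≤ 2 := by
  rw [hd]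
  have h := kappa_sq_le d
  have : (16 * ((d : ℝ) + 2))⁻¹ ≤ 1 / 32 := by
    rw [one_div]; exact inv_anti₀ (by norm_num) (by linarith [Nat.cast_nonneg (α := ℝ) d])
  nlinarith [sq_nonneg (1 + (d : ℝ) * pT d)]

/-- The weights along a steered window: share of the mean left before piece `i`. -/
noncomputable def winShare (d i : ℕ) : ℝ := ((pW d - i : ℕ) : ℝ) / pW d

/-- The share killed by piece `i`. -/
noncomputable def winKill (d i : ℕ) : ℝ := ((pW d - i : ℕ) : ℝ)⁻¹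

private lemma win_facts (d i : ℕ) : 0 ≤ winShare d i ∧ winShare d i ≤ 1 ∧ 0 ≤ winKill d i ∧
    winKill d i ≤ 1 ∧ winKill d i * winShare d i ≤ (pW d : ℝ)⁻¹ ∧
    (1 - winKill d i) * winShare d i = winShare d (i + 1) := by
  have hW0 : (0 : ℝ) < pW d := Nat.cast_pos.2 (pW_pos d)
  unfold winShare winKill
  refine ⟨by positivity, (div_le_one hW0).2 (Nat.cast_le.2 (Nat.sub_le _ _)), by positivity, ?_, ?_⟩
  · rcases Nat.eq_zero_or_pos (pW d - i) with h | h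
    · simp [h]
    · exact inv_le_one_of_one_le₀ (by exact_mod_cast h)
  rcases Nat.eq_zero_or_pos (pW d - i) with h | h
  · simp [h, show pW d - (i + 1) = 0 by omega]
  obtain ⟨j, hj⟩ : ∃ j, pW d - i = j + 1 := ⟨pW d - i - 1, by omega⟩
  simp only [hj, show pW d - (i + 1) = j by omega]
  push_cast
  constructor <;> field_simp
  · exact le_rfl
  · ring

/-- Shift bounds of the piece that kills the share `κ`. -/
noncomputable def pieceC (d r : ℕ) (κ : ℝ) : ZB :=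
  ⟨(Cdn d (r + 1) 0).z + κ * (d / pT d), (Cdn d (r + 1) 0).p + κ * (d * pR d / pT d)⟩

/-- Seed bounds of the piece that meets the share `g`. -/
noncomputable def pieceB (d r : ℕ) (g : ℝ) : Bd := ⟨g * pBc d, (Bdn d r 1).α, (Bdn d r 1).o⟩

private lemma pieceC_le {d r : ℕ} (hrd : r < d) {κ g : ℝ} (hκ : 0 ≤ κ) (hg : g ≤ 1)
    (h : κ * g ≤ (pW d : ℝ)⁻¹) :
    0 ≤ (pieceC d r κ).z ∧ 0 ≤ (pieceC d r κ).p ∧ g * (pieceC d r κ).z ≤ (Cdn d r 1).z ∧
      g * (pieceC d r κ).p ≤ (Cdn d r 1).p := by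
  obtain ⟨-, -, s3, s4⟩ := steer_le d h
  have h8 : (Dp d ^ 8)⁻¹ ≤ 1 := inv_le_one_of_one_le₀ (one_le_pow₀ (one_le_Dp d))
  have hr : (r : ℝ) + 1 ≤ d := by exact_mod_cast hrd
  have hη := pη_nonneg d
  have hT := pT_pos d
  have hR := pR_pos d
  have k1 : 0 ≤ κ * ((d : ℝ) / pT d) := by positivity
  have k2 : 0 ≤ κ * ((d : ℝ) * pR d / pT d) := by positivity
  set z := (Cdn d (r + 1) 0).z
  set p := (Cdn d (r + 1) 0).p
  have ez : (Cdn d r 1).z = z + pη d := by simp only [z, Cdn, ← pη.eq_1]; push_cast; ring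
  have ep : (Cdn d r 1).p = p + 2 := by simp only [p, Cdn]; push_cast; ring
  have hz0 : 0 ≤ z := by
    simp only [z, Cdn, ← pη.eq_1]; push_cast; exact mul_nonneg (by linarith) hη
  have hp0 : 0 ≤ p := by simp only [p, Cdn]; push_cast; linarith
  have e1 := mul_le_of_le_one_left hz0 hg
  have e2 := mul_le_of_le_one_left hp0 hg
  simp only [pieceC]
  refine ⟨add_nonneg hz0 k1, add_nonneg hp0 k2, ?_, ?_⟩ <;>
    rw [mul_add, ← mul_assoc g κ, mul_comm g κ] <;> linarith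

private lemma exists_piece {X R L : Submodule ℝ E} {σ : ℝ} {a₀ a m b : ℕ} {d r x : ℕ}
    (hd : finrank ℝ E = d) (hrd : r < d) (hx : finrank ℝ X = x) (hxr : x ≤ r) (hRL : R ≤ L)
    (hv : ∀ i, ‖v i‖ ≤ 1) (hσ : pσ d (r + 1) ≤ σ) (hσ' : σ ≤ 24)
    (hnode : Node v (pR d) (pT d) a₀ b L) (ha : a₀ ≤ a) (hmb : m ≤ b) (hmN : m + 1 ≤ N)
    {e : ℝ} (he : 0 ≤ e)
    (child : Op v N X R L σ (bdd' d (r + 1) x) (rbd d (r + 1)) (Bdn d (r + 1) 0) (Cdn d (r + 1) 0) a m)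
    (hG : Small v R a m (pf d (r + 1)) (pρ d (r + 1)) child.G e)
    (S : Steer v (pR d) (pT d) a (m + 1) L) {κ g : ℝ} (hκ0 : 0 ≤ κ) (hκ1 : κ ≤ 1) (hg0 : 0 ≤ g)
    (hg1 : g ≤ 1) (hκg : κ * g ≤ (pW d : ℝ)⁻¹)
    (Z : E →ₗ[ℝ] (ℕ → ℝ)) (hdep : ∀ c, Z c = Z (Lᗮ.starProjection c))
    (hZg : ∀ c, ‖Lᗮ.starProjection (c + seg v (Z c) a₀ a)‖ ≤ g * ‖Lᗮ.starProjection c‖)
    (hZκ : ∀ c, ‖Rᗮ.starProjection (c + seg v (Z c) a₀ a)‖
      ≤ (1 + finrank ℝ E * pT d) * ‖Rᗮ.starProjection c‖) :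
    ∃ o : Op v N X R L σ (bdd' d (r + 1) x) (rbd d (r + 1)) (pieceB d r g) (pieceC d r κ) a (m + 1),
      (∀ c, ‖Lᗮ.starProjection (c + seg v (o.Z c) a (m + 1))‖
          ≤ (1 - κ) * ‖Lᗮ.starProjection c‖) ∧
      Small v R a₀ (m + 1) ((1 + (8 * ((d : ℝ) + 2))⁻¹) * pf d r) (pρ d r + (2 * Dp d ^ 4)⁻¹)
        (fun s => o.G (advance v Z a₀ a s)) (e + 4 * pu d ^ (d - x)) := by
  obtain ⟨hxd, hXorth⟩ := finrank_orth hd hx
  have hk : 0 < (d - x) * pLg d := Nat.mul_pos (by omega) (by unfold pLg; omega)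
  have hbd : Real.sqrt (12 * 4000 * ((d - x) * pLg d : ℕ)) ≤ bdd' d (r + 1) x := bdd'_ge hxd hrd
  obtain ⟨hbr, hrb1⟩ : bdd' d (r + 1) x ≤ rbd d (r + 1) ∧ 1 ≤ rbd d (r + 1) := bdd'_le_rbd hrd
  have hrb0 : 0 ≤ rbd d (r + 1) := zero_le_one.trans hrb1
  have hσ12 : 12 ≤ σ := (pσ_ge d (r + 1)).trans hσ
  have hT := pT_pos d
  have hR₀ := pR_pos d
  obtain ⟨hBc0, -⟩ := win_pBc_le d
  obtain ⟨hnum, hz1, hp1⟩ := num_slow (r := r + 1) hrd (h' := 0) zero_le_one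
  replace hnum : 2 * ((finrank ℝ E : ℝ) * pT d + 1) ≤ pR d := by rw [hd]; exact hnum
  have hC : (0 : ℝ) ≤ (Cdn d (r + 1) 0).z ∧ 1 ≤ (Cdn d (r + 1) 0).p := by
    have : (r : ℝ) + 1 ≤ d := by exact_mod_cast hrd
    simp only [Cdn, Nat.cast_add, Nat.cast_one, Nat.cast_zero, sub_zero]
    exact ⟨mul_nonneg (by linarith) (pη_nonneg d), by linarith⟩
  have hα : (Bdn d (r + 1) 0).α ≤ 1 / 2 := by
    have := (dr_le (r := r) hrd.le).1
    simp only [Bdn]; push_cast; linarith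
  set f := (1 + (8 * ((d : ℝ) + 2))⁻¹) * pf d r
  have hf0 : 0 ≤ f := mul_nonneg (by positivity) (pf_bounds hrd.le).1
  have hf' := pf_bounds (r := r + 1) hrd
  have hstep : (1 + (finrank ℝ E : ℝ) * pT d) ^ 2 * f ≤ pf d (r + 1) := by
    rw [hd]; exact pf_step d r
  have hf2 : f ≤ 2 := by
    have h1 : f ≤ (1 + (finrank ℝ E : ℝ) * pT d) ^ 2 * f :=
      le_mul_of_one_le_left hf0 (one_le_pow₀ (le_add_of_nonneg_right (by positivity)))
    linarith
  have hρ1 : pρ d (r + 1) ≤ 10 := by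
    have : (0 : ℝ) ≤ (2 * Dp d ^ 4)⁻¹ := by have := Dp_pos d; positivity
    linarith [(rho_bounds (r := r + 1) hrd).2]
  obtain ⟨s1, s2, -, s4⟩ := steer_le d hκg
  have hBη : (pieceB d r g).α + (Dp d ^ 3)⁻¹ = (Bdn d (r + 1) 0).α ∧
      (pieceB d r g).o + (Dp d ^ 3)⁻¹ = (Bdn d (r + 1) 0).o := by
    simp only [pieceB, Bdn]; push_cast; constructor <;> ring
  let atm : Op v N X R L σ (bdd' d (r + 1) x) (rbd d (r + 1)) (Bdn d (r + 1) 0) (Cdn d (r + 1) 0)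
      m (m + 1) :=
    Op.atom v m hmN (hv m) hσ12 hα (by norm_num : (0 : ℝ) < 4000) hk hC.2 hC.1 hbd hbr hrb1
  let o : Op v N X R L σ (bdd' d (r + 1) x) (rbd d (r + 1)) (pieceB d r g) (pieceC d r κ) a (m + 1) :=
    Op.piece child atm S hκ0 hκ1 hC.2 hC.1 hrb0 hT hR₀.le
      (mul_le_of_le_one_left hBc0 hg1)
      (by
        rw [hd, ← hBη.1]
        refine add_le_add le_rfl (le_trans (le_of_eq ?_) s1)
        simp only [pieceB]; ring)
      (by
        rw [hd, ← hBη.2]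
        refine add_le_add le_rfl (le_trans (le_of_eq ?_) s2)
        simp only [pieceB]; ring)
      (by rw [hd]; exact le_rfl) (by rw [hd]; exact le_rfl)
  refine ⟨o, fun c => Op.piece_end child atm S _ _ _ _ _ _ _ _ _ _ _ _ c, ?_⟩
  set M := (child.comp2 atm hC.2 hC.1 hrb0).Z with hM
  set Ui := pieceU (m := m + 1) S M κ with hUi
  set U' := Ui ∘ₗ (LinearMap.id + segLin v a₀ a ∘ₗ Z) with hU'
  have hsupp : ∀ c j, j ∉ Finset.Ico a (m + 1) → Ui c j = 0 := fun c j hj => by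
    simp [hUi, pieceU, S.supp _ j hj]
  have hUdep : ∀ c, Ui c = Ui (Lᗮ.starProjection c) := fun c => by
    simp only [hUi, pieceU, LinearMap.neg_apply, LinearMap.smul_apply, LinearMap.comp_apply,
      ContinuousLinearMap.coe_coe]
    rw [Submodule.starProjection_eq_self_iff.2 (Submodule.starProjection_apply_mem Lᗮ c)]
  have hU'dep : ∀ c, U' c = U' (Lᗮ.starProjection c) := fun c => by
    simp only [hU', LinearMap.comp_apply, LinearMap.add_apply, LinearMap.id_apply, segLin_apply]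
    rw [hUdep, hUdep (Lᗮ.starProjection c + _), ← hdep c, map_add, map_add Lᗮ.starProjection,
      Submodule.starProjection_eq_self_iff.2 (Submodule.starProjection_apply_mem Lᗮ c)]
  set u := κ * g * (d * pR d / pT d)
  have hu0 : 0 ≤ u := mul_nonneg (mul_nonneg hκ0 hg0) (by positivity)
  have ham : a ≤ m + 1 := child.le.trans (Nat.le_succ m)
  have hU'b : ∀ c, ∀ j ∈ Finset.Icc a₀ (m + 1),
      ‖seg v (U' c) a₀ j‖ ≤ u * ‖Rᗮ.starProjection c‖ := by
    intro c j hj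
    rw [Finset.mem_Icc] at hj
    set c₁ := c + seg v (Z c) a₀ a
    have hU'c : U' c = Ui c₁ := rfl
    rcases le_or_gt j a with hji | hji
    · rw [hU'c, seg_zero_of (fun l hl => hsupp _ l (by
        simp only [Finset.mem_Ico] at hl ⊢; omega)), norm_zero]
      positivity
    rw [hU'c, seg_append' v _ ha hji.le,
      seg_zero_of (a := a₀) (fun l hl => hsupp _ l (by
        simp only [Finset.mem_Ico] at hl ⊢; omega)), zero_add]
    set y := Lᗮ.starProjection (Lᗮ.starProjection c₁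
      + seg v (M (Lᗮ.starProjection c₁)) a (m + 1))
    have ey : Ui c₁ = -(κ • S.Z y) := by simp [hUi, pieceU, y]
    have hy : ‖y‖ ≤ ‖Lᗮ.starProjection c₁‖ :=
      ((child.comp2 atm hC.2 hC.1 hrb0).contr _).trans
        (Submodule.norm_starProjection_apply_le _ _)
    have hLR : ‖Lᗮ.starProjection c‖ ≤ ‖Rᗮ.starProjection c‖ := by
      rw [← Submodule.starProjection_comp_starProjection_of_le (Submodule.orthogonal_le hRL),
        ContinuousLinearMap.comp_apply]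
      exact Submodule.norm_starProjection_apply_le _ _
    have hy' : ‖y‖ ≤ g * ‖Rᗮ.starProjection c‖ :=
      hy.trans ((hZg c).trans (mul_le_mul_of_nonneg_left hLR hg0))
    have hp := S.pref y j (Finset.mem_Icc.2 ⟨hji.le, hj.2⟩)
    rw [hd] at hp
    have e1 : seg v (-(κ • S.Z y)) a j = -(κ • seg v (S.Z y) a j) := by
      simpa using (segLin v a j).map_neg (κ • S.Z y)
    rw [ey, e1, norm_neg, norm_smul, Real.norm_eq_abs, abs_of_nonneg hκ0]
    refine (mul_le_mul_of_nonneg_left (hp.trans (div_le_div_of_nonneg_right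
      (mul_le_mul_of_nonneg_left hy' (by positivity)) hT.le)) hκ0).trans (le_of_eq ?_)
    simp only [u]
    ring
  have hblock := small_block child hv (hnode.mono hR₀.le ha hmb child.le) hRL le_rfl hT.le hnum
    hz1 hp1 hf'.1 (kappa_two hd hf') hρ1 (by linarith) hσ' hk he hG
  rw [hXorth, exp_eq_pu hxd] at hblock
  unfold Small
  intro Ω _ μ _ Sd hSd
  have hρ0 : 0 ≤ pρ d r + (2 * Dp d ^ 4)⁻¹ :=
    add_nonneg (rho_bounds hrd.le).1 (by have := Dp_pos d; positivity)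
  obtain ⟨ht0, ht1⟩ := pt_bounds d
  have hs := hSd.shift hmN hRL U' hU'dep hu0 hU'b hf0 hρ0 ht0 ht1
  have hrho := rho_step hrd hu0 s4 hf2
  have ha' := hs.adv ha hRL Z hdep (le_add_of_nonneg_right (by positivity)) hf0 hZκ
  refine le_trans (le_of_eq (lintegral_congr fun ω => ?_))
    ((Small.mono hblock hstep hrho le_rfl).elim μ _ ha')
  rw [← advance_shift Z Ui (ham.trans hmN) (fun c j hj => hsupp c j (by
    simp only [Finset.mem_Ico]; omega)) (Sd ω)]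
  rfl

private lemma exists_prefix {X R L : Submodule ℝ E} {σ : ℝ} {n : ℕ} {cut mid : ℕ → ℕ} {d r x : ℕ}
    (hd : finrank ℝ E = d) (hrd : r < d) (hx : finrank ℝ X = x) (hxr : x ≤ r) (hRL : R ≤ L)
    (hv : ∀ i, ‖v i‖ ≤ 1) (hσ : pσ d (r + 1) ≤ σ) (hσ' : σ ≤ 24)
    (hnode : Node v (pR d) (pT d) (cut 0) (mid n) L)
    (hle : ∀ i, i ≤ n → cut i ≤ mid i) (hcut : ∀ i, i < n → cut (i + 1) = mid i + 1) (hN : mid n ≤ N)
    (hsteer : ∀ i, i < n → Nonempty (Steer v (pR d) (pT d) (cut i) (cut (i + 1)) L))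
    {e : ℝ} (he : 0 ≤ e)
    (hchild : ∀ i, i ≤ n → ∃ o : Op v N X R L σ (bdd' d (r + 1) x) (rbd d (r + 1)) (Bdn d (r + 1) 0)
        (Cdn d (r + 1) 0) (cut i) (mid i),
      Small v R (cut i) (mid i) (pf d (r + 1)) (pρ d (r + 1)) o.G e) :
    ∀ i, i < n → ∃ o : Op v N X R L σ (bdd' d (r + 1) x) (rbd d (r + 1)) (Bdn d r 1) (Cdn d r 1)
        (cut 0) (cut (i + 1)),
      (∀ c, ‖Lᗮ.starProjection (c + seg v (o.Z c) (cut 0) (cut (i + 1)))‖
          ≤ winShare d (i + 1) * ‖Lᗮ.starProjection c‖) ∧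
      Small v R (cut 0) (cut (i + 1)) ((1 + (8 * ((d : ℝ) + 2))⁻¹) * pf d r)
        (pρ d r + (2 * Dp d ^ 4)⁻¹) o.G (((i : ℝ) + 1) * (e + 4 * pu d ^ (d - x))) := by
  obtain ⟨hxd, hXorth⟩ := finrank_orth hd hx
  have hk : 0 < (d - x) * pLg d := Nat.mul_pos (by omega) (by unfold pLg; omega)
  have hbd : Real.sqrt (12 * 4000 * ((d - x) * pLg d : ℕ)) ≤ bdd' d (r + 1) x := bdd'_ge hxd hrd
  obtain ⟨hbr, hrb1⟩ : bdd' d (r + 1) x ≤ rbd d (r + 1) ∧ 1 ≤ rbd d (r + 1) := bdd'_le_rbd hrd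
  have hrb0 : 0 ≤ rbd d (r + 1) := zero_le_one.trans hrb1
  have hσ12 : 12 ≤ σ := (pσ_ge d (r + 1)).trans hσ
  have hT := pT_pos d
  have hR₀ := pR_pos d
  have hU0 : 0 ≤ pu d ^ (d - x) := pow_nonneg (Real.exp_pos _).le _
  obtain ⟨hnum, hzw, hpw⟩ := num_slow hrd.le (h' := 1) le_rfl
  replace hnum : 2 * ((finrank ℝ E : ℝ) * pT d + 1) ≤ pR d := by rw [hd]; exact hnum
  intro i
  induction i with
  | zero =>
    intro hi
    obtain ⟨g0, g1, k0, k1, kg, kgs⟩ := win_facts d 0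
    have e0 : winShare d 0 = 1 := by
      have : (pW d : ℝ) ≠ 0 := Nat.cast_ne_zero.2 (pW_pos d).ne'
      simp [winShare, this]
    obtain ⟨child, hG⟩ := hchild 0 hi.le
    obtain ⟨S⟩ := hsteer 0 hi
    have hnext : mid 0 + 1 ≤ mid n := by
      have := hcut 0 hi; have := hle (0 + 1) hi; have := (mid_mono hle hcut (i := 0 + 1) hi).1; omega
    rw [hcut 0 hi] at S ⊢
    obtain ⟨o, hend, hsmall⟩ := exists_piece hd hrd hx hxr hRL hv hσ hσ' hnode le_rfl (by omega)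
      (hnext.trans hN) he child hG S k0 k1 g0 g1 kg 0 (fun _ => rfl)
      (fun c => by simp [e0]) (fun c => by
        simp only [LinearMap.zero_apply, seg_self, add_zero]
        exact le_mul_of_one_le_left (norm_nonneg _) (le_add_of_nonneg_right (by positivity)))
    obtain ⟨-, -, hz, hp⟩ := pieceC_le (κ := winKill d 0) hrd k0 g1 kg
    rw [e0, one_mul] at hz hp
    refine ⟨o.mono le_rfl le_rfl (by simp [pieceB, Bdn, e0]) le_rfl le_rfl hz hp, fun c => ?_, ?_⟩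
    · exact (hend c).trans (by rw [← kgs, e0, mul_one])
    · simp only [advance_zero] at hsmall
      exact Small.mono hsmall le_rfl le_rfl (by simp)
  | succ i ih =>
    intro hi
    obtain ⟨o₁, hend₁, hs₁⟩ := ih (by omega)
    obtain ⟨g0, g1, k0, k1, kg, kgs⟩ := win_facts d (i + 1)
    obtain ⟨child, hG⟩ := hchild (i + 1) hi.le
    obtain ⟨S⟩ := hsteer (i + 1) hi
    obtain ⟨hmid, hcut0⟩ := mid_mono hle hcut hi.le
    have hnext : mid (i + 1) + 1 ≤ mid n := by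
      have := hcut (i + 1) hi; have := hle (i + 1 + 1) hi
      have := (mid_mono hle hcut (i := i + 1 + 1) hi).1; omega
    have hsub : Node v (pR d) (pT d) (cut 0) (cut (i + 1)) L :=
      hnode.mono hR₀.le le_rfl ((hle (i + 1) hi.le).trans hmid) hcut0
    rw [hcut (i + 1) hi] at S ⊢
    obtain ⟨o₂, hend₂, hs₂⟩ := exists_piece hd hrd hx hxr hRL hv hσ hσ' hnode hcut0 hmid
      (hnext.trans hN) he child hG S k0 k1 g0 g1 kg o₁.Z o₁.dep hend₁
      (o₁.expand hv hsub hRL le_rfl hT.le hnum hzw hpw)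
    obtain ⟨hz0, hp0, hz, hp⟩ := pieceC_le (κ := winKill d (i + 1)) hrd k0 g1 kg
    refine ⟨o₁.comp o₂ (g := winShare d (i + 1)) hend₁ g0 le_rfl le_rfl le_rfl hz0 hz hp0 hp hrb0,
      fun c => ?_, ?_⟩
    · show ‖Lᗮ.starProjection (c + seg v ((o₁.Z + o₂.Z ∘ₗ (LinearMap.id + segLin v (cut 0)
        (cut (i + 1)) ∘ₗ o₁.Z) : E →ₗ[ℝ] (ℕ → ℝ)) c) (cut 0) (mid (i + 1) + 1))‖ ≤ _
      rw [Op.comp_end o₁ o₂, ← kgs, mul_assoc]
      exact (hend₂ _).trans (mul_le_mul_of_nonneg_left (hend₁ c) (by linarith))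
    · have := Small.add o₁.tame o₁.nonneg (fun _ => o₂.nonneg _) (Small.shorten o₂.le hs₁) hs₂
        (by positivity) (by positivity)
      rw [show (((i + 1 : ℕ) : ℝ) + 1) * (e + 4 * pu d ^ (d - x))
        = ((i : ℝ) + 1) * (e + 4 * pu d ^ (d - x)) + (e + 4 * pu d ^ (d - x)) by push_cast; ring]
      exact this

theorem exists_window {X R L : Submodule ℝ E} {σ : ℝ} {n : ℕ} {cut mid : ℕ → ℕ} {d r x : ℕ}
    (hd : finrank ℝ E = d) (hr : finrank ℝ L = r) (hrd : r < d) (hx : finrank ℝ X = x) (hXR : X ≤ R)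
    (hRL : R ≤ L) (hv : ∀ i, ‖v i‖ ≤ 1) (hσ : pσ d (r + 1) ≤ σ) (hσ' : σ ≤ 24)
    (hnode : Node v (pR d) (pT d) (cut 0) (mid n) L)
    (hle : ∀ i, i ≤ n → cut i ≤ mid i) (hcut : ∀ i, i < n → cut (i + 1) = mid i + 1) (hN : mid n ≤ N)
    (hW : pW d ≤ n)
    (hsteer : ∀ i, i < n → Nonempty (Steer v (pR d) (pT d) (cut i) (cut (i + 1)) L))
    (e : ℝ) (he : 0 ≤ e)
    (hchild : ∀ i, i ≤ n → ∃ o : Op v N X R L σ (bdd' d (r + 1) x) (rbd d (r + 1)) (Bdn d (r + 1) 0)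
        (Cdn d (r + 1) 0) (cut i) (mid i),
      Small v R (cut i) (mid i) (pf d (r + 1)) (pρ d (r + 1)) o.G e) :
    ∃ o : Op v N X R L σ (bdd' d (r + 1) x) (rbd d (r + 1)) (Bdn d r 1) (Cdn d r 1) (cut 0) (mid n),
      (∀ c, Lᗮ.starProjection (c + seg v (o.Z c) (cut 0) (mid n)) = 0) ∧
      Small v R (cut 0) (mid n) ((1 + (8 * ((d : ℝ) + 2))⁻¹) * pf d r) (pρ d r + (2 * Dp d ^ 4)⁻¹)
        o.G (((n : ℝ) + 1) * (e + 4 * pu d ^ (d - x))) := by
  have hxr : x ≤ r := by rw [← hx, ← hr]; exact Submodule.finrank_mono (hXR.trans hRL)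
  have hT := pT_pos d
  have hR₀ := pR_pos d
  have hrb0 : 0 ≤ rbd d (r + 1) := zero_le_one.trans (bdd'_le_rbd (x := x) hrd).2
  have hU0 : 0 ≤ pu d ^ (d - x) := pow_nonneg (Real.exp_pos _).le _
  obtain ⟨hnum, hzw, hpw⟩ := num_slow hrd.le (h' := 1) le_rfl
  replace hnum : 2 * ((finrank ℝ E : ℝ) * pT d + 1) ≤ pR d := by rw [hd]; exact hnum
  obtain ⟨hBc0, -⟩ := win_pBc_le d
  obtain ⟨n, rfl⟩ : ∃ j, n = j + 1 := ⟨n - 1, by have := pW_pos d; omega⟩
  obtain ⟨o₁, hend₁, hs₁⟩ :=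
    exists_prefix hd hrd hx hxr hRL hv hσ hσ' hnode hle hcut hN hsteer he hchild n (Nat.lt_succ_self n)
  obtain ⟨o₂, hs₂⟩ := hchild (n + 1) le_rfl
  have hg0 : winShare d (n + 1) = 0 := by simp [winShare, Nat.sub_eq_zero_of_le hW]
  rw [hg0] at hend₁
  have hr' : (r : ℝ) + 1 ≤ d := by exact_mod_cast hrd
  have hη := pη_nonneg d
  have hC : 0 ≤ (Cdn d (r + 1) 0).z ∧ 0 ≤ (Cdn d (r + 1) 0).p ∧ 0 ≤ (Cdn d r 1).z ∧
      0 ≤ (Cdn d r 1).p := by
    simp only [Cdn, ← pη.eq_1]; push_cast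
    exact ⟨mul_nonneg (by linarith) hη, by linarith, mul_nonneg (by linarith) hη, by linarith⟩
  have hαo : (Bdn d r 1).α ≤ (Bdn d (r + 1) 0).α ∧ (Bdn d r 1).o ≤ (Bdn d (r + 1) 0).o := by
    simp only [Bdn]; push_cast; have := inv_nonneg.2 (pow_nonneg (Dp_pos d).le 3); constructor <;> nlinarith
  let o := o₁.comp o₂ (g := 0) hend₁ le_rfl (by rw [zero_mul]; exact hBc0) hαo.1 hαo.2 hC.1
    (by rw [zero_mul]; exact hC.2.2.1) hC.2.1 (by rw [zero_mul]; exact hC.2.2.2) hrb0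
  refine ⟨o, fun c => ?_, ?_⟩
  · show Lᗮ.starProjection (c + seg v ((o₁.Z + o₂.Z ∘ₗ (LinearMap.id + segLin v (cut 0)
      (cut (n + 1)) ∘ₗ o₁.Z) : E →ₗ[ℝ] (ℕ → ℝ)) c) (cut 0) (mid (n + 1))) = 0
    rw [Op.comp_end o₁ o₂, ← norm_le_zero_iff]
    exact (o₂.contr _).trans ((hend₁ c).trans (by rw [zero_mul]))
  · have hsub : Node v (pR d) (pT d) (cut 0) (cut (n + 1)) L :=
      hnode.mono hR₀.le le_rfl o₂.le o₁.le
    have hρ : pρ d r + (2 * Dp d ^ 4)⁻¹ ≤ pρ d (r + 1) := by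
      have := Dp_pos d
      have : (0 : ℝ) ≤ (Dp d ^ 4)⁻¹ := by positivity
      simp only [pρ, mul_inv]; push_cast; linarith
    have hlast := Small.comp_advance o₁.le hRL o₁.Z o₁.dep
      (le_add_of_nonneg_right (by positivity))
      (mul_nonneg (show 0 ≤ 1 + (8 * ((d : ℝ) + 2))⁻¹ by positivity) (pf_bounds hrd.le).1)
      (o₁.expand hv hsub hRL le_rfl hT.le hnum hzw hpw)
      (by rw [hd]; exact pf_step d r) (Small.mono hs₂ le_rfl hρ le_rfl)
    refine Small.mono (Small.add o₁.tame o₁.nonneg (fun _ => o₂.nonneg _)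
      (Small.shorten o₂.le hs₁) hlast (by positivity) he) le_rfl le_rfl ?_
    push_cast
    linarith

theorem exists_plain {X R P L : Submodule ℝ E} {σ : ℝ} {n : ℕ} {cut mid : ℕ → ℕ} {d r x : ℕ}
    (hd : finrank ℝ E = d) (hr : finrank ℝ L = r) (hrd : r < d) (hx : finrank ℝ X = x) (hXR : X ≤ R)
    (hRP : R ≤ P) (hPL : P ≤ L) (hv : ∀ i, ‖v i‖ ≤ 1) (hσ : pσ d (r + 1) ≤ σ) (hσ' : σ ≤ 24)
    (hnode : Node v (pR d) (pT d) (cut 0) (mid n) L)
    (hle : ∀ i, i ≤ n → cut i ≤ mid i) (hcut : ∀ i, i < n → cut (i + 1) = mid i + 1) (hN : mid n ≤ N)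
    (e : ℝ) (he : 0 ≤ e)
    (hchild : ∀ i, i ≤ n → ∃ o : Op v N X R P σ (bdd' d (r + 1) x) (rbd d (r + 1)) (Bdn d (r + 1) 0)
        (Cdn d (r + 1) 0) (cut i) (mid i),
      Small v R (cut i) (mid i) (pf d (r + 1)) (pρ d (r + 1)) o.G e) :
    ∃ o : Op v N X R P σ (bdd' d (r + 1) x) (rbd d (r + 1)) (Bdn d r 0) (Cdn d r 0) (cut 0) (mid n),
      Small v R (cut 0) (mid n) (pf d r) (pρ d r) o.G (((n : ℝ) + 1) * (e + 4 * pu d ^ (d - x))) := by
  obtain ⟨hxd, hXorth⟩ := finrank_orth hd hx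
  have hxr : x ≤ r := by rw [← hx, ← hr]; exact Submodule.finrank_mono ((hXR.trans hRP).trans hPL)
  set bd := bdd' d (r + 1) x
  set rb := rbd d (r + 1)
  set k := (d - x) * pLg d with hk_def
  have hk : 0 < k := Nat.mul_pos (by omega) (by unfold pLg; omega)
  have hbd : Real.sqrt (12 * 4000 * k) ≤ bd := bdd'_ge hxd hrd
  obtain ⟨hbr, hrb1⟩ : bd ≤ rb ∧ 1 ≤ rb := bdd'_le_rbd hrd
  have hrb0 : 0 ≤ rb := zero_le_one.trans hrb1
  have hσ12 : 12 ≤ σ := (pσ_ge d (r + 1)).trans hσ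
  have hT := pT_pos d
  have hR₀ := pR_pos d
  have hη := pη_nonneg d
  obtain ⟨hnum, hz0, hp0⟩ := num_slow hrd.le (h' := 0) zero_le_one
  replace hnum : 2 * ((finrank ℝ E : ℝ) * pT d + 1) ≤ pR d := by rw [hd]; exact hnum
  have hC : (0 : ℝ) ≤ (Cdn d r 0).z ∧ 1 ≤ (Cdn d r 0).p := by
    have : (r : ℝ) + 1 ≤ d := by exact_mod_cast hrd
    simp only [Cdn, Nat.cast_zero, sub_zero]
    exact ⟨mul_nonneg (by linarith) hη, by linarith⟩
  have hα : (Bdn d r 0).α ≤ 1 / 2 := by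
    have := (dr_le (r := r) hrd.le).1
    simp only [Bdn, Nat.cast_zero]; have := inv_nonneg.2 (pow_nonneg (Dp_pos d).le 3); linarith
  have hf := pf_bounds hrd.le
  have hf' := pf_bounds (r := r + 1) hrd
  have hκ : (1 + (finrank ℝ E : ℝ) * pT d) ^ 2 * pf d r ≤ pf d (r + 1) := by
    rw [hd]
    refine le_trans ?_ (pf_step d r)
    exact mul_le_mul_of_nonneg_left
      (le_mul_of_one_le_left hf.1 (le_add_of_nonneg_right (by positivity))) (sq_nonneg _)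
  have hρ : pρ d r ≤ pρ d (r + 1) := by
    have := Dp_pos d
    have : (0 : ℝ) ≤ (Dp d ^ 4)⁻¹ := by positivity
    simp only [pρ]; push_cast; linarith
  have hρ1 : pρ d r ≤ 10 := by
    have : (0 : ℝ) ≤ (2 * Dp d ^ 4)⁻¹ := by have := Dp_pos d; positivity
    linarith [(rho_bounds (r := r) hrd.le).2]
  set U := pu d ^ (d - x)
  have hU0 : 0 ≤ U := pow_nonneg (Real.exp_pos _).le _
  have child : ∀ i, i ≤ n → ∃ o : Op v N X R P σ bd rb (Bdn d r 0) (Cdn d r 0) (cut i) (mid i),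
      Small v R (cut i) (mid i) (pf d (r + 1)) (pρ d r) o.G e := fun i hi => by
    obtain ⟨o, ho⟩ := hchild i hi
    exact ⟨o.mono le_rfl le_rfl le_rfl (by simp only [Bdn]; push_cast; nlinarith [inv_nonneg.2 (pow_nonneg (Dp_pos d).le 3)])
      (by simp only [Bdn]; push_cast; nlinarith [inv_nonneg.2 (pow_nonneg (Dp_pos d).le 3)])
      (by simp only [Cdn, ← pη.eq_1]; push_cast; nlinarith)
      (by simp only [Cdn]; push_cast; linarith), ho.mono le_rfl hρ le_rfl⟩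
  have block : ∀ i, i < n → ∃ o : Op v N X R P σ bd rb (Bdn d r 0) (Cdn d r 0) (cut i) (cut (i + 1)),
      Small v R (cut i) (cut (i + 1)) (pf d (r + 1)) (pρ d r) o.G (e + 4 * U) := fun i hi => by
    obtain ⟨o, ho⟩ := child i hi.le
    obtain ⟨hmid, hcut0⟩ := mid_mono hle hcut hi.le
    have hnext : mid i + 1 ≤ mid n := by
      have := hcut i hi; have := hle (i + 1) hi; have := (mid_mono hle hcut (i := i + 1) hi).1; omega
    rw [hcut i hi]
    refine ⟨o.comp2 (Op.atom v (mid i) (hnext.trans hN) (hv _) hσ12 hα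
      (by norm_num : (0 : ℝ) < 4000) hk hC.2 hC.1 hbd hbr hrb1) hC.2 hC.1 hrb0, ?_⟩
    have := small_block o hv (hnode.mono hR₀.le hcut0 hmid o.le) hRP hPL hT.le hnum hz0 hp0 hf'.1
      (kappa_two hd hf')
      hρ1 (by linarith) hσ' hk he ho
    rw [hXorth, exp_eq_pu hxd] at this
    exact this
  have step : ∀ {m b : ℕ} (o₁ : Op v N X R P σ bd rb (Bdn d r 0) (Cdn d r 0) (cut 0) m)
      (o₂ : Op v N X R P σ bd rb (Bdn d r 0) (Cdn d r 0) m b) {e₁ e₂ : ℝ},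
      b ≤ mid n → 0 ≤ e₁ → 0 ≤ e₂ →
      Small v R (cut 0) m (pf d r) (pρ d r) o₁.G e₁ →
      Small v R m b (pf d (r + 1)) (pρ d r) o₂.G e₂ →
      Small v R (cut 0) b (pf d r) (pρ d r) (o₁.comp2 o₂ hC.2 hC.1 hrb0).G (e₁ + e₂) := by
    intro m b o₁ o₂ e₁ e₂ hb h1 h2 hs₁ hs₂
    have hsub := hnode.mono hR₀.le le_rfl (o₂.le.trans hb) o₁.le
    exact Small.add o₁.tame o₁.nonneg (fun _ => o₂.nonneg _) (Small.shorten o₂.le hs₁)
      (Small.comp_advance o₁.le hRP o₁.Z o₁.dep (le_add_of_nonneg_right (by positivity)) hf.1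
        (o₁.expand hv hsub hRP hPL hT.le hnum hz0 hp0) hκ hs₂) h1 h2
  rcases Nat.eq_zero_or_pos n with rfl | hn
  · obtain ⟨o, ho⟩ := child 0 le_rfl
    refine ⟨o, ho.mono (le_trans (le_mul_of_one_le_left hf.1 (one_le_pow₀
      (le_add_of_nonneg_right (by positivity)))) hκ) le_rfl ?_⟩
    simp; linarith
  have prefixes : ∀ i, i < n → ∃ o : Op v N X R P σ bd rb (Bdn d r 0) (Cdn d r 0) (cut 0)
      (cut (i + 1)), Small v R (cut 0) (cut (i + 1)) (pf d r) (pρ d r) o.G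
        (((i : ℝ) + 1) * (e + 4 * U)) := by
    intro i
    induction i with
    | zero =>
      intro hi
      obtain ⟨o, ho⟩ := block 0 hi
      exact ⟨o, ho.mono (le_trans (le_mul_of_one_le_left hf.1 (one_le_pow₀
        (le_add_of_nonneg_right (by positivity)))) hκ) le_rfl (by simp)⟩
    | succ i ih =>
      intro hi
      obtain ⟨o₁, hs₁⟩ := ih (by omega)
      obtain ⟨o₂, hs₂⟩ := block (i + 1) hi
      refine ⟨o₁.comp2 o₂ hC.2 hC.1 hrb0, Small.mono (step o₁ o₂ ?_ (by positivity)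
        (by positivity) hs₁ hs₂) le_rfl le_rfl (le_of_eq (by push_cast; ring))⟩
      rw [hcut (i + 1) hi]
      have := hle (i + 1 + 1) hi; have := (mid_mono hle hcut (i := i + 1 + 1) hi).1; have := hcut (i + 1) hi
      omega
  obtain ⟨n, rfl⟩ : ∃ j, n = j + 1 := ⟨n - 1, by omega⟩
  obtain ⟨o₁, hs₁⟩ := prefixes n (Nat.lt_succ_self n)
  obtain ⟨o₂, hs₂⟩ := child (n + 1) le_rfl
  exact ⟨o₁.comp2 o₂ hC.2 hC.1 hrb0, Small.mono (step o₁ o₂ le_rfl (by positivity) he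
    hs₁ hs₂) le_rfl le_rfl (by push_cast; linarith)⟩

end Vale.Agent.P262.Sig
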