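import Vale.Agent.P262.SigLongAct
import Vale.Agent.P262.SigWindow

/-!
Operations on nodes, by recursion over the dimension of the frame.
-/

namespace Vale.Agent.P262.Sig

open MeasureTheory ProbabilityTheory Set Module
open scoped RealInnerProductSpace

attribute [local irreducible] pW

private lemma node_pu_one (d : ℕ) : pu d ≤ 1 :=
  (pu_le d).trans (inv_le_one_of_one_le₀ (one_le_pow₀ (one_le_Dp d)))

private lemma node_u_bound (d : ℕ) {c : ℝ} {k l : ℕ} (hc : c ≤ Dp d) (h : k + l + 1 ≤ 200) :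
    c * Dp d ^ k * pu d ≤ (Dp d ^ l)⁻¹ := by
  have h0 := Dp_pos d
  have hp := pu_pos d
  refine (mul_le_mul_of_nonneg_right (mul_le_mul_of_nonneg_right hc (pow_nonneg h0.le k))
    hp.le).trans ?_
  refine (mul_le_mul_of_nonneg_left (pu_le d) (by positivity)).trans ?_
  rw [← div_eq_mul_inv, div_le_iff₀ (pow_pos h0 _), inv_mul_eq_div, le_div_iff₀ (pow_pos h0 _)]
  calc Dp d * Dp d ^ k * Dp d ^ l = Dp d ^ (k + l + 1) := by ring
    _ ≤ Dp d ^ 200 := Dp_pow_le d h

private lemma node_pG_nonneg (d j : ℕ) : 0 ≤ pG d j := by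
  have := pe_pos d
  have := pu_pos d
  unfold pG
  split_ifs <;> positivity

/-- The bound of a window of at most `2 * pW d` children. -/
private noncomputable def eWin (d j : ℕ) : ℝ := 48 * pW d / pe d * pu d ^ (j + 1)

private lemma eWin_nonneg (d j : ℕ) : 0 ≤ eWin d j := by
  have := pe_pos d
  have := pu_pos d
  unfold eWin
  positivity

private lemma children_le {d r x : ℕ} (hrd : r < d) (hxr : x ≤ r) {n : ℕ} {K : ℝ}
    (hn : (n : ℝ) + 1 ≤ K) :
    ((n : ℝ) + 1) * (pG d (r + 1 - x) + 4 * pu d ^ (d - x))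
      ≤ 24 * K / pe d * pu d ^ (r - x + 1) := by
  have he := pe_pos d
  have hu := pu_pos d
  have he1 : pe d ≤ 1 := inv_le_one_of_one_le₀ (one_le_pow₀ (one_le_Dp d))
  have hp : pu d ^ (d - x) ≤ pu d ^ (r - x + 1) :=
    pow_le_pow_of_le_one hu.le (node_pu_one d) (by omega)
  have hsum : pG d (r + 1 - x) + 4 * pu d ^ (d - x) ≤ 24 / pe d * pu d ^ (r - x + 1) := by
    have h4 : 4 * pu d ^ (d - x) ≤ 4 / pe d * pu d ^ (r - x + 1) :=
      mul_le_mul (le_div_self (by norm_num) he he1) hp (by positivity) (by positivity)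
    rw [show r + 1 - x = r - x + 1 by omega, pG, if_neg (Nat.succ_ne_zero _)]
    calc 20 / pe d * pu d ^ (r - x + 1) + 4 * pu d ^ (d - x)
        ≤ 20 / pe d * pu d ^ (r - x + 1) + 4 / pe d * pu d ^ (r - x + 1) := add_le_add le_rfl h4
      _ = _ := by ring
  refine (mul_le_mul hn hsum (add_nonneg (node_pG_nonneg _ _) (by positivity))
    (le_trans (by positivity) hn)).trans (le_of_eq ?_)
  ring

private lemma plain_num (d j : ℕ) : 24 * (3 * pW d) / pe d * pu d ^ (j + 1) ≤ pG d j := by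
  have h0 := Dp_pos d
  have hu := pu_pos d
  rw [pW_cast, pe, div_inv_eq_mul]
  have hc : (72 : ℝ) ≤ Dp d := by linarith [Dp_ge d]
  unfold pG
  split_ifs with hj
  · subst hj
    rw [pe, pow_one]
    refine le_of_eq_of_le ?_ (node_u_bound d hc (k := 94) (l := 30) (by norm_num))
    ring
  · rw [pe, div_inv_eq_mul]
    calc 24 * (3 * Dp d ^ 64) * Dp d ^ 30 * pu d ^ (j + 1)
        = 72 * Dp d ^ 94 * pu d * pu d ^ j := by ring
      _ ≤ 1 * pu d ^ j := mul_le_mul_of_nonneg_right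
          (by simpa using node_u_bound d hc (k := 94) (l := 0) (by norm_num)) (by positivity)
      _ ≤ 20 * Dp d ^ 30 * pu d ^ j := mul_le_mul_of_nonneg_right
          (by nlinarith [one_le_pow₀ (n := 30) (one_le_Dp d)]) (by positivity)

private lemma window_num (d : ℕ) :
    (∀ j, eWin d j ≤ pe d) ∧ eWin d 0 ≤ pe d * pe d := by
  have h0 := Dp_pos d
  have hu := pu_pos d
  have hc : (48 : ℝ) ≤ Dp d := by linarith [Dp_ge d]
  have e : ∀ j, eWin d j = 48 * Dp d ^ 94 * pu d * pu d ^ j := fun j => by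
    rw [eWin, pW_cast, pe, div_inv_eq_mul]
    ring
  refine ⟨fun j => ?_, ?_⟩
  · rw [e, pe]
    exact (mul_le_of_le_one_right (by positivity) (pow_le_one₀ hu.le (node_pu_one d))).trans
      (node_u_bound d hc (by norm_num))
  · rw [e, pe, pow_zero, mul_one, ← mul_inv, ← pow_add]
    exact node_u_bound d hc (by norm_num)

private lemma long_num {d j : ℕ} (hj : j < d) :
    eWin d j + 2 / pe d * (eWin d j + 3 * pu d ^ max j 1 + 3 * pu d ^ d) ≤ pG d j := by
  have h0 := Dp_pos d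
  have hu := pu_pos d
  have hu1 := node_pu_one d
  set D := Dp d
  set u := pu d
  have hw : 0 ≤ eWin d j := eWin_nonneg d j
  have he : pe d = (D ^ 30)⁻¹ := rfl
  have hD : 1 ≤ D ^ 30 := one_le_pow₀ (one_le_Dp d)
  have hd : u ^ d ≤ u ^ max j 1 := pow_le_pow_of_le_one hu.le hu1 (by omega)
  have hmain : eWin d j + 2 / pe d * (eWin d j + 3 * u ^ max j 1 + 3 * u ^ d)
      ≤ 3 * D ^ 30 * eWin d j + 12 * D ^ 30 * u ^ max j 1 := by
    rw [he, div_inv_eq_mul]
    calc eWin d j + 2 * D ^ 30 * (eWin d j + 3 * u ^ max j 1 + 3 * u ^ d)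
        ≤ D ^ 30 * eWin d j + 2 * D ^ 30 * (eWin d j + 3 * u ^ max j 1 + 3 * u ^ max j 1) :=
          add_le_add (le_mul_of_one_le_left hw hD) (mul_le_mul_of_nonneg_left (by linarith)
            (by positivity))
      _ = _ := by ring
  refine hmain.trans ?_
  have e : eWin d j = 48 * D ^ 94 * (u * u ^ j) := by
    rw [eWin, pW_cast, he, div_inv_eq_mul]
    ring
  have hc : ∀ c : ℝ, c ≤ 200 → c ≤ D := fun c hc => by linarith [Dp_ge d]
  rw [e, pG]
  split_ifs with hj0
  · subst hj0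
    rw [he, show max 0 1 = 1 from rfl, pow_zero, pow_one, mul_one]
    calc 3 * D ^ 30 * (48 * D ^ 94 * u) + 12 * D ^ 30 * u
        ≤ 3 * D ^ 30 * (48 * D ^ 94 * u) + 12 * D ^ 124 * u := by
          gcongr
          exacts [one_le_Dp d, by norm_num]
      _ = 156 * D ^ 124 * u := by ring
      _ ≤ _ := node_u_bound d (hc _ (by norm_num)) (by norm_num)
  · rw [he, div_inv_eq_mul, max_eq_left (by omega : 1 ≤ j)]
    have h1 : 144 * D ^ 94 * u ≤ 1 := by
      simpa using node_u_bound d (hc 144 (by norm_num)) (k := 94) (l := 0) (by norm_num)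
    calc 3 * D ^ 30 * (48 * D ^ 94 * (u * u ^ j)) + 12 * D ^ 30 * u ^ j
        = (144 * D ^ 94 * u) * (D ^ 30 * u ^ j) + 12 * D ^ 30 * u ^ j := by ring
      _ ≤ 1 * (D ^ 30 * u ^ j) + 12 * D ^ 30 * u ^ j :=
          add_le_add (mul_le_mul_of_nonneg_right h1 (by positivity)) le_rfl
      _ ≤ 20 * D ^ 30 * u ^ j := by nlinarith [pow_pos hu j]

variable {E : Type} [NormedAddCommGroup E] [InnerProductSpace ℝ E] [FiniteDimensional ℝ E]
  [MeasurableSpace E] [BorelSpace E]
variable {v : ℕ → E} {N : ℕ}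

omit [MeasurableSpace E] [BorelSpace E] in
private lemma Split.cut_mono {R₀ T : ℝ} {a b : ℕ} {L : Submodule ℝ E} (S : Split v R₀ T a b L)
    {i j : ℕ} (hij : i ≤ j) (hj : j ≤ S.n) : S.cut i ≤ S.cut j := by
  induction j, hij using Nat.le_induction with
  | base => exact le_rfl
  | succ k _ ih =>
    have := ih (by omega)
    have := S.cut_succ k (by omega)
    have := S.cut_le k (by omega)
    omega

omit [MeasurableSpace E] [BorelSpace E] in
private lemma Split.range {R₀ T : ℝ} {a b : ℕ} {L : Submodule ℝ E} (S : Split v R₀ T a b L)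
    {i : ℕ} (hi : i ≤ S.n) : a ≤ S.cut i ∧ S.mid i ≤ b := by
  refine ⟨le_of_eq_of_le S.cut_zero.symm (S.cut_mono i.zero_le hi), ?_⟩
  rcases hi.eq_or_lt with h | h
  · rw [h, S.mid_last]
  · have := S.cut_succ i h
    have := S.cut_mono (show i + 1 ≤ S.n from h) le_rfl
    have := S.cut_le S.n le_rfl
    have := S.mid_last
    omega

/-- The statement of the recursion at frame dimension `r`. -/
private def NodeOps (v : ℕ → E) (N d r : ℕ) : Prop :=
  ∀ (a b x : ℕ) (X R P L : Submodule ℝ E) (σ : ℝ), finrank ℝ L = r → finrank ℝ X = x → x < d →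
    X ≤ R → R ≤ P → P ≤ L → Node v (pR d) (pT d) a b L → a ≤ b → b ≤ N → pσ d r ≤ σ → σ ≤ 24 →
      ∃ o : Op v N X R P σ (bdd' d r x) (rbd d r) (Bdn d r 0) (Cdn d r 0) a b,
        Small v R a b (pf d r) (pρ d r) o.G (pG d (r - x))

private lemma node_leaf {d : ℕ} (hd : finrank ℝ E = d) (hv : ∀ i, ‖v i‖ ≤ 1) :
    NodeOps v N d d := by
  intro a b x X R P L σ hr hx hxd _ _ _ hn hab hN hσ hσ'
  have hD := Dp_ge d
  have hD0 := Dp_pos d
  have hd0 : (0 : ℝ) ≤ d := d.cast_nonneg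
  have hL : L = ⊤ := Submodule.eq_top_of_finrank_eq (hr.trans hd.symm)
  have hk : 0 < (d - x) * pLg d := Nat.mul_pos (by omega) (pLg_pos d)
  have hdT : (finrank ℝ E : ℝ) * pT d ≤ (Dp d ^ 2)⁻¹ := by
    rw [hd, pT, ← div_eq_mul_inv, div_le_iff₀ (by positivity), inv_mul_eq_div,
      le_div_iff₀ (by positivity)]
    calc (d : ℝ) * Dp d ^ 2 ≤ Dp d * Dp d ^ 2 := by
          gcongr
          linarith [nat_le_Dp d]
      _ = Dp d ^ 3 := by ring
      _ ≤ _ := Dp_pow_le d (by norm_num)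
  have h2 : (Dp d ^ 2)⁻¹ ≤ 1 := inv_le_one_of_one_le₀ (one_le_pow₀ (one_le_Dp d))
  have hR : 2 * ((finrank ℝ E : ℝ) * pT d + 1) ≤ pR d := by
    have : Dp d ≤ pR d := le_self_pow₀ (one_le_Dp d) (by norm_num)
    linarith
  have hα : (Bdn d d 0).α ≤ 1 / 2 := by
    simp only [Bdn, Nat.cast_zero]
    rw [← div_eq_mul_inv, div_le_iff₀ (by positivity)]
    nlinarith [nat_le_Dp d, le_self_pow₀ (one_le_Dp d) (show 3 ≠ 0 by norm_num)]
  have hp : 1 + 2 * ((finrank ℝ E : ℝ) * pT d) ≤ (Cdn d d 0).p := by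
    simp only [Cdn, Nat.cast_zero]
    linarith
  have hz : 0 ≤ (Cdn d d 0).z := by
    simp only [Cdn, Nat.cast_zero]
    exact mul_nonneg (by linarith) (by positivity)
  have hbd : Real.sqrt (12 * 4000 * ((d - x) * pLg d : ℕ)) + 2 * ((finrank ℝ E : ℝ) * pT d)
      ≤ bdd' d d x := by
    rw [bdd', Nat.cast_mul, Nat.cast_sub hxd.le]
    refine add_le_add (le_of_eq (congrArg _ (by ring))) ?_
    linarith
  have hrb : bdd' d d x ≤ rbd d d := by
    refine (bdd'_le d d x).trans ?_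
    rw [rbd]
    calc Dp d ^ 4 ≤ Dp d ^ 5 := Dp_pow_le d (by norm_num)
      _ ≤ _ := le_mul_of_one_le_left (by positivity) (by linarith)
  have hrb1 : 1 ≤ rbd d d := by
    rw [rbd]
    exact one_le_mul_of_one_le_of_one_le (by linarith) (one_le_pow₀ (one_le_Dp d))
  refine ⟨Op.leaf hL hn hab hN hv (pT_pos d).le hR ((pσ_ge d d).trans hσ) hα
    (by norm_num : (0 : ℝ) < 4000) hk hp hz hbd hrb hrb1, ?_⟩
  have hf := pf_le d (r := d) le_rfl
  have hρ : pρ d d ≤ 10 := (pρ_le d le_rfl).trans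
    ((inv_le_one_of_one_le₀ (one_le_pow₀ (one_le_Dp d))).trans (by norm_num))
  have hsm : Small v R a b (pf d d) (pρ d d) (ptG N X R σ 4000 ((d - x) * pLg d))
      (2 * Real.exp ((finrank ℝ Xᗮ : ℝ) - ((d - x) * pLg d : ℕ))) :=
    small_ptG hab (by linarith) hρ (by linarith [pσ_ge d d]) hσ' hk
  have hX : finrank ℝ Xᗮ = d - x := by
    have := X.finrank_add_finrank_orthogonal
    omega
  have he : Real.exp ((finrank ℝ Xᗮ : ℝ) - ((d - x) * pLg d : ℕ)) = pu d ^ (d - x) := by
    rw [hX, pu, ← Real.exp_nat_mul]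
    push_cast
    congr 1
    ring
  have hnum : 2 * Real.exp ((finrank ℝ Xᗮ : ℝ) - ((d - x) * pLg d : ℕ)) ≤ pG d (d - x) := by
    rw [he, pG, if_neg (by omega)]
    refine mul_le_mul_of_nonneg_right ?_ (pow_nonneg (pu_pos d).le _)
    rw [le_div_iff₀ (pe_pos d)]
    have : pe d ≤ 1 := inv_le_one_of_one_le₀ (one_le_pow₀ (one_le_Dp d))
    linarith
  intro Ω _ μ _ S hS
  exact (hsm μ S hS).trans (ENNReal.ofReal_le_ofReal hnum)

/-- A window of consecutive children. -/
private lemma node_window {d r : ℕ} (hd : finrank ℝ E = d) (hrd : r < d) (hv : ∀ i, ‖v i‖ ≤ 1)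
    (IH : NodeOps v N d (r + 1)) {a b : ℕ} (hN : b ≤ N) {L : Submodule ℝ E} (hr : finrank ℝ L = r)
    (hn : Node v (pR d) (pT d) a b L) (S : Split v (pR d) (pT d) a b L)
    {p m s t : ℕ} (hm : p + m ≤ S.n) (hW : pW d ≤ m) (hW2 : m + 1 ≤ 2 * pW d) (hs : S.cut p = s)
    (ht : S.cut (p + m) ≤ t) (ht' : t ≤ S.mid (p + m))
    {X R : Submodule ℝ E} {x : ℕ} (hx : finrank ℝ X = x) (hXR : X ≤ R) (hRL : R ≤ L) {σ : ℝ}
    (hσ : pσ d (r + 1) ≤ σ) (hσ' : σ ≤ 24) :
    ∃ o : Op v N X R L σ (bdd' d (r + 1) x) (rbd d (r + 1)) (Bdn d r 1) (Cdn d r 1) s t,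
      (∀ c, Lᗮ.starProjection (c + seg v (o.Z c) s t) = 0) ∧
      Small v R s t (fWin d r) (rWin d r) o.G (eWin d (r - x)) := by
  subst hs
  have hxr : x ≤ r := by rw [← hx, ← hr]; exact Submodule.finrank_mono (hXR.trans hRL)
  set mid : ℕ → ℕ := fun i => if i < m then S.mid (p + i) else t with hmid
  have hmid' : ∀ i, i ≤ m → S.cut (p + i) ≤ mid i ∧ mid i ≤ S.mid (p + i) := by
    intro i hi
    rcases hi.eq_or_lt with h | h
    · simp only [hmid, h, lt_irrefl, if_false]
      exact ⟨ht, ht'⟩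
    · simp only [hmid, h, if_true]
      exact ⟨S.cut_le _ (by omega), le_rfl⟩
  have hm' : mid m = t := if_neg (lt_irrefl m)
  have hst : S.cut p ≤ t := (S.cut_mono (Nat.le_add_right p m) hm).trans ht
  have htb : t ≤ b := ht'.trans (S.range hm).2
  obtain ⟨o, hkill, hsmall⟩ := exists_window (N := N) (cut := fun i => S.cut (p + i)) (mid := mid)
    (n := m) hd hr hrd hx hXR hRL hv hσ hσ'
    (by rw [hm']; exact hn.mono (pR_pos d).le (S.range (by omega)).1 htb hst)
    (fun i hi => (hmid' i hi).1)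
    (fun i hi => by
      simp only [hmid, hi, if_true, ← add_assoc]
      exact S.cut_succ _ (by omega))
    (by rw [hm']; exact htb.trans hN) hW
    (fun i hi => by simpa only [← add_assoc] using S.steer (p + i) (by omega))
    (pG d (r + 1 - x)) (node_pG_nonneg _ _)
    (fun i hi => by
      obtain ⟨h1, h2⟩ := hmid' i hi
      exact IH _ _ x X R L (S.frame (p + i)) σ
        ((S.frame_rank _ (by omega)).trans (by rw [hr])) hx (by omega) hXR hRL
        (S.frame_le _ (by omega))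
        ((S.child _ (by omega)).mono (pR_pos d).le le_rfl h2 h1) h1
        ((h2.trans (S.range (by omega)).2).trans hN) hσ hσ')
  revert o
  rw [hm']
  simp only [add_zero]
  intro o hkill hsmall
  refine ⟨o, hkill, Small.mono hsmall le_rfl le_rfl ((children_le hrd hxr (K := 2 * pW d)
    (by exact_mod_cast hW2)).trans (le_of_eq ?_))⟩
  rw [eWin]
  ring

private lemma node_step {d r : ℕ} (hd : finrank ℝ E = d) (hrd : r < d) (hv : ∀ i, ‖v i‖ ≤ 1)
    (IH : NodeOps v N d (r + 1)) : NodeOps v N d r := by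
  intro a b x X R P L σ hr hx hxd hXR hRP hPL hn hab hN hσ hσ'
  have hxr : x ≤ r := by
    rw [← hx, ← hr]; exact Submodule.finrank_mono ((hXR.trans hRP).trans hPL)
  have hσ1 : pσ d (r + 1) ≤ σ := (pσ_anti d (Nat.le_succ r)).trans hσ
  have hL : L ≠ ⊤ := fun h => by rw [h, finrank_top, hd] at hr; omega
  obtain ⟨S⟩ := exists_split hab hn (pR_pos d).le (pT_pos d) hL
  rcases lt_or_ge S.n (3 * pW d) with hshort | hlong
  · obtain ⟨o, ho⟩ := exists_plain (N := N) (cut := S.cut) (mid := S.mid) hd hr hrd hx hXR hRP hPL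
      hv hσ1 hσ' (by rw [S.cut_zero, S.mid_last]; exact hn) S.cut_le S.cut_succ
      (by rw [S.mid_last]; exact hN) (pG d (r + 1 - x)) (node_pG_nonneg _ _)
      (fun i hi => IH _ _ x X R P (S.frame i) σ ((S.frame_rank i hi).trans (by rw [hr])) hx hxd hXR
        hRP (hPL.trans (S.frame_le i hi)) (S.child i hi) (S.cut_le i hi)
        ((S.range hi).2.trans hN) hσ1 hσ')
    revert o
    rw [S.cut_zero, S.mid_last]
    intro o ho
    have hr' : ((d : ℝ) + 2 - (r + 1 : ℕ)) ≤ (d : ℝ) + 2 - r := by push_cast; linarith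
    refine ⟨o.mono ?_ ?_ le_rfl le_rfl le_rfl le_rfl le_rfl, ho.mono le_rfl le_rfl
      ((children_le hrd hxr (K := 3 * pW d) (by exact_mod_cast hshort)).trans (plain_num d _))⟩
    · exact add_le_add le_rfl
        (mul_le_mul_of_nonneg_right hr' (inv_nonneg.2 (pow_nonneg (Dp_pos d).le _)))
    · exact mul_le_mul_of_nonneg_right hr' (pow_nonneg (Dp_pos d).le _)
  · have hW0 := pW_pos d
    set J := S.n / pW d - 1 with hJdef
    have hq : 3 ≤ S.n / pW d := (Nat.le_div_iff_mul_le hW0).2 hlong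
    have hJ : 2 ≤ J := by omega
    have hlast : J * pW d + pW d ≤ S.n ∧ S.n < J * pW d + 2 * pW d := by
      have h1 := Nat.div_add_mod S.n (pW d)
      have h2 := Nat.mod_lt S.n hW0
      rw [show S.n / pW d = J + 1 by omega, Nat.mul_succ, mul_comm] at h1
      omega
    set k : ℕ → ℕ := fun j => if j ≤ J then S.cut (j * pW d) else b with hk
    have hk0 : k 0 = a := by simp [hk, S.cut_zero]
    have hkJ : k (J + 1) = b := if_neg (by omega)
    have win : ∀ j, j ≤ J → ∀ (X' R' : Submodule ℝ E) (x' : ℕ) (σ' : ℝ), finrank ℝ X' = x' →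
        X' ≤ R' → R' ≤ L → pσ d (r + 1) ≤ σ' → σ' ≤ 24 →
        ∃ o : Op v N X' R' L σ' (bdd' d (r + 1) x') (rbd d (r + 1)) (Bdn d r 1) (Cdn d r 1)
            (k j) (k (j + 1)),
          (∀ c, Lᗮ.starProjection (c + seg v (o.Z c) (k j) (k (j + 1))) = 0) ∧
          Small v R' (k j) (k (j + 1)) (fWin d r) (rWin d r) o.G (eWin d (r - x')) := by
      intro j hj X' R' x' σ' hx' hXR' hRL' hs1 hs2
      have hkj : S.cut (j * pW d) = k j := (if_pos hj).symm
      rcases hj.eq_or_lt with e | h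
      · refine node_window hd hrd hv IH hN hr hn S (p := j * pW d) (m := S.n - J * pW d)
          (by rw [e]; omega) (by omega) (by omega) hkj ?_ ?_ hx' hXR' hRL' hs1 hs2
        all_goals rw [e, hkJ, show J * pW d + (S.n - J * pW d) = S.n by omega]
        · exact (S.cut_le _ le_rfl).trans_eq S.mid_last
        · exact S.mid_last.ge
      · have hj1 : (j + 1) * pW d ≤ J * pW d := Nat.mul_le_mul_right _ h
        have hk1 : k (j + 1) = S.cut (j * pW d + pW d) := by
          rw [show j * pW d + pW d = (j + 1) * pW d by ring]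
          exact if_pos h
        exact node_window hd hrd hv IH hN hr hn S (p := j * pW d) (m := pW d)
          (by rw [Nat.succ_mul] at hj1; omega) le_rfl (by omega) hkj hk1.ge
          (hk1.le.trans (S.cut_le _ (by rw [Nat.succ_mul] at hj1; omega))) hx' hXR' hRL' hs1 hs2
    have hσr : pσ d (r + 1) ≤ 24 := pσ_le d (r + 1)
    obtain ⟨o₀, hkill₀, hsmall₀⟩ :=
      win 0 (Nat.zero_le _) X R x σ hx hXR (hRP.trans hPL) hσ1 hσ'
    obtain ⟨o₁, hkill₁, hsmall₁⟩ :=
      win 1 (by omega) X L x (pσ d (r + 1)) hx ((hXR.trans hRP).trans hPL) le_rfl le_rfl hσr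
    choose ops hkill hsmall using fun j (_ : 2 ≤ j) (h2 : j ≤ J) =>
      win j h2 L L r (pσ d (r + 1)) hr le_rfl le_rfl le_rfl hσr
    let D : Long v N X R P L σ d r x a b (eWin d (r - x)) (eWin d (r - x)) (eWin d (r - r)) :=
      { hd := hd, hr := hr, hrd := hrd, hx := hx, hXR := hXR, hRP := hRP, hPL := hPL, hv := hv,
        hσ := hσ, hσ' := hσ', node := hn, hN := hN, J := J, hJ := hJ, k := k, k_zero := hk0,
        k_last := hkJ, op₀ := o₀, kill₀ := hkill₀, small₀ := hsmall₀, op₁ := o₁, kill₁ := hkill₁,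
        small₁ := hsmall₁, ops := ops, kill := hkill, small := hsmall }
    obtain ⟨o, ho⟩ := D.exists_op (eWin_nonneg _ _) (eWin_nonneg _ _) ((window_num d).1 _)
      (eWin_nonneg _ _) (by rw [Nat.sub_self]; exact (window_num d).2)
    exact ⟨o, ho.mono le_rfl le_rfl (long_num (by omega))⟩

/-- Every node carries an operation whose expected badness is small. -/
theorem exists_node {v : ℕ → E} {N d r x a b : ℕ} {X R P L : Submodule ℝ E} {σ : ℝ}
    (hd : finrank ℝ E = d) (hr : finrank ℝ L = r) (hx : finrank ℝ X = x) (hxd : x < d)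
    (hXR : X ≤ R) (hRP : R ≤ P) (hPL : P ≤ L) (hv : ∀ i, ‖v i‖ ≤ 1)
    (hnode : Node v (pR d) (pT d) a b L) (hab : a ≤ b) (hN : b ≤ N) (hσ : pσ d r ≤ σ)
    (hσ' : σ ≤ 24) :
    ∃ o : Op v N X R P σ (bdd' d r x) (rbd d r) (Bdn d r 0) (Cdn d r 0) a b,
      Small v R a b (pf d r) (pρ d r) o.G (pG d (r - x)) := by
  have key : ∀ k r, r + k = d → NodeOps v N d r := by
    intro k
    induction k with
    | zero =>
      intro r h
      rw [show r = d from h]
      exact node_leaf hd hv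
    | succ k ih =>
      intro r h
      exact node_step hd (by omega) hv (ih (r + 1) (by omega))
  have hrd : r ≤ d := by
    rw [← hr, ← hd]
    exact L.finrank_le
  exact key (d - r) r (by omega) a b x X R P L σ hr hx hxd hXR hRP hPL hnode hab hN hσ hσ'

end Vale.Agent.P262.Sig
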