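import Vale.Agent.P262.SigDefs
import Vale.Agent.P262.Gauss

/-!
Tail bounds from exponential moments: test functions and the calculus of sub-Gaussian bounds.
-/

namespace Vale.Agent.P262.Sig

open MeasureTheory ProbabilityTheory Set Module
open scoped RealInnerProductSpace

variable {E : Type*} [NormedAddCommGroup E] [InnerProductSpace ℝ E] [FiniteDimensional ℝ E]

theorem test_nonneg (V : Submodule ℝ E) {Γ : ℝ} (hΓ : 0 ≤ Γ) (q : ℕ) (x : E) :
    0 ≤ test V Γ q x := by
  unfold test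
  positivity

theorem le_of_test_lt_one {V : Submodule ℝ E} {Γ : ℝ} (hΓ : 0 < Γ) {q : ℕ} (hq : 0 < q) {x : E}
    (h : test V Γ q x < 1) : ‖V.starProjection x‖ ≤ Real.sqrt (12 * Γ * q) := by
  have hD : 0 < 12 * Γ * q := by positivity
  rw [test, pow_lt_one_iff_of_nonneg (by positivity) hq.ne', div_lt_one hD] at h
  exact Real.le_sqrt_of_sq_le h.le

theorem norm_le_test (V : Submodule ℝ E) {Γ : ℝ} (hΓ : 0 < Γ) {q : ℕ} (hq : 0 < q) (x : E) :
    ‖V.starProjection x‖ ≤ Real.sqrt (12 * Γ * q) * (1 + test V Γ q x) := by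
  have hD : 0 < 12 * Γ * q := by positivity
  have ht := test_nonneg V hΓ.le q x
  set s := Real.sqrt (12 * Γ * q) with hs
  have hs0 : 0 < s := Real.sqrt_pos.2 hD
  rcases le_total ‖V.starProjection x‖ s with h | h
  · nlinarith
  · have hu : 1 ≤ ‖V.starProjection x‖ / s := (one_le_div hs0).2 h
    have h2 : ‖V.starProjection x‖ / s ≤ test V Γ q x := by
      refine (le_self_pow₀ hu (mul_ne_zero two_ne_zero hq.ne')).trans (le_of_eq ?_)
      rw [pow_mul, div_pow, hs, Real.sq_sqrt hD.le]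
      rfl
    rw [div_le_iff₀ hs0] at h2
    nlinarith

variable [MeasurableSpace E] [BorelSpace E]

theorem nice_test (V : Submodule ℝ E) {Γ : ℝ} (hΓ : 0 ≤ Γ) (q : ℕ) : Nice (test V Γ q) := by
  set c := (12 * Γ * q)⁻¹ with hc
  have hc0 : 0 ≤ c := by positivity
  have e : test V Γ q = fun x => (c * ‖V.starProjection x‖ ^ 2) ^ q := by
    funext x
    rw [test, hc, div_eq_inv_mul]
  rw [e]
  have h1 : ConvexOn ℝ univ (fun x => ‖V.starProjection x‖ ^ 2) := by
    refine ConvexOn.pow ?_ (fun x _ => norm_nonneg _) 2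
    simpa [Function.comp_def] using
      (convexOn_norm (E := E) convex_univ).comp_linearMap V.starProjection.toLinearMap
  refine Nice.of_poly ((h1.smul hc0).pow (fun x _ => by positivity) q) (pow_nonneg hc0 q)
    (m := 2 * q) fun x => ?_
  rw [abs_of_nonneg (by positivity), pow_mul, ← mul_pow]
  refine pow_le_pow_left₀ (by positivity) (mul_le_mul_of_nonneg_left ?_ hc0) q
  refine pow_le_pow_left₀ (norm_nonneg _) ?_ 2
  linarith [V.norm_starProjection_apply_le x]

lemma lintegral_exp_inner_stdGaussian (l : E) :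
    ∫⁻ g, ENNReal.ofReal (Real.exp ⟪l, g⟫) ∂stdGaussian E
      = ENNReal.ofReal (Real.exp (‖l‖ ^ 2 / 2)) := by
  have hi : Integrable (fun g => Real.exp ⟪l, g⟫) (stdGaussian E) := by
    refine (integrable_exp_norm ‖l‖).mono' (by fun_prop) (Filter.Eventually.of_forall fun g => ?_)
    rw [Real.norm_of_nonneg (Real.exp_pos _).le]
    exact Real.exp_le_exp.2 (real_inner_le_norm l g)
  rw [← ofReal_integral_eq_lintegral_ofReal hi (ae_of_all _ fun g => (Real.exp_pos _).le)]
  have h := mgf_gaussianReal (IsGaussian.map_eq_gaussianReal (μ := stdGaussian E) (innerSL ℝ l)) 1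
  simp only [integral_strongDual_stdGaussian, variance_dual_stdGaussian, innerSL_apply_norm] at h
  simp only [mgf, innerSL_apply_apply, one_mul, zero_add, one_pow, mul_one,
    Real.coe_toNNReal _ (sq_nonneg ‖l‖)] at h
  rw [h]

lemma map_orthogonalProjectionOnto_stdGaussian (V : Submodule ℝ E) :
    (stdGaussian E).map V.orthogonalProjectionOnto = stdGaussian V := by
  apply Measure.ext_of_charFun
  funext t
  rw [charFun_stdGaussian, charFun_apply, integral_map (by fun_prop) (by fun_prop)]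
  have e : ∀ g : E, ⟪V.orthogonalProjectionOnto g, t⟫ = ⟪g, (t : E)⟫ := fun g => by
    simp
  simp only [e]
  rw [← charFun_apply, charFun_stdGaussian]
  rfl

lemma integrable_exp_sq_gaussianReal :
    Integrable (fun x : ℝ => Real.exp (1 / 4 * x ^ 2)) (gaussianReal 0 1) := by
  rw [gaussianReal_of_var_ne_zero _ one_ne_zero,
    integrable_withDensity_iff (measurable_gaussianPDF 0 1)
      (Filter.Eventually.of_forall fun x => gaussianPDF_lt_top)]
  simp only [toReal_gaussianPDF, gaussianPDFReal, NNReal.coe_one, mul_one, sub_zero]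
  refine ((integrable_exp_neg_mul_sq (b := 1 / 4) (by norm_num)).const_mul
    (√(2 * Real.pi))⁻¹).congr (Filter.Eventually.of_forall fun t => ?_)
  simp only
  rw [mul_comm (Real.exp _), mul_assoc (√(2 * Real.pi))⁻¹, ← Real.exp_add]
  congr 2
  ring

lemma lintegral_exp_sq_projection (V : Submodule ℝ E) :
    ∫⁻ g, ENNReal.ofReal (Real.exp (‖V.starProjection g‖ ^ 2 / 4)) ∂stdGaussian E
      ≤ ENNReal.ofReal (Real.exp ((finrank ℝ V : ℝ) / 2)) := by
  let b := stdOrthonormalBasis ℝ V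
  let ι := Fin (finrank ℝ V)
  have hm : (stdGaussian E).map (fun g => b.repr (V.orthogonalProjectionOnto g))
      = stdGaussian (EuclideanSpace ℝ ι) := by
    rw [show (fun g => b.repr (V.orthogonalProjectionOnto g)) = b.repr ∘ V.orthogonalProjectionOnto
      from rfl, ← Measure.map_map (by fun_prop) (by fun_prop),
      map_orthogonalProjectionOnto_stdGaussian, stdGaussian_map]
  have e : ∀ g, ‖V.starProjection g‖ ^ 2 / 4 =
      1 / 4 * qform (fun _ => 1) (b.repr (V.orthogonalProjectionOnto g)) := fun g => by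
    have : ‖V.starProjection g‖ = ‖b.repr (V.orthogonalProjectionOnto g)‖ := by
      rw [LinearIsometryEquiv.norm_map]; rfl
    rw [this, EuclideanSpace.real_norm_sq_eq, qform]
    simp only [one_mul]
    ring
  simp only [e]
  rw [← lintegral_map (f := fun y => ENNReal.ofReal (Real.exp (1 / 4 * qform (fun _ => 1) y)))
    (by unfold qform; fun_prop) (by fun_prop), hm]
  have hi : Integrable (fun g => Real.exp (1 / 4 * qform (fun _ => 1) g))
      (stdGaussian (EuclideanSpace ℝ ι)) := by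
    rw [← map_pi_eq_stdGaussian, integrable_map_measure (by unfold qform; fun_prop) (by fun_prop)]
    refine (Integrable.fintype_prod (f := fun (_ : ι) t => Real.exp (1 / 4 * t ^ 2))
      fun _ => integrable_exp_sq_gaussianReal).congr (Filter.Eventually.of_forall fun x => ?_)
    simp [qform, Finset.mul_sum, Real.exp_sum]
  rw [← ofReal_integral_eq_lintegral_ofReal hi (ae_of_all _ fun g => (Real.exp_pos _).le)]
  refine ENNReal.ofReal_le_ofReal ((integral_exp_qform (fun i => by norm_num) fun i => by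
    norm_num).trans (le_of_eq ?_))
  simp [ι]
  ring

theorem subG_test {Ω : Type*} [MeasurableSpace Ω] {μ : Measure Ω} [SFinite μ] {X : Ω → E} {C : ℝ}
    {Q : E → ℝ} (hX : Measurable X) (h : SubG μ X C Q) (hC : 0 ≤ C) {V : Submodule ℝ E} {Γ : ℝ}
    (hΓ : 0 < Γ) (hQ : ∀ l ∈ V, Q l ≤ Γ * ‖l‖ ^ 2) {q : ℕ} (hq : 0 < q) :
    ∫⁻ ω, ENNReal.ofReal (test V Γ q (X ω)) ∂μ
      ≤ ENNReal.ofReal (C * Real.exp ((finrank ℝ V : ℝ) - q)) := by
  set a := (Real.sqrt (2 * Γ))⁻¹
  have ha : a ^ 2 = (2 * Γ)⁻¹ := by rw [inv_pow, Real.sq_sqrt (by positivity)]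
  have ha0 : 0 ≤ a := by positivity
  have hpt : ∀ x, ENNReal.ofReal (test V Γ q x) ≤ ENNReal.ofReal (Real.exp (-(q : ℝ))) *
      ∫⁻ g, ENNReal.ofReal (Real.exp ⟪a • V.starProjection g, x⟫) ∂stdGaussian E := by
    intro x
    have e : ∀ g, ⟪a • V.starProjection g, x⟫ = ⟪a • V.starProjection x, g⟫ := fun g => by
      rw [real_inner_smul_left, real_inner_smul_left, Submodule.inner_starProjection_left_eq_right,
        real_inner_comm]
    simp only [e]
    rw [lintegral_exp_inner_stdGaussian, norm_smul, mul_pow, Real.norm_eq_abs, sq_abs, ha,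
      ← ENNReal.ofReal_mul (Real.exp_pos _).le]
    refine ENNReal.ofReal_le_ofReal ?_
    rw [test]
    set u := ‖V.starProjection x‖ ^ 2 / (12 * Γ * q)
    have hu : 0 ≤ u := by positivity
    have hy : (2 * Γ)⁻¹ * ‖V.starProjection x‖ ^ 2 / 2 = 3 * q * u := by
      simp only [u]; field_simp; ring
    rw [hy]
    have h1 := Real.pow_div_factorial_le_exp (x := 3 * q * u) (by positivity) q
    rw [div_le_iff₀ (by positivity), mul_pow, mul_pow] at h1
    have hf : (q.factorial : ℝ) ≤ (q : ℝ) ^ q := by exact_mod_cast Nat.factorial_le_pow q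
    have h2 : 3 ^ q * u ^ q ≤ Real.exp (3 * q * u) := by
      have := h1.trans (mul_le_mul_of_nonneg_left hf (Real.exp_pos _).le)
      refine le_of_mul_le_mul_left ?_ (show (0 : ℝ) < (q : ℝ) ^ q by positivity)
      linarith
    have h3 : Real.exp (q : ℝ) ≤ 3 ^ q := by
      rw [← Real.exp_one_pow]
      gcongr
      linarith [Real.exp_one_lt_d9]
    rw [Real.exp_neg, ← div_eq_inv_mul, le_div_iff₀' (Real.exp_pos _)]
    exact (mul_le_mul_of_nonneg_right h3 (pow_nonneg hu q)).trans h2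
  have hg : ∀ g, ∫⁻ ω, ENNReal.ofReal (Real.exp ⟪a • V.starProjection g, X ω⟫) ∂μ
      ≤ ENNReal.ofReal C * ENNReal.ofReal (Real.exp (‖V.starProjection g‖ ^ 2 / 4)) := by
    intro g
    rw [← ENNReal.ofReal_mul hC]
    refine (h _).trans (ENNReal.ofReal_le_ofReal (mul_le_mul_of_nonneg_left (Real.exp_le_exp.2 ?_) hC))
    have := hQ _ (V.smul_mem a (Submodule.starProjection_apply_mem V g))
    rw [norm_smul, mul_pow, Real.norm_eq_abs, sq_abs, ha] at this
    have : Γ * ((2 * Γ)⁻¹ * ‖V.starProjection g‖ ^ 2) = ‖V.starProjection g‖ ^ 2 / 2 := by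
      field_simp
    linarith
  calc ∫⁻ ω, ENNReal.ofReal (test V Γ q (X ω)) ∂μ
      ≤ ∫⁻ ω, ENNReal.ofReal (Real.exp (-(q : ℝ))) *
          ∫⁻ g, ENNReal.ofReal (Real.exp ⟪a • V.starProjection g, X ω⟫) ∂stdGaussian E ∂μ :=
        lintegral_mono fun ω => hpt _
    _ = ENNReal.ofReal (Real.exp (-(q : ℝ))) * ∫⁻ g, (∫⁻ ω,
          ENNReal.ofReal (Real.exp ⟪a • V.starProjection g, X ω⟫) ∂μ) ∂stdGaussian E := by
        rw [lintegral_const_mul' _ _ ENNReal.ofReal_ne_top, lintegral_lintegral_swap]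
        fun_prop
    _ ≤ ENNReal.ofReal (Real.exp (-(q : ℝ))) *
          (ENNReal.ofReal C * ENNReal.ofReal (Real.exp ((finrank ℝ V : ℝ) / 2))) := by
        gcongr
        refine (lintegral_mono hg).trans ?_
        rw [lintegral_const_mul' _ _ ENNReal.ofReal_ne_top]
        gcongr
        exact lintegral_exp_sq_projection V
    _ ≤ _ := by
        rw [← ENNReal.ofReal_mul hC, ← ENNReal.ofReal_mul (Real.exp_pos _).le,
          ← mul_left_comm, ← Real.exp_add]
        gcongr
        linarith [(finrank ℝ V).cast_nonneg (α := ℝ)]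

theorem SubG.add {Ω : Type*} [MeasurableSpace Ω] {μ : Measure Ω} {X Y : Ω → E} {C : ℝ}
    {Q Q' : E → ℝ} (hX : Measurable X) (_hY : Measurable Y) (h : SubG μ X C Q) (h' : SubG μ Y C Q')
    (hC : 0 ≤ C) {t : ℝ} (ht : 0 < t) (ht1 : t < 1) :
    SubG μ (fun ω => X ω + Y ω) C
      (fun l => (1 - t) * Q ((1 - t)⁻¹ • l) + t * Q' (t⁻¹ • l)) := by
  intro l
  have hs : 0 < 1 - t := sub_pos.2 ht1
  set α := Q ((1 - t)⁻¹ • l) / 2 with hα
  set β := Q' (t⁻¹ • l) / 2 with hβ
  set K := Real.exp ((1 - t) * α + t * β) with hK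
  have hpt : ∀ ω, ENNReal.ofReal (Real.exp ⟪l, X ω + Y ω⟫) ≤
      ENNReal.ofReal (K * (1 - t) * Real.exp (-α)) *
          ENNReal.ofReal (Real.exp ⟪(1 - t)⁻¹ • l, X ω⟫) +
        ENNReal.ofReal (K * t * Real.exp (-β)) * ENNReal.ofReal (Real.exp ⟪t⁻¹ • l, Y ω⟫) := by
    intro ω
    rw [← ENNReal.ofReal_mul (by positivity), ← ENNReal.ofReal_mul (by positivity),
      ← ENNReal.ofReal_add (by positivity) (by positivity)]
    refine ENNReal.ofReal_le_ofReal ?_
    set x := ⟪(1 - t)⁻¹ • l, X ω⟫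
    set y := ⟪t⁻¹ • l, Y ω⟫
    have e : ⟪l, X ω + Y ω⟫ = ((1 - t) * α + t * β) + ((1 - t) * (x - α) + t * (y - β)) := by
      simp only [x, y, inner_add_right, real_inner_smul_left]
      field_simp
      ring
    rw [e, Real.exp_add, ← hK]
    have hc : Real.exp ((1 - t) * (x - α) + t * (y - β))
        ≤ (1 - t) * Real.exp (x - α) + t * Real.exp (y - β) :=
      convexOn_exp.2 (mem_univ (x - α)) (mem_univ (y - β)) hs.le ht.le (by ring)
    refine (mul_le_mul_of_nonneg_left hc (Real.exp_pos _).le).trans (le_of_eq ?_)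
    rw [Real.exp_sub, Real.exp_sub, Real.exp_neg, Real.exp_neg]
    ring
  refine (lintegral_mono hpt).trans ?_
  rw [lintegral_add_left (by fun_prop), lintegral_const_mul' _ _ ENNReal.ofReal_ne_top,
    lintegral_const_mul' _ _ ENNReal.ofReal_ne_top]
  refine (add_le_add (mul_le_mul_right (h _) _) (mul_le_mul_right (h' _) _)).trans ?_
  rw [← hα, ← hβ, ← ENNReal.ofReal_mul (by positivity), ← ENNReal.ofReal_mul (by positivity),
    ← ENNReal.ofReal_add (by positivity) (by positivity)]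
  refine ENNReal.ofReal_le_ofReal (le_of_eq ?_)
  rw [show ((1 - t) * Q ((1 - t)⁻¹ • l) + t * Q' (t⁻¹ • l)) / 2 = (1 - t) * α + t * β by
    rw [hα, hβ]; ring, ← hK]
  have e1 : Real.exp (-α) * Real.exp α = 1 := by rw [← Real.exp_add, neg_add_cancel, Real.exp_zero]
  have e2 : Real.exp (-β) * Real.exp β = 1 := by rw [← Real.exp_add, neg_add_cancel, Real.exp_zero]
  linear_combination K * (1 - t) * C * e1 + K * t * C * e2

omit [MeasurableSpace E] [BorelSpace E] in
theorem SubG.map {Ω : Type*} [MeasurableSpace Ω] {μ : Measure Ω} {X : Ω → E} {C : ℝ} {Q : E → ℝ}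
    (h : SubG μ X C Q) (A : E →L[ℝ] E) :
    SubG μ (fun ω => A (X ω)) C (fun l => Q (ContinuousLinearMap.adjoint A l)) := fun l => by
  simpa only [← ContinuousLinearMap.adjoint_inner_left] using h (ContinuousLinearMap.adjoint A l)

theorem SubG.indep {Ω : Type*} [MeasurableSpace Ω] {μ : Measure Ω} [SFinite μ] {X : Ω → E} {C : ℝ}
    {Q : E → ℝ} (hX : Measurable X) (h : SubG μ X C Q) (hC : 0 ≤ C) (B : E →L[ℝ] E) :
    SubG (μ.prod (stdGaussian E)) (fun p => X p.1 + B p.2) C
      (fun l => Q l + ‖ContinuousLinearMap.adjoint B l‖ ^ 2) := by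
  intro l
  simp only [inner_add_right, Real.exp_add, ENNReal.ofReal_mul (Real.exp_pos _).le,
    ← ContinuousLinearMap.adjoint_inner_left B]
  rw [lintegral_prod_mul (f := fun ω => ENNReal.ofReal (Real.exp ⟪l, X ω⟫))
    (g := fun g => ENNReal.ofReal (Real.exp ⟪ContinuousLinearMap.adjoint B l, g⟫))
    (by fun_prop) (by fun_prop), lintegral_exp_inner_stdGaussian]
  refine (mul_le_mul_left (h l) _).trans ?_
  rw [← ENNReal.ofReal_mul (by positivity), mul_assoc, ← Real.exp_add, add_div]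

omit [MeasurableSpace E] [BorelSpace E] [FiniteDimensional ℝ E] in
theorem subG_const {Ω : Type*} [MeasurableSpace Ω] (μ : Measure Ω) [IsProbabilityMeasure μ]
    (x : E) {s : ℝ} (hs : 0 < s) :
    SubG μ (fun _ => x) (Real.exp (‖x‖ ^ 2 / (2 * s))) (fun l => s * ‖l‖ ^ 2) := by
  intro l
  rw [lintegral_const, measure_univ, mul_one, ← Real.exp_add]
  refine ENNReal.ofReal_le_ofReal (Real.exp_le_exp.2 ((real_inner_le_norm l x).trans ?_))
  have h0 : 0 ≤ (‖x‖ - s * ‖l‖) ^ 2 / (2 * s) := by positivity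
  have e : (‖x‖ - s * ‖l‖) ^ 2 / (2 * s) =
      ‖x‖ ^ 2 / (2 * s) + s * ‖l‖ ^ 2 / 2 - ‖l‖ * ‖x‖ := by
    field_simp; ring
  linarith

end Vale.Agent.P262.Sig
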