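import Vale.Agent.P262.SigGeom
import Vale.Agent.P262.SigGauss
import Vale.Agent.P262.SigTail

/-!
Operations: blocks of consecutive vectors that act like a single step for the signing functional.
-/

namespace Vale.Agent.P262.Sig

open MeasureTheory ProbabilityTheory Set Module
open scoped RealInnerProductSpace

set_option linter.unusedSectionVars false

variable {E : Type*} [NormedAddCommGroup E] [InnerProductSpace ℝ E] [FiniteDimensional ℝ E]

/-- A seed: frozen offset, drift, relative mean and base shifts. -/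
abbrev Seed (E : Type*) (N : ℕ) := E × E × E × (Fin N → ℝ)

/-- Extension of base shifts by zero. -/
def ext {N : ℕ} : (Fin N → ℝ) →ₗ[ℝ] (ℕ → ℝ) where
  toFun α i := if h : i < N then α ⟨i, h⟩ else 0
  map_add' α β := by ext i; by_cases h : i < N <;> simp [h]
  map_smul' r α := by ext i; by_cases h : i < N <;> simp [h]

/-- Restriction to the first `N` indices. -/
def res {N : ℕ} : (ℕ → ℝ) →ₗ[ℝ] (Fin N → ℝ) := LinearMap.funLeft ℝ ℝ Fin.val

lemma ext_res {N : ℕ} (z : ℕ → ℝ) {i : ℕ} (h : i < N) : ext (res (N := N) z) i = z i := by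
  simp [ext, res, h]

attribute [simp] seg_self

lemma seg_congr {v : ℕ → E} {z z' : ℕ → ℝ} {a b : ℕ} (h : ∀ i ∈ Finset.Ico a b, z i = z' i) :
    seg v z a b = seg v z' a b := Finset.sum_congr rfl fun i hi => by rw [h i hi]

lemma seg_ext_res (v : ℕ → E) {N : ℕ} (z : ℕ → ℝ) {a b : ℕ} (hb : b ≤ N) :
    seg v (ext (res (N := N) z)) a b = seg v z a b :=
  seg_congr fun _ hi => ext_res z ((Finset.mem_Ico.1 hi).2.trans_le hb)

@[simp] lemma segLin_apply (v : ℕ → E) (a b : ℕ) (z : ℕ → ℝ) : segLin v a b z = seg v z a b := rfl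

lemma seg_add (v : ℕ → E) (z z' : ℕ → ℝ) (a b : ℕ) :
    seg v (z + z') a b = seg v z a b + seg v z' a b := (segLin v a b).map_add z z'

/-- The statistic seen by the tests: the frame `R` is frozen at `q`. -/
noncomputable def stat (R : Submodule ℝ E) (q s : E) : E :=
  R.starProjection q + Rᗮ.starProjection s

/-- The outcome `ε` from the start `x` with badness `w`. -/
structure Out (v : ℕ → E) (X R : Submodule ℝ E) (a b : ℕ) (bd rb : ℝ) (q x : E) (ε : ℕ → ℝ)
    (w : ℝ) : Prop where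
  nonneg : 0 ≤ w
  size : ∀ i ∈ Finset.Ico a b, |ε i| ≤ rb * (1 + w)
  sign : w < 1 → ∀ i ∈ Finset.Ico a b, ε i = 1 ∨ ε i = -1
  scale : ∀ k ∈ Finset.Icc a b, ‖Xᗮ.starProjection (stat R q (x + seg v ε a k))‖ ≤ rb * (1 + w)
  good : w < 1 → ∀ k ∈ Finset.Icc a b, ‖Xᗮ.starProjection (stat R q (x + seg v ε a k))‖ ≤ bd

/-- Bounds for seeds: relative mean, shifts, drift. -/
structure Bd where
  c : ℝ
  α : ℝ
  o : ℝ

/-- Seeds within the bounds. -/
structure Bdd (v : ℕ → E) {N : ℕ} (P : Submodule ℝ E) (a b : ℕ) (B : Bd) (s : Seed E N) : Prop where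
  mean : ‖Pᗮ.starProjection s.2.2.1‖ ≤ B.c
  shift : ∀ i ∈ Finset.Ico a b, |ext s.2.2.2 i| ≤ B.α
  drift : ∀ k ∈ Finset.Icc a b, ‖s.2.1 + seg v (ext s.2.2.2) a k‖ ≤ B.o

variable [MeasurableSpace E] [BorelSpace E]

/-- The functional property of an operation with shift map `Z` and exported expectation `G`. -/
def Act (v : ℕ → E) {N : ℕ} (X R P : Submodule ℝ E) (σ bd rb : ℝ) (B : Bd) (a b : ℕ)
    (Z : E →ₗ[ℝ] (ℕ → ℝ)) (G : Seed E N → ℝ) : Prop :=
  ∀ s, Bdd v P a b B s → ∀ φ : E → ℝ, Nice φ → ∀ μ : ℝ, 0 ≤ μ →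
    ∃ F : E → ℝ, Nice F ∧
      (∀ x, ∃ ε w, Out v X R a b bd rb s.1 x ε w ∧ φ (x + seg v ε a b) + μ * w ≤ F x) ∧
      gavg F (s.2.1 + s.2.2.1) σ
        ≤ μ * G s + gavg φ (s.2.1 + s.2.2.1 + seg v (Z s.2.2.1 + ext s.2.2.2) a b) σ

/-- Size bounds of shift maps: single entries and prefixes. -/
structure ZB where
  z : ℝ
  p : ℝ

/-- An operation on the interval `[a, b)`. -/
structure Op (v : ℕ → E) (N : ℕ) (X R P : Submodule ℝ E) (σ bd rb : ℝ) (B : Bd) (C : ZB)
    (a b : ℕ) where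
  Z : E →ₗ[ℝ] (ℕ → ℝ)
  G : Seed E N → ℝ
  le : a ≤ b
  leN : b ≤ N
  dep : ∀ c, Z c = Z (Pᗮ.starProjection c)
  supp : ∀ c i, i ∉ Finset.Ico a b → Z c i = 0
  coef : ∀ c i, |Z c i| ≤ C.z * ‖Pᗮ.starProjection c‖
  pref : ∀ c, ∀ k ∈ Finset.Icc a b,
    ‖Pᗮ.starProjection (c + seg v (Z c) a k)‖ ≤ C.p * ‖Pᗮ.starProjection c‖
  contr : ∀ c, ‖Pᗮ.starProjection (c + seg v (Z c) a b)‖ ≤ ‖Pᗮ.starProjection c‖
  tame : Tame G
  nonneg : ∀ s, 0 ≤ G s
  act : Act v X R P σ bd rb B a b Z G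

/-- The seed after the interval `[a, b)`. -/
noncomputable def advance (v : ℕ → E) {N : ℕ} (Z : E →ₗ[ℝ] (ℕ → ℝ)) (a b : ℕ) :
    Seed E N →L[ℝ] Seed E N :=
  LinearMap.toContinuousLinearMap
    { toFun := fun s =>
        (s.1, s.2.1 + seg v (ext s.2.2.2) a b, s.2.2.1 + seg v (Z s.2.2.1) a b, s.2.2.2)
      map_add' := fun s t => by
        simp only [Prod.fst_add, Prod.snd_add, map_add, seg_add, Prod.mk_add_mk, Prod.mk.injEq,
          and_true, true_and]
        constructor <;> abel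
      map_smul' := fun r s => by
        simp only [Prod.smul_fst, Prod.smul_snd, map_smul, RingHom.id_apply, Prod.smul_mk, smul_add]
        simp [seg, Finset.smul_sum, mul_smul] }

lemma advance_apply (v : ℕ → E) {N : ℕ} (Z : E →ₗ[ℝ] (ℕ → ℝ)) (a b : ℕ) (s : Seed E N) :
    advance v Z a b s
      = (s.1, s.2.1 + seg v (ext s.2.2.2) a b, s.2.2.1 + seg v (Z s.2.2.1) a b, s.2.2.2) := rfl

omit [MeasurableSpace E] [BorelSpace E] in
lemma seg_append' (v : ℕ → E) (z : ℕ → ℝ) {a b c : ℕ} (h1 : a ≤ b) (h2 : b ≤ c) :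
    seg v z a c = seg v z a b + seg v z b c := (seg_append v z h1 h2).symm

lemma seg_zero_of {v : ℕ → E} {z : ℕ → ℝ} {a b : ℕ} (h : ∀ i ∈ Finset.Ico a b, z i = 0) :
    seg v z a b = 0 := Finset.sum_eq_zero fun i hi => by rw [h i hi, zero_smul]

/-- Concatenation of outcomes. -/
lemma Out.append {v : ℕ → E} {X R : Submodule ℝ E} {a m b : ℕ} {bd rb : ℝ} {q x : E}
    {e₁ e₂ : ℕ → ℝ} {w₁ w₂ : ℝ} (ham : a ≤ m) (hmb : m ≤ b) (hrb : 0 ≤ rb)
    (h1 : Out v X R a m bd rb q x e₁ w₁) (h2 : Out v X R m b bd rb q (x + seg v e₁ a m) e₂ w₂) :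
    Out v X R a b bd rb q x (fun i => if i < m then e₁ i else e₂ i) (w₁ + w₂) ∧
      seg v (fun i => if i < m then e₁ i else e₂ i) a b = seg v e₁ a m + seg v e₂ m b := by
  set e := fun i => if i < m then e₁ i else e₂ i
  have lo : ∀ k ≤ m, seg v e a k = seg v e₁ a k := fun k hk =>
    seg_congr fun i hi => if_pos ((Finset.mem_Ico.1 hi).2.trans_le hk)
  have hi' : ∀ k, m ≤ k → seg v e a k = seg v e₁ a m + seg v e₂ m k := fun k hk => by
    rw [seg_append' v e ham hk, lo m le_rfl]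
    congr 1
    exact seg_congr fun i hi => if_neg (not_lt.2 (Finset.mem_Ico.1 hi).1)
  have mono1 : rb * (1 + w₁) ≤ rb * (1 + (w₁ + w₂)) :=
    mul_le_mul_of_nonneg_left (by linarith [h2.nonneg]) hrb
  have mono2 : rb * (1 + w₂) ≤ rb * (1 + (w₁ + w₂)) :=
    mul_le_mul_of_nonneg_left (by linarith [h1.nonneg]) hrb
  refine ⟨⟨add_nonneg h1.nonneg h2.nonneg, fun i hi => ?_, fun hw i hi => ?_, fun k hk => ?_,
    fun hw k hk => ?_⟩, hi' b hmb⟩
  · rw [Finset.mem_Ico] at hi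
    by_cases h : i < m <;> simp only [e, h, if_true, if_false]
    · exact (h1.size i (Finset.mem_Ico.2 ⟨hi.1, h⟩)).trans mono1
    · exact (h2.size i (Finset.mem_Ico.2 ⟨not_lt.1 h, hi.2⟩)).trans mono2
  · rw [Finset.mem_Ico] at hi
    by_cases h : i < m <;> simp only [e, h, if_true, if_false]
    · exact h1.sign (by linarith [h2.nonneg]) i (Finset.mem_Ico.2 ⟨hi.1, h⟩)
    · exact h2.sign (by linarith [h1.nonneg]) i (Finset.mem_Ico.2 ⟨not_lt.1 h, hi.2⟩)
  · rw [Finset.mem_Icc] at hk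
    by_cases h : k ≤ m
    · rw [lo k h]
      exact (h1.scale k (Finset.mem_Icc.2 ⟨hk.1, h⟩)).trans mono1
    · rw [hi' k (le_of_not_ge h), ← add_assoc]
      exact (h2.scale k (Finset.mem_Icc.2 ⟨le_of_not_ge h, hk.2⟩)).trans mono2
  · rw [Finset.mem_Icc] at hk
    by_cases h : k ≤ m
    · rw [lo k h]
      exact h1.good (by linarith [h2.nonneg]) k (Finset.mem_Icc.2 ⟨hk.1, h⟩)
    · rw [hi' k (le_of_not_ge h), ← add_assoc]
      exact h2.good (by linarith [h1.nonneg]) k (Finset.mem_Icc.2 ⟨le_of_not_ge h, hk.2⟩)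

variable {v : ℕ → E} {N : ℕ} {X R P : Submodule ℝ E} {σ bd rb : ℝ} {B : Bd} {C : ZB}

/-- Composition of adjacent operations. -/
noncomputable def Op.comp {a m b : ℕ} {B₂ : Bd} {C₂ : ZB} (o₁ : Op v N X R P σ bd rb B C a m)
    (o₂ : Op v N X R P σ bd rb B₂ C₂ m b) {g : ℝ}
    (hg : ∀ c, ‖Pᗮ.starProjection (c + seg v (o₁.Z c) a m)‖ ≤ g * ‖Pᗮ.starProjection c‖)
    (hg0 : 0 ≤ g) (hc : g * B.c ≤ B₂.c) (hαB : B.α ≤ B₂.α) (hoB : B.o ≤ B₂.o)
    (hz : 0 ≤ C₂.z) (hzC : g * C₂.z ≤ C.z) (hp : 0 ≤ C₂.p) (hpC : g * C₂.p ≤ C.p) (hrb : 0 ≤ rb) :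
    Op v N X R P σ bd rb B C a b where
  Z := o₁.Z + o₂.Z ∘ₗ (LinearMap.id + segLin v a m ∘ₗ o₁.Z)
  G s := o₁.G s + o₂.G (advance v o₁.Z a m s)
  le := o₁.le.trans o₂.le
  leN := o₂.leN
  dep c := by
    simp only [LinearMap.add_apply, LinearMap.comp_apply, LinearMap.id_apply, segLin_apply]
    rw [← o₁.dep c]
    congr 1
    rw [o₂.dep, o₂.dep (Pᗮ.starProjection c + _)]
    congr 1
    rw [map_add, map_add, Submodule.starProjection_eq_self_iff.2
      (Submodule.starProjection_apply_mem Pᗮ c)]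
  supp c i hi := by
    have e1 := o₁.supp c i
    have e2 := o₂.supp (c + seg v (o₁.Z c) a m) i
    simp only [Finset.mem_Ico, not_and_or, not_le, not_lt] at hi e1 e2
    have := o₁.le; have := o₂.le
    simp only [LinearMap.add_apply, LinearMap.comp_apply, LinearMap.id_apply, Pi.add_apply, segLin_apply]
    rw [e1 (by omega), e2 (by omega), add_zero]
  coef c i := by
    have h1 := o₁.coef c i
    have h2 : |o₂.Z (c + seg v (o₁.Z c) a m) i| ≤ C.z * ‖Pᗮ.starProjection c‖ :=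
      ((o₂.coef (c + seg v (o₁.Z c) a m) i).trans (mul_le_mul_of_nonneg_left (hg c) hz)).trans
        (by rw [← mul_assoc, mul_comm C₂.z g]; exact mul_le_mul_of_nonneg_right hzC (norm_nonneg _))
    simp only [LinearMap.add_apply, LinearMap.comp_apply, LinearMap.id_apply, Pi.add_apply, segLin_apply]
    by_cases hi : i ∈ Finset.Ico a m
    · rw [o₂.supp _ i (by simp only [Finset.mem_Ico] at hi ⊢; omega), add_zero]
      exact h1
    · rw [o₁.supp _ i hi, zero_add]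
      exact h2
  pref c k hk := by
    rw [Finset.mem_Icc] at hk
    simp only [LinearMap.add_apply, LinearMap.comp_apply, LinearMap.id_apply, segLin_apply]
    rw [seg_add]
    by_cases h : k ≤ m
    · rw [seg_zero_of (fun i hi => o₂.supp _ i (by simp only [Finset.mem_Ico] at hi ⊢; omega)),
        add_zero]
      exact o₁.pref c k (Finset.mem_Icc.2 ⟨hk.1, h⟩)
    · have hm : m ≤ k := le_of_not_ge h
      rw [seg_append' v (o₁.Z c) o₁.le hm, seg_append' v (o₂.Z _) o₁.le hm,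
        seg_zero_of (z := o₁.Z c) (a := m) (fun i hi => o₁.supp _ i (by simp only [Finset.mem_Ico] at hi ⊢; omega)),
        seg_zero_of (z := o₂.Z _) (a := a) (fun i hi => o₂.supp _ i (by simp only [Finset.mem_Ico] at hi ⊢; omega)),
        add_zero, zero_add, ← add_assoc]
      refine (o₂.pref (c + seg v (o₁.Z c) a m) k (Finset.mem_Icc.2 ⟨hm, hk.2⟩)).trans ?_
      refine (mul_le_mul_of_nonneg_left (hg c) hp).trans ?_
      rw [← mul_assoc, mul_comm C₂.p g]
      exact mul_le_mul_of_nonneg_right hpC (norm_nonneg _)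
  contr c := by
    simp only [LinearMap.add_apply, LinearMap.comp_apply, LinearMap.id_apply, segLin_apply]
    rw [seg_add, seg_append' v (o₁.Z c) o₁.le o₂.le, seg_append' v (o₂.Z _) o₁.le o₂.le,
      seg_zero_of (z := o₁.Z c) (a := m) (fun i hi => o₁.supp _ i (by simp only [Finset.mem_Ico] at hi ⊢; omega)),
      seg_zero_of (z := o₂.Z _) (a := a) (fun i hi => o₂.supp _ i (by simp only [Finset.mem_Ico] at hi ⊢; omega)),
      add_zero, zero_add, ← add_assoc]
    exact (o₂.contr _).trans (o₁.contr c)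
  tame := by
    have := o₂.tame.comp (advance v o₁.Z a m) 0
    simp only [add_zero] at this
    exact o₁.tame.add this
  nonneg s := add_nonneg (o₁.nonneg _) (o₂.nonneg _)
  act s hs φ hφ μ hμ := by
    obtain ⟨hm0, hα, hd⟩ := hs
    have hs2 : Bdd v P m b B₂ (advance v o₁.Z a m s) := by
      refine ⟨((hg _).trans (mul_le_mul_of_nonneg_left hm0 hg0)).trans hc,
        fun i hi => (hα i ?_).trans hαB, fun k hk => ?_⟩
      · have := o₁.le; simp only [Finset.mem_Ico] at hi ⊢; omega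
      · rw [Finset.mem_Icc] at hk
        have := hd k (Finset.mem_Icc.2 ⟨o₁.le.trans hk.1, hk.2⟩)
        rw [seg_append' v _ o₁.le hk.1, ← add_assoc] at this
        exact this.trans hoB
    obtain ⟨F₂, hF₂, hx₂, hg₂⟩ := o₂.act _ hs2 φ hφ μ hμ
    have hs1 : Bdd v P a m B s := by
      have := o₂.le
      refine ⟨hm0, fun i hi => hα i ?_, fun k hk => hd k ?_⟩
      · simp only [Finset.mem_Ico] at hi ⊢; omega
      · simp only [Finset.mem_Icc] at hk ⊢; omega
    obtain ⟨F₁, hF₁, hx₁, hg₁⟩ := o₁.act s hs1 F₂ hF₂ μ hμ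
    refine ⟨F₁, hF₁, fun x => ?_, ?_⟩
    · obtain ⟨e₁, w₁, ho₁, hle₁⟩ := hx₁ x
      obtain ⟨e₂, w₂, ho₂, hle₂⟩ := hx₂ (x + seg v e₁ a m)
      obtain ⟨ho, hseg⟩ := Out.append o₁.le o₂.le hrb ho₁ ho₂
      refine ⟨_, _, ho, ?_⟩
      rw [hseg, ← add_assoc, mul_add]
      linarith
    · simp only [advance_apply] at hg₂ ⊢
      have e : s.2.1 + seg v (ext s.2.2.2) a m + (s.2.2.1 + seg v (o₁.Z s.2.2.1) a m)
          = s.2.1 + s.2.2.1 + seg v (o₁.Z s.2.2.1 + ext s.2.2.2) a m := by rw [seg_add]; abel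
      rw [e] at hg₂
      have e' : s.2.1 + s.2.2.1 + seg v (o₁.Z s.2.2.1 + ext s.2.2.2) a m
            + seg v (o₂.Z (s.2.2.1 + seg v (o₁.Z s.2.2.1) a m) + ext s.2.2.2) m b
          = s.2.1 + s.2.2.1 + seg v ((o₁.Z + o₂.Z ∘ₗ (LinearMap.id + segLin v a m ∘ₗ o₁.Z) : E →ₗ[ℝ] (ℕ → ℝ)) s.2.2.1
              + ext s.2.2.2) a b := by
        simp only [LinearMap.add_apply, LinearMap.comp_apply, LinearMap.id_apply, seg_add,
          seg_append' v (ext s.2.2.2) o₁.le o₂.le, seg_append' v (o₁.Z s.2.2.1) o₁.le o₂.le,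
          seg_append' v (o₂.Z _) o₁.le o₂.le, segLin_apply]
        rw [seg_zero_of (z := o₁.Z _) (a := m) (fun i hi => o₁.supp _ i (by simp only [Finset.mem_Ico] at hi ⊢; omega)),
          seg_zero_of (z := o₂.Z _) (a := a) (fun i hi => o₂.supp _ i (by simp only [Finset.mem_Ico] at hi ⊢; omega))]
        abel
      rw [e'] at hg₂
      rw [mul_add]
      linarith

end Vale.Agent.P262.Sig
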