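import Vale.Agent.P262.SigBase

/-!
Pieces, sequences of pieces, and the slow effect of shift maps.
-/

namespace Vale.Agent.P262.Sig

open MeasureTheory ProbabilityTheory Set Module
open scoped RealInnerProductSpace

set_option linter.unusedSectionVars false

variable {E : Type*} [NormedAddCommGroup E] [InnerProductSpace ℝ E] [FiniteDimensional ℝ E]
  [MeasurableSpace E] [BorelSpace E]
variable {v : ℕ → E} {N : ℕ} {X R P : Submodule ℝ E} {σ bd rb : ℝ} {B : Bd} {C : ZB}

lemma Out.mono {a b : ℕ} {bd' rb' : ℝ} {q x : E} {ε : ℕ → ℝ} {w : ℝ}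
    (h : Out v X R a b bd rb q x ε w) (h1 : bd ≤ bd') (h2 : rb ≤ rb') :
    Out v X R a b bd' rb' q x ε w := by
  have h3 : rb * (1 + w) ≤ rb' * (1 + w) := mul_le_mul_of_nonneg_right h2 (by linarith [h.nonneg])
  exact ⟨h.nonneg, fun i hi => (h.size i hi).trans h3, h.sign, fun k hk => (h.scale k hk).trans h3,
    fun hw k hk => (h.good hw k hk).trans h1⟩

/-- Weakening the parameters of an operation. -/
noncomputable def Op.mono {a b : ℕ} {bd' rb' : ℝ} {B' : Bd} {C' : ZB}
    (o : Op v N X R P σ bd rb B C a b) (h1 : bd ≤ bd') (h2 : rb ≤ rb') (hc : B'.c ≤ B.c)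
    (hα : B'.α ≤ B.α) (ho : B'.o ≤ B.o) (hz : C.z ≤ C'.z) (hp : C.p ≤ C'.p) :
    Op v N X R P σ bd' rb' B' C' a b where
  Z := o.Z
  G := o.G
  le := o.le
  leN := o.leN
  dep := o.dep
  supp := o.supp
  coef c i := (o.coef c i).trans (mul_le_mul_of_nonneg_right hz (norm_nonneg _))
  pref c k hk := (o.pref c k hk).trans (mul_le_mul_of_nonneg_right hp (norm_nonneg _))
  contr := o.contr
  tame := o.tame
  nonneg := o.nonneg
  act s hs φ hφ μ hμ := by
    obtain ⟨F, hF, hx, hg⟩ := o.act s ⟨hs.mean.trans hc, fun i hi => (hs.shift i hi).trans hα,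
      fun k hk => (hs.drift k hk).trans ho⟩ φ hφ μ hμ
    exact ⟨F, hF, fun x => (hx x).elim fun ε he => he.elim fun w hw => ⟨ε, w, hw.1.mono h1 h2, hw.2⟩,
      hg⟩

/-- The shift map moves a slow frame above `P` only slightly. -/
lemma Op.slow {a b : ℕ} (o : Op v N X R P σ bd rb B C a b) {R₀ T : ℝ} {L : Submodule ℝ E}
    (hv : ∀ i, ‖v i‖ ≤ 1) (hn : Node v R₀ T a b L) (hPL : P ≤ L) (hT : 0 ≤ T)
    (hR : 2 * (finrank ℝ E * T + 1) ≤ R₀) (hz : 2 * C.z ≤ 1) (hp : 2 * (C.p + 1) ≤ R₀) (c : E)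
    {k : ℕ} (hk : k ∈ Finset.Icc a b) :
    ‖L.starProjection (seg v (o.Z c) a k)‖ ≤ finrank ℝ E * T * ‖Pᗮ.starProjection c‖ := by
  set M := ‖Pᗮ.starProjection c‖
  have hM : 0 ≤ M := norm_nonneg _
  refine (slow_scale hv hn hT hR (M := M) hM (fun i _ => (o.coef c i).trans ?_) (fun j hj => ?_) k hk).trans ?_
  · nlinarith
  · have hle : Lᗮ ≤ Pᗮ := Submodule.orthogonal_le hPL
    have e : Lᗮ.starProjection (seg v (o.Z c) a j)
        = Lᗮ.starProjection (Pᗮ.starProjection (c + seg v (o.Z c) a j) - Pᗮ.starProjection c) := by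
      rw [← map_sub, add_sub_cancel_left,
        ← ContinuousLinearMap.comp_apply Lᗮ.starProjection Pᗮ.starProjection,
        Submodule.starProjection_comp_starProjection_of_le hle]
    rw [e]
    refine (Submodule.norm_starProjection_apply_le _ _).trans ((norm_sub_le _ _).trans ?_)
    have := o.pref c j hj
    nlinarith
  · have : (finrank ℝ L : ℝ) ≤ finrank ℝ E := by exact_mod_cast L.finrank_le
    nlinarith [mul_nonneg hM hT]

/-- Composition with equal parameters. -/
noncomputable def Op.comp2 {a m b : ℕ} (o₁ : Op v N X R P σ bd rb B C a m)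
    (o₂ : Op v N X R P σ bd rb B C m b) (hp : 1 ≤ C.p) (hz : 0 ≤ C.z) (hrb : 0 ≤ rb) :
    Op v N X R P σ bd rb B C a b :=
  o₁.comp o₂ (g := 1) (fun c => by simpa using o₁.contr c) zero_le_one (by simp) le_rfl le_rfl hz
    (by simp) (by linarith) (by simp) hrb

/-- Steering part of a piece. -/
noncomputable def pieceU {R₀ T : ℝ} {a b m : ℕ} (S : Steer v R₀ T a b P) (Z : E →ₗ[ℝ] (ℕ → ℝ))
    (κ : ℝ) : E →ₗ[ℝ] (ℕ → ℝ) :=
  -(κ • (S.Z ∘ₗ (Pᗮ.starProjection.toLinearMap ∘ₗ (LinearMap.id + segLin v a m ∘ₗ Z) ∘ₗ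
    Pᗮ.starProjection.toLinearMap)))

/-- A piece: an operation on a child, then one vector, steered by a share `κ`. -/
noncomputable def Op.piece {R₀ T : ℝ} {a m : ℕ} {B' : Bd} {C' : ZB}
    (child : Op v N X R P σ bd rb B' C' a m) (atm : Op v N X R P σ bd rb B' C' m (m + 1))
    (S : Steer v R₀ T a (m + 1) P) {κ : ℝ} (hκ0 : 0 ≤ κ) (hκ1 : κ ≤ 1)
    (hp : 1 ≤ C'.p) (hz : 0 ≤ C'.z) (hrb : 0 ≤ rb) (hT : 0 < T) (hR : 0 ≤ R₀)
    (hc : B.c ≤ B'.c) (hα : B.α + κ * (finrank ℝ E * B.c / T) ≤ B'.α)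
    (ho : B.o + κ * (finrank ℝ E * R₀ * B.c / T) ≤ B'.o)
    (hCz : C'.z + κ * (finrank ℝ E / T) ≤ C.z) (hCp : C'.p + κ * (finrank ℝ E * R₀ / T) ≤ C.p) :
    Op v N X R P σ bd rb B C a (m + 1) :=
  (child.comp2 atm hp hz hrb).shift (pieceU (m := m + 1) S (child.comp2 atm hp hz hrb).Z κ)
    (fun c => by
      simp only [pieceU, LinearMap.neg_apply, LinearMap.smul_apply, LinearMap.comp_apply,
        ContinuousLinearMap.coe_coe]
      rw [Submodule.starProjection_eq_self_iff.2 (Submodule.starProjection_apply_mem Pᗮ c)])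
    (fun c i hi => by simp [pieceU, S.supp _ i hi])
    (fun c i => by
      set o := child.comp2 atm hp hz hrb
      set c' := Pᗮ.starProjection c
      have hy : ‖Pᗮ.starProjection (c' + seg v (o.Z c') a (m + 1))‖ ≤ ‖c'‖ :=
        (o.contr c').trans (Submodule.norm_starProjection_apply_le _ _)
      have hs := S.coef (Pᗮ.starProjection (c' + seg v (o.Z c') a (m + 1))) i
      have e : pieceU (m := m + 1) S o.Z κ c i
          = -(κ * S.Z (Pᗮ.starProjection (c' + seg v (o.Z c') a (m + 1))) i) := by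
        simp [pieceU, c']
      rw [e]
      refine (abs_add_le _ _).trans ?_
      rw [abs_neg, abs_mul, abs_of_nonneg hκ0]
      have h1 := o.coef c i
      have h2 : (finrank ℝ E : ℝ) * ‖Pᗮ.starProjection (c' + seg v (o.Z c') a (m + 1))‖ / T
          ≤ finrank ℝ E / T * ‖c'‖ := by
        rw [div_mul_eq_mul_div]; gcongr
      have := mul_le_mul_of_nonneg_left (hs.trans h2) hκ0
      nlinarith [mul_le_mul_of_nonneg_right hCz (norm_nonneg c')])
    (fun c k hk => by
      set o := child.comp2 atm hp hz hrb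
      set c' := Pᗮ.starProjection c
      set y := Pᗮ.starProjection (c' + seg v (o.Z c') a (m + 1))
      have hy : ‖y‖ ≤ ‖c'‖ := (o.contr c').trans (Submodule.norm_starProjection_apply_le _ _)
      have e : pieceU (m := m + 1) S o.Z κ c = -(κ • S.Z y) := by simp [pieceU, c', y]
      rw [e, seg_add, ← add_assoc, map_add]
      refine (norm_add_le _ _).trans ?_
      have e2 : seg v (-(κ • S.Z y)) a k = -(κ • seg v (S.Z y) a k) := by
        simpa using (segLin v a k).map_neg (κ • S.Z y)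
      rw [e2, map_neg, norm_neg, map_smul, norm_smul, Real.norm_eq_abs, abs_of_nonneg hκ0]
      have hs := (Submodule.norm_starProjection_apply_le Pᗮ _).trans (S.pref y k hk)
      have h2 : (finrank ℝ E : ℝ) * R₀ * ‖y‖ / T ≤ finrank ℝ E * R₀ / T * ‖c'‖ := by
        rw [div_mul_eq_mul_div]; gcongr
      have h1 : ‖Pᗮ.starProjection (c + seg v (o.Z c) a k)‖ ≤ C'.p * ‖c'‖ := o.pref c k hk
      nlinarith [mul_le_mul_of_nonneg_left (hs.trans h2) hκ0,
        mul_le_mul_of_nonneg_right hCp (norm_nonneg c')])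
    (fun c => by
      set o := child.comp2 atm hp hz hrb
      set c' := Pᗮ.starProjection c
      set y := Pᗮ.starProjection (c' + seg v (o.Z c') a (m + 1))
      have e : pieceU (m := m + 1) S o.Z κ c = -(κ • S.Z y) := by simp [pieceU, c', y]
      have ey : Pᗮ.starProjection (c + seg v (o.Z c) a (m + 1)) = y := by
        simp only [y, c']
        rw [map_add, map_add, ← o.dep c,
          Submodule.starProjection_eq_self_iff.2 (Submodule.starProjection_apply_mem Pᗮ c)]
      have e2 : seg v (-(κ • S.Z y)) a (m + 1) = -(κ • seg v (S.Z y) a (m + 1)) := by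
        simpa using (segLin v a (m + 1)).map_neg (κ • S.Z y)
      rw [e, seg_add, ← add_assoc, map_add, ey, e2, map_neg, map_smul, S.hit,
        show Pᗮ.starProjection y = y from
          Submodule.starProjection_eq_self_iff.2 (Submodule.starProjection_apply_mem Pᗮ _),
        show y + -(κ • y) = (1 - κ) • y by module, norm_smul, Real.norm_eq_abs,
        abs_of_nonneg (by linarith)]
      have hy : ‖y‖ ≤ ‖c'‖ := (o.contr c').trans (Submodule.norm_starProjection_apply_le _ _)
      nlinarith [norm_nonneg y])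
    (fun s hs => by
      set o := child.comp2 atm hp hz hrb
      set c' := Pᗮ.starProjection s.2.2.1
      set y := Pᗮ.starProjection (c' + seg v (o.Z c') a (m + 1))
      have e : pieceU (m := m + 1) S o.Z κ s.2.2.1 = -(κ • S.Z y) := by simp [pieceU, c', y]
      have hy : ‖y‖ ≤ B.c :=
        ((o.contr c').trans (Submodule.norm_starProjection_apply_le _ _)).trans hs.mean
      have hN : m + 1 ≤ N := atm.leN
      refine ⟨hs.mean.trans hc, fun i hi => ?_, fun k hk => ?_⟩ <;>
        simp only [shiftSeed_apply, map_add, e]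
      · rw [Pi.add_apply, ext_res _ ((Finset.mem_Ico.1 hi).2.trans_le hN)]
        refine (abs_add_le _ _).trans ?_
        rw [Pi.neg_apply, Pi.smul_apply, smul_eq_mul, abs_neg, abs_mul, abs_of_nonneg hκ0]
        refine (add_le_add (hs.shift i hi) (mul_le_mul_of_nonneg_left ((S.coef y i).trans ?_) hκ0)).trans hα
        gcongr
      · rw [seg_add, seg_ext_res v _ ((Finset.mem_Icc.1 hk).2.trans hN), ← add_assoc]
        refine (norm_add_le _ _).trans ?_
        have e2 : seg v (-(κ • S.Z y)) a k = -(κ • seg v (S.Z y) a k) := by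
          simpa using (segLin v a k).map_neg (κ • S.Z y)
        rw [e2, norm_neg, norm_smul, Real.norm_eq_abs, abs_of_nonneg hκ0]
        refine (add_le_add (hs.drift k hk) (mul_le_mul_of_nonneg_left ((S.pref y k hk).trans ?_) hκ0)).trans ho
        gcongr)

lemma Op.piece_end {R₀ T : ℝ} {a m : ℕ} {B' : Bd} {C' : ZB}
    (child : Op v N X R P σ bd rb B' C' a m) (atm : Op v N X R P σ bd rb B' C' m (m + 1))
    (S : Steer v R₀ T a (m + 1) P) {κ : ℝ} (hκ0 : 0 ≤ κ) (hκ1 : κ ≤ 1)
    (hp : 1 ≤ C'.p) (hz : 0 ≤ C'.z) (hrb : 0 ≤ rb) (hT : 0 < T) (hR : 0 ≤ R₀)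
    (hc : B.c ≤ B'.c) (hα : B.α + κ * (finrank ℝ E * B.c / T) ≤ B'.α)
    (ho : B.o + κ * (finrank ℝ E * R₀ * B.c / T) ≤ B'.o)
    (hCz : C'.z + κ * (finrank ℝ E / T) ≤ C.z) (hCp : C'.p + κ * (finrank ℝ E * R₀ / T) ≤ C.p)
    (c : E) :
    ‖Pᗮ.starProjection (c + seg v
        ((Op.piece (B := B) (C := C) child atm S hκ0 hκ1 hp hz hrb hT hR hc hα ho hCz hCp).Z c) a (m + 1))‖
      ≤ (1 - κ) * ‖Pᗮ.starProjection c‖ := by
  set o := child.comp2 atm hp hz hrb
  set c' := Pᗮ.starProjection c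
  set y := Pᗮ.starProjection (c' + seg v (o.Z c') a (m + 1))
  have e : pieceU (m := m + 1) S o.Z κ c = -(κ • S.Z y) := by simp [pieceU, c', y]
  have ey : Pᗮ.starProjection (c + seg v (o.Z c) a (m + 1)) = y := by
    simp only [y, c']
    rw [map_add, map_add, ← o.dep c,
      Submodule.starProjection_eq_self_iff.2 (Submodule.starProjection_apply_mem Pᗮ c)]
  have e2 : seg v (-(κ • S.Z y)) a (m + 1) = -(κ • seg v (S.Z y) a (m + 1)) := by
    simpa using (segLin v a (m + 1)).map_neg (κ • S.Z y)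
  show ‖Pᗮ.starProjection (c + seg v ((o.Z + pieceU (m := m + 1) S o.Z κ) c) a (m + 1))‖ ≤ _
  rw [LinearMap.add_apply, e, seg_add, ← add_assoc, map_add, ey, e2, map_neg, map_smul, S.hit,
    show Pᗮ.starProjection y = y from
      Submodule.starProjection_eq_self_iff.2 (Submodule.starProjection_apply_mem Pᗮ _),
    show y + -(κ • y) = (1 - κ) • y by module, norm_smul, Real.norm_eq_abs,
    abs_of_nonneg (by linarith)]
  exact mul_le_mul_of_nonneg_left
    ((o.contr c').trans (Submodule.norm_starProjection_apply_le _ _)) (by linarith)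

end Vale.Agent.P262.Sig
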