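import Vale.Agent.P262.SigLong

/-!
Bounds for the shift maps of a long node.
-/

namespace Vale.Agent.P262.Sig

open MeasureTheory ProbabilityTheory Set Module
open scoped RealInnerProductSpace

set_option linter.unusedSectionVars false

lemma small_pref (d r : ℕ) (_hr : r < d) :
    (((Cdn d r 1).p + 2) * ((d : ℝ) * pT d) ≤ (Dp d ^ 12)⁻¹) ∧
      pη d * pz d * d * ((d : ℝ) * pT d) * pR d ≤ (Dp d ^ 12)⁻¹ := by
  have h0 := Dp_pos d
  have h1 := nat_le_Dp d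
  have h2 := Dp_ge d
  have hp : (Cdn d r 1).p + 2 ≤ Dp d := by
    have hr' : (0 : ℝ) ≤ r := r.cast_nonneg
    simp only [Cdn]; push_cast; linarith
  have hd : (d : ℝ) ≤ Dp d := by linarith
  have hT : (d : ℝ) * pT d ≤ (Dp d ^ 44)⁻¹ := by
    refine (mul_le_mul_of_nonneg_right hd (pT_pos d).le).trans (le_of_eq ?_)
    unfold pT; field_simp
  constructor
  · refine (mul_le_mul hp hT (mul_nonneg d.cast_nonneg (pT_pos d).le) h0.le).trans ?_
    calc Dp d * (Dp d ^ 44)⁻¹ = (Dp d ^ 43)⁻¹ := by field_simp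
      _ ≤ _ := inv_anti₀ (pow_pos h0 _) (Dp_pow_le d (by norm_num))
  · have : pη d * pz d * d * ((d : ℝ) * pT d) * pR d
        ≤ (Dp d ^ 2)⁻¹ * Dp d ^ 20 * Dp d * (Dp d ^ 44)⁻¹ * Dp d ^ 10 := by
      simp only [pη, pz, pR]
      have := pT_pos d
      gcongr
    refine this.trans ?_
    calc (Dp d ^ 2)⁻¹ * Dp d ^ 20 * Dp d * (Dp d ^ 44)⁻¹ * Dp d ^ 10 = (Dp d ^ 15)⁻¹ := by
          field_simp
      _ ≤ _ := inv_anti₀ (pow_pos h0 _) (Dp_pow_le d (by norm_num))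

variable {E : Type} [NormedAddCommGroup E] [InnerProductSpace ℝ E] [FiniteDimensional ℝ E]
  [MeasurableSpace E] [BorelSpace E]

namespace Long

variable {v : ℕ → E} {N : ℕ} {X R P L : Submodule ℝ E} {σ : ℝ} {d r x a b : ℕ} {e₀ e₁ e₂ : ℝ}
  (D : Long v N X R P L σ d r x a b e₀ e₁ e₂)

lemma seg_Zb_after {j : ℕ} (hj : j ≤ D.J) (c : E) {i : ℕ} (hi : D.k (j + 1) ≤ i) :
    seg v (D.Zb j c) (D.k j) i = seg v (D.Zb j c) (D.k j) (D.k (j + 1)) := by
  rw [seg_append' v _ (D.k_le hj) hi,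
    seg_zero_of (a := D.k (j + 1)) (fun l hl => D.Zb_supp hj c (by
      simp only [Finset.mem_Ico] at hl ⊢; omega)), add_zero]

lemma seg_Zb_norm {j : ℕ} (hj : j ≤ D.J) (c : E) {i : ℕ} (hi : D.k j ≤ i) :
    ‖seg v (D.Zb j c) (D.k j) i‖ ≤ ((Cdn d r 1).p + 2) * ‖Lᗮ.starProjection c‖ := by
  obtain ⟨hz0, hz, hp1, hp, hR⟩ := D.sizes
  set M := ‖Lᗮ.starProjection c‖
  have hM : 0 ≤ M := norm_nonneg _
  have key : ∀ i ∈ Finset.Icc (D.k j) (D.k (j + 1)),
      ‖seg v (D.Zb j c) (D.k j) i‖ ≤ ((Cdn d r 1).p + 2) * M := by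
    intro i hi
    have fast : ∀ l ∈ Finset.Icc (D.k j) (D.k (j + 1)),
        ‖Lᗮ.starProjection (seg v (D.Zb j c) (D.k j) l)‖ ≤ ((Cdn d r 1).p + 1) * M := by
      intro l hl
      have h := D.Zb_pref hj c hl
      rw [map_add] at h
      have := norm_le_add_norm_add (Lᗮ.starProjection (seg v (D.Zb j c) (D.k j) l))
        (Lᗮ.starProjection c)
      rw [add_comm] at h
      linarith
    have hn := D.node.mono (pR_pos d).le (D.le_k (hj.trans (Nat.le_succ _)))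
      (D.k_le_b (Nat.succ_le_succ hj)) (D.k_le hj)
    have hs := slow_scale D.hv hn (pT_pos d).le hR (M := M) hM
      (fun l _ => (D.Zb_coef hj c l).trans (by nlinarith))
      (fun l hl => (fast l hl).trans (by nlinarith)) i hi
    have h1 : (finrank ℝ L : ℝ) * pT d ≤ 1 := by
      have h2 : (finrank ℝ L : ℝ) ≤ finrank ℝ E := by exact_mod_cast L.finrank_le
      have h3 : (finrank ℝ E : ℝ) * pT d ≤ 1 := by
        rw [show (finrank ℝ E : ℝ) = d by exact_mod_cast D.hd]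
        refine le_trans (mul_le_mul_of_nonneg_left (inv_anti₀ (Dp_pos d)
          (le_self_pow₀ (one_le_Dp d) (by norm_num))) d.cast_nonneg) ?_
        rw [← div_eq_mul_inv, div_le_one (Dp_pos d)]
        linarith [nat_le_Dp d, Dp_pos d]
      exact (mul_le_mul_of_nonneg_right h2 (pT_pos d).le).trans h3
    rw [← Submodule.starProjection_add_starProjection_orthogonal (K := L)
      (seg v (D.Zb j c) (D.k j) i)]
    refine (norm_add_le _ _).trans ?_
    nlinarith [fast i hi]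
  rcases le_total i (D.k (j + 1)) with h | h
  · exact key i (Finset.mem_Icc.2 ⟨hi, h⟩)
  · rw [D.seg_Zb_after hj c h]
    exact key _ (Finset.mem_Icc.2 ⟨D.k_le hj, le_rfl⟩)

lemma fix_spec : (∀ c, D.fix c ∈ Lᗮ) ∧ (∀ c, D.fix c = D.fix (Pᗮ.starProjection c)) ∧
    (∀ c, ‖D.fix c‖ ≤ (d : ℝ) * pT d * ‖Pᗮ.starProjection c‖) ∧
    ∀ c, ‖Pᗮ.starProjection (L.starProjection c + D.ell 0 c - D.ell 0 (D.fix c) + D.fix c)‖
      ≤ ‖Pᗮ.starProjection c‖ :=
  D.exists_fix.choose_spec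

lemma seg_a (z : ℕ → ℝ) (i : ℕ) : seg v z a i = seg v z (D.k 0) i :=
  congrArg (fun s => seg v z s i) D.k_zero.symm

include D in
lemma norm_perp_le (c : E) : ‖Lᗮ.starProjection c‖ ≤ ‖Pᗮ.starProjection c‖ := by
  rw [← Submodule.starProjection_comp_starProjection_of_le (Submodule.orthogonal_le D.hPL),
    ContinuousLinearMap.comp_apply]
  exact Submodule.norm_starProjection_apply_le _ _

lemma U₀_apply (c : E) : D.U₀ c = -D.Zb 0 (D.fix c) := by simp [U₀, Zb]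

lemma U₀_coef (c : E) (i : ℕ) :
    |D.U₀ c i| ≤ (Cdn d r 1).z * ((d : ℝ) * pT d) * ‖Pᗮ.starProjection c‖ := by
  rw [D.U₀_apply, Pi.neg_apply, abs_neg, mul_assoc]
  exact (D.Zb_coef (Nat.zero_le _) _ i).trans (mul_le_mul_of_nonneg_left
    ((Submodule.norm_starProjection_apply_le _ _).trans (D.fix_spec.2.2.1 c)) D.sizes.1)

lemma U₀_seg (c : E) {i : ℕ} (hi : a ≤ i) :
    ‖seg v (D.U₀ c) a i‖ ≤ (Dp d ^ 12)⁻¹ * ‖Pᗮ.starProjection c‖ := by
  have h := D.seg_Zb_norm (Nat.zero_le _) (D.fix c) (le_of_eq_of_le D.k_zero hi)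
  rw [← D.seg_a] at h
  have e : seg v (-D.Zb 0 (D.fix c)) a i = -seg v (D.Zb 0 (D.fix c)) a i :=
    (segLin v a i).map_neg _
  rw [D.U₀_apply, e, norm_neg]
  refine h.trans ?_
  have hp : 0 ≤ (Cdn d r 1).p + 2 := by linarith [D.sizes.2.2.1]
  refine (mul_le_mul_of_nonneg_left ((Submodule.norm_starProjection_apply_le _ _).trans
    (D.fix_spec.2.2.1 c)) hp).trans ?_
  rw [← mul_assoc]
  exact mul_le_mul_of_nonneg_right (small_pref d r D.hrd).1 (norm_nonneg _)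

/-- The shift map of the whole node. -/
noncomputable def Z : E →ₗ[ℝ] (ℕ → ℝ) := D.op₀.Z + D.U₀

lemma Z_apply (c : E) : D.Z c = D.Zb 0 c - D.Zb 0 (D.fix c) := by
  simp [Z, U₀, Zb, sub_eq_add_neg]

lemma Z_supp (c : E) {i : ℕ} (hi : i ∉ Finset.Ico a (D.k 1)) : D.Z c i = 0 := by
  have hk := D.k_zero
  have hi' : i ∉ Finset.Ico (D.k 0) (D.k (0 + 1)) := by
    simp only [Finset.mem_Ico, zero_add] at hi ⊢; omega
  rw [D.Z_apply, Pi.sub_apply, D.Zb_supp (Nat.zero_le _) c hi',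
    D.Zb_supp (Nat.zero_le _) _ hi', sub_zero]

lemma Z_end (c : E) : c + seg v (D.Z c) a b
    = L.starProjection c + D.ell 0 c - D.ell 0 (D.fix c) + D.fix c := by
  have e : seg v (D.Z c) a b
      = seg v (D.Zb 0 c) a b - seg v (D.Zb 0 (D.fix c)) a b := by
    rw [D.Z_apply]; exact (segLin v a b).map_sub _ _
  have h : ∀ w, seg v (D.Zb 0 w) a b = D.ell 0 w - Lᗮ.starProjection w := fun w => by
    rw [D.seg_a, D.seg_Zb_after (Nat.zero_le _) w (D.k_le_b (Nat.succ_le_succ (Nat.zero_le _))), D.seg_Zb (Nat.zero_le _)]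
  have hc := Submodule.starProjection_add_starProjection_orthogonal (K := L) c
  rw [e, h, h, Submodule.starProjection_eq_self_iff.2 (D.fix_spec.1 c)]
  nth_rewrite 1 [← hc]
  abel

lemma u_norm (j : Fin D.r') : ‖D.u j‖ ≤ (d : ℝ) * pT d := by
  obtain ⟨hA, hL, -⟩ := D.w_spec.2.1 j
  have e : D.u j = L.starProjection (D.u j) :=
    (Submodule.starProjection_eq_self_iff.2 (D.u_mem j)).symm
  have h1 : 1 ≤ D.J + 1 := Nat.le_add_left _ _
  have hn := D.node.mono (pR_pos d).le (D.le_k h1) le_rfl (D.k_le_b h1)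
  rw [e]
  refine (hn _ hA).trans (mul_le_mul_of_nonneg_right ?_ (pT_pos d).le)
  have h := L.finrank_le
  rw [D.hd] at h
  exact_mod_cast h

lemma W₁_apply (g : E) : D.W₁ g
    = -D.Zb 1 (ContinuousLinearMap.adjoint (D.ell D.J) (L.starProjection g))
      - (pη d * pz d) • ∑ j, ⟪D.u j, g⟫ • D.w j := by
  simp [W₁, LinearMap.sum_apply]

lemma adj_norm (g : E) :
    ‖ContinuousLinearMap.adjoint (D.ell D.J) (L.starProjection g)‖ ≤ (d : ℝ) * pT d * ‖g‖ := by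
  refine ((ContinuousLinearMap.adjoint (D.ell D.J)).le_opNorm _).trans ?_
  rw [LinearIsometryEquiv.norm_map]
  exact mul_le_mul (ContinuousLinearMap.opNorm_le_bound _ (mul_nonneg d.cast_nonneg (pT_pos d).le)
    fun c => (D.ell_norm le_rfl c).trans (mul_le_mul_of_nonneg_left
      (Submodule.norm_starProjection_apply_le _ _) (mul_nonneg d.cast_nonneg (pT_pos d).le)))
    (Submodule.norm_starProjection_apply_le _ _) (norm_nonneg _)
    (mul_nonneg d.cast_nonneg (pT_pos d).le)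

lemma W₁_bounds (g : E) :
    (∀ i, |D.W₁ g i| ≤ 2 * (Dp d ^ 12)⁻¹ * ‖g‖) ∧
      (∀ i, i ∉ Finset.Ico (D.k 1) b → D.W₁ g i = 0) ∧
      ∀ i ∈ Finset.Icc (D.k 1) b, ‖seg v (D.W₁ g) (D.k 1) i‖ ≤ 2 * (Dp d ^ 12)⁻¹ * ‖g‖ := by
  have hJ1 : 1 ≤ D.J := (by omega : 1 ≤ 2).trans D.hJ
  set t := ContinuousLinearMap.adjoint (D.ell D.J) (L.starProjection g)
  have ht : ‖t‖ ≤ (d : ℝ) * pT d * ‖g‖ := D.adj_norm g
  obtain ⟨hsm1, hsm2⟩ := small_pref d r D.hrd
  have hk0 : 0 ≤ pη d * pz d := mul_nonneg (pη_pos d).le (pow_nonneg (Dp_pos d).le _)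
  have hu : ∀ j, |⟪D.u j, g⟫| ≤ (d : ℝ) * pT d * ‖g‖ := fun j =>
    (abs_real_inner_le_norm _ _).trans (mul_le_mul_of_nonneg_right (D.u_norm j) (norm_nonneg _))
  have hr' : (D.r' : ℝ) ≤ d := by exact_mod_cast D.w_spec.1.trans D.hd.le
  have hdT : 0 ≤ (d : ℝ) * pT d := mul_nonneg d.cast_nonneg (pT_pos d).le
  have hR1 : (1 : ℝ) ≤ pR d := one_le_pow₀ (one_le_Dp d)
  have second : ∀ (y : Fin D.r' → ℝ), (∀ j, 0 ≤ y j) → (∀ j, y j ≤ pR d) →
      pη d * pz d * ∑ j, |⟪D.u j, g⟫| * y j ≤ (Dp d ^ 12)⁻¹ * ‖g‖ := by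
    intro y hy0 hy
    have h : ∑ j, |⟪D.u j, g⟫| * y j ≤ (d : ℝ) * ((d : ℝ) * pT d * ‖g‖ * pR d) := by
      refine (Finset.sum_le_card_nsmul _ _ ((d : ℝ) * pT d * ‖g‖ * pR d) fun j _ =>
        mul_le_mul (hu j) (hy j) (hy0 j) (by positivity)).trans ?_
      rw [Finset.card_univ, Fintype.card_fin, nsmul_eq_mul]
      exact mul_le_mul_of_nonneg_right hr' (by positivity)
    refine (mul_le_mul_of_nonneg_left h hk0).trans (le_of_eq_of_le ?_
      (mul_le_mul_of_nonneg_right hsm2 (norm_nonneg g)))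
    ring
  refine ⟨fun i => ?_, fun i hi => ?_, fun i hi => ?_⟩
  · rw [D.W₁_apply]
    refine (abs_sub _ _).trans ?_
    simp only [Pi.neg_apply, abs_neg, Pi.smul_apply, smul_eq_mul, abs_mul, abs_of_nonneg hk0,
      Finset.sum_apply]
    have h1 : |D.Zb 1 t i| ≤ (Dp d ^ 12)⁻¹ * ‖g‖ := by
      refine (D.Zb_coef hJ1 t i).trans ?_
      have hz : (Cdn d r 1).z ≤ (Cdn d r 1).p + 2 := by linarith [D.sizes.2.1, D.sizes.2.2.1]
      refine (mul_le_mul hz ((Submodule.norm_starProjection_apply_le _ _).trans ht) (norm_nonneg _)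
        (by linarith [D.sizes.2.2.1])).trans ?_
      rw [← mul_assoc]
      exact mul_le_mul_of_nonneg_right hsm1 (norm_nonneg _)
    have h2 := second (fun _ => 1) (fun _ => zero_le_one) (fun _ => hR1)
    have h3 : |∑ j, ⟪D.u j, g⟫ * D.w j i| ≤ ∑ j, |⟪D.u j, g⟫| * 1 := by
      refine (Finset.abs_sum_le_sum_abs _ _).trans (Finset.sum_le_sum fun j _ => ?_)
      rw [abs_mul]
      refine mul_le_mul_of_nonneg_left ?_ (abs_nonneg _)
      by_cases hi : i ∈ Finset.Ico (D.k 1) b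
      · exact ((D.w_spec.2.1 j).1.1 i hi).trans (by norm_num)
      · simp [(D.w_spec.2.1 j).2.2 i hi]
    have h4 := mul_le_mul_of_nonneg_left h3 hk0
    linarith
  · rw [D.W₁_apply]
    have h1 : D.Zb 1 t i = 0 := D.Zb_supp hJ1 t (by
      have := D.k_le_b (j := 1 + 1) (by omega)
      simp only [Finset.mem_Ico] at hi ⊢; omega)
    have h2 : ∀ j, D.w j i = 0 := fun j => (D.w_spec.2.1 j).2.2 i hi
    simp [t, h1, h2]
  · rw [D.W₁_apply]
    have e : seg v (-D.Zb 1 t - (pη d * pz d) • ∑ j, ⟪D.u j, g⟫ • D.w j) (D.k 1) i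
        = -seg v (D.Zb 1 t) (D.k 1) i
          - (pη d * pz d) • ∑ j, ⟪D.u j, g⟫ • seg v (D.w j) (D.k 1) i := by
      show segLin v (D.k 1) i _ = _
      simp only [map_sub, map_neg, map_smul, map_sum]
      rfl
    rw [e]
    refine (norm_sub_le _ _).trans ?_
    rw [norm_neg, norm_smul, Real.norm_eq_abs, abs_of_nonneg hk0]
    have h1 : ‖seg v (D.Zb 1 t) (D.k 1) i‖ ≤ (Dp d ^ 12)⁻¹ * ‖g‖ := by
      refine (D.seg_Zb_norm hJ1 t (Finset.mem_Icc.1 hi).1).trans ?_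
      refine (mul_le_mul_of_nonneg_left ((Submodule.norm_starProjection_apply_le _ _).trans ht)
        (by linarith [D.sizes.2.2.1])).trans ?_
      rw [← mul_assoc]
      exact mul_le_mul_of_nonneg_right hsm1 (norm_nonneg _)
    have h2 := second (fun j => ‖seg v (D.w j) (D.k 1) i‖) (fun _ => norm_nonneg _)
      (fun j => (D.w_spec.2.1 j).1.2 i hi)
    have h3 : ‖∑ j, ⟪D.u j, g⟫ • seg v (D.w j) (D.k 1) i‖
        ≤ ∑ j, |⟪D.u j, g⟫| * ‖seg v (D.w j) (D.k 1) i‖ :=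
      (norm_sum_le _ _).trans (Finset.sum_le_sum fun j _ => by rw [norm_smul, Real.norm_eq_abs])
    have h4 := mul_le_mul_of_nonneg_left h3 hk0
    linarith

lemma W₁_end (g : E) : seg v (D.W₁ g) (D.k 1) b
    = -D.ell 1 (ContinuousLinearMap.adjoint (D.ell D.J) (L.starProjection g))
      + Lᗮ.starProjection (ContinuousLinearMap.adjoint (D.ell D.J) (L.starProjection g))
      - (pη d * pz d) • ∑ j, ⟪D.u j, g⟫ • D.u j := by
  have hJ1 : 1 ≤ D.J := (by omega : 1 ≤ 2).trans D.hJ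
  have hJ := D.hJ
  rw [D.W₁_apply]
  show segLin v (D.k 1) b _ = _
  simp only [map_sub, map_neg, map_smul, map_sum, segLin_apply]
  rw [D.seg_Zb_after hJ1 _ (D.k_le_b (by omega)), D.seg_Zb hJ1, neg_sub]
  simp only [u]
  abel

end Long

end Vale.Agent.P262.Sig
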