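import Mathlib
import Vale.Agent.P262.Halves

/-!
One whole jump: mask heavy items, place, exchange at every new boundary.
-/

namespace Vale.Agent.P262

open Finset

variable {d N : ℕ}

/-- Bound carried for the corrected coordinates, halved. -/
noncomputable def cB : ℝ := 2 * cH + 2 * cN

/-- Bound for the band trace of two halves. -/
noncomputable def cK : ℝ := 2 * cN + 3

/-- The energy threshold for heavy items. -/
noncomputable def cθ : ℝ := (1 / (40 * (4 * √cN + √(2 * cH) + 1))) ^ 2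

/-- The covariance error constant. -/
noncomputable def cA : ℝ := 25 * (4 * √cN + √cH + 1)

/-- The output constant. -/
noncomputable def cS : ℝ :=
  2 * cH + (2 * cN + 3 + √cH + cK) + 2 * cN + (2 * cH + 128 * cA ^ 2 * cB)
    + (2 * cH + 48 * cB * cK) + (4 * cH + 96 * cB)

/-- The inverse of the smallness threshold. -/
noncomputable def cD : ℝ :=
  (2 + 4 * cA) + (4 * cA) ^ 2 + 25600 * cB + √(24 * cB) * (1 + √cA) + 1

lemma cH_nonneg : 0 ≤ cH := by norm_num [cH]

lemma cB_nonneg : 0 ≤ cB := by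
  have := cN_nonneg
  have := cH_nonneg
  unfold cB; positivity

lemma cA_nonneg : 0 ≤ cA := by unfold cA; positivity

lemma cK_nonneg : 0 ≤ cK := by
  have := cN_nonneg
  unfold cK; positivity

lemma cθ_pos : 0 < cθ := by
  unfold cθ; positivity

lemma cθ_spec : 4 * √(cN * cθ) + √(2 * cH * cθ) ≤ 1 / 40 := by
  have hN := cN_nonneg
  have hH := cH_nonneg
  have e : √cθ = 1 / (40 * (4 * √cN + √(2 * cH) + 1)) := Real.sqrt_sq (by positivity)
  rw [Real.sqrt_mul hN, Real.sqrt_mul (by positivity) cθ, e]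
  have hd : 0 < 4 * √cN + √(2 * cH) + 1 := by positivity
  have h1 : 4 * (√cN * (1 / (40 * (4 * √cN + √(2 * cH) + 1))))
      + √(2 * cH) * (1 / (40 * (4 * √cN + √(2 * cH) + 1)))
      = (4 * √cN + √(2 * cH)) / (40 * (4 * √cN + √(2 * cH) + 1)) := by ring
  rw [h1, div_le_div_iff₀ (by positivity) (by norm_num)]
  linarith

lemma cD_pos : 0 < cD := by
  have := cB_nonneg
  have := cA_nonneg
  unfold cD; positivity

lemma delta_spec (J : Jump d) (hδ : J.δ ≤ 1 / cD) :
    (2 + 4 * cA) * J.δ ≤ 1 ∧ 2 * cA * √J.δ ≤ 1 / 2 ∧ 16 * cB * J.δ ≤ (1 / 40) ^ 2 ∧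
      J.δ * √(24 * cB) * (1 + √cA) ≤ 1 := by
  have hB := cB_nonneg
  have hA := cA_nonneg
  have h0 := J.δ_pos
  rw [le_div_iff₀ cD_pos] at hδ
  have e1 : 0 ≤ (2 + 4 * cA) * J.δ := by positivity
  have e2 : 0 ≤ (4 * cA) ^ 2 * J.δ := by positivity
  have e3 : 0 ≤ 25600 * cB * J.δ := by positivity
  have e4 : 0 ≤ √(24 * cB) * (1 + √cA) * J.δ := by positivity
  simp only [cD] at hδ
  refine ⟨by linarith, ?_, by linarith, by linarith⟩
  have h1 : (4 * cA * √J.δ) ^ 2 ≤ 1 ^ 2 := by
    rw [mul_pow, Real.sq_sqrt h0.le]; linarith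
  have := (abs_le_of_sq_le_sq h1 zero_le_one)
  rw [abs_of_nonneg (by positivity)] at this
  linarith

lemma itp_sq_le (s : Finset (Fin d)) (c : Fin d → ℝ) (hc : ∀ j ∈ s, 0 ≤ c j) (S : Fin d → ℕ → ℝ)
    {B : ℝ} (hS : ∀ p, ∑ j ∈ s, c j * S j p ^ 2 ≤ B) {m : ℕ} (hm : 0 < m) (h : ℕ) :
    ∑ j ∈ s, c j * itp (S j) m h ^ 2 ≤ B := by
  set t : ℝ := ((h % m : ℕ) : ℝ) / m
  have t0 : 0 ≤ t := by positivity
  have t1 : t ≤ 1 := (div_le_one (by positivity)).2 (Nat.cast_le.2 (Nat.mod_lt h hm).le)
  have key : ∀ j ∈ s, c j * itp (S j) m h ^ 2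
      ≤ (1 - t) * (c j * S j (h / m) ^ 2) + t * (c j * S j (h / m + 1) ^ 2) := by
    intro j hj
    have e : itp (S j) m h = S j (h / m) + t * (S j (h / m + 1) - S j (h / m)) := rfl
    rw [e]
    have h1 : (S j (h / m) + t * (S j (h / m + 1) - S j (h / m))) ^ 2
        ≤ (1 - t) * S j (h / m) ^ 2 + t * S j (h / m + 1) ^ 2 := by
      nlinarith [mul_nonneg (mul_nonneg t0 (sub_nonneg.2 t1))
        (sq_nonneg (S j (h / m + 1) - S j (h / m)))]
    have := mul_le_mul_of_nonneg_left h1 (hc j hj)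
    linarith
  refine (sum_le_sum key).trans ?_
  rw [sum_add_distrib, ← mul_sum, ← mul_sum]
  have h1 := mul_le_mul_of_nonneg_left (hS (h / m)) (sub_nonneg.2 t1)
  have h2 := mul_le_mul_of_nonneg_left (hS (h / m + 1)) t0
  linarith

/-- Boundary base vector. -/
noncomputable def baseAt (hidx : Fin N → ℕ) (f : Fin N → ℝ) (c : ℕ) : ℝ :=
  (psum hidx f (2 * c - 1) + psum hidx f (2 * c + 1)) / 2

lemma baseAt_eq (pos hidx : Fin N → ℕ) (f : Fin N → ℝ) {L M c : ℕ} (hL : 0 < L) (h1 : 1 ≤ c)
    (h2 : c < M * L) :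
    baseAt hidx f c = itp (psum pos f) L c + kink pos f L M c
      + (gap pos hidx (2 * L) (2 * c - 1) f + gap pos hidx (2 * L) (2 * c + 1) f) / 2 := by
  have hm : 0 < 2 * L := by omega
  have e0 := itp_double (psum pos f) hL c
  have e1 := itp_succ (psum pos f) hm (2 * c)
  have e2 := itp_succ (psum pos f) hm (2 * c - 1)
  rw [show 2 * c - 1 + 1 = 2 * c by omega] at e2
  rw [psum_succ, add_sub_cancel_left] at e1 e2
  have d1 : 2 * c / (2 * L) = c / L := Nat.mul_div_mul_left _ _ two_pos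
  have d2 : (2 * c - 1) / (2 * L) = (c - 1) / L := by
    rw [← Nat.div_div_eq_div_mul]
    congr 1
    omega
  rw [d1] at e1
  rw [d2] at e2
  rw [kink, if_pos ⟨h1, h2⟩, baseAt]
  simp only [gap]
  push_cast at e1 e2
  have e3 : (nsum pos f (c / L) - nsum pos f ((c - 1) / L)) / (4 * (L : ℝ))
      = (nsum pos f (c / L) / (2 * (L : ℝ)) - nsum pos f ((c - 1) / L) / (2 * L)) / 2 := by ring
  rw [e3]
  linarith

lemma psum_pos' (hidx : Fin N → ℕ) (ε : Fin N → ℝ) (hε : ∀ i, ε i = 1 ∨ ε i = -1)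
    (f : Fin N → ℝ) {c : ℕ} (hc : 1 ≤ c) :
    psum (fun i => (hidx i + 1) / 2 - if ε i = 1 then 1 else 0) f c
      = baseAt hidx f c + (∑ i ∈ meet hidx c, ε i * f i) / 2 := by
  simp only [psum, meet, baseAt, sum_filter, ← sum_add_distrib, sum_div, add_div]
  refine sum_congr rfl fun i _ => ?_
  rcases lt_trichotomy ((hidx i + 1) / 2) c with h | h | h
  · rw [if_pos (by split <;> omega), if_pos (by omega), if_pos (by omega), if_neg (by omega)]
    ring
  · have a1 : ¬ hidx i < 2 * c - 1 := by omega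
    have a2 : hidx i < 2 * c + 1 := by omega
    rcases hε i with he | he
    · rw [if_pos (by rw [if_pos he]; omega), if_neg a1, if_pos a2, if_pos h, he]
      ring
    · rw [if_neg (by rw [if_neg (by rw [he]; norm_num)]; omega), if_neg a1, if_pos a2, if_pos h,
        he]
      ring
  · rw [if_neg (by split <;> omega), if_neg (by omega), if_neg (by omega), if_neg (by omega)]
    ring

lemma nsum_pos' (hidx : Fin N → ℕ) (ε : Fin N → ℝ) (hε : ∀ i, ε i = 1 ∨ ε i = -1)
    (h0 : ∀ i, (hidx i + 1) / 2 = 0 → ε i = -1) (f : Fin N → ℝ) (c : ℕ) :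
    nsum (fun i => (hidx i + 1) / 2 - if ε i = 1 then 1 else 0) f c
      = (∑ i ∈ meet hidx c, f i - ∑ i ∈ meet hidx c, ε i * f i) / 2
        + (∑ i ∈ meet hidx (c + 1), f i + ∑ i ∈ meet hidx (c + 1), ε i * f i) / 2 := by
  simp only [nsum, meet, sum_filter, ← sum_add_distrib, ← sum_sub_distrib, sum_div]
  refine sum_congr rfl fun i _ => ?_
  rcases hε i with he | he
  · have : (hidx i + 1) / 2 ≠ 0 := fun h => by have := h0 i h; rw [he] at this; norm_num at this
    simp only [he, if_true, one_mul]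
    by_cases h : (hidx i + 1) / 2 = c + 1
    · rw [if_pos (by omega), if_neg (by omega), if_pos h]
      ring
    · rw [if_neg (by omega), if_neg h]
      split <;> ring
  · have : ¬ ε i = 1 := by rw [he]; norm_num
    rw [if_neg this, Nat.sub_zero]
    simp only [he]
    split_ifs <;> first | omega | ring

set_option maxHeartbeats 2000000 in
/-- Every jump can be carried out. -/
theorem stepThm : StepThm := by
  classical
  refine ⟨cA, cH, cS, cθ, min 1 (1 / cD), cA_nonneg, cH_nonneg, ?_, cθ_pos,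
    lt_min one_pos (one_div_pos.2 cD_pos), min_le_left _ _, ?_⟩
  · have := cH_nonneg
    have := cN_nonneg
    have := cB_nonneg
    have := cK_nonneg
    unfold cS; positivity
  intro d N J hδ E M v pos w hE hin
  obtain ⟨hv, hsum, hpos, hw, he, hG, hcorr⟩ := hin
  obtain ⟨hd1, hd2, hd3, hd4⟩ := delta_spec J (hδ.trans (min_le_right _ _))
  have hA := cA_nonneg
  have hB := cB_nonneg
  have hH := cH_nonneg
  have hN := cN_nonneg
  have hθ := cθ_pos
  have hP := J.P_pos
  -- masking
  let qf : Fin N → ℝ := fun i => ∑ j ∈ J.low, J.ω j * w i j ^ 2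
  have hqf : ∀ i, 0 ≤ qf i := fun i =>
    sum_nonneg fun j _ => mul_nonneg (J.ω_nonneg j) (sq_nonneg _)
  let w' : Fin N → Fin d → ℝ := fun i j => if j ∈ J.low ∧ cθ * E < qf i then 0 else w i j
  have hw' : ∀ i, ∑ j ∈ J.low, J.ω j * w' i j ^ 2 = if cθ * E < qf i then 0 else qf i := by
    intro i
    by_cases h : cθ * E < qf i
    · rw [if_pos h]
      exact sum_eq_zero fun j hj => by simp [w', hj, h]
    · rw [if_neg h]
      exact sum_congr rfl fun j hj => by simp [w', h]
  have hq' : ∀ i, ∑ j ∈ J.low, J.ω j * w' i j ^ 2 ≤ cθ * E := by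
    intro i
    rw [hw']
    split
    · positivity
    · linarith
  have he' : ∀ p, ∑ i ∈ univ.filter (fun i => pos i = p), ∑ j ∈ J.low, J.ω j * w' i j ^ 2 ≤ E :=
    fun p => (sum_le_sum fun i _ => by rw [hw']; split <;> linarith [hqf i]).trans (he p)
  obtain ⟨hidx, hp⟩ := exists_placed J hA hd1 hθ.le hE M v w' pos hv hpos hG he' hq'
  set L := 2 ^ J.ℓ with hL
  have hL0 : 0 < L := Nat.two_pow_pos _
  set H := M * L with hH'
  have hHe : M * 2 ^ J.ℓ = H := rfl
  have hhl : ∀ i, hidx i < 2 * H := fun i => hp.hidx_lt hpos i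
  -- exchanges
  have hU : ∀ q, 1 ≤ q → q < H → ∀ f : Fin N → ℝ,
      ∑ i ∈ meet hidx q, f i = nsum hidx f (2 * q - 1) + nsum hidx f (2 * q) :=
    fun q h1 _ f => meet_sum hidx f h1
  have exch : ∀ q, ∃ ε : Fin N → ℝ, (∀ i, ε i = 1 ∨ ε i = -1) ∧ (1 ≤ q → q < H →
      (∑ j ∈ J.cor2, (baseAt hidx (v · j) q + (∑ i ∈ meet hidx q, ε i * v i j) / 2) ^ 2
          / J.q2 j ^ 4 ≤ cH) ∧
      (∑ j ∈ J.out, (baseAt hidx (v · j) q + (∑ i ∈ meet hidx q, ε i * v i j) / 2) ^ 2
          ≤ cH * J.out.card) ∧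
      (∀ θ : Fin d → ℝ, (∀ j ∉ J.hi, θ j = 0) →
        |∑ i ∈ meet hidx q, ε i * (∑ j, θ j * v i j) ^ 2| ≤ (√cH + 1) * ∑ j, J.U j * θ j ^ 2) ∧
      (|∑ i ∈ meet hidx q, ε i * ∑ j ∈ J.band, v i j ^ 2| ≤ (√cH + 1 / 40 * cK) * J.P ^ 6) ∧
      (|∑ i ∈ meet hidx q, ε i * ∑ j ∈ J.low, J.ω j * w' i j ^ 2|
          ≤ (√(2 * cH * cθ) + 2 * (1 / 40)) * E) ∧
      (∑ j ∈ J.gr, (∑ i ∈ meet hidx q, ε i * v i j) ^ 2
          ≤ (2 * cH + 128 * cA ^ 2 * cB) * J.P ^ 8) ∧
      (∑ j ∈ J.band, (∑ i ∈ meet hidx q, ε i * v i j) ^ 2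
          ≤ (2 * cH + 48 * cB * cK) * (J.band.card + J.P ^ 8)) ∧
      (∑ j ∈ J.low, J.ω j * (∑ i ∈ meet hidx q, ε i * w' i j) ^ 2
          ≤ (4 * cH + 96 * cB) * (J.P ^ 2 * E))) := by
    intro q
    by_cases hq : 1 ≤ q ∧ q < H
    swap
    · exact ⟨fun _ => 1, fun _ => Or.inl rfl, fun a b => absurd ⟨a, b⟩ hq⟩
    obtain ⟨h1, h2⟩ := hq
    have hcA : cA / (2 * a8) + 2 * √cN ≤ cA / 2 := by
      have := mul_le_mul_of_nonneg_left a8_inv_le (div_nonneg hA zero_le_two)
      rw [mul_one_div, div_div] at this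
      have : 0 ≤ √cH := Real.sqrt_nonneg _
      simp only [cA] at *
      linarith
    have hbase : ∑ j ∈ J.cor, baseAt hidx (v · j) q ^ 2 / J.q j ^ 4 ≤ cB * J.P ^ 2 := by
      have hc : ∀ j ∈ J.cor, 0 ≤ (J.q j ^ 4)⁻¹ := fun j _ =>
        inv_nonneg.2 (pow_nonneg (J.q_nonneg j) 4)
      have hS : ∀ p, ∑ j ∈ J.cor, (J.q j ^ 4)⁻¹ * psum pos (v · j) p ^ 2 ≤ cH := fun p =>
        le_trans (le_of_eq (sum_congr rfl fun j _ => by rw [div_eq_inv_mul])) (hcorr p)
      have hm : 0 < 2 * L := by omega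
      have i1 := itp_sq_le J.cor _ hc (fun j => psum pos (v · j)) hS hm (2 * q - 1)
      have i2 := itp_sq_le J.cor _ hc (fun j => psum pos (v · j)) hS hm (2 * q + 1)
      have g1 := hp.g_cor (2 * q - 1)
      have g2 := hp.g_cor (2 * q + 1)
      refine le_trans (sum_le_sum (g := fun j =>
        ((J.q j ^ 4)⁻¹ * itp (psum pos (v · j)) (2 * L) (2 * q - 1) ^ 2
        + (J.q j ^ 4)⁻¹ * itp (psum pos (v · j)) (2 * L) (2 * q + 1) ^ 2
        + gap pos hidx (2 * L) (2 * q - 1) (v · j) ^ 2 / J.q j ^ 4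
        + gap pos hidx (2 * L) (2 * q + 1) (v · j) ^ 2 / J.q j ^ 4)) fun j hj => ?_) ?_
      · have e : baseAt hidx (v · j) q = (itp (psum pos (v · j)) (2 * L) (2 * q - 1)
            + itp (psum pos (v · j)) (2 * L) (2 * q + 1)
            + gap pos hidx (2 * L) (2 * q - 1) (v · j)
            + gap pos hidx (2 * L) (2 * q + 1) (v · j)) / 2 := by
          simp only [baseAt, gap]; ring
        rw [e, div_eq_inv_mul _ (J.q j ^ 4), div_eq_inv_mul _ (J.q j ^ 4),
          div_eq_inv_mul _ (J.q j ^ 4), ← mul_add, ← mul_add, ← mul_add]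
        refine mul_le_mul_of_nonneg_left ?_ (hc j hj)
        set a := itp (psum pos (v · j)) (2 * L) (2 * q - 1)
        set b := itp (psum pos (v · j)) (2 * L) (2 * q + 1)
        set g := gap pos hidx (2 * L) (2 * q - 1) (v · j)
        set g' := gap pos hidx (2 * L) (2 * q + 1) (v · j)
        nlinarith [sq_nonneg (a - b), sq_nonneg (a - g), sq_nonneg (a - g'), sq_nonneg (b - g),
          sq_nonneg (b - g'), sq_nonneg (g - g')]
      · simp only [sum_add_distrib]
        have : cH ≤ cH * J.P ^ 2 := le_mul_of_one_le_right hH (one_le_pow₀ J.P_one_le)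
        simp only [cB]
        linarith
    obtain ⟨ε, hε, r1, r2, r3, r4, r5, r6, r7, r8⟩ := exchange J (meet hidx q) v w' hv
      (A := cA) (cB := cB) (η := 1 / 40) (θ₀ := cθ) (E := E) (Kb := cK) hA hd2 hB
      (by norm_num) (by norm_num) hd3 hd4 hE hθ.le
      (fun θ hθ' => by
        have a1 := hp.half_cov hA hG (h := 2 * q - 1) (by omega) θ hθ'
        have a2 := hp.half_cov hA hG (h := 2 * q) (by omega) θ hθ'
        rw [meet_sum hidx _ h1]
        have hS : 0 ≤ ∑ j, J.U j * θ j ^ 2 :=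
          sum_nonneg fun j _ => mul_nonneg (J.U_pos j).le (sq_nonneg _)
        have b := mul_le_mul_of_nonneg_right hcA hS
        obtain ⟨x1, y1⟩ := abs_le.1 a1
        obtain ⟨x2, y2⟩ := abs_le.1 a2
        rw [abs_le]
        constructor <;> linarith)
      (fun j => baseAt hidx (v · j) q) hbase
      (by
        have a1 := hp.half_band hA hd1 hpos hG (2 * q - 1)
        have a2 := hp.half_band hA hd1 hpos hG (2 * q)
        rw [meet_sum hidx _ h1]
        simp only [cK]
        linarith)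
      (by
        have a1 := hp.half_energy hE he' (2 * q - 1)
        have a2 := hp.half_energy hE he' (2 * q)
        rw [meet_sum hidx _ h1]
        have := mul_le_mul_of_nonneg_right cθ_spec hE
        have : 0 ≤ √(2 * cH * cθ) * E := by positivity
        linarith)
      (fun i _ => hq' i)
    exact ⟨ε, hε, fun _ _ => ⟨r1, r2, r3, r4, r5, r6, r7, r8⟩⟩
  choose εq hεq hx using exch
  let ε : Fin N → ℝ := fun i =>
    if (hidx i + 1) / 2 = 0 then -1
    else if H ≤ (hidx i + 1) / 2 then 1 else εq ((hidx i + 1) / 2) i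
  have hε : ∀ i, ε i = 1 ∨ ε i = -1 := by
    intro i
    simp only [ε]
    split
    · exact Or.inr rfl
    · split
      · exact Or.inl rfl
      · exact hεq _ i
  have hε0 : ∀ i, (hidx i + 1) / 2 = 0 → ε i = -1 := fun i h => if_pos h
  have hmeet : ∀ q, 1 ≤ q → q < H → ∀ f : Fin N → ℝ,
      ∑ i ∈ meet hidx q, ε i * f i = ∑ i ∈ meet hidx q, εq q i * f i := by
    intro q h1 h2 f
    refine sum_congr rfl fun i hi => ?_
    simp only [meet, mem_filter, mem_univ, true_and] at hi
    simp only [ε, hi, if_neg (show ¬ q = 0 by omega), if_neg (show ¬ H ≤ q by omega)]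
  let pos' : Fin N → ℕ := fun i => (hidx i + 1) / 2 - if ε i = 1 then 1 else 0
  have hpos' : ∀ i, pos' i < H := by
    intro i
    have := hhl i
    simp only [pos']
    by_cases h : H ≤ (hidx i + 1) / 2
    · have h0 : ¬ (hidx i + 1) / 2 = 0 := by omega
      have : ε i = 1 := by simp only [ε, if_neg h0, if_pos h]
      rw [if_pos this]; omega
    · split <;> omega
  -- both parts of a new child
  have out : ∀ f : Fin N → ℝ, ∀ q, q ≤ H →
      ∀ σ : ℝ, (σ = 1 ∨ σ = -1) → (q = 0 → σ = -1) → (q = H → σ = 1) →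
      ((∑ i ∈ meet hidx q, f i + σ * ∑ i ∈ meet hidx q, ε i * f i) / 2
        = if q = 0 then nsum hidx f 0 else if q = H then nsum hidx f (2 * H - 1)
          else (nsum hidx f (2 * q - 1) + nsum hidx f (2 * q)
            + σ * ∑ i ∈ meet hidx q, εq q i * f i) / 2) := by
    intro f q hq σ _ s0 sH
    by_cases h0 : q = 0
    · subst h0
      rw [if_pos rfl, s0 rfl, meet_zero]
      have : ∑ i ∈ meet hidx 0, ε i * f i = -∑ i ∈ meet hidx 0, f i := by
        rw [← sum_neg_distrib]
        refine sum_congr rfl fun i hi => ?_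
        simp only [meet, mem_filter, mem_univ, true_and] at hi
        rw [hε0 i hi, neg_one_mul]
      rw [this, meet_zero]
      ring
    rw [if_neg h0]
    by_cases hH2 : q = H
    · subst hH2
      rw [if_pos rfl, sH rfl, one_mul]
      have : ∑ i ∈ meet hidx H, ε i * f i = ∑ i ∈ meet hidx H, f i := by
        refine sum_congr rfl fun i hi => ?_
        simp only [meet, mem_filter, mem_univ, true_and] at hi
        simp only [ε, hi, if_neg h0, le_refl, if_true, one_mul]
      rw [this, meet_top hidx f hhl]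
      ring
    rw [if_neg hH2, hmeet q (by omega) (by omega), hU q (by omega) (by omega)]
  have outb : ∀ f : Fin N → ℝ, ∀ X B B' : ℝ, 0 ≤ B' → (∀ h, h < 2 * H → |nsum hidx f h - X| ≤ B) →
      (∀ q, 1 ≤ q → q < H → |∑ i ∈ meet hidx q, εq q i * f i| ≤ B') →
      ∀ c, c < H → |nsum pos' f c - 2 * X| ≤ 2 * B + B' := by
    intro f X B B' hB' hh hs c hc
    rw [nsum_pos' hidx ε hε hε0 f c]
    have a := out f c hc.le (-1) (Or.inr rfl) (fun _ => rfl) (fun h => absurd h (by omega))
    have b := out f (c + 1) hc 1 (Or.inl rfl) (fun h => absurd h (by omega)) (fun _ => rfl)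
    have a' : ∀ x y : ℝ, (x + -1 * y) / 2 = (x - y) / 2 := fun x y => by ring
    have b' : ∀ x y : ℝ, (x + 1 * y) / 2 = (x + y) / 2 := fun x y => by ring
    rw [a'] at a
    rw [b'] at b
    rw [a, b]
    have key : ∀ q σ, q ≤ H → (σ = (1 : ℝ) ∨ σ = -1) →
        |(if q = 0 then nsum hidx f 0 else if q = H then nsum hidx f (2 * H - 1)
          else (nsum hidx f (2 * q - 1) + nsum hidx f (2 * q)
            + σ * ∑ i ∈ meet hidx q, εq q i * f i) / 2) - X| ≤ B + B' / 2 := by
      intro q σ hq hσ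
      split
      · linarith [hh 0 (by omega)]
      split
      · linarith [hh (2 * H - 1) (by omega)]
      · obtain ⟨a1, a2⟩ := abs_le.1 (hh (2 * q - 1) (by omega))
        obtain ⟨b1, b2⟩ := abs_le.1 (hh (2 * q) (by omega))
        obtain ⟨c1, c2⟩ := abs_le.1 (hs q (by omega) (by omega))
        rw [abs_le]
        rcases hσ with h | h <;> rw [h] <;> constructor <;> linarith
    obtain ⟨a1, a2⟩ := abs_le.1 (key c (-1) hc.le (Or.inr rfl))
    obtain ⟨b1, b2⟩ := abs_le.1 (key (c + 1) 1 hc (Or.inl rfl))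
    rw [abs_le]
    constructor <;> linarith
  have empty : ∀ f : Fin N → ℝ, ∀ c, H ≤ c → nsum pos' f c = 0 := fun f c hc =>
    sum_eq_zero fun i hi => by
      simp only [mem_filter, mem_univ, true_and] at hi
      have := hpos' i
      omega
  have bd : ∀ f : Fin N → ℝ, ∀ c, bdev pos pos' f L M c = if 1 ≤ c ∧ c < H then
      (gap pos hidx (2 * L) (2 * c - 1) f + gap pos hidx (2 * L) (2 * c + 1) f) / 2
        + (∑ i ∈ meet hidx c, εq c i * f i) / 2 else 0 := by
    intro f c
    by_cases h : 1 ≤ c ∧ c < H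
    · rw [if_pos h, bdev]
      simp only [pos']
      rw [psum_pos' hidx ε hε f h.1, hmeet c h.1 h.2, baseAt_eq pos hidx f hL0 h.1 h.2]
      ring
    · rw [if_neg h, bdev, kink, if_neg (by rw [← hH']; exact h), sub_zero]
      rcases Nat.eq_zero_or_pos c with rfl | hc
      · simp [psum_zero, itp]
      · have hc' : H ≤ c := by omega
        have h1 : M ≤ c / L := (Nat.le_div_iff_mul_le hL0).2 hc'
        rw [psum_top pos' f hpos' hc', itp, psum_top pos f hpos h1,
          psum_top pos f hpos (Nat.le_succ_of_le h1)]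
        ring
  have bd2 : ∀ (s : Finset (Fin d)) (c : Fin d → ℝ) (F : Fin N → Fin d → ℝ) (G K : ℝ),
      (∀ j ∈ s, 0 ≤ c j) → 0 ≤ G → 0 ≤ K →
      (∀ h, ∑ j ∈ s, c j * gap pos hidx (2 * L) h (F · j) ^ 2 ≤ G) →
      (∀ q, 1 ≤ q → q < H → ∑ j ∈ s, c j * (∑ i ∈ meet hidx q, εq q i * F i j) ^ 2 ≤ K) →
      ∀ q, ∑ j ∈ s, c j * bdev pos pos' (F · j) L M q ^ 2 ≤ 2 * G + K := by
    intro s c F G K hc hG0 hK hg hk q
    by_cases h : 1 ≤ q ∧ q < H
    · simp only [bd, if_pos h]
      refine (sum_le_sum (g := fun j => (c j * gap pos hidx (2 * L) (2 * q - 1) (F · j) ^ 2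
        + c j * gap pos hidx (2 * L) (2 * q + 1) (F · j) ^ 2)
        + c j * (∑ i ∈ meet hidx q, εq q i * F i j) ^ 2) fun j hj => ?_).trans ?_
      · rw [← mul_add, ← mul_add]
        refine mul_le_mul_of_nonneg_left ?_ (hc j hj)
        set a := gap pos hidx (2 * L) (2 * q - 1) (F · j)
        set b := gap pos hidx (2 * L) (2 * q + 1) (F · j)
        set e := ∑ i ∈ meet hidx q, εq q i * F i j
        nlinarith [sq_nonneg (a - b), sq_nonneg (a + b - 2 * e), sq_nonneg (a - e),
          sq_nonneg (b - e)]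
      · rw [sum_add_distrib, sum_add_distrib]
        linarith [hg (2 * q - 1), hg (2 * q + 1), hk q h.1 h.2]
    · simp only [bd, if_neg h, zero_pow two_ne_zero, mul_zero, sum_const_zero]
      positivity
  refine ⟨pos', w', ?_⟩
  refine ⟨hpos', fun i => ?_, fun i j hj => ?_, fun p e he2 => ?_, fun c => ?_, fun c => ?_,
    fun c hc θ hθ' => ?_, fun c => ?_, fun c => ?_, ?_, ?_, ?_⟩
  · -- window
    have h1 := hp.div_eq i
    rw [← hL] at h1
    obtain ⟨h3, h4⟩ := (Nat.div_eq_iff (by omega)).1 h1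
    simp only [pos', ← hL]
    rw [show pos i * (2 * L) = 2 * (L * pos i) by ring] at h3 h4
    constructor <;> split <;> omega
  · rw [← hw i j hj]
    simp [w', hj]
  · -- removed items
    set hs := (univ.filter (fun i => pos i = p)).filter (fun i => cθ * E < qf i) with hhs
    have hsum1 : ∑ i ∈ hs, qf i ≤ E :=
      (sum_le_sum_of_subset_of_nonneg (filter_subset _ _) fun i _ _ => hqf i).trans (he p)
    have hcard : (hs.card : ℝ) * (cθ * E) ≤ E := by
      refine le_trans ?_ hsum1
      rw [← nsmul_eq_mul, ← sum_const]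
      exact sum_le_sum fun i hi => ((mem_filter.1 hi).2).le
    have key : ∑ j ∈ J.low, J.ω j
        * (∑ i ∈ univ.filter (fun i => pos i = p), e i * (w i j - w' i j)) ^ 2
        ≤ (hs.card : ℝ) * E := by
      calc ∑ j ∈ J.low, J.ω j
            * (∑ i ∈ univ.filter (fun i => pos i = p), e i * (w i j - w' i j)) ^ 2
          ≤ ∑ j ∈ J.low, J.ω j * ((hs.card : ℝ) * ∑ i ∈ hs, w i j ^ 2) := by
            refine sum_le_sum fun j hj => mul_le_mul_of_nonneg_left ?_ (J.ω_nonneg j)
            rw [← sum_filter_add_sum_filter_not (univ.filter (fun i => pos i = p))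
              (fun i => cθ * E < qf i), ← hhs,
              sum_eq_zero (s := (univ.filter (fun i => pos i = p)).filter
                (fun i => ¬ cθ * E < qf i)) fun i hi => by
                simp [w', (mem_filter.1 hi).2], add_zero]
            refine (sq_sum_le_card_mul_sum_sq).trans ?_
            refine mul_le_mul_of_nonneg_left (sum_le_sum fun i hi => ?_) (Nat.cast_nonneg _)
            rw [mul_pow]
            have h1 : w' i j = 0 := by simp [w', hj, (mem_filter.1 hi).2]
            rw [h1, sub_zero]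
            exact mul_le_of_le_one_left (sq_nonneg _)
              ((sq_le_one_iff_abs_le_one _).2 (he2 i))
        _ = (hs.card : ℝ) * ∑ i ∈ hs, qf i := by
            simp only [qf]
            rw [sum_comm]
            simp only [mul_sum]
            exact sum_congr rfl fun j _ => sum_congr rfl fun i _ => by ring
        _ ≤ _ := mul_le_mul_of_nonneg_left hsum1 (Nat.cast_nonneg _)
    refine key.trans ?_
    rw [le_div_iff₀ hθ]
    rcases hs.eq_empty_or_nonempty with h | ⟨i, hi⟩
    · rw [h]; simp [hE]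
    · linarith [hcard]
  · -- energy
    rcases lt_or_ge c H with hc | hc
    · have hz : (0 : ℝ) ≤ (√(2 * cH * cθ) + 2 * (1 / 40)) * E := by positivity
      have := outb (fun i => ∑ j ∈ J.low, J.ω j * w' i j ^ 2) 0 ((1 / 4 + 2 * √(cN * cθ)) * E) _ hz
        (fun h _ => by
          rw [sub_zero, nsum, abs_of_nonneg (sum_nonneg fun i _ => sum_nonneg fun j _ =>
            mul_nonneg (J.ω_nonneg j) (sq_nonneg _))]
          exact hp.half_energy hE he' h)
        (fun q a b => (hx q a b).2.2.2.2.1) c hc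
      have := (abs_le.1 this).2
      have := mul_le_mul_of_nonneg_right cθ_spec hE
      have : 0 ≤ √(2 * cH * cθ) * E := by positivity
      simp only [nsum] at *
      linarith
    · have := empty (fun i => ∑ j ∈ J.low, J.ω j * w' i j ^ 2) c hc
      simp only [nsum] at this
      rw [this]; positivity
  · -- band energy
    rcases lt_or_ge c H with hc | hc
    · have hz : (0 : ℝ) ≤ (√cH + 1 / 40 * cK) * J.P ^ 6 := by
        have := cK_nonneg
        positivity
      have := outb (fun i => ∑ j ∈ J.band, v i j ^ 2) 0 ((cN + 3 / 2) * J.P ^ 6) _ hz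
        (fun h _ => by
          rw [sub_zero, nsum, abs_of_nonneg (sum_nonneg fun i _ => sum_nonneg fun j _ => sq_nonneg _)]
          exact hp.half_band hA hd1 hpos hG h)
        (fun q a b => (hx q a b).2.2.2.1) c hc
      have := (abs_le.1 this).2
      have h1 : (0 : ℝ) ≤ J.P ^ 6 := by positivity
      have h2 := cK_nonneg
      have h3 := mul_le_mul_of_nonneg_right (show 2 * (cN + 3 / 2) + (√cH + 1 / 40 * cK) ≤ cS by
        simp only [cS]
        have : 0 ≤ cA ^ 2 * cB := by positivity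
        have : 0 ≤ cB * cK := by positivity
        linarith) h1
      simp only [nsum] at *
      linarith
    · have := empty (fun i => ∑ j ∈ J.band, v i j ^ 2) c hc
      simp only [nsum] at this
      rw [this]
      have := cK_nonneg
      unfold cS; positivity
  · -- covariance
    have hθ2 : ∀ j ∉ J.hi, θ j = 0 := fun j hj => hθ' j (not_lt.1 fun h => hj (J.mem_hi.2 h))
    have hS : 0 ≤ ∑ j, J.U j * θ j ^ 2 :=
      sum_nonneg fun j _ => mul_nonneg (J.U_pos j).le (sq_nonneg _)
    have h := outb (fun i => (∑ j, θ j * v i j) ^ 2) ((∑ j, J.q j ^ 4 * θ j ^ 2) / 2)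
      ((cA / (2 * a8) + 2 * √cN) * ∑ j, J.U j * θ j ^ 2)
      ((√cH + 1) * ∑ j, J.U j * θ j ^ 2) (by positivity)
      (fun h hh => hp.half_cov hA hG hh θ hθ2) (fun q a b => (hx q a b).2.2.1 θ hθ2) c hc
    have hk : 2 * (cA / (2 * a8) + 2 * √cN) + (√cH + 1) ≤ cA := by
      have := mul_le_mul_of_nonneg_left a8_inv_le hA
      rw [mul_one_div] at this
      have e : cA / (2 * a8) = cA / a8 / 2 := by rw [div_div, mul_comm]
      simp only [cA] at *
      rw [e]
      linarith
    have := mul_le_mul_of_nonneg_right hk hS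
    simp only [nsum] at h
    rw [mul_div_cancel₀ _ two_ne_zero] at h
    linarith
  · -- corrected coordinates
    rcases Nat.eq_zero_or_pos c with rfl | hc0
    · simp [psum_zero, hH]
    rcases lt_or_ge c H with hc | hc
    · refine le_trans (le_of_eq (sum_congr rfl fun j _ => ?_)) (hx c hc0 hc).1
      simp only [pos']
      rw [psum_pos' hidx ε hε _ hc0, hmeet c hc0 hc]
    · simp [psum_top pos' _ hpos' hc, hsum, hH]
  · -- coordinates leaving correction
    have hcS : cH * (J.out.card : ℝ) ≤ cS * J.out.card := by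
      refine mul_le_mul_of_nonneg_right ?_ (Nat.cast_nonneg _)
      simp only [cS]
      have := cK_nonneg
      have : 0 ≤ √cH := Real.sqrt_nonneg _
      have : 0 ≤ cA ^ 2 * cB := by positivity
      have : 0 ≤ cB * cK := by positivity
      linarith
    have h0 : (0 : ℝ) ≤ cS * J.out.card := le_trans (mul_nonneg hH (Nat.cast_nonneg _)) hcS
    rcases Nat.eq_zero_or_pos c with rfl | hc0
    · simpa [psum_zero] using h0
    rcases lt_or_ge c H with hc | hc
    · refine le_trans (le_of_eq (sum_congr rfl fun j _ => ?_)) ((hx c hc0 hc).2.1.trans hcS)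
      simp only [pos']
      rw [psum_pos' hidx ε hε _ hc0, hmeet c hc0 hc]
    · simpa [psum_top pos' _ hpos' hc, hsum] using h0
  · intro c
    have hK : (0 : ℝ) ≤ (2 * cH + 128 * cA ^ 2 * cB) * J.P ^ 8 := by positivity
    have := bd2 J.gr (fun _ => 1) v (cN * J.P ^ 8) _ (fun _ _ => zero_le_one) (by positivity) hK
      (fun h => by simp only [one_mul]; exact hp.g_gr h)
      (fun q a b => by simp only [one_mul]; exact (hx q a b).2.2.2.2.2.1) c
    simp only [one_mul] at this
    refine this.trans ?_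
    rw [← mul_assoc, ← add_mul]
    refine mul_le_mul_of_nonneg_right ?_ (by positivity)
    simp only [cS]
    have := cK_nonneg
    have : 0 ≤ √cH := Real.sqrt_nonneg _
    have : 0 ≤ cB * cK := by positivity
    linarith
  · intro c
    have := cK_nonneg
    have hbp : (0 : ℝ) ≤ J.band.card + J.P ^ 8 :=
      add_nonneg (Nat.cast_nonneg _) (pow_nonneg hP.le 8)
    have hK : (0 : ℝ) ≤ (2 * cH + 48 * cB * cK) * (J.band.card + J.P ^ 8) :=
      mul_nonneg (by positivity) hbp
    have := bd2 J.band (fun _ => 1) v (cN * (J.band.card + J.P ^ 8)) _ (fun _ _ => zero_le_one)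
      (mul_nonneg hN hbp) hK (fun h => by simp only [one_mul]; exact hp.g_band h)
      (fun q a b => by simp only [one_mul]; exact (hx q a b).2.2.2.2.2.2.1) c
    simp only [one_mul] at this
    refine this.trans ?_
    rw [← mul_assoc, ← add_mul]
    refine mul_le_mul_of_nonneg_right ?_ hbp
    simp only [cS]
    have : 0 ≤ √cH := Real.sqrt_nonneg _
    have : 0 ≤ cA ^ 2 * cB := by positivity
    linarith
  · intro c
    have hK : (0 : ℝ) ≤ (4 * cH + 96 * cB) * (J.P ^ 2 * E) := by positivity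
    have := bd2 J.low J.ω w' (cN * E) _ (fun j _ => J.ω_nonneg j) (by positivity) hK
      (fun h => hp.g_low h) (fun q a b => (hx q a b).2.2.2.2.2.2.2) c
    refine this.trans ?_
    have h1 := mul_le_mul_of_nonneg_left (one_le_pow₀ (n := 2) J.P_one_le)
      (show 0 ≤ 2 * (cN * E) by positivity)
    have h2 : 2 * cN + (4 * cH + 96 * cB) ≤ cS := by
      simp only [cS]
      have := cK_nonneg
      have : 0 ≤ √cH := Real.sqrt_nonneg _
      have : 0 ≤ cA ^ 2 * cB := by positivity
      have : 0 ≤ cB * cK := by positivity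
      linarith
    have h3 := mul_le_mul_of_nonneg_right h2 (show 0 ≤ J.P ^ 2 * E by positivity)
    linarith

end Vale.Agent.P262
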